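import Vale.Agent.P098.Reg.VarBase
import Vale.Agent.P098.Cone.Competitor

/-!
# P098: stationarity of a Lipschitz minimiser under deformations of the domain
-/

namespace Vale.Agent.P098.Reg

open MeasureTheory Set Filter Topology Finset
open Vale.Agent.P098.Cone
open scoped NNReal

noncomputable section

variable {d : ℕ} {u : (Fin d → ℝ) → ℝ} {L : ℝ≥0} {X : Fin d → (Fin d → ℝ) → ℝ}

/-- The energy density of a deformed minimiser at `z`, the image of `y`, minus the original one. -/
def innerQ (u : (Fin d → ℝ) → ℝ) (X : Fin d → (Fin d → ℝ) → ℝ) (t : ℝ) (z y : Fin d → ℝ) : ℝ :=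
  ((∑ j, (pd u j z + t * ∑ i, pd u i z * derivMat X y i j) ^ 2) + (pos u).indicator (fun _ => 1) z)
    / detPlus t (derivMat X y) - dens u z

theorem continuous_derivMat (hX : ∀ i, ContDiff ℝ 1 (X i)) (i j : Fin d) :
    Continuous fun y => derivMat X y i j :=
  ((hX i).continuous_fderiv one_ne_zero).clm_apply continuous_const

theorem continuous_detPlus_derivMat (hX : ∀ i, ContDiff ℝ 1 (X i)) (t : ℝ) :
    Continuous fun y => detPlus t (derivMat X y) := by
  have h : Continuous fun y => Matrix.of (derivMat X y) :=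
    continuous_pi fun i => continuous_pi fun j => continuous_derivMat hX i j
  unfold detPlus
  exact (continuous_const.add (h.const_smul t)).matrix_det

theorem tendsto_det_slope (hX : ∀ i, ContDiff ℝ 1 (X i)) {Ψ : ℝ → Fin d → ℝ} {z : Fin d → ℝ}
    (hΨ : Tendsto Ψ (𝓝[≠] 0) (𝓝 z)) :
    Tendsto (fun t => (detPlus t (derivMat X (Ψ t)) - 1) / t) (𝓝[≠] 0) (𝓝 (dvg X z)) := by
  set F : (Fin d → Fin d → ℝ) → ℝ := fun A => Matrix.det (Matrix.of A)
  set I₀ : Fin d → Fin d → ℝ := fun i j => if i = j then 1 else 0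
  have hF : ContDiff ℝ 1 F := by
    simp only [F, Matrix.det_apply', Matrix.of_apply]
    fun_prop
  have hval : ∀ t M, detPlus t M = F (I₀ + t • M) := fun t M => by
    simp only [detPlus, F]
    congr 1
  have hI : F I₀ = 1 := by
    have := hval 0 0
    rwa [detPlus_zero, zero_smul, add_zero, eq_comm] at this
  have hlim : ∀ {M : ℝ → Fin d → Fin d → ℝ} {N : Fin d → Fin d → ℝ}, Tendsto M (𝓝[≠] 0) (𝓝 N) →
      Tendsto (fun t => (detPlus t (M t) - 1) / t) (𝓝[≠] 0) (𝓝 (fderiv ℝ F I₀ N)) := by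
    intro M N hM
    have h0 : Tendsto (fun t : ℝ => t) (𝓝[≠] 0) (𝓝 0) := tendsto_id.mono_left nhdsWithin_le_nhds
    have hd : Tendsto (fun t => t • M t) (𝓝[≠] 0) (𝓝 0) := by simpa using h0.smul hM
    have hc : Tendsto (fun t => t⁻¹ • (t • M t)) (𝓝[≠] 0) (𝓝 N) := hM.congr' (by
      filter_upwards [self_mem_nhdsWithin] with t (ht : t ≠ 0)
      rw [smul_smul, inv_mul_cancel₀ ht, one_smul])
    refine ((hF.differentiable one_ne_zero I₀).hasFDerivAt.hasFDerivWithinAt.lim hd
      (.of_forall fun t => Set.mem_univ _) hc).congr fun t => ?_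
    rw [hval, hI, smul_eq_mul, inv_mul_eq_div]
  have hM : Tendsto (fun t => derivMat X (Ψ t)) (𝓝[≠] 0) (𝓝 (derivMat X z)) :=
    ((continuous_pi fun i => continuous_pi fun j => continuous_derivMat hX i j).tendsto z).comp hΨ
  have e : fderiv ℝ F I₀ (derivMat X z) = dvg X z :=
    tendsto_nhds_unique (hlim tendsto_const_nhds) (tendsto_detPlus (derivMat X z))
  rw [← e]
  exact hlim hM

/-- The competitor of a deformation. -/
theorem inner_step (hu : LipMin L u) (hX : ∀ i, ContDiff ℝ 1 (X i)) {K : Set (Fin d → ℝ)}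
    (hK : IsCompact K) (hXK : ∀ i, ∀ y ∉ K, X i y = 0) {R : ℝ} (hR : 0 < R) (hKR : K ⊆ Cone.eball 0 R)
    {LX : ℝ≥0} (hLX : LipschitzWith LX fun y i => X i y) {t : ℝ} (ht : |t| * LX < 1)
    (hdet : ∀ y, 0 < detPlus t (derivMat X y)) :
    ∃ Ψ : (Fin d → ℝ) → Fin d → ℝ, Continuous Ψ ∧ (∀ z, Ψ z + t • (fun i => X i (Ψ z)) = z) ∧
      0 ≤ ∫ z in Cone.eball 0 R, innerQ u X t z (Ψ z) := by
  set Xv : (Fin d → ℝ) → Fin d → ℝ := fun y i => X i y
  set Φ : (Fin d → ℝ) → Fin d → ℝ := fun y => y + t • Xv y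
  set k : ℝ := |t| * LX
  have hk0 : 0 ≤ k := mul_nonneg (abs_nonneg t) LX.2
  have hanti : ∀ y y', (1 - k) * ‖y - y'‖ ≤ ‖Φ y - Φ y'‖ := fun y y' => by
    have h1 : ‖t • (Xv y - Xv y')‖ ≤ k * ‖y - y'‖ := by
      rw [norm_smul, Real.norm_eq_abs, mul_assoc, ← dist_eq_norm, ← dist_eq_norm]
      exact mul_le_mul_of_nonneg_left (hLX.dist_le_mul y y') (abs_nonneg t)
    have h2 : Φ y - Φ y' = (y - y') + t • (Xv y - Xv y') := by simp only [Φ, smul_sub]; abel
    have h3 : ‖y - y'‖ ≤ ‖Φ y - Φ y'‖ + ‖t • (Xv y - Xv y')‖ := by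
      rw [h2]; exact norm_le_add_norm_add _ _
    linarith
  have hinj : Function.Injective Φ := fun y y' e => by
    have := hanti y y'
    rw [e, sub_self, norm_zero] at this
    have h0 : ‖y - y'‖ ≤ 0 := nonpos_of_mul_nonpos_right this (by linarith)
    exact sub_eq_zero.1 (norm_le_zero_iff.1 h0)
  have hsurj : Function.Surjective Φ := fun z => by
    have hc : ContractingWith k.toNNReal fun y => z - t • Xv y := by
      refine ⟨Real.toNNReal_lt_one.2 ht, LipschitzWith.of_dist_le_mul fun a b => ?_⟩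
      rw [dist_sub_left, dist_smul₀, Real.norm_eq_abs, Real.coe_toNNReal _ hk0, mul_assoc]
      exact mul_le_mul_of_nonneg_left (hLX.dist_le_mul a b) (abs_nonneg t)
    refine ⟨hc.fixedPoint, ?_⟩
    have := hc.fixedPoint_isFixedPt
    simp only [Function.IsFixedPt] at this
    simp only [Φ]
    exact (eq_sub_iff_add_eq.1 this.symm)
  set Ψ := Function.invFun Φ
  have hΦΨ : ∀ z, Φ (Ψ z) = z := Function.rightInverse_invFun hsurj
  have hΨΦ : ∀ y, Ψ (Φ y) = y := Function.leftInverse_invFun hinj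
  have hΨL : LipschitzWith (1 - k)⁻¹.toNNReal Ψ := LipschitzWith.of_dist_le_mul fun a b => by
    rw [dist_eq_norm, dist_eq_norm, Real.coe_toNNReal _ (inv_nonneg.2 (by linarith)),
      inv_mul_eq_div, le_div_iff₀ (by linarith), mul_comm]
    simpa [hΦΨ] using hanti (Ψ a) (Ψ b)
  have hfix : ∀ y ∉ K, Φ y = y := fun y hy => by
    simp only [Φ, Xv]
    rw [show (fun i => X i y) = 0 from funext fun i => hXK i y hy, smul_zero, add_zero]
  have hball : ∀ y, Φ y ∈ Cone.eball 0 R ↔ y ∈ Cone.eball 0 R := fun y => by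
    by_cases hy : y ∈ K
    · refine iff_of_true ?_ (hKR hy)
      by_contra hn
      have hn' : Φ y ∉ K := fun hh => hn (hKR hh)
      exact hn' ((hinj (hfix _ hn')).symm ▸ hy)
    · rw [hfix y hy]
  refine ⟨Ψ, hΨL.continuous, hΦΨ, ?_⟩
  set v : (Fin d → ℝ) → ℝ := fun y => u (Φ y)
  have hΦL : LipschitzWith (1 + ‖t‖₊ * LX) Φ := LipschitzWith.id.add ((lipschitzWith_smul t).comp hLX)
  have hvL : LipschitzWith (L * (1 + ‖t‖₊ * LX)) v := hu.lipschitz.comp hΦL
  have hvK : ∀ y ∉ K, v y = u y := fun y hy => by simp only [v, hfix y hy]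
  have hcomp := hu.minimizer 0 R hR v ⟨_, hvL⟩ (fun y => hu.nonneg _) ⟨K, hK, hKR, hvK⟩
  set T : (Fin d → ℝ) → ((Fin d → ℝ) →L[ℝ] (Fin d → ℝ)) := fun y =>
    ContinuousLinearMap.id ℝ _ + t • fderiv ℝ Xv y
  have hXd : ∀ y, DifferentiableAt ℝ Xv y := fun y =>
    differentiableAt_pi.2 fun i => (hX i).differentiable one_ne_zero y
  have hΦd : ∀ y, HasFDerivAt Φ (T y) y := fun y =>
    (hasFDerivAt_id y).add ((hXd y).hasFDerivAt.const_smul t)
  have hentry : ∀ y i j, T y (Pi.single j 1) i = (if i = j then 1 else 0) + t * derivMat X y i j := by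
    intro y i j
    have e : fderiv ℝ Xv y (Pi.single j 1) i = pd (X i) j y := by
      rw [fderiv_pi (fun i => (hX i).differentiable one_ne_zero y)]
      rfl
    simp [T, Pi.single_apply, e, derivMat]
  have hTdet : ∀ y, (T y).det = detPlus t (derivMat X y) := fun y => by
    rw [ContinuousLinearMap.det, ← LinearMap.det_toMatrix', detPlus]
    congr 1
    ext i j
    rw [LinearMap.toMatrix'_apply]
    have := hentry y i j
    simpa [Matrix.one_apply, Pi.single_apply] using this
  have hpd : ∀ y j, pd v j y = pd u j (Φ y) + t * ∑ i, pd u i (Φ y) * derivMat X y i j := by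
    intro y j
    set Te := (T y).toContinuousLinearEquivOfDetNeZero (by rw [hTdet]; exact (hdet y).ne')
    have hΨd : HasFDerivAt Ψ (Te.symm : (Fin d → ℝ) →L[ℝ] (Fin d → ℝ)) (Φ y) :=
      HasFDerivAt.of_local_left_inverse hΨL.continuous.continuousAt
        (show HasFDerivAt Φ (Te : (Fin d → ℝ) →L[ℝ] (Fin d → ℝ)) (Ψ (Φ y)) by rw [hΨΦ]; exact hΦd y)
        (.of_forall hΦΨ)
    have h1 : fderiv ℝ v y = (fderiv ℝ u (Φ y)).comp (T y) := by
      by_cases hd : DifferentiableAt ℝ u (Φ y)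
      · exact (hd.hasFDerivAt.comp y (hΦd y)).fderiv
      · have hn : ¬ DifferentiableAt ℝ v y := fun hv => hd (by
          have hc : DifferentiableAt ℝ (v ∘ Ψ) (Φ y) :=
            DifferentiableAt.comp (Φ y) (by rw [hΨΦ]; exact hv) hΨd.differentiableAt
          have e : v ∘ Ψ = u := funext fun z => by simp [v, hΦΨ]
          rwa [e] at hc)
        rw [fderiv_zero_of_not_differentiableAt hn, fderiv_zero_of_not_differentiableAt hd,
          ContinuousLinearMap.zero_comp]
    rw [pd, h1, ContinuousLinearMap.comp_apply, fderiv_eq_sum]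
    simp only [hentry, add_mul, ite_mul, one_mul, zero_mul, sum_add_distrib, sum_ite_eq', Finset.mem_univ,
      if_true, mul_sum]
    congr 1
    exact sum_congr rfl fun i _ => by ring
  set f : (Fin d → ℝ) → ℝ := fun z => innerQ u X t z (Ψ z) + dens u z
  have hBm := measurableSet_eball (0 : Fin d → ℝ) R
  have himage : Φ '' Cone.eball 0 R = Cone.eball 0 R := by
    ext z
    constructor
    · rintro ⟨y, hy, rfl⟩; exact (hball y).2 hy
    · intro hz; exact ⟨Ψ z, (hball _).1 (by rwa [hΦΨ]), hΦΨ z⟩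
  have hderiv : ∀ y ∈ Cone.eball 0 R, HasFDerivWithinAt Φ (T y) (Cone.eball 0 R) y :=
    fun y _ => (hΦd y).hasFDerivWithinAt
  have habs : ∀ y, |(T y).det| • f (Φ y) = dens v y := fun y => by
    rw [hTdet, abs_of_pos (hdet y), smul_eq_mul]
    simp only [f, innerQ, hΨΦ, sub_add_cancel]
    rw [mul_div_cancel₀ _ (hdet y).ne', dens]
    have e : (pos v).indicator (fun _ => (1 : ℝ)) y = (pos u).indicator (fun _ => 1) (Φ y) := rfl
    rw [e]
    simp only [dot, grad, hpd, sq]
  have hint := integral_image_eq_integral_abs_det_fderiv_smul volume hBm hderiv hinj.injOn f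
  have hfi : IntegrableOn f (Cone.eball 0 R) := by
    have := (integrableOn_image_iff_integrableOn_abs_det_fderiv_smul volume hBm hderiv hinj.injOn f).2
      (by simpa only [habs] using integrableOn_dens hvL (isBounded_eball R))
    rwa [himage] at this
  simp only [habs, himage] at hint
  have e : (fun z => innerQ u X t z (Ψ z)) = fun z => f z - dens u z := funext fun z => by simp [f]
  rw [e, integral_sub hfi (integrableOn_dens hu.lipschitz (isBounded_eball R)), hint]
  rw [energy_eq, energy_eq] at hcomp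
  linarith

theorem tendsto_innerQ (hu : LipMin L u) (hX : ∀ i, ContDiff ℝ 1 (X i)) {Ψ : ℝ → Fin d → ℝ}
    {z : Fin d → ℝ} (hΨ : Tendsto Ψ (𝓝[≠] 0) (𝓝 z)) :
    Tendsto (fun t => innerQ u X t z (Ψ t) / t) (𝓝[≠] 0) (𝓝 (-(pos u).indicator (innerInt u X) z)) := by
  by_cases hz : 0 < u z
  swap
  · have h0 : ∀ i, pd u i z = 0 := pd_eq_zero_of_nonpos hu.nonneg (not_lt.1 hz)
    simp [innerQ, h0, indicator_of_notMem (show z ∉ pos u from hz),
      dens_of_nonpos hu.nonneg (not_lt.1 hz)]
  set A := dot (grad u z) (grad u z) + 1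
  set w : ℝ → Fin d → ℝ := fun t j => ∑ i, pd u i z * derivMat X (Ψ t) i j
  have hw : ∀ j, Tendsto (fun t => w t j) (𝓝[≠] 0) (𝓝 (∑ i, pd u i z * derivMat X z i j)) := fun j =>
    tendsto_finsetSum _ fun i _ => (((continuous_derivMat hX i j).tendsto z).comp hΨ).const_mul _
  have h0 : Tendsto (fun t : ℝ => t) (𝓝[≠] 0) (𝓝 0) := tendsto_id.mono_left nhdsWithin_le_nhds
  have hD1 : Tendsto (fun t => detPlus t (derivMat X (Ψ t))) (𝓝[≠] 0) (𝓝 1) := by
    have := ((tendsto_det_slope hX hΨ).mul h0).add_const 1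
    rw [mul_zero, zero_add] at this
    refine this.congr' ?_
    filter_upwards [self_mem_nhdsWithin] with t (ht : t ≠ 0)
    rw [div_mul_cancel₀ _ ht, sub_add_cancel]
  have h := ((tendsto_finsetSum (Finset.univ : Finset (Fin d)) fun j _ =>
      ((hw j).const_mul (2 * pd u j z)).add (h0.mul ((hw j).mul (hw j)))).sub
        ((tendsto_det_slope hX hΨ).const_mul A)).div hD1 one_ne_zero
  have e : ((∑ j, (2 * pd u j z * (∑ i, pd u i z * derivMat X z i j) +
      0 * ((∑ i, pd u i z * derivMat X z i j) * (∑ i, pd u i z * derivMat X z i j)))) - A * dvg X z) / 1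
      = -(pos u).indicator (innerInt u X) z := by
    rw [div_one, indicator_of_mem (show z ∈ pos u from hz), innerInt]
    simp only [zero_mul, add_zero, neg_sub]
    simp only [A, derivMat, mul_sum]
    congr 1
    rw [sum_comm]
    exact sum_congr rfl fun i _ => sum_congr rfl fun j _ => by ring
  rw [e] at h
  refine h.congr' ?_
  filter_upwards [self_mem_nhdsWithin, hD1.eventually (lt_mem_nhds (show (0 : ℝ) < 1 from one_pos))]
    with t (ht : t ≠ 0) hD
  simp only [innerQ, dens_of_pos hz, indicator_of_mem (show z ∈ pos u from hz), Pi.div_apply, A]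
  have e2 : ∑ j, (pd u j z + t * ∑ i, pd u i z * derivMat X (Ψ t) i j) ^ 2
      = dot (grad u z) (grad u z) + t * ∑ j, (2 * pd u j z * w t j + t * (w t j * w t j)) := by
    simp only [dot, grad, mul_sum, ← sum_add_distrib]
    refine sum_congr rfl fun j _ => ?_
    simp only [w, ← mul_sum]
    ring
  rw [e2]
  field_simp
  ring_nf

theorem abs_innerQ_le (hu : LipMin L u) {B : ℝ}
    (hB : ∀ y i j, |derivMat X y i j| ≤ B) :
    ∃ C δ : ℝ, 0 ≤ C ∧ 0 < δ ∧ ∀ t z y, |t| ≤ δ → 0 < detPlus t (derivMat X y) ∧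
      |innerQ u X t z y| ≤ C * |t| := by
  obtain ⟨C, δ, hC, hδ, hbd⟩ := exists_detPlus_bound (d := d) (max B 0) (le_max_right _ _)
  set P : ℝ := d * (L * max B 0)
  set Q : ℝ := d * (2 * L * P + P * P) + (d * (L * L) + 1) * C
  refine ⟨2 * Q, min δ (min 1 (1 / (2 * (C + 1)))), by positivity, by positivity, fun t z y ht => ?_⟩
  obtain ⟨hD, hD1, -⟩ := hbd t (derivMat X y) (ht.trans (min_le_left _ _))
    fun i j => (hB y i j).trans (le_max_left _ _)
  refine ⟨hD, ?_⟩
  have ht1 : |t| ≤ 1 := ht.trans ((min_le_right _ _).trans (min_le_left _ _))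
  have ht2 : |t| * (2 * (C + 1)) ≤ 1 :=
    (le_div_iff₀ (by positivity)).1 (ht.trans ((min_le_right _ _).trans (min_le_right _ _)))
  set D := detPlus t (derivMat X y)
  have hD2 : 1 / 2 ≤ D := by nlinarith [abs_le.1 hD1, abs_nonneg t]
  set N := (∑ j, (pd u j z + t * ∑ i, pd u i z * derivMat X y i j) ^ 2) +
    (pos u).indicator (fun _ => (1 : ℝ)) z
  have hN : |N - dens u z| ≤ |t| * (d * (2 * L * P + P * P)) := by
    simp only [N, dens, dot, grad, add_sub_add_right_eq_sub, ← sum_sub_distrib]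
    refine (abs_sum_le_sum_abs _ _).trans ((sum_le_sum fun j _ => ?_).trans_eq
      (by rw [sum_const, card_univ, Fintype.card_fin, nsmul_eq_mul]; ring :
        ∑ _j : Fin d, |t| * (2 * L * P + P * P) = _))
    set w := ∑ i, pd u i z * derivMat X y i j
    have hw : |w| ≤ P := (abs_sum_le_sum_abs _ _).trans ((sum_le_sum fun i _ => (abs_mul _ _).le.trans
      (mul_le_mul (abs_pd_le hu.lipschitz i z) ((hB y i j).trans (le_max_left _ _)) (abs_nonneg _) L.2)
      ).trans_eq (by rw [sum_const, card_univ, Fintype.card_fin, nsmul_eq_mul]))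
    rw [show (pd u j z + t * w) ^ 2 - pd u j z * pd u j z = t * (2 * pd u j z * w + t * (w * w)) by ring,
      abs_mul]
    refine mul_le_mul_of_nonneg_left ((abs_add_le _ _).trans (add_le_add ?_ ?_)) (abs_nonneg _)
    · rw [abs_mul, abs_mul, abs_two]
      exact mul_le_mul (mul_le_mul_of_nonneg_left (abs_pd_le hu.lipschitz j z) two_pos.le) hw
        (abs_nonneg _) (by positivity)
    · rw [abs_mul, abs_mul]
      exact (mul_le_of_le_one_left (by positivity) ht1).trans
        (mul_le_mul hw hw (abs_nonneg _) ((abs_nonneg _).trans hw))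
  have e : innerQ u X t z y = (N - dens u z + dens u z * (1 - D)) / D := by
    show N / D - dens u z = _
    field_simp
    ring
  rw [e, abs_div, abs_of_pos hD, div_le_iff₀ hD]
  have hA : |dens u z * (1 - D)| ≤ (d * (L * L) + 1) * (C * |t|) := by
    rw [abs_mul, abs_of_nonneg (dens_nonneg u z), abs_sub_comm]
    exact mul_le_mul (dens_le hu.lipschitz z) hD1 (abs_nonneg _) (by positivity)
  refine (abs_add_le _ _).trans ?_
  have hQ : 0 ≤ Q * |t| := by positivity
  calc |N - dens u z| + |dens u z * (1 - D)| ≤ Q * |t| := by simp only [Q]; linarith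
    _ ≤ 2 * Q * |t| * D := by nlinarith

/-- Stationarity under deformations of the domain. -/
theorem stationary : StationarySpec := by
  intro d L u X hu hX hXc
  set K := ⋃ i, tsupport (X i)
  have hK : IsCompact K := isCompact_iUnion hXc
  have hXK : ∀ i, ∀ y ∉ K, X i y = 0 := fun i y hy =>
    image_eq_zero_of_notMem_tsupport fun h => hy (Set.mem_iUnion.2 ⟨i, h⟩)
  have hXvc : HasCompactSupport fun y i => X i y :=
    HasCompactSupport.intro hK fun y hy => funext fun i => hXK i y hy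
  obtain ⟨LX, hLX⟩ := (contDiff_pi.2 hX).lipschitzWith_of_hasCompactSupport hXvc one_ne_zero
  obtain ⟨R, hR, hKR⟩ := exists_eball hK
  have hLXi : ∀ i, LipschitzWith LX (X i) := fun i => LipschitzWith.of_dist_le_mul fun a b =>
    (dist_le_pi_dist (fun i => X i a) (fun i => X i b) i).trans (hLX.dist_le_mul a b)
  obtain ⟨C, δ, hC, hδ, hbd⟩ := abs_innerQ_le hu (fun y i j => abs_pd_le (hLXi i) j y)
  obtain ⟨B, hB⟩ := (contDiff_pi.2 hX).continuous.bounded_above_of_compact_support hXvc
  have hgood : ∀ᶠ t in 𝓝[≠] (0 : ℝ), |t| ≤ δ ∧ |t| * LX < 1 :=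
    (((continuous_abs.tendsto' (0 : ℝ) 0 abs_zero).eventually (ge_mem_nhds hδ)).and
      (((continuous_abs.mul continuous_const).tendsto' (0 : ℝ) 0 (by simp)).eventually
        (gt_mem_nhds one_pos))).filter_mono nhdsWithin_le_nhds
  have hsel : ∀ t : ℝ, ∃ Ψ : (Fin d → ℝ) → Fin d → ℝ, Continuous Ψ ∧ (|t| ≤ δ ∧ |t| * LX < 1 →
      (∀ z, Ψ z + t • (fun i => X i (Ψ z)) = z) ∧ 0 ≤ ∫ z in Cone.eball 0 R, innerQ u X t z (Ψ z)) :=
    fun t => by
      by_cases h : |t| ≤ δ ∧ |t| * LX < 1
      · obtain ⟨Ψ, h1, h2, h3⟩ := inner_step hu hX hK hXK hR hKR hLX h.2 fun y => (hbd t 0 y h.1).1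
        exact ⟨Ψ, h1, fun _ => ⟨h2, h3⟩⟩
      · exact ⟨id, continuous_id, fun h' => absurd h' h⟩
  choose Ψ hΨc hΨ using hsel
  have hlim : ∀ z, Tendsto (fun t => Ψ t z) (𝓝[≠] 0) (𝓝 z) := fun z => by
    refine tendsto_iff_norm_sub_tendsto_zero.2 (squeeze_zero' (.of_forall fun t => norm_nonneg _) ?_
      (((continuous_abs.mul continuous_const).tendsto' (0 : ℝ) 0 (by simp)).mono_left
        nhdsWithin_le_nhds : Tendsto (fun t => |t| * B) _ _))
    filter_upwards [hgood] with t ht
    have h := (hΨ t ht).1 z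
    conv_lhs => arg 1; arg 2; rw [← h]
    rw [sub_add_cancel_left, norm_neg, norm_smul, Real.norm_eq_abs]
    exact mul_le_mul_of_nonneg_left (hB _) (abs_nonneg t)
  have hfin : IsFiniteMeasure (volume.restrict (Cone.eball (0 : Fin d → ℝ) R)) :=
    isFiniteMeasure_restrict.2 (isBounded_eball R).measure_lt_top.ne
  have hmeas : ∀ t, AEStronglyMeasurable (fun z => innerQ u X t z (Ψ t z) / t)
      (volume.restrict (Cone.eball 0 R)) := fun t => by
    refine Measurable.aestronglyMeasurable (Measurable.div_const ?_ t)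
    refine (Measurable.div ?_ ((continuous_detPlus_derivMat hX t).comp (hΨc t)).measurable).sub
      (measurable_dens hu.lipschitz.continuous)
    refine (Finset.measurable_sum _ fun j _ => Measurable.pow_const ?_ 2).add
      (measurable_const.indicator (measurableSet_pos hu.lipschitz.continuous))
    exact (measurable_pd u j).add (measurable_const.mul (Finset.measurable_sum _ fun i _ =>
      (measurable_pd u i).mul ((continuous_derivMat hX i j).comp (hΨc t)).measurable))
  have hmain : Tendsto (fun t => ∫ z in Cone.eball 0 R, innerQ u X t z (Ψ t z) / t) (𝓝[≠] 0)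
      (𝓝 (∫ z in Cone.eball 0 R, -(pos u).indicator (innerInt u X) z)) := by
    refine tendsto_integral_filter_of_dominated_convergence (fun _ => C) (.of_forall hmeas) ?_
      (integrable_const C) (.of_forall fun z => tendsto_innerQ hu hX (hlim z))
    filter_upwards [hgood, self_mem_nhdsWithin] with t ht (ht0 : t ≠ 0)
    refine .of_forall fun z => ?_
    rw [Real.norm_eq_abs, abs_div, div_le_iff₀ (abs_pos.2 ht0)]
    exact (hbd t z _ ht.1).2
  have hsign : ∀ᶠ t in 𝓝[≠] (0 : ℝ), 0 ≤ t * ∫ z in Cone.eball 0 R, innerQ u X t z (Ψ t z) / t := by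
    filter_upwards [hgood, self_mem_nhdsWithin] with t ht (ht0 : t ≠ 0)
    rw [integral_div, mul_div_cancel₀ _ ht0]
    exact (hΨ t ht).2
  set I := ∫ z in Cone.eball 0 R, -(pos u).indicator (innerInt u X) z
  have hright : 0 ≤ I := by
    refine ge_of_tendsto (hmain.mono_left (nhdsWithin_mono (0 : ℝ) (show Set.Ioi (0 : ℝ) ⊆ {0}ᶜ from fun t ht => ne_of_gt ht))) ?_
    filter_upwards [hsign.filter_mono (nhdsWithin_mono (0 : ℝ) (show Set.Ioi (0 : ℝ) ⊆ {0}ᶜ from fun t ht => ne_of_gt ht)),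
      self_mem_nhdsWithin] with t h (ht : 0 < t)
    exact (mul_nonneg_iff_of_pos_left ht).1 h
  have hleft : I ≤ 0 := by
    refine le_of_tendsto (hmain.mono_left (nhdsWithin_mono (0 : ℝ) (show Set.Iio (0 : ℝ) ⊆ {0}ᶜ from fun t ht => ne_of_lt ht))) ?_
    filter_upwards [hsign.filter_mono (nhdsWithin_mono (0 : ℝ) (show Set.Iio (0 : ℝ) ⊆ {0}ᶜ from fun t ht => ne_of_lt ht)),
      self_mem_nhdsWithin] with t h (ht : t < 0)
    nlinarith
  have h0 : ∀ z ∉ Cone.eball (0 : Fin d → ℝ) R, -(pos u).indicator (innerInt u X) z = 0 := fun z hz => by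
    have hz' : ∀ i j, pd (X i) j z = 0 := fun i j =>
      pd_eq_zero_of_notMem (fun h => hz (hKR (Set.mem_iUnion.2 ⟨i, h⟩))) j
    rw [neg_eq_zero]
    refine indicator_apply_eq_zero.2 fun _ => ?_
    simp [innerInt, dvg, hz']
  have hI : I = -∫ x in pos u, innerInt u X x := by
    show ∫ z in Cone.eball 0 R, _ = _
    rw [setIntegral_eq_integral_of_forall_compl_eq_zero h0, integral_neg,
      integral_indicator (measurableSet_pos hu.lipschitz.continuous)]
  linarith

end

end Vale.Agent.P098.Reg
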