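import Vale.Agent.P098.Reg.VarScale
import Vale.Agent.P098.Reg.VarStat

/-!
# P098: one-homogeneous minimisers on the line
-/

namespace Vale.Agent.P098.Reg

open MeasureTheory Set Filter Topology Finset
open Vale.Agent.P098.Cone
open scoped NNReal

noncomputable section

variable {u : (Fin 1 → ℝ) → ℝ} {L : ℝ≥0}

theorem eq_smul_one (x : Fin 1 → ℝ) : x = x 0 • (1 : Fin 1 → ℝ) := funext fun i => by
  rw [Fin.eq_zero i]
  simp

theorem homog_zero {d : ℕ} {u : (Fin d → ℝ) → ℝ} (hh : Homog u) : u 0 = 0 := by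
  have := hh 2 0 two_pos
  rw [smul_zero] at this
  linarith

theorem line_pos (hh : Homog u) {x : Fin 1 → ℝ} (hx : 0 ≤ x 0) : u x = x 0 * u 1 := by
  rcases hx.eq_or_lt with h | h
  · rw [← h, zero_mul, eq_smul_one x, ← h, zero_smul, homog_zero hh]
  · conv_lhs => rw [eq_smul_one x]
    exact hh _ _ h

theorem line_neg (hh : Homog u) {x : Fin 1 → ℝ} (hx : x 0 < 0) : u x = -x 0 * u (-1) := by
  conv_lhs => rw [eq_smul_one x, ← neg_smul_neg]
  exact hh _ _ (neg_pos.2 hx)

theorem pd_line (hh : Homog u) {x : Fin 1 → ℝ} (hx : 0 < x 0) (i : Fin 1) : pd u i x = u 1 := by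
  have e : u =ᶠ[𝓝 x] fun y => y 0 * u 1 := by
    filter_upwards [((continuous_apply (0 : Fin 1)).tendsto x).eventually (lt_mem_nhds hx)] with y hy
    exact line_pos hh hy.le
  rw [pd_congr e, pd_mul (differentiableAt_apply 0 x) (differentiableAt_const _), pd_const, pd_coord,
    Fin.eq_zero i]
  simp

/-- A minimiser positive on both sides of the origin is beaten by lifting it. -/
theorem not_both (hu : LipMin L u) (hh : Homog u) (ha : 0 < u 1) : u (-1) = 0 := by
  by_contra hb0
  have hb : 0 < u (-1) := lt_of_le_of_ne (hu.nonneg _) (Ne.symm hb0)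
  set a := u 1
  set b := u (-1)
  set v : (Fin 1 → ℝ) → ℝ := fun x => max (u x) 1
  set R := 1 / a + 1 / b
  have hv : LipschitzWith L v := hu.lipschitz.max_const 1
  have hK : ∀ x ∉ Metric.closedBall (0 : Fin 1 → ℝ) R, v x = u x := fun x hx => by
    have hR : R < |x 0| := by
      rw [Metric.mem_closedBall] at hx
      have h := not_le.1 hx
      rwa [dist_zero_right, eq_smul_one x, norm_smul, Real.norm_eq_abs,
        show ‖(1 : Fin 1 → ℝ)‖ = 1 from norm_one, mul_one] at h
    refine max_eq_left ?_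
    rcases le_or_gt 0 (x 0) with h | h
    · rw [line_pos hh h]
      rw [abs_of_nonneg h] at hR
      have : 1 / a ≤ x 0 := by simp only [R] at hR; linarith [one_div_pos.2 hb]
      rwa [div_le_iff₀ ha] at this
    · rw [line_neg hh h]
      rw [abs_of_neg h] at hR
      have : 1 / b ≤ -x 0 := by simp only [R] at hR; linarith [one_div_pos.2 ha]
      rwa [div_le_iff₀ hb] at this
  have hcomp := competitor 1 L u v hu ⟨L, hv⟩ (fun x => zero_le_one.trans (le_max_right _ _))
    ⟨_, isCompact_closedBall _ _, hK⟩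
  set S : Set (Fin 1 → ℝ) := {x | 0 < x 0 ∧ x 0 < 1 / a}
  have hSo : IsOpen S := (isOpen_lt continuous_const (continuous_apply 0)).inter
    (isOpen_lt (continuous_apply 0) continuous_const)
  have hSn : S.Nonempty := ⟨fun _ => 1 / (2 * a), by positivity, by
    show 1 / (2 * a) < 1 / a
    exact one_div_lt_one_div_of_lt ha (by linarith)⟩
  have hSfin : volume S < ⊤ := lt_of_le_of_lt (measure_mono fun x hx => by
    rw [Metric.mem_closedBall, dist_zero_right, eq_smul_one x, norm_smul, Real.norm_eq_abs,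
      show ‖(1 : Fin 1 → ℝ)‖ = 1 from norm_one, mul_one, abs_of_pos hx.1]
    exact le_trans hx.2.le (le_add_of_nonneg_right (one_div_nonneg.2 hb.le)))
    (measure_closedBall_lt_top (x := (0 : Fin 1 → ℝ)) (r := R))
  have hnull : ∀ᵐ x : Fin 1 → ℝ, x ≠ 0 := by
    refine measure_mono_null (t := {0}) (fun x hx => by simpa using hx) ?_
    exact measure_singleton 0
  have hpos : ∀ x : Fin 1 → ℝ, x ≠ 0 → 0 < u x := fun x hx => by
    have h0 : x 0 ≠ 0 := fun e => hx (funext fun i => by rw [Fin.eq_zero i, e]; rfl)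
    rcases lt_or_gt_of_ne h0 with h | h
    · rw [line_neg hh h]; exact mul_pos (neg_pos.2 h) hb
    · rw [line_pos hh h.le]; exact mul_pos h ha
  have hpt : ∀ᵐ x : Fin 1 → ℝ, dens v x - dens u x ≤ -S.indicator (fun _ => a ^ 2) x := by
    filter_upwards [hnull, hu.lipschitz.ae_differentiableAt, hv.ae_differentiableAt] with x hx0 hux hvx
    have hp := hpos x hx0
    rw [dens_of_pos (show 0 < v x from lt_max_of_lt_right one_pos), dens_of_pos hp]
    rcases lt_or_ge (u x) 1 with h | h
    · have e : v =ᶠ[𝓝 x] fun _ => 1 := by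
        filter_upwards [(hu.lipschitz.continuous.tendsto x).eventually (gt_mem_nhds h)] with y hy
        exact max_eq_right hy.le
      have e2 : dot (grad v x) (grad v x) = 0 := by simp [dot, grad, pd_congr e, pd_const]
      rw [e2]
      by_cases hxS : x ∈ S
      · rw [indicator_of_mem hxS]
        simp [dot, grad, pd_line hh hxS.1, sq, a]
      · rw [indicator_of_notMem hxS]
        linarith [dot_self_nonneg (grad u x)]
    · have hxS : x ∉ S := fun hxS => by
        rw [line_pos hh hxS.1.le] at h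
        exact absurd h (not_le.2 ((lt_div_iff₀ ha).1 hxS.2))
      have hv' : v x = u x := max_eq_left h
      have e : grad v x = grad u x := funext fun i =>
        (pd_eq_of_le hux hvx (.of_forall fun y => le_max_left _ _) hv'.symm i).symm
      rw [e, indicator_of_notMem hxS]
      simp
  have hi : Integrable (S.indicator fun _ : Fin 1 → ℝ => a ^ 2) :=
    (integrable_indicator_iff hSo.measurableSet).2 (integrableOn_const hSfin.ne)
  have h := hcomp.2.trans (integral_mono_ae hcomp.1 hi.neg hpt)
  simp only [Pi.neg_apply] at h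
  rw [integral_neg, integral_indicator hSo.measurableSet, setIntegral_const, smul_eq_mul] at h
  have hv0 : 0 < volume.real S := ENNReal.toReal_pos (hSo.measure_pos volume hSn).ne' hSfin.ne
  nlinarith [mul_pos hv0 (pow_pos ha 2)]

/-- The slope of a one-sided minimiser on the line is one. -/
theorem slope_one (hu : LipMin L u) (hh : Homog u) (ha : 0 < u 1) (hb : u (-1) = 0) : u 1 = 1 := by
  obtain ⟨χ, hχ, hχc, -, -, hχ1⟩ := exists_cutoff (d := 1) (isCompact_singleton (x := 0)) isOpen_univ
    (Set.subset_univ _)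
  have h1 : χ 0 = 1 := (eventually_nhdsSet_iff_forall.1 hχ1 0 rfl).self_of_nhds
  have h := stationary 1 L u (fun _ => χ) hu (fun _ => hχ.of_le (by simp)) fun _ => hχc
  have hpos : pos u = {x | 0 < x 0} := Set.ext fun x => by
    show 0 < u x ↔ 0 < x 0
    rcases lt_or_ge (x 0) 0 with h | h
    · simp [line_neg hh h, hb, not_lt.2 h.le]
    · rw [line_pos hh h]
      exact mul_pos_iff_of_pos_right ha
  have hm : MeasurableSet {x : Fin 1 → ℝ | 0 < x 0} :=
    (isOpen_lt continuous_const (continuous_apply 0)).measurableSet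
  rw [hpos, setIntegral_congr_fun hm (g := fun x => (1 - u 1 ^ 2) * pd χ 0 x) (fun x hx => by
    simp only [innerInt, dvg, dot, grad, Fin.sum_univ_one, pd_line hh hx]
    ring), integral_const_mul] at h
  set f : ℝ → ℝ := fun s => χ fun _ => s
  have hl : ContDiff ℝ 1 f := (hχ.of_le (by simp)).comp (contDiff_pi.2 fun _ => contDiff_id)
  have hd : ∀ s, deriv f s = pd χ 0 fun _ => s := fun s => by
    have h' := ((hχ.differentiable (by simp)) fun _ => s).hasFDerivAt.comp_hasDerivAt s
      (hasDerivAt_pi.2 fun _ : Fin 1 => hasDerivAt_id s)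
    rw [show f = χ ∘ fun s => fun _ : Fin 1 => id s from rfl, h'.deriv, pd]
    congr 1
    funext i
    rw [Fin.eq_zero i, Pi.single_eq_same]
  have hfc : HasCompactSupport f := by
    obtain ⟨C, hC⟩ := hχc.isBounded.exists_norm_le
    refine HasCompactSupport.intro (isCompact_closedBall (0 : ℝ) C) fun s hs => ?_
    refine image_eq_zero_of_notMem_tsupport (f := χ) (x := fun _ : Fin 1 => s) fun hmem => hs ?_
    rw [Metric.mem_closedBall, dist_zero_right]
    exact (norm_le_pi_norm (fun _ : Fin 1 => s) 0).trans (hC _ hmem)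
  have e : ∫ x in {x : Fin 1 → ℝ | 0 < x 0}, pd χ 0 x = ∫ s in Set.Ioi (0 : ℝ), deriv f s := by
    refine Eq.trans ?_ (setIntegral_congr_fun measurableSet_Ioi fun s _ => (hd s).symm)
    exact (((volume_preserving_funUnique (Fin 1) ℝ).symm _).setIntegral_preimage_emb
      (MeasurableEquiv.funUnique (Fin 1) ℝ).symm.measurableEmbedding (pd χ 0) {x | 0 < x 0}).symm
  rw [e, hfc.integral_Ioi_deriv_eq hl, show f 0 = χ 0 from rfl, h1] at h
  nlinarith

/-- The bottom of the induction. -/
theorem base : BaseSpec := by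
  intro u L hu hh h0
  have key : ∀ (w : (Fin 1 → ℝ) → ℝ) (M : ℝ≥0), LipMin M w → Homog w → 0 < w 1 →
      w = halfPlane 1 := fun w M hw hwh ha => funext fun x => by
    have hb := not_both hw hwh ha
    have h1 := slope_one hw hwh ha hb
    simp only [halfPlane, lin, Fin.sum_univ_one, Pi.one_apply, one_mul]
    rcases lt_or_ge (x 0) 0 with h | h
    · rw [line_neg hwh h, hb, mul_zero, max_eq_right h.le]
    · rw [line_pos hwh h, h1, mul_one, max_eq_left h]
  have hone : dot (1 : Fin 1 → ℝ) 1 = 1 := by simp [dot]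
  rcases (hu.nonneg (1 : Fin 1 → ℝ)).eq_or_lt with ha | ha
  swap
  · exact ⟨1, hone, key u L hu hh ha⟩
  have hb : 0 < u (-1) := by
    refine lt_of_le_of_ne (hu.nonneg _) fun e => h0 (funext fun x => ?_)
    rcases lt_or_ge (x 0) 0 with h | h
    · simp [line_neg hh h, ← e]
    · simp [line_pos hh h, ← ha]
  have hA : ∀ x y : Fin 1 → ℝ, dot (LinearEquiv.neg ℝ x) (LinearEquiv.neg ℝ y) = dot x y := fun x y => by
    simp [dot, LinearEquiv.neg_apply]
  have hw := rotate_min 1 L u (LinearEquiv.neg ℝ) hu hA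
  have h := key _ _ hw (fun r x hr => by
    simp only [LinearEquiv.neg_apply, ← smul_neg]; exact hh r _ hr)
    (by simpa [LinearEquiv.neg_apply] using hb)
  refine ⟨-1, by simp [dot], funext fun x => ?_⟩
  have h' := congrFun h (-x)
  simp only [LinearEquiv.neg_apply, neg_neg] at h'
  rw [h']
  simp [halfPlane, lin]

end

end Vale.Agent.P098.Reg
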