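import Vale.Agent.P098.Reg.Specs

/-!
# P098: elementary facts about blow-ups and the functional of Weiss at unit scale
-/

namespace Vale.Agent.P098.Reg.Blow

open MeasureTheory Set Filter Topology Metric
open Vale.Agent.P098.Cone Vale.Agent.P098.Reg
open scoped NNReal

noncomputable section

variable {d : ℕ} {L : ℝ≥0} {u v : (Fin d → ℝ) → ℝ}

theorem abs_sub_le_lip (h : LipschitzWith L v) (x y : Fin d → ℝ) : |v x - v y| ≤ L * ‖x - y‖ := by
  simpa [Real.dist_eq, dist_eq_norm] using h.dist_le_mul x y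

theorem abs_le_lip (h : LipschitzWith L v) (h0 : v 0 = 0) (y : Fin d → ℝ) : |v y| ≤ L * ‖y‖ := by
  simpa [h0] using abs_sub_le_lip h y 0

theorem abs_pd_le_lip (h : LipschitzWith L v) (i : Fin d) (x : Fin d → ℝ) : |pd v i x| ≤ L := by
  refine ((fderiv ℝ v x).le_opNorm _).trans ?_
  rw [Pi.norm_single, norm_one, mul_one]
  exact norm_fderiv_le_of_lipschitz ℝ h

/-! Blow-ups. -/

theorem pd_rescale (u : (Fin d → ℝ) → ℝ) (x : Fin d → ℝ) {r : ℝ} (hr : r ≠ 0) (i : Fin d)
    (y : Fin d → ℝ) : pd (rescale u x r) i y = pd u i (x + r • y) := by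
  have e : rescale u x r = r⁻¹ • (fun z => u (x + r • z)) := by
    funext z; simp [rescale, div_eq_inv_mul]
  have h2 := fderiv_comp_smul (f := fun w => u (x + w)) (x := y) (𝕜 := ℝ) r
  simp only [fderiv_comp_add_left] at h2
  rw [pd, e, fderiv_const_smul_field, Pi.smul_apply, h2]
  simp [pd, hr]

theorem grad_rescale (u : (Fin d → ℝ) → ℝ) (x : Fin d → ℝ) {r : ℝ} (hr : r ≠ 0) (y : Fin d → ℝ) :
    grad (rescale u x r) y = grad u (x + r • y) := funext fun i => pd_rescale u x hr i y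

theorem pos_rescale (u : (Fin d → ℝ) → ℝ) (x : Fin d → ℝ) {r : ℝ} (hr : 0 < r) (y : Fin d → ℝ) :
    y ∈ pos (rescale u x r) ↔ x + r • y ∈ pos u := by
  show 0 < u _ / r ↔ 0 < u _
  exact div_pos_iff_of_pos_right hr

theorem dens_rescale (u : (Fin d → ℝ) → ℝ) (x : Fin d → ℝ) {r : ℝ} (hr : 0 < r) (y : Fin d → ℝ) :
    dens (rescale u x r) y = dens u (x + r • y) := by
  by_cases h : x + r • y ∈ pos u
  · simp [dens, grad_rescale u x hr.ne', h, (pos_rescale u x hr y).2 h]
  · simp [dens, grad_rescale u x hr.ne', h, mt (pos_rescale u x hr y).1 h]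

theorem rescale_rescale (u : (Fin d → ℝ) → ℝ) (x : Fin d → ℝ) (r s : ℝ) :
    rescale (rescale u x r) 0 s = rescale u x (r * s) := by
  funext y
  simp [rescale, div_div, smul_smul]

theorem rescale_zero_apply (u : (Fin d → ℝ) → ℝ) (r : ℝ) (y : Fin d → ℝ) :
    rescale u 0 r y = u (r • y) / r := by simp [rescale]

theorem rescale_at_zero {x : Fin d → ℝ} (hx : u x = 0) (r : ℝ) : rescale u x r 0 = 0 := by simp [rescale, hx]

theorem isOpen_pos (h : Continuous u) : IsOpen (pos u) := isOpen_lt continuous_const h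

theorem eq_zero_of_fb (h : LipMin L u) {x : Fin d → ℝ} (hx : x ∈ fb u) : u x = 0 := by
  rw [fb, (isOpen_pos h.lipschitz.continuous).frontier_eq] at hx
  exact le_antisymm (not_lt.1 hx.2) (h.nonneg x)

theorem mem_closure_of_fb {x : Fin d → ℝ} (hx : x ∈ fb u) : x ∈ closure (pos u) :=
  frontier_subset_closure hx

theorem closure_rescale {x : Fin d → ℝ} {r : ℝ} (hr : 0 < r) {y : Fin d → ℝ}
    (hy : y ∈ closure (pos (rescale u x r))) : x + r • y ∈ closure (pos u) :=
  map_mem_closure (f := fun z : Fin d → ℝ => x + r • z) (by fun_prop) hy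
    fun _ hz => (pos_rescale u x hr _).1 hz

theorem closure_rescale_zero {x : Fin d → ℝ} {r : ℝ} (hr : 0 < r) (hx : x ∈ closure (pos u)) :
    (0 : Fin d → ℝ) ∈ closure (pos (rescale u x r)) := by
  have h := map_mem_closure (f := fun z : Fin d → ℝ => r⁻¹ • (z - x)) (t := pos (rescale u x r))
    (by fun_prop) hx fun z hz => (pos_rescale u x hr _).2 (by rwa [smul_inv_smul₀ hr.ne', add_sub_cancel])
  simpa using h

/-- Pointwise convergence of equi-Lipschitz functions is uniform on compact sets. -/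
theorem unif_of_pointwise {w : ℕ → (Fin d → ℝ) → ℝ} {w0 : (Fin d → ℝ) → ℝ}
    (hw : ∀ n, LipschitzWith L (w n)) (h0 : LipschitzWith L w0)
    (hl : ∀ y, Tendsto (fun n => w n y) atTop (𝓝 (w0 y))) {K : Set (Fin d → ℝ)} (hK : IsCompact K)
    {ε : ℝ} (hε : 0 < ε) : ∀ᶠ n in atTop, ∀ y ∈ K, |w n y - w0 y| ≤ ε := by
  set δ : ℝ := ε / (2 * L + 2)
  have hδ : 0 < δ := div_pos hε (by positivity)
  obtain ⟨t, -, ht, hcov⟩ := finite_cover_balls_of_compact hK hδ
  have hev : ∀ᶠ n in atTop, ∀ z ∈ t, |w n z - w0 z| ≤ δ := by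
    refine ht.eventually_all.2 fun z _ => ?_
    filter_upwards [Metric.tendsto_nhds.1 (hl z) δ hδ] with n hn
    exact le_of_lt (by simpa [Real.dist_eq] using hn)
  filter_upwards [hev] with n hn y hy
  obtain ⟨z, hz, hyz⟩ := mem_iUnion₂.1 (hcov hy)
  rw [mem_ball, dist_eq_norm] at hyz
  have a1 := abs_sub_le_lip (hw n) y z
  have a2 := abs_sub_le_lip h0 y z
  have a3 := hn z hz
  have a4 : (L : ℝ) * ‖y - z‖ ≤ L * δ := mul_le_mul_of_nonneg_left hyz.le L.2
  have a5 : (2 * (L : ℝ) + 2) * δ = ε := by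
    have : (2 * (L : ℝ) + 2) ≠ 0 := by positivity
    simp only [δ]; field_simp
  rw [abs_le] at a1 a2 a3 ⊢
  exact ⟨by nlinarith, by nlinarith⟩

/-- A pointwise limit of `L`-Lipschitz functions is `L`-Lipschitz. -/
theorem lipschitz_of_tendsto {w : ℕ → (Fin d → ℝ) → ℝ} {w0 : (Fin d → ℝ) → ℝ}
    (hw : ∀ n, LipschitzWith L (w n)) (hl : ∀ y, Tendsto (fun n => w n y) atTop (𝓝 (w0 y))) :
    LipschitzWith L w0 := by
  refine LipschitzWith.of_dist_le_mul fun x y => ?_
  exact le_of_tendsto' ((hl x).dist (hl y)) fun n => (hw n).dist_le_mul x y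

/-- Evaluation along moving points. -/
theorem tendsto_moving {w : ℕ → (Fin d → ℝ) → ℝ} {w0 : (Fin d → ℝ) → ℝ}
    (hw : ∀ n, LipschitzWith L (w n)) (hl : ∀ y, Tendsto (fun n => w n y) atTop (𝓝 (w0 y)))
    {p : ℕ → Fin d → ℝ} {q : Fin d → ℝ} (hp : Tendsto p atTop (𝓝 q)) :
    Tendsto (fun n => w n (p n)) atTop (𝓝 (w0 q)) := by
  have h1 : Tendsto (fun n => w n (p n) - w n q) atTop (𝓝 0) :=
    squeeze_zero_norm (a := fun n => (L : ℝ) * ‖p n - q‖)
      (fun n => by rw [Real.norm_eq_abs]; exact abs_sub_le_lip (hw n) _ _)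
      (by simpa using ((tendsto_iff_norm_sub_tendsto_zero.1 hp).const_mul (L : ℝ)))
  simpa using h1.add (hl q)

/-! The weights and the energy density. -/

/-- The inner weight. -/
def wPhi (x : Fin d → ℝ) : ℝ := max (1 - dot x x) 0 ^ 2

/-- Minus half the derivative of the weight. -/
def wPsi (x : Fin d → ℝ) : ℝ := max (1 - dot x x) 0

/-- The functional of Weiss at unit scale. -/
def weiss (v : (Fin d → ℝ) → ℝ) : ℝ := (∫ x, wPhi x * dens v x) - 4 * ∫ x, wPsi x * v x ^ 2

theorem continuous_dotSelf : Continuous fun x : Fin d → ℝ => dot x x := by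
  unfold dot; fun_prop

theorem continuous_wPsi : Continuous (wPsi : (Fin d → ℝ) → ℝ) :=
  (continuous_const.sub continuous_dotSelf).max continuous_const

theorem continuous_wPhi : Continuous (wPhi : (Fin d → ℝ) → ℝ) := continuous_wPsi.pow 2

theorem norm_le_of_dot {x : Fin d → ℝ} {R : ℝ} (hR : 0 ≤ R) (h : dot x x ≤ R ^ 2) : ‖x‖ ≤ R := by
  rw [pi_norm_le_iff_of_nonneg hR]
  intro i
  rw [Real.norm_eq_abs]
  have h1 : x i * x i ≤ dot x x :=
    Finset.single_le_sum (f := fun j => x j * x j) (fun j _ => mul_self_nonneg _) (Finset.mem_univ i)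
  exact abs_le_of_sq_le_sq (by nlinarith) hR

theorem wPsi_eq_zero {x : Fin d → ℝ} (hx : x ∉ closedBall (0 : Fin d → ℝ) 1) : wPsi x = 0 := by
  refine max_eq_right (sub_nonpos.2 (le_of_not_gt fun h => hx ?_))
  rw [mem_closedBall_zero_iff]
  exact norm_le_of_dot zero_le_one (by linarith)

theorem wPhi_eq_zero {x : Fin d → ℝ} (hx : x ∉ closedBall (0 : Fin d → ℝ) 1) : wPhi x = 0 := by
  simp [wPhi, show max (1 - dot x x) 0 = 0 from wPsi_eq_zero hx]

theorem wPsi_nonneg (x : Fin d → ℝ) : 0 ≤ wPsi x := le_max_right _ _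

theorem wPsi_le_one (x : Fin d → ℝ) : wPsi x ≤ 1 :=
  max_le (sub_le_self 1 (dot_self_nonneg x)) zero_le_one

theorem wPhi_le_one (x : Fin d → ℝ) : wPhi x ≤ 1 :=
  pow_le_one₀ (wPsi_nonneg x) (wPsi_le_one x)

theorem dens_nonneg (v : (Fin d → ℝ) → ℝ) (x : Fin d → ℝ) : 0 ≤ dens v x :=
  add_nonneg (dot_self_nonneg _) (indicator_nonneg (fun _ _ => zero_le_one) _)

theorem dens_le (h : LipschitzWith L v) (x : Fin d → ℝ) : dens v x ≤ d * (L : ℝ) ^ 2 + 1 := by
  refine add_le_add ?_ (indicator_apply_le' (fun _ => le_rfl) fun _ => zero_le_one)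
  refine (Finset.sum_le_card_nsmul _ _ ((L : ℝ) ^ 2) fun i _ => ?_).trans_eq (by simp)
  have h1 := abs_le.1 (abs_pd_le_lip h i x)
  show pd v i x * pd v i x ≤ _
  nlinarith

theorem abs_dens_le (h : LipschitzWith L v) (x : Fin d → ℝ) : |dens v x| ≤ d * (L : ℝ) ^ 2 + 1 := by
  rw [abs_of_nonneg (dens_nonneg v x)]; exact dens_le h x

theorem measurable_pd (v : (Fin d → ℝ) → ℝ) (i : Fin d) : Measurable (pd v i) :=
  measurable_fderiv_apply_const ℝ v (Pi.single i 1)

theorem measurable_dens (h : Continuous v) : Measurable (dens v) := by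
  refine Measurable.add ?_ (measurable_const.indicator (isOpen_pos h).measurableSet)
  exact Finset.measurable_sum _ fun i _ => (measurable_pd v i).mul (measurable_pd v i)

theorem integrable_ball_const (C : ℝ) :
    Integrable ((closedBall (0 : Fin d → ℝ) 1).indicator fun _ => C) :=
  (integrable_indicator_iff measurableSet_closedBall).2
    (integrableOn_const (measure_closedBall_lt_top).ne)

/-- The functional passes to limits of minimisers with almost everywhere convergent densities. -/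
theorem weiss_tendsto {w : ℕ → (Fin d → ℝ) → ℝ} {w0 : (Fin d → ℝ) → ℝ}
    (hw : ∀ n, LipschitzWith L (w n)) (hz : ∀ n, w n 0 = 0)
    (hl : ∀ y, Tendsto (fun n => w n y) atTop (𝓝 (w0 y)))
    (hd : ∀ᵐ x, Tendsto (fun n => dens (w n) x) atTop (𝓝 (dens w0 x))) :
    Tendsto (fun n => weiss (w n)) atTop (𝓝 (weiss w0)) := by
  refine Tendsto.sub ?_ (Tendsto.const_mul 4 ?_)
  · refine tendsto_integral_of_dominated_convergence
      ((closedBall (0 : Fin d → ℝ) 1).indicator fun _ => (d : ℝ) * (L : ℝ) ^ 2 + 1)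
      (fun n => (continuous_wPhi.measurable.mul (measurable_dens (hw n).continuous)).aestronglyMeasurable)
      (integrable_ball_const _) (fun n => .of_forall fun x => ?_)
      (hd.mono fun x hx => hx.const_mul _)
    by_cases hx : x ∈ closedBall (0 : Fin d → ℝ) 1
    · rw [indicator_of_mem hx, Real.norm_eq_abs, abs_mul, ← one_mul ((d : ℝ) * (L : ℝ) ^ 2 + 1)]
      refine mul_le_mul ?_ (abs_dens_le (hw n) x) (abs_nonneg _) zero_le_one
      rw [abs_of_nonneg (sq_nonneg _)]; exact wPhi_le_one x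
    · simp [indicator_of_notMem hx, wPhi_eq_zero hx]
  · refine tendsto_integral_of_dominated_convergence
      ((closedBall (0 : Fin d → ℝ) 1).indicator fun _ => (L : ℝ) ^ 2)
      (fun n => (continuous_wPsi.mul ((hw n).continuous.pow 2)).aestronglyMeasurable)
      (integrable_ball_const _) (fun n => .of_forall fun x => ?_)
      (.of_forall fun x => ((hl x).pow 2).const_mul _)
    by_cases hx : x ∈ closedBall (0 : Fin d → ℝ) 1
    · have h1 := abs_le_lip (hw n) (hz n) x
      rw [mem_closedBall_zero_iff] at hx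
      have h2 : |w n x| ≤ L := h1.trans (mul_le_of_le_one_right L.2 hx)
      rw [indicator_of_mem (by simpa using hx), Real.norm_eq_abs, abs_mul,
        abs_of_nonneg (wPsi_nonneg x), abs_of_nonneg (sq_nonneg _), ← one_mul ((L : ℝ) ^ 2)]
      exact mul_le_mul (wPsi_le_one x) (by rw [← sq_abs]; exact pow_le_pow_left₀ (abs_nonneg _) h2 2)
        (sq_nonneg _) zero_le_one
    · simp [indicator_of_notMem hx, wPsi_eq_zero hx]

end

end Vale.Agent.P098.Reg.Blow
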