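import Vale.Agent.P098.Reg.HarmEstimate

/-!
# P098: compactness of bounded harmonic functions
-/

namespace Vale.Agent.P098.Reg

open MeasureTheory Set Filter Topology Metric
open Vale.Agent.P098.Cone
open Vale.Agent.P100 (sqr lap)
open scoped ContDiff

noncomputable section

variable {d : ℕ}

/-- A diagonal subsequence of an eventually bounded countable family of sequences. -/
theorem exists_subseq {ι E : Type*} [Countable ι] [NormedAddCommGroup E] [ProperSpace E]
    (a : ℕ → ι → E) (b : ι → ℝ) (h : ∀ i, ∀ᶠ n in atTop, ‖a n i‖ ≤ b i) :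
    ∃ φ : ℕ → ℕ, StrictMono φ ∧ ∀ i, ∃ l, Tendsto (fun n => a (φ n) i) atTop (𝓝 l) := by
  classical
  set c : ℕ → ι → E := fun n i => if ‖a n i‖ ≤ b i then a n i else 0
  have hc : ∀ n, c n ∈ Set.pi univ fun i => closedBall (0 : E) (max (b i) 0) := fun n i _ => by
    show c n i ∈ _
    rw [mem_closedBall_zero_iff]
    simp only [c]
    split_ifs with hi
    · exact hi.trans (le_max_left _ _)
    · rw [norm_zero]; exact le_max_right _ _
  obtain ⟨l, -, φ, hφ, hl⟩ :=
    (isCompact_univ_pi fun i => isCompact_closedBall (0 : E) (max (b i) 0)).tendsto_subseq hc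
  refine ⟨φ, hφ, fun i => ⟨l i, (tendsto_pi_nhds.1 hl i).congr' ?_⟩⟩
  filter_upwards [hφ.tendsto_atTop.eventually (h i)] with n hn
  simp [c, hn]

/-- Uniformly Lipschitz functions converging on a dense set converge uniformly. -/
theorem uniform_of_dense {E : Type*} [NormedAddCommGroup E] [CompleteSpace E]
    {D : Set (Fin d → ℝ)} (hD : Dense D) {f : ℕ → (Fin d → ℝ) → E} {z : Fin d → ℝ} {ρ L : ℝ}
    (hρ : 0 < ρ) (hL : 0 ≤ L)
    (hf : ∀ᶠ n in atTop, ∀ y ∈ closedBall z ρ, ∀ y' ∈ closedBall z ρ,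
      ‖f n y - f n y'‖ ≤ L * ‖y - y'‖)
    (hq : ∀ q ∈ D, q ∈ closedBall z ρ → ∃ l, Tendsto (fun n => f n q) atTop (𝓝 l)) :
    TendstoUniformlyOn f (fun y => limUnder atTop fun n => f n y) atTop (closedBall z (ρ / 2)) := by
  have hu : UniformCauchySeqOn f atTop (closedBall z (ρ / 2)) := by
    rw [Metric.uniformCauchySeqOn_iff]
    intro ε hε
    set δ := min (ρ / 2) (ε / (3 * (L + 1)))
    have hδ : 0 < δ := lt_min (by positivity) (by positivity)
    obtain ⟨b, hbD, hbf, hcov⟩ := (isCompact_closedBall z (ρ / 2)).elim_finite_subcover_image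
      (b := D) (c := fun q => ball q δ) (fun _ _ => isOpen_ball) fun y _ => by
        obtain ⟨q, hqy, hqD⟩ := hD.inter_open_nonempty (ball y δ) isOpen_ball ⟨y, mem_ball_self hδ⟩
        exact mem_iUnion₂.2 ⟨q, hqD, by rwa [mem_ball, dist_comm]⟩
    have hall : ∀ q, ∃ l, q ∈ b → q ∈ closedBall z ρ → Tendsto (fun n => f n q) atTop (𝓝 l) :=
      fun q => by
        by_cases h : q ∈ b ∧ q ∈ closedBall z ρ
        · exact (hq q (hbD h.1) h.2).imp fun l hl _ _ => hl
        · exact ⟨0, fun h1 h2 => (h ⟨h1, h2⟩).elim⟩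
    choose l hl using hall
    have hev : ∀ᶠ n in atTop, (∀ y ∈ closedBall z ρ, ∀ y' ∈ closedBall z ρ,
        ‖f n y - f n y'‖ ≤ L * ‖y - y'‖) ∧
        ∀ q ∈ b, q ∈ closedBall z ρ → dist (f n q) (l q) < ε / 6 := by
      refine hf.and ((hbf.eventually_all).2 fun q hqb => ?_)
      by_cases h : q ∈ closedBall z ρ
      · filter_upwards [Metric.tendsto_nhds.1 (hl q hqb h) (ε / 6) (by positivity)] with n hn _
          using hn
      · exact .of_forall fun n h' => (h h').elim
    obtain ⟨N, hN⟩ := eventually_atTop.1 hev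
    refine ⟨N, fun m hm n hn y hy => ?_⟩
    obtain ⟨q, hqb, hyq⟩ := mem_iUnion₂.1 (hcov hy)
    rw [mem_ball] at hyq
    rw [mem_closedBall] at hy
    have hyρ : y ∈ closedBall z ρ := by rw [mem_closedBall]; linarith
    have hqρ : q ∈ closedBall z ρ := by
      rw [mem_closedBall]
      linarith [dist_triangle q y z, dist_comm q y, min_le_left (ρ / 2) (ε / (3 * (L + 1)))]
    have hLδ : L * ‖y - q‖ ≤ ε / 3 := by
      rw [← dist_eq_norm]
      calc L * dist y q ≤ (L + 1) * (ε / (3 * (L + 1))) :=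
            mul_le_mul (by linarith) (hyq.le.trans (min_le_right _ _)) dist_nonneg (by linarith)
        _ = ε / 3 := by field_simp
    have h1 := ((hN m hm).1 y hyρ q hqρ).trans hLδ
    have h2 := ((hN n hn).1 y hyρ q hqρ).trans hLδ
    rw [← dist_eq_norm] at h1 h2
    linarith [dist_triangle4 (f m y) (f m q) (f n q) (f n y), dist_comm (f n y) (f n q),
      dist_triangle_right (f m q) (f n q) (l q), (hN m hm).2 q hqb hqρ, (hN n hn).2 q hqb hqρ]
  exact hu.tendstoUniformlyOn_of_tendsto fun y hy => (hu.cauchySeq hy).tendsto_limUnder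

theorem Harm.mono {v : (Fin d → ℝ) → ℝ} {U V : Set (Fin d → ℝ)} (h : Harm v U) (hs : V ⊆ U) :
    Harm v V :=
  ⟨h.1.mono hs, fun x hx => h.2 x (hs hx)⟩

/-- Bounded harmonic functions on exhausting sets have a convergent subsequence, with the gradients. -/
theorem compact : CompactSpec := by
  intro d U v M hU hv
  obtain ⟨C₁, hC₁, he₁⟩ := estimate d 1
  obtain ⟨C₂, hC₂, he₂⟩ := estimate d 2
  set M' := max M 0
  set Df : ℕ → (Fin d → ℝ) → ((Fin d → ℝ) →L[ℝ] ℝ) := fun n => fderiv ℝ (v n)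
  -- what holds eventually near a point
  have hloc : ∀ (z : Fin d → ℝ) (ρ : ℝ), 0 < ρ → closedBall z (3 * ρ) ⊆ U → ∀ᶠ n in atTop,
      (∀ y ∈ closedBall z ρ, |v n y| ≤ M' ∧ ‖Df n y‖ ≤ C₁ * M' / ρ ∧ HasFDerivAt (v n) (Df n y) y) ∧
      ∀ y ∈ closedBall z ρ, ∀ y' ∈ closedBall z ρ,
        ‖v n y - v n y'‖ ≤ C₁ * M' / ρ * ‖y - y'‖ ∧
        ‖Df n y - Df n y'‖ ≤ C₂ * M' / ρ ^ 2 * ‖y - y'‖ := by
    intro z ρ hρ hz
    filter_upwards [hv _ (isCompact_closedBall z (3 * ρ)) hz] with n hn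
    obtain ⟨hb, V, hV, hKV, hh⟩ := hn
    have hsub : ∀ y ∈ closedBall z ρ, ball y ρ ⊆ closedBall z (3 * ρ) := fun y hy w hw => by
      simp only [mem_closedBall, mem_ball] at hy hw ⊢
      linarith [dist_triangle w y z]
    have hin : ∀ y ∈ closedBall z ρ, y ∈ V := fun y hy => hKV (hsub y hy (mem_ball_self hρ))
    have hD1 : ∀ y ∈ closedBall z ρ, DifferentiableAt ℝ (v n) y := fun y hy =>
      differentiableAt_of_smooth hh.1 hV (hin y hy)
    have hD2 : ∀ y ∈ closedBall z ρ, DifferentiableAt ℝ (Df n) y := fun y hy =>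
      ((hh.1.fderiv_of_isOpen hV (m := ∞) le_rfl).differentiableOn (by simp)
        ).differentiableAt (hV.mem_nhds (hin y hy))
    have hbM : ∀ y ∈ closedBall z (3 * ρ), |v n y| ≤ M' := fun y hy =>
      (hb y hy).trans (le_max_left _ _)
    have b1 : ∀ y ∈ closedBall z ρ, ‖Df n y‖ ≤ C₁ * M' / ρ := fun y hy => by
      have h := he₁ (v n) y ρ M' hρ (hh.mono ((hsub y hy).trans hKV)) fun w hw => hbM w (hsub y hy hw)
      rwa [norm_iteratedFDeriv_one, pow_one] at h
    have b2 : ∀ y ∈ closedBall z ρ, ‖fderiv ℝ (Df n) y‖ ≤ C₂ * M' / ρ ^ 2 := fun y hy => by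
      have h := he₂ (v n) y ρ M' hρ (hh.mono ((hsub y hy).trans hKV)) fun w hw => hbM w (hsub y hy hw)
      rwa [← norm_iteratedFDeriv_fderiv, norm_iteratedFDeriv_one] at h
    refine ⟨fun y hy => ⟨hbM y (hsub y hy (mem_ball_self hρ)), b1 y hy, (hD1 y hy).hasFDerivAt⟩,
      fun y hy y' hy' => ⟨?_, ?_⟩⟩
    · exact (convex_closedBall z ρ).norm_image_sub_le_of_norm_fderiv_le hD1 b1 hy' hy
    · exact (convex_closedBall z ρ).norm_image_sub_le_of_norm_fderiv_le hD2 b2 hy' hy
  have hrad : ∀ z ∈ U, ∃ ρ : ℝ, 0 < ρ ∧ closedBall z (3 * ρ) ⊆ U := fun z hz => by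
    obtain ⟨R, hR, hb⟩ := Metric.nhds_basis_closedBall.mem_iff.1 (hU.mem_nhds hz)
    exact ⟨R / 3, by positivity, by rwa [mul_div_cancel₀ R three_ne_zero]⟩
  -- the subsequence
  obtain ⟨D, hDc, hD⟩ := TopologicalSpace.exists_countable_dense (Fin d → ℝ)
  have hDU : (D ∩ U).Countable := hDc.mono inter_subset_left
  have : Countable (↥(D ∩ U)) := hDU.to_subtype
  choose ρf hρf0 hρfU using hrad
  obtain ⟨φ, hφ, hlim⟩ := exists_subseq
    (fun n (q : ↥(D ∩ U)) => (v n q, Df n q))
    (fun q => max M' (C₁ * M' / ρf q q.2.2)) fun q => by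
      filter_upwards [hloc _ _ (hρf0 q q.2.2) (hρfU q q.2.2)] with n hn
      obtain ⟨h1, h2, -⟩ := hn.1 q (mem_closedBall_self (hρf0 q q.2.2).le)
      exact max_le_max h1 h2
  set w : (Fin d → ℝ) → ℝ := fun y => limUnder atTop fun n => v (φ n) y
  set G : (Fin d → ℝ) → ((Fin d → ℝ) →L[ℝ] ℝ) := fun y => limUnder atTop fun n => Df (φ n) y
  have hunif : ∀ z (hz : z ∈ U),
      TendstoUniformlyOn (fun n => v (φ n)) w atTop (closedBall z (ρf z hz / 2)) ∧
      TendstoUniformlyOn (fun n => Df (φ n)) G atTop (closedBall z (ρf z hz / 2)) := by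
    intro z hz
    have hev := hφ.tendsto_atTop.eventually (hloc _ _ (hρf0 z hz) (hρfU z hz))
    have hsubU : closedBall z (ρf z hz) ⊆ U :=
      (closedBall_subset_closedBall (by linarith [hρf0 z hz])).trans (hρfU z hz)
    have hconv : ∀ q ∈ D, q ∈ closedBall z (ρf z hz) →
        (∃ l, Tendsto (fun n => v (φ n) q) atTop (𝓝 l)) ∧
        ∃ l, Tendsto (fun n => Df (φ n) q) atTop (𝓝 l) := fun q hq hqz => by
      obtain ⟨l, hl⟩ := hlim ⟨q, hq, hsubU hqz⟩
      exact ⟨⟨l.1, (continuous_fst.tendsto l).comp hl⟩, ⟨l.2, (continuous_snd.tendsto l).comp hl⟩⟩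
    have hM' : 0 ≤ M' := le_max_right _ _
    exact ⟨uniform_of_dense hD (hρf0 z hz) (div_nonneg (mul_nonneg hC₁ hM') (hρf0 z hz).le)
        (hev.mono fun n hn y hy y' hy' => (hn.2 y hy y' hy').1) fun q hq hqz => (hconv q hq hqz).1,
      uniform_of_dense hD (hρf0 z hz) (div_nonneg (mul_nonneg hC₂ hM') (sq_nonneg _))
        (hev.mono fun n hn y hy y' hy' => (hn.2 y hy y' hy').2) fun q hq hqz => (hconv q hq hqz).2⟩
  have hw1 : TendstoLocallyUniformlyOn (fun n => v (φ n)) w atTop U := fun u hu z hz =>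
    ⟨_, mem_nhdsWithin_of_mem_nhds (closedBall_mem_nhds z (half_pos (hρf0 z hz))),
      (hunif z hz).1 u hu⟩
  have hG1 : TendstoLocallyUniformlyOn (fun n => Df (φ n)) G atTop U := fun u hu z hz =>
    ⟨_, mem_nhdsWithin_of_mem_nhds (closedBall_mem_nhds z (half_pos (hρf0 z hz))),
      (hunif z hz).2 u hu⟩
  have hwK := (tendstoLocallyUniformlyOn_iff_forall_isCompact hU).1 hw1
  have hGK := (tendstoLocallyUniformlyOn_iff_forall_isCompact hU).1 hG1
  -- the limit is continuous
  have hwc : ContinuousOn w U := fun z hz => by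
    refine (ContinuousOn.continuousAt ?_ (closedBall_mem_nhds z (half_pos (hρf0 z hz)))).continuousWithinAt
    refine (hunif z hz).1.continuousOn (Eventually.frequently ?_)
    filter_upwards [hφ.tendsto_atTop.eventually (hloc _ _ (hρf0 z hz) (hρfU z hz))] with n hn y hy
    exact (hn.1 y (closedBall_subset_closedBall (by linarith [hρf0 z hz]) hy)).2.2.continuousAt.continuousWithinAt
  -- the limit is weakly harmonic
  have hweak : WeakHarm w U := by
    intro ψ hψ hψc hψs
    have hlapc : Continuous fun y => ∑ i, hess ψ i i y :=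
      P100.continuous_lap (hψ.of_le (WithTop.coe_le_coe.2 le_top))
    have hlap0 : ∀ y, y ∉ tsupport ψ → ∑ i, hess ψ i i y = 0 := fun y hy =>
      P100.lap_eq_zero_of_notMem hy
    have hev := hφ.tendsto_atTop.eventually (hv _ hψc hψs)
    have hT := tendsto_integral_filter_of_dominated_convergence (μ := (volume : Measure (Fin d → ℝ)))
      (l := (atTop : Filter ℕ)) (F := fun n y => v (φ n) y * ∑ i, hess ψ i i y)
      (f := fun y => w y * ∑ i, hess ψ i i y) (fun y => M' * |∑ i, hess ψ i i y|) ?_ ?_ ?_ ?_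
    · refine tendsto_nhds_unique hT ((tendsto_congr' ?_).2 tendsto_const_nhds)
      filter_upwards [hev] with n hn
      obtain ⟨-, V, hV, hKV, hh⟩ := hn
      exact hh.weakHarm hV ψ hψ hψc hKV
    · filter_upwards [hev] with n hn
      obtain ⟨-, V, hV, hKV, hh⟩ := hn
      have e : (fun y => v (φ n) y * ∑ i, hess ψ i i y)
          = (tsupport ψ).indicator fun y => v (φ n) y * ∑ i, hess ψ i i y :=
        (Set.indicator_eq_self.2 fun y hy => by_contra fun h => hy (by simp [hlap0 y h])).symm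
      rw [e]
      exact (aestronglyMeasurable_indicator_iff (isClosed_tsupport ψ).measurableSet).2
        (((hh.1.continuousOn.mono hKV).mul hlapc.continuousOn).aestronglyMeasurable_of_isCompact hψc
          (isClosed_tsupport ψ).measurableSet)
    · filter_upwards [hev] with n hn
      refine .of_forall fun y => ?_
      rw [Real.norm_eq_abs, abs_mul]
      by_cases hy : y ∈ tsupport ψ
      · exact mul_le_mul_of_nonneg_right ((hn.1 y hy).trans (le_max_left _ _)) (abs_nonneg _)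
      · simp [hlap0 y hy]
    · exact (hlapc.integrable_of_hasCompactSupport (HasCompactSupport.intro hψc hlap0)).abs.const_mul _
    · refine .of_forall fun y => ?_
      by_cases hy : y ∈ tsupport ψ
      · exact ((hwK _ hψs hψc).tendsto_at hy).mul_const _
      · simp [hlap0 y hy]
  have hwH : Harm w U := weyl d w U hU hwc hweak
  -- the gradient of the limit
  have hfd : ∀ z ∈ U, fderiv ℝ w z = G z := fun z hz => by
    obtain ⟨N, hN⟩ := eventually_atTop.1
      (hφ.tendsto_atTop.eventually (hloc _ _ (hρf0 z hz) (hρfU z hz)))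
    have hr : 0 < ρf z hz / 2 := half_pos (hρf0 z hz)
    refine HasFDerivAt.fderiv (hasFDerivAt_of_tendstoUniformlyOn (l := atTop)
      (f := fun n => v (φ (n + N))) (f' := fun n => Df (φ (n + N))) isOpen_ball
      (TendstoUniformlyOn.mono
        (fun u hu => (tendsto_add_atTop_nat N).eventually ((hunif z hz).2 u hu))
        ball_subset_closedBall)
      (fun n y hy => ((hN (n + N) (Nat.le_add_left N n)).1 y
        (closedBall_subset_closedBall (by linarith [hρf0 z hz]) (ball_subset_closedBall hy))).2.2)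
      (fun y hy => ?_) (mem_ball_self hr))
    exact ((hunif z hz).1.tendsto_at (ball_subset_closedBall hy)).comp (tendsto_add_atTop_nat N)
  refine ⟨φ, w, hφ, hwH, fun K hK hKU => ⟨hwK K hKU hK, ?_⟩⟩
  rw [Metric.tendstoUniformlyOn_iff]
  intro ε hε
  filter_upwards [(Metric.tendstoUniformlyOn_iff.1 (hGK K hKU hK)) ε hε] with n hn y hy
  refine lt_of_le_of_lt ?_ (hn y hy)
  rw [dist_pi_le_iff dist_nonneg]
  intro i
  rw [dist_eq_norm, dist_eq_norm]
  show ‖fderiv ℝ w y (Pi.single i 1) - Df (φ n) y (Pi.single i 1)‖ ≤ _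
  rw [hfd y (hKU hy), ← _root_.sub_apply]
  exact ((G y - Df (φ n) y).le_opNorm _).trans (by simp [Pi.norm_single])

end

end Vale.Agent.P098.Reg
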