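import Vale.Agent.P098.Reg.Defs

/-!
# P098: regularity of minimisers, the statements exchanged between the modules

Each `Spec` is a proposition that its module proves as a theorem; none is assumed anywhere.
-/

namespace Vale.Agent.P098.Reg

open MeasureTheory Set Filter Topology Metric
open Vale.Agent.P098.Cone
open scoped NNReal

noncomputable section

/-! Module A: harmonic functions. -/

/-- A continuous weakly harmonic function is harmonic. -/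
def WeylSpec : Prop :=
  ∀ (d : ℕ) (v : (Fin d → ℝ) → ℝ) (U : Set (Fin d → ℝ)),
    IsOpen U → ContinuousOn v U → WeakHarm v U → Harm v U

/-- Interior estimates of every order. -/
def EstimateSpec : Prop :=
  ∀ d j : ℕ, ∃ C : ℝ, 0 ≤ C ∧ ∀ (v : (Fin d → ℝ) → ℝ) (x : Fin d → ℝ) (r M : ℝ), 0 < r →
    Harm v (ball x r) → (∀ y ∈ ball x r, |v y| ≤ M) → ‖iteratedFDeriv ℝ j v x‖ ≤ C * M / r ^ j

/-- Bounded harmonic functions on exhausting sets have a convergent subsequence, with the gradients. -/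
def CompactSpec : Prop :=
  ∀ (d : ℕ) (U : Set (Fin d → ℝ)) (v : ℕ → (Fin d → ℝ) → ℝ) (M : ℝ), IsOpen U →
    (∀ K, IsCompact K → K ⊆ U → ∀ᶠ n in atTop,
      (∀ x ∈ K, |v n x| ≤ M) ∧ ∃ V, IsOpen V ∧ K ⊆ V ∧ Harm (v n) V) →
    ∃ (φ : ℕ → ℕ) (w : (Fin d → ℝ) → ℝ), StrictMono φ ∧ Harm w U ∧
      ∀ K, IsCompact K → K ⊆ U → TendstoUniformlyOn (fun n => v (φ n)) w atTop K ∧
        TendstoUniformlyOn (fun n => grad (v (φ n))) (grad w) atTop K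

/-- The mean value inequality of nonnegative continuous weakly subharmonic functions. -/
def MeanSpec : Prop :=
  ∀ d : ℕ, ∃ C : ℝ, 0 ≤ C ∧ ∀ (v : (Fin d → ℝ) → ℝ) (x : Fin d → ℝ) (r : ℝ), 0 < r →
    Continuous v → (∀ y, 0 ≤ v y) → WeakSub v (ball x (2 * r)) →
      v x ≤ C / r ^ d * ∫ y in closedBall x r, v y

/-! Module B: variations of a minimiser. -/

/-- Comparison with a competitor that differs in a compact set. -/
def CompetitorSpec : Prop :=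
  ∀ (d : ℕ) (L : ℝ≥0) (u v : (Fin d → ℝ) → ℝ), LipMin L u → (∃ M, LipschitzWith M v) →
    (∀ x, 0 ≤ v x) → (∃ K, IsCompact K ∧ ∀ x ∉ K, v x = u x) →
      Integrable (fun x => dens v x - dens u x) ∧ 0 ≤ ∫ x, (dens v x - dens u x)

/-- The functional of the Laplacian is nonnegative, and vanishes on multiples of the minimiser. -/
def LapSpec : Prop :=
  ∀ (d : ℕ) (L : ℝ≥0) (u φ : (Fin d → ℝ) → ℝ), LipMin L u → (∃ M, LipschitzWith M φ) →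
    HasCompactSupport φ → lapT u (fun x => u x * φ x) = 0 ∧ ((∀ x, 0 ≤ φ x) → 0 ≤ lapT u φ)

/-- Stationarity under deformations of the domain. -/
def StationarySpec : Prop :=
  ∀ (d : ℕ) (L : ℝ≥0) (u : (Fin d → ℝ) → ℝ) (X : Fin d → (Fin d → ℝ) → ℝ), LipMin L u →
    (∀ i, ContDiff ℝ 1 (X i)) → (∀ i, HasCompactSupport (X i)) →
      ∫ x in pos u, innerInt u X x = 0

/-- The flux through the free boundary is bounded by the Laplacian. -/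
def FluxSpec : Prop :=
  ∀ (d : ℕ) (L : ℝ≥0) (u φ : (Fin d → ℝ) → ℝ) (Z : Fin d → (Fin d → ℝ) → ℝ) (M : ℝ), LipMin L u →
    (∃ N, LipschitzWith N φ) → HasCompactSupport φ → (∀ x, 0 ≤ φ x) → (∀ i, ContDiff ℝ 1 (Z i)) →
    0 ≤ M → (∀ x ∈ fb u ∩ tsupport φ, ∑ i, Z i x ^ 2 ≤ M ^ 2) →
      |∫ x in pos u, dvg (fun i y => φ y * Z i y) x| ≤ M * lapT u φ

/-- Harmonic where positive, subharmonic everywhere. -/
def MinHarmSpec : Prop :=
  ∀ (d : ℕ) (L : ℝ≥0) (u : (Fin d → ℝ) → ℝ), LipMin L u → Harm u (pos u) ∧ WeakSub u univ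

/-- Nondegeneracy. -/
def NondegSpec : Prop :=
  ∀ (d : ℕ) (L : ℝ≥0), ∃ c : ℝ, 0 < c ∧ ∀ u : (Fin d → ℝ) → ℝ, LipMin L u →
    ∀ x ∈ closure (pos u), ∀ r : ℝ, 0 < r → ∃ y, ‖y - x‖ ≤ r ∧ c * r ≤ u y

/-- Invariance under translation and scaling. -/
def RescaleSpec : Prop :=
  ∀ (d : ℕ) (L : ℝ≥0) (u : (Fin d → ℝ) → ℝ) (x : Fin d → ℝ) (r : ℝ), LipMin L u → 0 < r →
    LipMin L (rescale u x r)

/-- Invariance under linear isometries of the inner product. -/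
def RotateSpec : Prop :=
  ∀ (d : ℕ) (L : ℝ≥0) (u : (Fin d → ℝ) → ℝ) (A : (Fin d → ℝ) ≃ₗ[ℝ] (Fin d → ℝ)), LipMin L u →
    (∀ x y, dot (A x) (A y) = dot x y) → LipMin (L * d) fun x => u (A x)

/-! Module C: blow-up. -/

/-- The bottom of the induction. -/
def BaseSpec : Prop := FlatIn 1

/-- Flatness one dimension below gives uniform flatness and unit blow-ups. -/
def UniformFlatSpec : Prop :=
  ∀ d : ℕ, 1 ≤ d → FlatIn d → ∀ (L : ℝ≥0) (u : (Fin (d + 1) → ℝ) → ℝ), LipMin L u → Homog u →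
    BlowUnit u {x | x ≠ 0} ∧ ∀ ε : ℝ, 0 < ε → ∃ r₀ : ℝ, 0 < r₀ ∧ ∀ x ∈ fb u, ‖x‖ = 1 →
      ∀ r : ℝ, 0 < r → r ≤ r₀ → ∃ e : Fin (d + 1) → ℝ,
        dot e e = 1 ∧ Close (rescale u x r) (lin e) ε (closedBall 0 1)

/-! Module D: the linearisation. -/

/-- A minimiser close to a harmonic function with unit gradient on the free boundary is, to first
order, an even harmonic correction of it. -/
def LinearSpec : Prop :=
  ∀ (d : ℕ), 1 ≤ d → ∀ (L : ℝ≥0) (u P : ℕ → (Fin (d + 1) → ℝ) → ℝ) (ε σ : ℕ → ℝ),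
    (∀ n, LipMin L (u n)) → (∀ n, (0 : Fin (d + 1) → ℝ) ∈ fb (u n)) →
    (∀ n, Harm (P n) univ ∧ P n 0 = 0) →
    TendstoUniformlyOn (fun n => grad (P n)) (fun _ => Pi.single (Fin.last d) (1 : ℝ)) atTop
      (closedBall 0 1) →
    TendstoUniformlyOn (fun n => hessMat (P n)) (fun _ => 0) atTop (closedBall 0 1) →
    (∀ n, 0 < ε n) → Tendsto ε atTop (𝓝 0) → Tendsto (fun n => σ n / ε n) atTop (𝓝 0) →
    (∀ n, Close (u n) (P n) (ε n) (closedBall 0 1)) →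
    (∀ n, ∀ x ∈ closedBall (0 : Fin (d + 1) → ℝ) 1, x ∈ fb (u n) →
      |dot (grad (P n) x) (grad (P n) x) - 1| ≤ σ n) →
    (∀ n, BlowUnit (u n) (closedBall 0 1)) →
    ∃ (φ : ℕ → ℕ) (v : (Fin (d + 1) → ℝ) → ℝ), StrictMono φ ∧ Harm v (ball 0 (1 / 2)) ∧
      (∀ x, v (Function.update x (Fin.last d) (-x (Fin.last d))) = v x) ∧
      (∀ x ∈ ball (0 : Fin (d + 1) → ℝ) (1 / 2), |v x| ≤ 1) ∧ v 0 = 0 ∧
      ∀ γ : ℝ, 0 < γ → ∀ᶠ n in atTop,
        Close (u (φ n)) (fun x => P (φ n) x + ε (φ n) * v x) (γ * ε (φ n)) (closedBall 0 (1 / 4))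

/-! Module E: expansions at the free boundary. -/

/-- The polynomial with coefficients `c`, of degree at most `k` in each variable. -/
def pEval {d k : ℕ} (c : (Fin d → Fin (k + 1)) → ℝ) (y : Fin d → ℝ) : ℝ :=
  ∑ a, c a * ∏ i, y i ^ (a i : ℕ)

/-- Uniform expansions of order `k + 1 / 2` at the free boundary points of length one. -/
def Expands {d : ℕ} (k : ℕ) (u : (Fin d → ℝ) → ℝ) : Prop :=
  ∃ C r₀ : ℝ, 0 < r₀ ∧ 0 ≤ C ∧ ∀ x ∈ fb u, ‖x‖ = 1 → ∃ c : (Fin d → Fin (k + 1)) → ℝ,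
    (∀ a, |c a| ≤ C) ∧ pEval c 0 = 0 ∧ dot (grad (pEval c) 0) (grad (pEval c) 0) = 1 ∧
    (∀ y, ∑ i, hess (pEval c) i i y = 0) ∧
    ∀ y : Fin d → ℝ, ‖y‖ ≤ r₀ →
      pEval c y - u (x + y) ≤ C * (‖y‖ ^ k * Real.sqrt ‖y‖) ∧
      (x + y ∈ closure (pos u) → u (x + y) - pEval c y ≤ C * (‖y‖ ^ k * Real.sqrt ‖y‖))

/-- Uniform flatness gives expansions of order four and a half. -/
def ExpandSpec : Prop :=
  ∀ d : ℕ, 1 ≤ d → ∀ (L : ℝ≥0) (u : (Fin (d + 1) → ℝ) → ℝ), LipMin L u → Homog u →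
    BlowUnit u {x | x ≠ 0} →
    (∀ ε : ℝ, 0 < ε → ∃ r₀ : ℝ, 0 < r₀ ∧ ∀ x ∈ fb u, ‖x‖ = 1 → ∀ r : ℝ, 0 < r → r ≤ r₀ →
      ∃ e : Fin (d + 1) → ℝ, dot e e = 1 ∧ Close (rescale u x r) (lin e) ε (closedBall 0 1)) →
    Expands 4 u

/-! Module F: a smooth extension. -/

/-- The derivatives up to order four extend continuously to the free boundary off the origin, where
the gradient has length one. -/
def BoundaryDeriv {d : ℕ} (u : (Fin d → ℝ) → ℝ) : Prop :=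
  (∀ j : ℕ, j ≤ 4 → ∃ G : (Fin d → ℝ) → ContinuousMultilinearMap ℝ (fun _ : Fin j => (Fin d → ℝ)) ℝ,
    ContinuousOn G (closure (pos u) \ {0}) ∧ ∀ z ∈ pos u, G z = iteratedFDeriv ℝ j u z) ∧
  ∀ x ∈ fb u, x ≠ 0 →
    Tendsto (fun z => dot (grad u z) (grad u z)) (𝓝[pos u] x) (𝓝 1)

/-- Expansions give derivatives up to the free boundary. -/
def BoundaryDerivSpec : Prop :=
  ∀ d : ℕ, 1 ≤ d → ∀ (L : ℝ≥0) (u : (Fin (d + 1) → ℝ) → ℝ), LipMin L u → Homog u →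
    Expands 4 u → BoundaryDeriv u

/-- Derivatives up to the free boundary give an extension. -/
def ReflectSpec : Prop :=
  ∀ d : ℕ, 1 ≤ d → ∀ (L : ℝ≥0) (u : (Fin (d + 1) → ℝ) → ℝ), LipMin L u → Homog u →
    BoundaryDeriv u → ∃ (O : Set (Fin (d + 1) → ℝ)) (w : (Fin (d + 1) → ℝ) → ℝ),
      IsOpen O ∧ (∀ x ∈ closure (pos u), x ≠ 0 → x ∈ O) ∧ ContDiffOn ℝ 4 w O ∧
      (∀ x ∈ O, 0 < u x → w x = u x) ∧ (∀ x ∈ fb u, x ≠ 0 → ∑ i, pd w i x ^ 2 = 1)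

/-- Four times differentiable up to the free boundary, with an extension. -/
def ExtendSpec : Prop :=
  ∀ d : ℕ, 1 ≤ d → ∀ (L : ℝ≥0) (u : (Fin (d + 1) → ℝ) → ℝ), LipMin L u → Homog u →
    Expands 4 u → ∃ (O : Set (Fin (d + 1) → ℝ)) (w : (Fin (d + 1) → ℝ) → ℝ),
      IsOpen O ∧ (∀ x ∈ closure (pos u), x ≠ 0 → x ∈ O) ∧ ContDiffOn ℝ 4 w O ∧
      (∀ x ∈ O, 0 < u x → w x = u x) ∧ (∀ x ∈ fb u, x ≠ 0 → ∑ i, pd w i x ^ 2 = 1)

end

end Vale.Agent.P098.Reg
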