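import Vale.Agent.P098.Reg.HarmKernel
import Vale.Agent.P098.Reg.Specs

/-!
# P098: the mean value property, the lemma of Weyl, the mean value inequality
-/

namespace Vale.Agent.P098.Reg

open MeasureTheory Set Filter Topology Metric
open Vale.Agent.P098.Cone
open Vale.Agent.P100 (sqr lap)
open scoped ContDiff

noncomputable section

variable {d : ℕ} {v : (Fin d → ℝ) → ℝ} {U : Set (Fin d → ℝ)}

/-- A function cut to a closed ball. -/
def cutBall (v : (Fin d → ℝ) → ℝ) (x : Fin d → ℝ) (R : ℝ) : (Fin d → ℝ) → ℝ :=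
  (closedBall x R).indicator v

theorem integrable_cutBall {x : Fin d → ℝ} {R : ℝ} (hc : ContinuousOn v (closedBall x R)) :
    Integrable (cutBall v x R) :=
  (integrable_indicator_iff measurableSet_closedBall).2
    (hc.integrableOn_compact (isCompact_closedBall x R))

theorem continuousAt_cutBall {x : Fin d → ℝ} {R : ℝ} (hR : 0 < R)
    (hc : ContinuousOn v (closedBall x R)) : ContinuousAt (cutBall v x R) x := by
  refine ((hc.continuousAt (closedBall_mem_nhds x hR)).congr ?_)
  filter_upwards [closedBall_mem_nhds x hR] with y hy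
  exact (indicator_of_mem hy v).symm

theorem integral_cut_lap {x : Fin d → ℝ} {e R : ℝ} (he : 0 < e) (heR : e ≤ R) :
    ∫ y, cutBall v x R y * lap (testFn x e) y = ∫ y, v y * lap (testFn x e) y := by
  refine integral_congr_ae (.of_forall fun y => ?_)
  by_cases hy : y ∈ closedBall x R
  · show cutBall v x R y * _ = _
    rw [cutBall, indicator_of_mem hy]
  · show cutBall v x R y * _ = _
    have h0 : lap (testFn x e) y = 0 := P100.lap_eq_zero_of_notMem fun h =>
      hy (closedBall_subset_closedBall heR (tsupport_testFn x he h))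
    simp [h0]

theorem hasDerivAt_avg_cut {x : Fin d → ℝ} {R e : ℝ} (he : e ∈ Ioc 0 R)
    (hc : ContinuousOn v (closedBall x R)) :
    HasDerivAt (avg (cutBall v x R) x)
      (-(e ^ 2 / e ^ (d + 1)) * ∫ y, v y * ∑ i, hess (testFn x e) i i y) e := by
  have h := hasDerivAt_avg (integrable_cutBall hc) x he.1
  rw [integral_cut_lap he.1 he.2] at h
  simpa only [lap_eq_hess] using h

theorem mean_eq (hw : WeakHarm v U) {x : Fin d → ℝ} {R : ℝ} (hR : 0 < R)
    (hU : closedBall x R ⊆ U) (hc : ContinuousOn v (closedBall x R)) :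
    avg (cutBall v x R) x R = mass d * v x := by
  set F := avg (cutBall v x R) x
  have hd : ∀ e ∈ Ioc (0 : ℝ) R, HasDerivAt F 0 e := fun e he => by
    refine (hasDerivAt_avg_cut he hc).congr_deriv ?_
    rw [hw _ (testFn_contDiff x e) (hasCompactSupport_testFn x he.1)
      ((tsupport_testFn x he.1).trans ((closedBall_subset_closedBall he.2).trans hU)), mul_zero]
  have hconst : ∀ e ∈ Ioc (0 : ℝ) R, F e = F R := fun e he =>
    (constant_of_has_deriv_right_zero (a := e) (b := R)
      (fun t ht => (hd t ⟨he.1.trans_le ht.1, ht.2⟩).continuousAt.continuousWithinAt)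
      (fun t ht => (hd t ⟨he.1.trans_le ht.1, ht.2.le⟩).hasDerivWithinAt) R ⟨he.2, le_rfl⟩).symm
  have h1 := tendsto_avg (integrable_cutBall hc) (continuousAt_cutBall hR hc)
  rw [cutBall, indicator_of_mem (mem_closedBall_self hR.le)] at h1
  refine tendsto_nhds_unique (f := F) (l := 𝓝[>] 0) ?_ h1
  exact (tendsto_congr' (by filter_upwards [Ioc_mem_nhdsGT hR] with e he using hconst e he)).2
    tendsto_const_nhds

theorem mean_le (hw : WeakSub v U) {x : Fin d → ℝ} {R : ℝ} (hR : 0 < R)
    (hU : closedBall x R ⊆ U) (hc : ContinuousOn v (closedBall x R)) :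
    mass d * v x ≤ avg (cutBall v x R) x R := by
  set F := avg (cutBall v x R) x
  have hd : ∀ e ∈ Ioc (0 : ℝ) R, 0 ≤ -(e ^ 2 / e ^ (d + 1)) *
      ∫ y, v y * ∑ i, hess (testFn x e) i i y := fun e he => by
    have h1 : ∫ y, v y * ∑ i, hess (testFn x e) i i y ≤ 0 := by
      have hts : tsupport (fun y => -testFn x e y) ⊆ closedBall x e := by
        refine closure_minimal (fun y hy => ?_) isClosed_closedBall
        by_contra h
        refine hy ?_
        show -testFn x e y = 0
        rw [image_eq_zero_of_notMem_tsupport fun h' => h (tsupport_testFn x he.1 h'), neg_zero]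
      have hneg := hw (fun y => -testFn x e y) (testFn_contDiff x e).neg
        ((isCompact_closedBall x e).of_isClosed_subset (isClosed_tsupport _) hts)
        (hts.trans ((closedBall_subset_closedBall he.2).trans hU))
        fun y => neg_nonneg.2 (pot_nonpos _)
      have e1 : ∀ i y, hess (fun y => -testFn x e y) i i y = -hess (testFn x e) i i y := fun i y => by
        simp only [hess, pd, fderiv_fun_neg, _root_.neg_apply]
      simp only [e1, Finset.sum_neg_distrib, mul_neg, MeasureTheory.integral_neg] at hneg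
      linarith
    exact mul_nonneg_of_nonpos_of_nonpos (neg_nonpos.2 (div_nonneg (sq_nonneg _)
      (pow_nonneg he.1.le _))) h1
  have hmono : MonotoneOn F (Ioc 0 R) :=
    monotoneOn_of_hasDerivWithinAt_nonneg (convex_Ioc 0 R)
      (fun t ht => (hasDerivAt_avg_cut ht hc).continuousAt.continuousWithinAt)
      (fun t ht => (hasDerivAt_avg_cut (interior_subset ht) hc).hasDerivWithinAt)
      fun t ht => hd t (interior_subset ht)
  have h1 := tendsto_avg (integrable_cutBall hc) (continuousAt_cutBall hR hc)
  rw [cutBall, indicator_of_mem (mem_closedBall_self hR.le)] at h1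
  exact le_of_tendsto h1 (by
    filter_upwards [Ioc_mem_nhdsGT hR] with e he using hmono he ⟨hR, le_rfl⟩ he.2)

/-- Near the centre a weakly harmonic function is a smooth convolution. -/
theorem rep (hw : WeakHarm v U) {x₀ : Fin d → ℝ} {R : ℝ} (hR : 0 < R)
    (hU : closedBall x₀ (2 * R) ⊆ U) (hc : ContinuousOn v (closedBall x₀ (2 * R)))
    {x : Fin d → ℝ} (hx : x ∈ closedBall x₀ R) :
    v x = avg (cutBall v x₀ (2 * R)) x R / mass d := by
  have hs : closedBall x R ⊆ closedBall x₀ (2 * R) :=
    closedBall_subset_closedBall' (by rw [mem_closedBall] at hx; linarith)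
  rw [eq_div_iff (mass_pos d).ne', mul_comm, ← mean_eq hw hR (hs.trans hU) (hc.mono hs)]
  refine integral_congr_ae (.of_forall fun y => ?_)
  show cutBall v x R y * _ = cutBall v x₀ (2 * R) y * _
  by_cases hy : y ∈ closedBall x R
  · rw [cutBall, cutBall, indicator_of_mem hy, indicator_of_mem (hs hy)]
  · rw [ker_eq_zero hR (by simpa [mem_closedBall, dist_eq_norm, norm_sub_rev] using hy),
      mul_zero, mul_zero]

theorem contDiff_avg {g : (Fin d → ℝ) → ℝ} (hg : Integrable g) {e : ℝ} (he : 0 < e) :
    ContDiff ℝ ∞ fun x => avg g x e :=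
  (hasCompactSupport_ker he).contDiff_convolution_right (ContinuousLinearMap.mul ℝ ℝ)
    hg.locallyIntegrable (contDiff_ker e)

/-- Integration by parts against a test function. -/
theorem int_swap {φ : (Fin d → ℝ) → ℝ} (hU : IsOpen U) (hv : ContDiffOn ℝ ∞ v U)
    (hφ : ContDiff ℝ ∞ φ) (hc : HasCompactSupport φ) (hs : tsupport φ ⊆ U) :
    ∫ y, v y * ∑ i, hess φ i i y = ∫ y, φ y * ∑ i, hess v i i y := by
  obtain ⟨χ, hχ, -, hχs, -, hχ1⟩ := exists_cutoff hc hU hs
  set F : (Fin d → ℝ) → ℝ := fun y => χ y * v y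
  have hF : ContDiff ℝ ∞ F := contDiff_mul_of_tsupport hχ hU hχs hv
  have heq : ∀ y ∈ tsupport φ, F =ᶠ[𝓝 y] v := fun y hy => by
    filter_upwards [hχ1.filter_mono (nhds_le_nhdsSet hy)] with z hz
    simp [F, hz]
  calc ∫ y, v y * ∑ i, hess φ i i y = ∫ y, F y * lap φ y := by
        refine integral_congr_ae (.of_forall fun y => ?_)
        show v y * lap φ y = F y * lap φ y
        by_cases hy : y ∈ tsupport φ
        · rw [(heq y hy).self_of_nhds]
        · simp [P100.lap_eq_zero_of_notMem hy]
    _ = ∫ y, φ y * lap F y :=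
        P100.integral_mul_lap (hF.of_le (WithTop.coe_le_coe.2 le_top))
          (hφ.of_le (WithTop.coe_le_coe.2 le_top)) hc
    _ = _ := by
        refine integral_congr_ae (.of_forall fun y => ?_)
        show φ y * lap F y = φ y * lap v y
        by_cases hy : y ∈ tsupport φ
        · rw [P100.lap_congr (heq y hy)]
        · simp [image_eq_zero_of_notMem_tsupport hy]

theorem continuousOn_lap (hU : IsOpen U) (hv : ContDiffOn ℝ ∞ v U) :
    ContinuousOn (fun y => ∑ i, hess v i i y) U :=
  continuousOn_finsetSum _ fun i _ => (contDiffOn_hess hv hU i i).continuousOn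

theorem Harm.weakHarm (hU : IsOpen U) (h : Harm v U) : WeakHarm v U := fun φ hφ hc hs => by
  rw [int_swap hU h.1 hφ hc hs]
  refine integral_eq_zero_of_ae (.of_forall fun y => ?_)
  show φ y * _ = (0 : ℝ)
  by_cases hy : y ∈ tsupport φ
  · rw [h.2 y (hs hy), mul_zero]
  · rw [image_eq_zero_of_notMem_tsupport hy, zero_mul]

/-- A continuous weakly harmonic function is harmonic. -/
theorem weyl : WeylSpec := by
  intro d v U hU hc hw
  have hsm : ContDiffOn ℝ ∞ v U := by
    intro x hx
    obtain ⟨R, hR, hball⟩ := Metric.nhds_basis_closedBall.mem_iff.1 (hU.mem_nhds hx)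
    have h2 : closedBall x (2 * (R / 2)) ⊆ U := by rwa [mul_div_cancel₀ R two_ne_zero]
    refine (ContDiffAt.congr_of_eventuallyEq
      ((contDiff_avg (integrable_cutBall (hc.mono h2)) (half_pos hR)).div_const (mass d)).contDiffAt
      ?_).contDiffWithinAt
    filter_upwards [closedBall_mem_nhds x (half_pos hR)] with y hy
      using rep hw (half_pos hR) h2 (hc.mono h2) hy
  refine ⟨hsm, fun x hx => ?_⟩
  obtain ⟨χ, hχ, hχc, hχs, hχ01, hχ1⟩ :=
    exists_cutoff isCompact_singleton hU (singleton_subset_iff.2 hx)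
  set L : (Fin d → ℝ) → ℝ := fun y => ∑ i, hess v i i y
  set φ : (Fin d → ℝ) → ℝ := fun y => χ y * L y
  have hL : ContDiffOn ℝ ∞ L U := ContDiffOn.sum fun i _ => contDiffOn_hess hsm hU i i
  have hφ : ContDiff ℝ ∞ φ := contDiff_mul_of_tsupport hχ hU hχs hL
  have hφs : tsupport φ ⊆ U := (tsupport_mul_subset_left).trans hχs
  have hφc : HasCompactSupport φ := hχc.mul_right
  have h0 := hw φ hφ hφc hφs
  rw [int_swap hU hsm hφ hφc hφs] at h0
  set G : (Fin d → ℝ) → ℝ := fun y => χ y * L y * L y
  have hG : Continuous G :=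
    (contDiff_mul_of_tsupport (η := φ) hφ hU hφs hL).continuous
  have hG0 : ∀ y, 0 ≤ G y := fun y => by
    show 0 ≤ χ y * L y * L y
    rw [mul_assoc]
    exact mul_nonneg (hχ01 y).1 (mul_self_nonneg _)
  by_contra hne
  have hGx : G x ≠ 0 := by
    have h1 : χ x = 1 := hχ1.self_of_nhdsSet x rfl
    show χ x * L x * L x ≠ 0
    rw [h1, one_mul]
    exact mul_ne_zero hne hne
  exact (hG.integral_pos_of_hasCompactSupport_nonneg_nonzero (hφc.mul_right) hG0 hGx).ne' h0

/-- The mean value inequality. -/
theorem mean : MeanSpec := by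
  intro d
  refine ⟨1 / mass d, (one_div_pos.2 (mass_pos d)).le, fun v x r hr hc hnn hw => ?_⟩
  have h := mean_le hw hr (closedBall_subset_ball (by linarith)) hc.continuousOn
  have hi := integrable_cutBall (x := x) (R := r) hc.continuousOn
  have h2 : avg (cutBall v x r) x r ≤ (1 / r ^ d) * ∫ y in closedBall x r, v y := by
    rw [← integral_indicator measurableSet_closedBall, ← MeasureTheory.integral_const_mul]
    refine integral_mono ?_ (hi.const_mul _) fun y => ?_
    · exact hi.mul_bdd (c := 1 / r ^ d)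
        ((contDiff_ker r).continuous.comp (continuous_const.sub continuous_id)).aestronglyMeasurable
        (.of_forall fun y => by
          rw [Real.norm_eq_abs, abs_of_nonneg (ker_nonneg hr _)]; exact ker_le hr _)
    · show cutBall v x r y * ker r (x - y) ≤ 1 / r ^ d * cutBall v x r y
      rw [mul_comm (1 / r ^ d)]
      exact mul_le_mul_of_nonneg_left (ker_le hr _) (indicator_nonneg (fun z _ => hnn z) y)
  calc v x ≤ avg (cutBall v x r) x r / mass d := by
        rw [le_div_iff₀ (mass_pos d), mul_comm]; exact h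
    _ ≤ (1 / r ^ d * ∫ y in closedBall x r, v y) / mass d :=
        div_le_div_of_nonneg_right h2 (mass_pos d).le
    _ = 1 / mass d / r ^ d * ∫ y in closedBall x r, v y := by ring

end

end Vale.Agent.P098.Reg
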