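import Vale.Agent.P098.Reg.Specs
import Vale.Agent.P098.Cone.Example

/-!
# P098: variations of a minimiser, basic facts and the comparison on the whole space
-/

namespace Vale.Agent.P098.Reg

open MeasureTheory Set Filter Topology Finset
open Vale.Agent.P098.Cone
open scoped NNReal

noncomputable section

variable {d : ℕ} {u v f g : (Fin d → ℝ) → ℝ} {x : Fin d → ℝ} {L M : ℝ≥0}

theorem isOpen_pos (hu : Continuous u) : IsOpen (pos u) := isOpen_lt continuous_const hu

theorem measurableSet_pos (hu : Continuous u) : MeasurableSet (pos u) := (isOpen_pos hu).measurableSet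

theorem pd_eq_zero_of_nonpos (h0 : ∀ y, 0 ≤ u y) (hx : u x ≤ 0) (i : Fin d) : pd u i x = 0 := by
  have : IsLocalMin u x := .of_forall fun y => hx.trans (h0 y)
  simp [pd, this.fderiv_eq_zero]

theorem grad_eq_zero_of_nonpos (h0 : ∀ y, 0 ≤ u y) (hx : u x ≤ 0) : grad u x = 0 :=
  funext fun i => pd_eq_zero_of_nonpos h0 hx i

/-- Two differentiable functions that touch have the same gradient. -/
theorem pd_eq_of_le (hf : DifferentiableAt ℝ f x) (hg : DifferentiableAt ℝ g x)
    (hle : ∀ᶠ y in 𝓝 x, f y ≤ g y) (he : f x = g x) (i : Fin d) : pd f i x = pd g i x := by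
  have : IsLocalMin (fun y => g y - f y) x := by
    filter_upwards [hle] with y hy
    linarith
  have h := pd_sub hg hf i
  simp only [pd, this.fderiv_eq_zero, zero_apply] at h
  simp only [pd]
  linarith

theorem measurable_pd (v : (Fin d → ℝ) → ℝ) (i : Fin d) : Measurable (pd v i) :=
  measurable_fderiv_apply_const ℝ v _

theorem measurable_dot_grad (v w : (Fin d → ℝ) → ℝ) :
    Measurable fun x => dot (grad v x) (grad w x) :=
  Finset.measurable_sum _ fun i _ => (measurable_pd v i).mul (measurable_pd w i)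

theorem abs_dot_grad_le (hv : LipschitzWith L v) (hg : LipschitzWith M g) (x : Fin d → ℝ) :
    |dot (grad v x) (grad g x)| ≤ d * (L * M) := by
  refine (abs_sum_le_sum_abs _ _).trans ((sum_le_sum fun i _ => ?_).trans_eq
    (by rw [sum_const, card_univ, Fintype.card_fin, nsmul_eq_mul]))
  rw [abs_mul]
  exact mul_le_mul (abs_pd_le hv i x) (abs_pd_le hg i x) (abs_nonneg _) L.2

theorem dens_nonneg (v : (Fin d → ℝ) → ℝ) (x : Fin d → ℝ) : 0 ≤ dens v x :=
  add_nonneg (dot_self_nonneg _) (indicator_nonneg (fun _ _ => zero_le_one) _)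

theorem dens_le (hv : LipschitzWith L v) (x : Fin d → ℝ) : dens v x ≤ d * (L * L) + 1 :=
  add_le_add ((le_abs_self _).trans (abs_dot_grad_le hv hv x))
    (indicator_le' (fun _ _ => le_rfl) (fun _ _ => zero_le_one) _)

theorem measurable_dens (hv : Continuous v) : Measurable (dens v) :=
  (measurable_dot_grad v v).add (measurable_const.indicator (measurableSet_pos hv))

theorem dens_of_pos (hx : 0 < u x) : dens u x = dot (grad u x) (grad u x) + 1 := by
  rw [dens, indicator_of_mem (show x ∈ pos u from hx)]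

theorem dens_of_nonpos (h0 : ∀ y, 0 ≤ u y) (hx : u x ≤ 0) : dens u x = 0 := by
  rw [dens, indicator_of_notMem (show x ∉ pos u from not_lt.2 hx), grad_eq_zero_of_nonpos h0 hx]
  simp [dot]

theorem dens_congr (h : f =ᶠ[𝓝 x] g) : dens f x = dens g x := by
  have e : grad f x = grad g x := funext fun i => pd_congr h i
  rw [dens, dens, e]
  congr 1
  have hx : f x = g x := h.eq_of_nhds
  by_cases hp : 0 < f x
  · rw [indicator_of_mem (show x ∈ pos f from hp), indicator_of_mem (show x ∈ pos g from show 0 < g x by rwa [← hx])]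
  · rw [indicator_of_notMem (show x ∉ pos f from hp),
      indicator_of_notMem (show x ∉ pos g from show ¬ 0 < g x by rwa [← hx])]

theorem energy_eq (v : (Fin d → ℝ) → ℝ) (B : Set (Fin d → ℝ)) : energy v B = ∫ x in B, dens v x := by
  simp only [energy, dens, dot, grad, sq, pos]

theorem integrableOn_dens (hv : LipschitzWith L v) {B : Set (Fin d → ℝ)} (hB : Bornology.IsBounded B) :
    IntegrableOn (dens v) B := by
  have : IsFiniteMeasure (volume.restrict B) := isFiniteMeasure_restrict.2 hB.measure_lt_top.ne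
  refine Integrable.of_bound (measurable_dens hv.continuous).aestronglyMeasurable (d * (L * L) + 1)
    (.of_forall fun x => ?_)
  rw [Real.norm_eq_abs, abs_of_nonneg (dens_nonneg v x)]
  exact dens_le hv x

theorem integrable_of_bdd {h : (Fin d → ℝ) → ℝ} (hm : Measurable h) {K : Set (Fin d → ℝ)}
    (hK : IsCompact K) (h0 : ∀ x ∉ K, h x = 0) {C : ℝ} (hb : ∀ x, |h x| ≤ C) : Integrable h := by
  have : IsFiniteMeasure (volume.restrict K) := isFiniteMeasure_restrict.2 hK.measure_lt_top.ne
  have hi : IntegrableOn h K := Integrable.of_bound hm.aestronglyMeasurable C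
    (.of_forall fun x => (Real.norm_eq_abs _).trans_le (hb x))
  exact hi.integrable_of_forall_notMem_eq_zero h0

theorem pd_eq_zero_of_notMem (hx : x ∉ tsupport f) (i : Fin d) : pd f i x = 0 :=
  image_eq_zero_of_notMem_tsupport fun h => hx (tsupport_pd f i h)

theorem integrable_dot_grad (hv : LipschitzWith L v) (hg : LipschitzWith M g)
    (hgc : HasCompactSupport g) : Integrable fun x => dot (grad v x) (grad g x) :=
  integrable_of_bdd (measurable_dot_grad v g) hgc
    (fun x hx => sum_eq_zero fun i _ => by simp [grad, pd_eq_zero_of_notMem hx])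
    (abs_dot_grad_le hv hg)

theorem lapT_def (hv : (Fin d → ℝ) → ℝ) : lapT u hv = -∫ x, dot (grad u x) (grad hv x) := rfl

theorem exists_eball {K : Set (Fin d → ℝ)} (hK : IsCompact K) : ∃ R, 0 < R ∧ K ⊆ eball 0 R := by
  obtain ⟨C, hC⟩ := hK.isBounded.exists_norm_le
  refine ⟨((d : ℝ) + 1) * (|C| + 1), by positivity, fun x hx => ?_⟩
  have h1 : ∀ i, (x i - (0 : Fin d → ℝ) i) ^ 2 ≤ (|C| + 1) ^ 2 := fun i => by
    simp only [Pi.zero_apply, sub_zero]
    rw [sq_le_sq, abs_of_nonneg (by positivity : (0 : ℝ) ≤ |C| + 1)]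
    have := (norm_le_pi_norm x i).trans ((hC x hx).trans (le_abs_self C))
    rw [Real.norm_eq_abs] at this
    linarith
  have h2 : ∑ i, (x i - (0 : Fin d → ℝ) i) ^ 2 ≤ d * (|C| + 1) ^ 2 := (sum_le_sum fun i _ => h1 i).trans_eq
    (by rw [sum_const, card_univ, Fintype.card_fin, nsmul_eq_mul])
  refine lt_of_le_of_lt h2 ?_
  have hd : (0 : ℝ) ≤ d := Nat.cast_nonneg d
  rw [mul_pow]
  exact mul_lt_mul_of_pos_right (by nlinarith) (by positivity)

/-- Comparison with a competitor that differs in a compact set. -/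
theorem competitor : CompetitorSpec := by
  intro d L u v hu ⟨M, hv⟩ hv0 ⟨K, hK, hvK⟩
  obtain ⟨R, hR, hKR⟩ := exists_eball hK
  have h0 : ∀ x ∉ K, dens v x - dens u x = 0 := fun x hx => sub_eq_zero.2 (dens_congr (by
    filter_upwards [hK.isClosed.isOpen_compl.mem_nhds hx] with y hy using hvK y hy))
  have hint : Integrable fun x => dens v x - dens u x := by
    refine integrable_of_bdd ((measurable_dens hv.continuous).sub (measurable_dens hu.lipschitz.continuous))
      hK h0 (C := (d * (M * M) + 1) + (d * (L * L) + 1)) fun x => ?_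
    rw [abs_le]
    constructor <;> linarith [dens_nonneg v x, dens_nonneg u x, dens_le hv x, dens_le hu.lipschitz x]
  refine ⟨hint, ?_⟩
  have h := hu.minimizer 0 R hR v ⟨M, hv⟩ hv0 ⟨K, hK, hKR, hvK⟩
  rw [energy_eq, energy_eq] at h
  rw [← setIntegral_eq_integral_of_forall_compl_eq_zero (s := eball 0 R) fun x hx => h0 x fun hh => hx (hKR hh),
    integral_sub (integrableOn_dens hv (isBounded_eball R)) (integrableOn_dens hu.lipschitz (isBounded_eball R))]
  linarith

/-- A Lipschitz function times a compactly supported one is Lipschitz. -/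
theorem exists_lipschitz_mul (hf : LipschitzWith L f) (hg : LipschitzWith M g) (hgc : HasCompactSupport g) :
    ∃ N, LipschitzWith N fun x => f x * g x := by
  obtain ⟨A, hA⟩ := hgc.exists_bound_of_continuousOn hf.continuous.continuousOn
  obtain ⟨B, hB⟩ := hg.continuous.bounded_above_of_compact_support hgc
  have hB0 : (0 : ℝ) ≤ B := (norm_nonneg _).trans (hB 0)
  have key : ∀ x ∈ tsupport g, ∀ y, |f x * g x - f y * g y| ≤ (|A| * M + B * L) * dist x y := by
    intro x hx y
    have e : f x * g x - f y * g y = f x * (g x - g y) + g y * (f x - f y) := by ring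
    rw [e, add_mul, mul_assoc, mul_assoc]
    refine (abs_add_le _ _).trans (add_le_add ?_ ?_) <;> rw [abs_mul]
    · refine mul_le_mul ((hA x hx).trans (le_abs_self A)) ?_ (abs_nonneg _) (abs_nonneg A)
      simpa [Real.dist_eq] using hg.dist_le_mul x y
    · refine mul_le_mul (hB y) ?_ (abs_nonneg _) hB0
      simpa [Real.dist_eq] using hf.dist_le_mul x y
  refine ⟨(|A| * M + B * L).toNNReal, LipschitzWith.of_dist_le_mul fun x y => ?_⟩
  rw [Real.coe_toNNReal _ (by positivity), Real.dist_eq]
  by_cases hx : x ∈ tsupport g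
  · exact key x hx y
  by_cases hy : y ∈ tsupport g
  · rw [abs_sub_comm, dist_comm]
    exact key y hy x
  simp [image_eq_zero_of_notMem_tsupport hx, image_eq_zero_of_notMem_tsupport hy]
  positivity

end

end Vale.Agent.P098.Reg
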