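import Vale.Agent.P098.Reg.VarBase

/-!
# P098: the Laplacian of a minimiser and the first consequences
-/

namespace Vale.Agent.P098.Reg

open MeasureTheory Set Filter Topology Finset
open Vale.Agent.P098.Cone
open scoped NNReal

noncomputable section

variable {d : ℕ} {u φ : (Fin d → ℝ) → ℝ} {L : ℝ≥0} {M : ℝ≥0}

/-- The thin set where a minimiser is positive and at most `t` times the test function. -/
def layerSet (u φ : (Fin d → ℝ) → ℝ) (t : ℝ) : Set (Fin d → ℝ) := {x | 0 < u x ∧ u x ≤ t * φ x}

theorem measurableSet_layer (hu : Continuous u) (hφ : Continuous φ) (t : ℝ) :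
    MeasurableSet (layerSet u φ t) :=
  (measurableSet_pos hu).inter (isClosed_le hu (continuous_const.mul hφ)).measurableSet

theorem layer_subset (t : ℝ) : layerSet u φ t ⊆ tsupport φ := fun x hx => by
  refine subset_tsupport φ ?_
  intro e
  have h1 := hx.2
  rw [e, mul_zero] at h1
  exact absurd hx.1 (not_lt.2 h1)

theorem tendsto_layer (hu : Continuous u) (hφ : Continuous φ) {h : (Fin d → ℝ) → ℝ} (hi : Integrable h) :
    Tendsto (fun t => ∫ x in layerSet u φ t, h x) (𝓝[>] 0) (𝓝 0) := by
  have e : Tendsto (fun t => ∫ x, (layerSet u φ t).indicator h x) (𝓝[>] 0) (𝓝 (∫ _x : Fin d → ℝ, (0 : ℝ))) := by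
    refine tendsto_integral_filter_of_dominated_convergence (fun x => ‖h x‖)
      (.of_forall fun t => hi.1.indicator (measurableSet_layer hu hφ t))
      (.of_forall fun t => .of_forall fun x => norm_indicator_le_norm_self _ _) hi.norm
      (.of_forall fun x => ?_)
    refine tendsto_const_nhds.congr' ?_
    by_cases hx : 0 < u x
    · have h2 : ∀ᶠ t in 𝓝 (0 : ℝ), t * φ x < u x :=
        (continuous_id.mul continuous_const).tendsto' (0 : ℝ) 0 (by simp) |>.eventually (gt_mem_nhds hx)
      filter_upwards [h2.filter_mono nhdsWithin_le_nhds] with t ht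
      rw [indicator_of_notMem fun hh : x ∈ layerSet u φ t => not_lt.2 hh.2 ht]
    · exact .of_forall fun t => (indicator_of_notMem (fun hh : x ∈ layerSet u φ t => hx hh.1) h).symm
  simp only [integral_zero] at e
  refine e.congr fun t => integral_indicator (measurableSet_layer hu hφ t)

theorem layer_le (hu : LipMin L u) (hφ : LipschitzWith M φ) (hc : HasCompactSupport φ)
    (hφ0 : ∀ x, 0 ≤ φ x) {η : ℝ} (hη : 0 < η) :
    ∀ᶠ t in 𝓝[>] (0 : ℝ),
      ∫ x in layerSet u φ t, (dot (grad u x) (grad u x) + 1) ≤ 2 * t * (lapT u φ + η) := by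
  set a := fun x => dot (grad u x) (grad φ x)
  set b := fun x => dot (grad φ x) (grad φ x)
  have ha : Integrable a := integrable_dot_grad hu.lipschitz hφ hc
  have hb : Integrable b := integrable_dot_grad hφ hφ hc
  have hA : Integrable ((tsupport φ).indicator fun x => dot (grad u x) (grad u x) + 1) := by
    refine integrable_of_bdd (((measurable_dot_grad u u).add_const 1).indicator
      (isClosed_tsupport φ).measurableSet) hc (fun x hx => indicator_of_notMem hx _)
      (C := d * (L * L) + 1) fun x => ?_
    rw [abs_of_nonneg (indicator_nonneg (fun y _ => add_nonneg (dot_self_nonneg _) zero_le_one) x)]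
    exact indicator_apply_le' (fun _ => add_le_add_left ((le_abs_self _).trans
      (abs_dot_grad_le hu.lipschitz hu.lipschitz x)) _) fun _ => by positivity
  have h1 : ∀ᶠ t in 𝓝[>] (0 : ℝ), (∫ x in layerSet u φ t, a x) ≤ η / 2 :=
    (tendsto_layer hu.lipschitz.continuous hφ.continuous ha).eventually (ge_mem_nhds (half_pos hη))
  have h2 : ∀ᶠ t in 𝓝[>] (0 : ℝ), t * (∫ x, b x) ≤ η :=
    ((continuous_id.mul continuous_const).tendsto' (0 : ℝ) 0 (by simp) |>.eventually
      (ge_mem_nhds hη)).filter_mono nhdsWithin_le_nhds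
  filter_upwards [h1, h2, self_mem_nhdsWithin] with t h1 h2 (ht : 0 < t)
  set v : (Fin d → ℝ) → ℝ := fun x => max (u x - t * φ x) 0
  have hv : ∃ N, LipschitzWith N v :=
    ⟨_, (hu.lipschitz.sub ((lipschitzWith_smul t).comp hφ)).max_const 0⟩
  have hvK : ∀ x ∉ tsupport φ, v x = u x := fun x hx => by
    simp [v, image_eq_zero_of_notMem_tsupport hx, hu.nonneg x]
  have hcomp := competitor d L u v hu hv (fun x => le_max_right _ _) ⟨_, hc, hvK⟩
  set E := layerSet u φ t
  have hEm : MeasurableSet E := measurableSet_layer hu.lipschitz.continuous hφ.continuous t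
  have hE : ∀ x, E.indicator (fun x => dot (grad u x) (grad u x) + 1) x
      = E.indicator ((tsupport φ).indicator fun x => dot (grad u x) (grad u x) + 1) x := fun x => by
    by_cases hx : x ∈ E
    · rw [indicator_of_mem hx, indicator_of_mem hx, indicator_of_mem (layer_subset t hx)]
    · rw [indicator_of_notMem hx, indicator_of_notMem hx]
  have hpt : ∀ᵐ x : Fin d → ℝ, dens v x - dens u x ≤ (-2 * t) * a x + (2 * t) * E.indicator a x
      + t ^ 2 * b x - E.indicator ((tsupport φ).indicator fun x => dot (grad u x) (grad u x) + 1) x := by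
    filter_upwards [hu.lipschitz.ae_differentiableAt, hφ.ae_differentiableAt] with x hux hφx
    rw [← hE]
    by_cases hle : u x ≤ t * φ x
    · rw [dens_of_nonpos (u := v) (fun y => le_max_right _ _) (show v x ≤ 0 by simp [v, hle])]
      have hb0 : 0 ≤ t ^ 2 * b x := mul_nonneg (sq_nonneg t) (dot_self_nonneg _)
      by_cases hx : 0 < u x
      · have hxE : x ∈ E := ⟨hx, hle⟩
        simp only [indicator_of_mem hxE, dens_of_pos hx]
        linarith
      · have hxE : x ∉ E := fun h => hx h.1
        simp only [indicator_of_notMem hxE, dens_of_nonpos hu.nonneg (not_lt.1 hx), a,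
          grad_eq_zero_of_nonpos hu.nonneg (not_lt.1 hx)]
        simp [dot]
        exact hb0
    · push Not at hle
      have hx : 0 < u x := lt_of_le_of_lt (mul_nonneg ht.le (hφ0 x)) hle
      have hxE : x ∉ E := fun h => not_lt.2 h.2 hle
      have hev : v =ᶠ[𝓝 x] fun y => u y - t * φ y := by
        filter_upwards [((hu.lipschitz.continuous.sub (continuous_const.mul hφ.continuous)).tendsto x).eventually
          (lt_mem_nhds (show (0 : ℝ) < u x - t * φ x by linarith))] with y hy
        exact max_eq_left (le_of_lt hy)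
      have hp : 0 < v x := lt_max_of_lt_left (by linarith)
      have hg : grad v x = fun i => pd u i x - t * pd φ i x := funext fun i => by
        show pd v i x = _
        rw [pd_congr hev, pd_sub hux (hφx.const_mul t), pd_mul (differentiableAt_const t) hφx, pd_const,
          mul_zero, add_zero]
      simp only [indicator_of_notMem hxE, dens_of_pos hx, dens_of_pos hp, hg, a, b]
      have e : dot (fun i => pd u i x - t * pd φ i x) (fun i => pd u i x - t * pd φ i x)
          = dot (grad u x) (grad u x) - 2 * t * dot (grad u x) (grad φ x)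
            + t ^ 2 * dot (grad φ x) (grad φ x) := by
        simp only [dot, grad, mul_sum, ← sum_sub_distrib, ← sum_add_distrib]
        exact sum_congr rfl fun i _ => by ring
      rw [e]
      linarith
  have i1 : Integrable fun x => (-2 * t) * a x := ha.const_mul _
  have i2 : Integrable fun x => (2 * t) * E.indicator a x := (ha.indicator hEm).const_mul _
  have i3 : Integrable fun x => t ^ 2 * b x := hb.const_mul _
  have i4 := hA.indicator hEm
  have h := hcomp.2.trans (integral_mono_ae hcomp.1 (((i1.add i2).add i3).sub i4) hpt)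
  rw [integral_sub' ((i1.add i2).add i3) i4, integral_add' (i1.add i2) i3, integral_add' i1 i2,
    integral_const_mul, integral_const_mul, integral_const_mul, integral_indicator hEm] at h
  have hI : ∫ x, E.indicator ((tsupport φ).indicator fun x => dot (grad u x) (grad u x) + 1) x
      = ∫ x in E, (dot (grad u x) (grad u x) + 1) := by
    rw [← integral_indicator hEm]
    exact integral_congr_ae (.of_forall fun x => (hE x).symm)
  rw [hI] at h
  have hT : lapT u φ = -∫ x, a x := rfl
  rw [hT]
  nlinarith [mul_le_mul_of_nonneg_left h1 ht.le, mul_le_mul_of_nonneg_left h2 ht.le]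

theorem lapT_nonneg (hu : LipMin L u) (hφ : LipschitzWith M φ) (hc : HasCompactSupport φ)
    (hφ0 : ∀ x, 0 ≤ φ x) : 0 ≤ lapT u φ := by
  refine le_of_forall_pos_le_add fun η hη => ?_
  obtain ⟨t, ht, (ht0 : 0 < t)⟩ := ((layer_le hu hφ hc hφ0 hη).and self_mem_nhdsWithin).exists
  have h0 : 0 ≤ ∫ x in layerSet u φ t, (dot (grad u x) (grad u x) + 1) :=
    integral_nonneg fun x => add_nonneg (dot_self_nonneg _) zero_le_one
  exact (mul_nonneg_iff_of_pos_left (by positivity)).1 (h0.trans ht)

theorem lapT_mul_self (hu : LipMin L u) (hφ : LipschitzWith M φ) (hc : HasCompactSupport φ) :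
    lapT u (fun x => u x * φ x) = 0 := by
  set w : (Fin d → ℝ) → ℝ := fun x => u x * φ x
  obtain ⟨N, hw⟩ := exists_lipschitz_mul hu.lipschitz hφ hc
  have hwc : HasCompactSupport w := hc.mul_left
  obtain ⟨B, hB⟩ := hφ.continuous.bounded_above_of_compact_support hc
  have hB0 : 0 ≤ B := (norm_nonneg _).trans (hB 0)
  have ha : Integrable fun x => dot (grad u x) (grad w x) := integrable_dot_grad hu.lipschitz hw hwc
  have hb : Integrable fun x => dot (grad w x) (grad w x) := integrable_dot_grad hw hw hwc
  have key : ∀ t : ℝ, |t| * (B + 1) < 1 →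
      0 ≤ 2 * t * (∫ x, dot (grad u x) (grad w x)) + t ^ 2 * ∫ x, dot (grad w x) (grad w x) := by
    intro t ht
    set v : (Fin d → ℝ) → ℝ := fun x => u x + t * w x
    have hfac : ∀ x, 0 < 1 + t * φ x := fun x => by
      have h1 : |t * φ x| ≤ |t| * B := by
        rw [abs_mul]; exact mul_le_mul_of_nonneg_left (hB x) (abs_nonneg t)
      have h2 := abs_le.1 h1
      nlinarith [abs_nonneg t]
    have hve : ∀ x, v x = u x * (1 + t * φ x) := fun x => by simp only [v, w]; ring
    have hp : ∀ x, 0 < v x ↔ 0 < u x := fun x => by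
      rw [hve]; exact mul_pos_iff_of_pos_right (hfac x)
    have hcomp := competitor d L u v hu ⟨_, hu.lipschitz.add ((lipschitzWith_smul t).comp hw)⟩
      (fun x => by rw [hve]; exact mul_nonneg (hu.nonneg x) (hfac x).le)
      ⟨_, hwc, fun x hx => by simp [v, image_eq_zero_of_notMem_tsupport hx]⟩
    have hpt : (fun x => dens v x - dens u x) =ᵐ[volume]
        fun x => (2 * t) * dot (grad u x) (grad w x) + t ^ 2 * dot (grad w x) (grad w x) := by
      filter_upwards [hu.lipschitz.ae_differentiableAt, hw.ae_differentiableAt] with x hux hwx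
      have hg : grad v x = fun i => pd u i x + t * pd w i x := funext fun i => by
        show pd v i x = _
        rw [pd_add hux (hwx.const_mul t), pd_mul (differentiableAt_const t) hwx, pd_const,
          mul_zero, add_zero]
      have hi : (pos v).indicator (fun _ => (1 : ℝ)) x = (pos u).indicator (fun _ => 1) x := by
        by_cases hx : 0 < u x
        · rw [indicator_of_mem (show x ∈ pos u from hx), indicator_of_mem (show x ∈ pos v from (hp x).2 hx)]
        · rw [indicator_of_notMem (show x ∉ pos u from hx),
            indicator_of_notMem (show x ∉ pos v from fun h => hx ((hp x).1 h))]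
      show dens v x - dens u x = _
      rw [dens, dens, hg, hi]
      simp only [dot, grad, mul_sum, add_sub_add_right_eq_sub, ← sum_sub_distrib, ← sum_add_distrib]
      exact sum_congr rfl fun i _ => by ring
    have h := hcomp.2
    rwa [integral_congr_ae hpt, integral_add (ha.const_mul _) (hb.const_mul _), integral_const_mul,
      integral_const_mul] at h
  set A := ∫ x, dot (grad u x) (grad w x)
  set Q := ∫ x, dot (grad w x) (grad w x)
  have hA : A = 0 := by
    by_contra hne
    have hQ : 0 ≤ Q := integral_nonneg fun x => dot_self_nonneg _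
    have hA0 : 0 < |A| := abs_pos.2 hne
    set s := min (1 / (2 * (B + 1))) (|A| / (Q + 1))
    have hs : 0 < s := lt_min (by positivity) (by positivity)
    have hsB : |(-(s * (A / |A|)))| * (B + 1) < 1 := by
      rw [abs_neg, abs_mul, abs_div, abs_abs, div_self hA0.ne', mul_one, abs_of_pos hs]
      have h0 : s * (2 * (B + 1)) ≤ 1 := (le_div_iff₀ (by positivity)).1 (min_le_left _ _)
      nlinarith
    have h := key _ hsB
    have h1 : A / |A| * A = |A| := by
      rw [div_mul_eq_mul_div, ← abs_mul_abs_self, mul_div_assoc, div_self hA0.ne', mul_one]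
    have h2 : (A / |A|) ^ 2 = 1 := by rw [div_pow, sq_abs, div_self (pow_ne_zero 2 hne)]
    have h3 : s * (Q + 1) ≤ |A| := (le_div_iff₀ (by positivity)).1 (min_le_right _ _)
    rw [show 2 * (-(s * (A / |A|))) * A = -2 * s * (A / |A| * A) by ring, h1,
      show (-(s * (A / |A|))) ^ 2 = s ^ 2 * (A / |A|) ^ 2 by ring, h2] at h
    nlinarith
  show -A = 0
  rw [hA, neg_zero]

/-- The functional of the Laplacian is nonnegative, and vanishes on multiples of the minimiser. -/
theorem lap : LapSpec :=
  fun _ _ _ _ hu ⟨_, hφ⟩ hc => ⟨lapT_mul_self hu hφ hc, lapT_nonneg hu hφ hc⟩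

theorem lapT_eq (hu : LipschitzWith L u) (hφ : ContDiff ℝ (⊤ : ℕ∞) φ) (hc : HasCompactSupport φ) :
    lapT u φ = ∫ x, u x * ∑ i, hess φ i i x := by
  obtain ⟨P, hP⟩ := hφ.lipschitzWith_of_hasCompactSupport hc (by simp)
  have key : ∀ i, (∫ x, u x * hess φ i i x) = -∫ x, pd u i x * pd φ i x := fun i => by
    have hg : ContDiff ℝ (⊤ : ℕ∞) (pd φ i) := contDiff_pd hφ i
    have hgc := hasCompactSupport_pd hc i
    obtain ⟨N, hgL⟩ := hg.lipschitzWith_of_hasCompactSupport hgc (by simp)
    obtain ⟨N', hm⟩ := exists_lipschitz_mul hu hgL hgc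
    have i1 : Integrable fun x => u x * hess φ i i x :=
      (hu.continuous.mul (contDiff_pd hg i).continuous).integrable_of_hasCompactSupport
        (hasCompactSupport_pd hgc i).mul_left
    have i2 : Integrable fun x => pd u i x * pd φ i x :=
      integrable_of_bdd ((measurable_pd u i).mul (measurable_pd φ i)) hgc
        (fun x hx => by simp [image_eq_zero_of_notMem_tsupport hx]) fun x => by
          rw [abs_mul]; exact mul_le_mul (abs_pd_le hu i x) (abs_pd_le hP i x) (abs_nonneg _) L.2
    have h := integral_pd_lipschitz hm hgc.mul_left i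
    rw [integral_congr_ae (g := fun x => u x * hess φ i i x + pd u i x * pd φ i x) (by
      filter_upwards [hu.ae_differentiableAt] with x hx
      rw [pd_mul hx (hg.differentiable (by simp) x), mul_comm (pd φ i x)]
      rfl), integral_add i1 i2] at h
    linarith
  have hi : ∀ i, Integrable fun x => pd u i x * pd φ i x := fun i =>
    integrable_of_bdd ((measurable_pd u i).mul (measurable_pd φ i)) (hasCompactSupport_pd hc i)
      (fun x hx => by simp [image_eq_zero_of_notMem_tsupport hx]) fun x => by
        rw [abs_mul]; exact mul_le_mul (abs_pd_le hu i x) (abs_pd_le hP i x) (abs_nonneg _) L.2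
  have hj : ∀ i, Integrable fun x => u x * hess φ i i x := fun i =>
    (hu.continuous.mul (contDiff_pd (contDiff_pd hφ i) i).continuous).integrable_of_hasCompactSupport
      (hasCompactSupport_pd (hasCompactSupport_pd hc i) i).mul_left
  simp only [mul_sum]
  rw [integral_finsetSum _ fun i _ => hj i, sum_congr rfl fun i _ => key i, sum_neg_distrib, ← integral_finsetSum _ fun i _ => hi i]
  rfl

theorem weakSub (hu : LipMin L u) : WeakSub u Set.univ := fun φ hφ hc _ h0 => by
  obtain ⟨P, hP⟩ := hφ.lipschitzWith_of_hasCompactSupport hc (by simp)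
  rw [← lapT_eq hu.lipschitz hφ hc]
  exact lapT_nonneg hu hP hc h0

theorem weakHarm (hu : LipMin L u) : WeakHarm u (pos u) := fun φ hφ hc hs => by
  rw [← lapT_eq hu.lipschitz hφ hc]
  obtain ⟨c, hc0, hcu⟩ : ∃ c, 0 < c ∧ ∀ x ∈ tsupport φ, c ≤ u x := by
    rcases (tsupport φ).eq_empty_or_nonempty with he | hne
    · exact ⟨1, one_pos, fun x hx => absurd hx (he ▸ notMem_empty x)⟩
    · obtain ⟨x, hx, hmin⟩ := hc.exists_isMinOn hne hu.lipschitz.continuous.continuousOn
      exact ⟨u x, hs hx, fun y hy => hmin hy⟩
  set f : (Fin d → ℝ) → ℝ := fun x => (max (u x) c)⁻¹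
  have hf : LipschitzWith (L / (c ^ 2).toNNReal) f := LipschitzWith.of_dist_le_mul fun x y => by
    have hx : 0 < max (u x) c := lt_max_of_lt_right hc0
    have hy : 0 < max (u y) c := lt_max_of_lt_right hc0
    rw [Real.dist_eq, inv_sub_inv hx.ne' hy.ne', abs_div, abs_of_pos (mul_pos hx hy), NNReal.coe_div,
      Real.coe_toNNReal _ (sq_nonneg c), div_mul_eq_mul_div]
    refine div_le_div₀ (by positivity) ?_ (by positivity) ?_
    · have h := (hu.lipschitz.max_const c).dist_le_mul y x
      rwa [Real.dist_eq, dist_comm] at h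
    · rw [sq]; exact mul_le_mul (le_max_right _ _) (le_max_right _ _) hc0.le hx.le
  obtain ⟨P, hP⟩ := hφ.lipschitzWith_of_hasCompactSupport hc (by simp)
  obtain ⟨N, hψ⟩ := exists_lipschitz_mul hf hP hc
  have e : (fun x => u x * (f x * φ x)) = φ := funext fun x => by
    by_cases hx : x ∈ tsupport φ
    · simp only [f, max_eq_left (hcu x hx)]
      rw [← mul_assoc, mul_inv_cancel₀ (hc0.trans_le (hcu x hx)).ne', one_mul]
    · simp [image_eq_zero_of_notMem_tsupport hx]
  have h := lapT_mul_self hu hψ hc.mul_left
  rwa [e] at h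

/-- Harmonic where positive, subharmonic everywhere. -/
theorem minHarm (hW : WeylSpec) : MinHarmSpec := fun d _ u hu =>
  ⟨hW d u (pos u) (isOpen_pos hu.lipschitz.continuous) hu.lipschitz.continuous.continuousOn (weakHarm hu),
    weakSub hu⟩

end

end Vale.Agent.P098.Reg
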