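import Vale.Agent.P098.Reg.VarLap

/-!
# P098: nondegeneracy of minimisers
-/

namespace Vale.Agent.P098.Reg

open MeasureTheory Set Filter Topology Finset
open Vale.Agent.P098.Cone
open scoped NNReal

noncomputable section

variable {d : ℕ} {u : (Fin d → ℝ) → ℝ} {L : ℝ≥0}

/-- One competitor: a small minimiser has small volume in the half box. -/
theorem volume_step (hu : LipMin L u) (y : Fin d → ℝ) {r ε : ℝ} (hr : 0 < r) (hε : 0 ≤ ε)
    (hb : ∀ z ∈ Metric.closedBall y r, u z ≤ ε * r) :
    volume.real (pos u ∩ Metric.closedBall y (r / 2))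
      ≤ 4 * d * ε ^ 2 * volume.real (pos u ∩ Metric.closedBall y r) := by
  set a : ℝ≥0 := ⟨2 * ε, by positivity⟩
  set w₁ : (Fin d → ℝ) → ℝ := fun x => (a : ℝ) * max (dist x y - r / 2) 0
  set w : (Fin d → ℝ) → ℝ := fun x => w₁ x + L * max (dist x y - r) 0
  have hmax : ∀ s : ℝ, LipschitzWith 1 fun x : Fin d → ℝ => max (dist x y - s) 0 := fun s => by
    have h : LipschitzWith (1 + 0) fun x : Fin d → ℝ => dist x y - s :=
      (LipschitzWith.dist_left y).sub (LipschitzWith.const s)
    rw [add_zero] at h
    exact h.max_const 0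
  have hw₁ : LipschitzWith a w₁ := LipschitzWith.of_dist_le_mul fun p q => by
    have h := (hmax (r / 2)).dist_le_mul p q
    rw [NNReal.coe_one, one_mul, Real.dist_eq] at h
    rw [Real.dist_eq, ← mul_sub, abs_mul, abs_of_nonneg (show (0 : ℝ) ≤ (a : ℝ) from a.2)]
    exact mul_le_mul_of_nonneg_left h a.2
  have hw₂ : LipschitzWith L fun x => (L : ℝ) * max (dist x y - r) 0 :=
    LipschitzWith.of_dist_le_mul fun p q => by
      have h := (hmax r).dist_le_mul p q
      rw [NNReal.coe_one, one_mul, Real.dist_eq] at h
      rw [Real.dist_eq, ← mul_sub, abs_mul, abs_of_nonneg (show (0 : ℝ) ≤ (L : ℝ) from L.2)]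
      exact mul_le_mul_of_nonneg_left h L.2
  have hw : LipschitzWith (a + L) w := hw₁.add hw₂
  have hw0 : ∀ x, 0 ≤ w x := fun x =>
    add_nonneg (mul_nonneg a.2 (le_max_right _ _)) (mul_nonneg L.2 (le_max_right _ _))
  have hout : ∀ x, r ≤ dist x y → u x ≤ w x := fun x hx => by
    have hs : 0 < dist x y := hr.trans_le hx
    set p := y + (r / dist x y) • (x - y)
    have hp : dist p y = r := by
      rw [dist_eq_norm, add_sub_cancel_left, norm_smul, Real.norm_eq_abs,
        abs_of_pos (by positivity), ← dist_eq_norm, div_mul_cancel₀ _ hs.ne']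
    have hxp : dist x p = dist x y - r := by
      have e : x - p = (1 - r / dist x y) • (x - y) := by simp only [p, sub_smul, one_smul]; abel
      rw [dist_eq_norm x p, e, norm_smul, Real.norm_eq_abs,
        abs_of_nonneg (sub_nonneg.2 ((div_le_one hs).2 hx)), ← dist_eq_norm, sub_mul, one_mul,
        div_mul_cancel₀ _ hs.ne']
    have h1 := hu.lipschitz.dist_le_mul x p
    rw [Real.dist_eq, hxp] at h1
    have h2 := hb p (Metric.mem_closedBall.2 hp.le)
    have h3 : (a : ℝ) * (dist x y - r / 2) = ε * r + 2 * ε * (dist x y - r) := by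
      show 2 * ε * (dist x y - r / 2) = _
      ring
    have h4 : 0 ≤ 2 * ε * (dist x y - r) := mul_nonneg (by positivity) (sub_nonneg.2 hx)
    simp only [w, w₁, max_eq_left (show 0 ≤ dist x y - r / 2 by linarith),
      max_eq_left (sub_nonneg.2 hx), h3]
    linarith [(abs_le.1 h1).2]
  set v : (Fin d → ℝ) → ℝ := fun x => min (u x) (w x)
  have hv : LipschitzWith (max L (a + L)) v := hu.lipschitz.min hw
  have hvK : ∀ x ∉ Metric.closedBall y r, v x = u x := fun x hx =>
    min_eq_left (hout x (not_le.1 hx).le)
  have hcomp := competitor d L u v hu ⟨_, hv⟩ (fun x => le_min (hu.nonneg x) (hw0 x))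
    ⟨_, isCompact_closedBall y r, hvK⟩
  set A := pos u ∩ Metric.closedBall y (r / 2)
  set B := pos u ∩ Metric.closedBall y r
  have hAm : MeasurableSet A := (measurableSet_pos hu.lipschitz.continuous).inter measurableSet_closedBall
  have hBm : MeasurableSet B := (measurableSet_pos hu.lipschitz.continuous).inter measurableSet_closedBall
  set q : ℝ := 4 * d * ε ^ 2
  have hq : 0 ≤ q := by positivity
  have hpt : ∀ᵐ x : Fin d → ℝ, dens v x - dens u x
      ≤ B.indicator (fun _ => q) x - A.indicator (fun _ => 1) x := by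
    filter_upwards [hu.lipschitz.ae_differentiableAt, hv.ae_differentiableAt] with x hux hvx
    have hv0 : ∀ z, 0 ≤ v z := fun z => le_min (hu.nonneg z) (hw0 z)
    by_cases hx : 0 < u x
    swap
    · rw [indicator_of_notMem (fun h : x ∈ B => hx h.1), indicator_of_notMem (fun h : x ∈ A => hx h.1),
        dens_of_nonpos hu.nonneg (not_lt.1 hx), dens_of_nonpos hv0 ((min_le_left _ _).trans (not_lt.1 hx))]
    have hu1 : 1 ≤ dens u x := by rw [dens_of_pos hx]; linarith [dot_self_nonneg (grad u x)]
    have hB0 : 0 ≤ B.indicator (fun _ => q) x := indicator_nonneg (fun _ _ => hq) x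
    by_cases hA : dist x y ≤ r / 2
    · have hw' : w x = 0 := by
        simp only [w, w₁, max_eq_right (show dist x y - r / 2 ≤ 0 by linarith),
          max_eq_right (show dist x y - r ≤ 0 by linarith), mul_zero, add_zero]
      rw [dens_of_nonpos hv0 ((min_le_right _ _).trans hw'.le),
        indicator_of_mem (show x ∈ A from ⟨hx, Metric.mem_closedBall.2 hA⟩)]
      linarith
    rw [indicator_of_notMem (fun h : x ∈ A => hA (Metric.mem_closedBall.1 h.2)), sub_zero]
    by_cases hle : u x ≤ w x
    · have hv' : v x = u x := min_eq_left hle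
      have e : grad v x = grad u x :=
        funext fun i => pd_eq_of_le hvx hux (.of_forall fun z => min_le_left _ _) hv' i
      rw [dens_of_pos (show 0 < v x by rw [hv']; exact hx), dens_of_pos hx, e, sub_self]
      exact hB0
    · push Not at hle
      have hxr : dist x y < r := lt_of_not_ge fun h => not_le.2 hle (hout x h)
      rw [indicator_of_mem (show x ∈ B from ⟨hx, Metric.mem_closedBall.2 hxr.le⟩)]
      have hev : v =ᶠ[𝓝 x] w₁ := by
        filter_upwards [((hu.lipschitz.continuous.sub hw.continuous).tendsto x).eventually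
            (lt_mem_nhds (sub_pos.2 hle)), Metric.isOpen_ball.mem_nhds (Metric.mem_ball.2 hxr)] with z hz hz'
        simp only [v, min_eq_right (sub_pos.1 hz).le, w,
          max_eq_right (sub_nonpos.2 (Metric.mem_ball.1 hz').le), mul_zero, add_zero]
      rw [dens_congr hev]
      have h1 := dens_le hw₁ x
      have h2 : (d : ℝ) * (a * a) = q := by
        show (d : ℝ) * (2 * ε * (2 * ε)) = q
        simp only [q]; ring
      rw [h2] at h1
      linarith
  have hfin : ∀ s, volume (pos u ∩ Metric.closedBall y s) ≠ ⊤ := fun s =>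
    ((measure_mono Set.inter_subset_right).trans_lt measure_closedBall_lt_top).ne
  have iB : Integrable (B.indicator fun _ : Fin d → ℝ => q) :=
    (integrable_indicator_iff hBm).2 (integrableOn_const (hfin r))
  have iA : Integrable (A.indicator fun _ : Fin d → ℝ => (1 : ℝ)) :=
    (integrable_indicator_iff hAm).2 (integrableOn_const (hfin (r / 2)))
  have h := hcomp.2.trans (integral_mono_ae hcomp.1 (iB.sub iA) hpt)
  rw [integral_sub' iB iA, integral_indicator hBm, integral_indicator hAm, setIntegral_const,
    setIntegral_const, smul_eq_mul, smul_eq_mul, mul_one] at h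
  linarith

/-- Nondegeneracy. -/
theorem nondeg (hM : MeanSpec) : NondegSpec := by
  intro d L
  obtain ⟨C, hC, hmean⟩ := hM d
  set K : ℝ := C * (4 * d) * 8 ^ d
  set ε₀ : ℝ := 1 / (8 * K + 1)
  have hK : 0 ≤ K := by positivity
  have hε₀ : 0 < ε₀ := by positivity
  have hε₁ : ε₀ ≤ 1 := (div_le_one (by positivity)).2 (by linarith)
  refine ⟨ε₀ / 2, by positivity, fun u hu x hx r hr => ?_⟩
  have step : ∀ (y : Fin d → ℝ) (s ε : ℝ), 0 < s → 0 ≤ ε → ε ≤ ε₀ →
      (∀ z ∈ Metric.closedBall y s, u z ≤ ε * s) →
        ∀ z ∈ Metric.closedBall y (s / 4), u z ≤ ε / 2 * (s / 4) := by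
    intro y s ε hs hε hle hb z hz
    set V := fun t => volume.real (pos u ∩ Metric.closedBall y t)
    have hV : V s ≤ (2 * s) ^ d := by
      refine (measureReal_mono Set.inter_subset_right measure_closedBall_lt_top.ne).trans_eq ?_
      rw [measureReal_def, Real.volume_pi_closedBall y hs.le, ENNReal.toReal_ofReal (by positivity),
        Fintype.card_fin]
    have h1 := volume_step hu y hs hε hb
    have h2 : (∫ q in Metric.closedBall z (s / 4), u q) ≤ ε * s * V (s / 2) := by
      have hsub : Metric.closedBall z (s / 4) ⊆ Metric.closedBall y (s / 2) :=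
        Metric.closedBall_subset_closedBall' (by linarith [Metric.mem_closedBall.1 hz])
      calc (∫ q in Metric.closedBall z (s / 4), u q)
          ≤ ∫ q in Metric.closedBall y (s / 2), u q := setIntegral_mono_set
            (hu.lipschitz.continuous.continuousOn.integrableOn_compact (isCompact_closedBall _ _))
            (.of_forall hu.nonneg) hsub.eventuallyLE
        _ = ∫ q in pos u ∩ Metric.closedBall y (s / 2), u q :=
            (setIntegral_eq_of_subset_of_forall_sdiff_eq_zero measurableSet_closedBall Set.inter_subset_right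
              fun q hq => le_antisymm (not_lt.1 fun h => hq.2 ⟨h, hq.1⟩) (hu.nonneg q))
        _ ≤ ∫ _q in pos u ∩ Metric.closedBall y (s / 2), ε * s := setIntegral_mono_on
            ((hu.lipschitz.continuous.continuousOn.integrableOn_compact (isCompact_closedBall _ _)).mono_set
              Set.inter_subset_right)
            (integrableOn_const ((measure_mono Set.inter_subset_right).trans_lt measure_closedBall_lt_top).ne)
            ((measurableSet_pos hu.lipschitz.continuous).inter measurableSet_closedBall)
            fun q hq => hb q (Metric.closedBall_subset_closedBall (by linarith) hq.2)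
        _ = ε * s * V (s / 2) := by rw [setIntegral_const, smul_eq_mul, mul_comm]
    have h3 := hmean u z (s / 4) (by linarith) hu.lipschitz.continuous hu.nonneg
      fun φ hφ hc _ h0 => by
        obtain ⟨P, hP⟩ := hφ.lipschitzWith_of_hasCompactSupport hc (by simp)
        rw [← lapT_eq hu.lipschitz hφ hc]
        exact lapT_nonneg hu hP hc h0
    have h4 : u z ≤ K * ε ^ 3 * s := by
      refine h3.trans ((mul_le_mul_of_nonneg_left (h2.trans (mul_le_mul_of_nonneg_left
        (h1.trans (mul_le_mul_of_nonneg_left hV (by positivity))) (by positivity))) (by positivity)).trans_eq ?_)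
      rw [div_mul_eq_mul_div, div_eq_iff (by positivity)]
      simp only [K]
      rw [show (8 : ℝ) ^ d = 4 ^ d * 2 ^ d by rw [← mul_pow]; norm_num,
        show (2 * s) ^ d = 2 ^ d * s ^ d by rw [mul_pow]]
      rw [show (s / 4) ^ d = s ^ d / 4 ^ d by rw [div_pow]]
      field_simp
    refine h4.trans ?_
    have h5 : ε * (8 * K + 1) ≤ 1 := (le_div_iff₀ (by positivity)).1 hle
    have h6 : 8 * K * (ε * ε) ≤ 1 := by nlinarith [mul_nonneg hK hε]
    nlinarith [mul_nonneg hε hs.le]
  by_contra hcon
  push Not at hcon
  have hzero : ∀ y ∈ Metric.ball x (r / 2), u y = 0 := fun y hy => by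
    have iter : ∀ k : ℕ, ∀ z ∈ Metric.closedBall y (r / 2 / 4 ^ k),
        u z ≤ ε₀ / 2 ^ k * (r / 2 / 4 ^ k) := by
      intro k
      induction k with
      | zero =>
        intro z hz
        rw [pow_zero, div_one] at hz
        have : ‖z - x‖ ≤ r := by
          rw [← dist_eq_norm]
          linarith [dist_triangle z y x, Metric.mem_closedBall.1 hz, Metric.mem_ball.1 hy]
        rw [pow_zero, pow_zero, div_one, div_one]
        linarith [hcon z this]
      | succ k ih =>
        intro z hz
        have h := step y (r / 2 / 4 ^ k) (ε₀ / 2 ^ k) (by positivity) (by positivity)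
          (div_le_self hε₀.le (one_le_pow₀ one_le_two)) ih z (by
            rwa [div_div, ← pow_succ])
        rwa [div_div _ _ (2 : ℝ), ← pow_succ, div_div _ _ (4 : ℝ), ← pow_succ] at h
    have hlim : Tendsto (fun k : ℕ => ε₀ / 2 ^ k * (r / 2 / 4 ^ k)) atTop (𝓝 0) := by
      have h := ((tendsto_pow_atTop_nhds_zero_of_lt_one (r := (1 / 8 : ℝ)) (by norm_num)
        (by norm_num)).const_mul (ε₀ * (r / 2)))
      rw [mul_zero] at h
      refine h.congr fun k => ?_
      rw [one_div_pow, show (8 : ℝ) ^ k = 2 ^ k * 4 ^ k by rw [← mul_pow]; norm_num]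
      field_simp
    exact le_antisymm (ge_of_tendsto hlim (.of_forall fun k => iter k y
      (Metric.mem_closedBall_self (by positivity)))) (hu.nonneg y)
  obtain ⟨y, hy1, hy2⟩ := mem_closure_iff.1 hx _ Metric.isOpen_ball (Metric.mem_ball_self (half_pos hr))
  exact (ne_of_gt (show 0 < u y from hy2)) (hzero y hy1)

end

end Vale.Agent.P098.Reg
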