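import Vale.Agent.P098.Reg.VarBase

/-!
# P098: invariance of minimisers under translations, scalings and isometries
-/

namespace Vale.Agent.P098.Reg

open MeasureTheory Set Filter Topology Finset
open Vale.Agent.P098.Cone
open scoped NNReal

noncomputable section

variable {d : ℕ} {u : (Fin d → ℝ) → ℝ} {L L' : ℝ≥0}

theorem isBounded_eball' (c : Fin d → ℝ) (R : ℝ) : Bornology.IsBounded (Cone.eball c R) := by
  refine isBounded_iff_forall_norm_le.2 ⟨‖c‖ + |R|, fun x hx => ?_⟩
  have hx' : ‖x - c‖ ≤ |R| := (pi_norm_le_iff_of_nonneg (abs_nonneg R)).2 fun i => by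
    rw [Real.norm_eq_abs, ← sq_le_sq]
    exact le_trans (single_le_sum (f := fun j => (x j - c j) ^ 2) (fun j _ => sq_nonneg _)
      (Finset.mem_univ i)) (le_of_lt hx)
  calc ‖x‖ = ‖c + (x - c)‖ := by rw [add_sub_cancel]
    _ ≤ _ := (norm_add_le _ _).trans (by linarith)

theorem abs_apply_le_of_dot (A : (Fin d → ℝ) ≃ₗ[ℝ] (Fin d → ℝ)) (hA : ∀ x y, dot (A x) (A y) = dot x y)
    (x : Fin d → ℝ) : ‖A x‖ ≤ d * ‖x‖ := by
  refine (pi_norm_le_iff_of_nonneg (by positivity)).2 fun i => ?_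
  refine abs_le_of_sq_le_sq ?_ (by positivity)
  have hd : (1 : ℝ) ≤ d := Nat.one_le_cast.2 (lt_of_le_of_lt (Nat.zero_le _) i.2)
  calc A x i ^ 2 ≤ ∑ j, A x j ^ 2 := single_le_sum (f := fun j => A x j ^ 2) (fun j _ => sq_nonneg _)
        (Finset.mem_univ i)
    _ = ∑ j, x j ^ 2 := by simpa only [dot, ← sq] using hA x x
    _ ≤ ∑ _j : Fin d, ‖x‖ ^ 2 := sum_le_sum fun j _ => by
        rw [sq_le_sq, abs_of_nonneg (norm_nonneg x)]
        exact norm_le_pi_norm x j
    _ = d * ‖x‖ ^ 2 := by rw [sum_const, card_univ, Fintype.card_fin, nsmul_eq_mul]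
    _ ≤ (d * ‖x‖) ^ 2 := by
        rw [mul_pow]
        exact mul_le_mul_of_nonneg_right (by nlinarith) (sq_nonneg _)

/-- The energy density commutes with similarities. -/
theorem dens_similar (f : (Fin d → ℝ) → ℝ) (A : (Fin d → ℝ) ≃L[ℝ] (Fin d → ℝ))
    (hA : ∀ x y, dot (A x) (A y) = dot x y) (a : Fin d → ℝ) {r : ℝ} (hr : 0 < r) (y : Fin d → ℝ) :
    dens (fun y => f (a + r • A y) / r) y = dens f (a + r • A y) := by
  set Φ : (Fin d → ℝ) → Fin d → ℝ := fun y => a + r • A y
  have hΦ : ∀ y, HasFDerivAt Φ (r • (A : (Fin d → ℝ) →L[ℝ] (Fin d → ℝ))) y := fun y =>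
    ((A : (Fin d → ℝ) →L[ℝ] (Fin d → ℝ)).hasFDerivAt.const_smul r).const_add a
  have h1 : fderiv ℝ (fun y => f (Φ y) / r) y
      = (fderiv ℝ f (Φ y)).comp (A : (Fin d → ℝ) →L[ℝ] (Fin d → ℝ)) := by
    by_cases hd : DifferentiableAt ℝ f (Φ y)
    · have h := (hd.hasFDerivAt.comp y (hΦ y)).mul_const r⁻¹
      simp only [← div_eq_mul_inv, Function.comp_apply] at h
      rw [h.fderiv]
      ext v
      simp only [smul_apply, ContinuousLinearMap.comp_apply, map_smul, smul_eq_mul]
      field_simp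
    · have hn : ¬ DifferentiableAt ℝ (fun y => f (Φ y) / r) y := fun hv => hd (by
        set Ψ : (Fin d → ℝ) → Fin d → ℝ := fun z => A.symm (r⁻¹ • (z - a))
        have e : f = fun z => r * (f (Φ (Ψ z)) / r) := funext fun z => by
          simp [Φ, Ψ, smul_smul, mul_inv_cancel₀ hr.ne']
          field_simp
        rw [e]
        have hΨ : DifferentiableAt ℝ Ψ (Φ y) :=
          (A.symm : (Fin d → ℝ) →L[ℝ] (Fin d → ℝ)).differentiableAt.comp _
            ((differentiableAt_id.sub_const a).const_smul r⁻¹)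
        have hy : Ψ (Φ y) = y := by simp [Φ, Ψ, smul_smul, inv_mul_cancel₀ hr.ne']
        exact (DifferentiableAt.comp (g := fun y => f (Φ y) / r) (Φ y) (by rw [hy]; exact hv) hΨ).const_mul r)
      rw [fderiv_zero_of_not_differentiableAt hn, fderiv_zero_of_not_differentiableAt hd,
        ContinuousLinearMap.zero_comp]
  set g := grad f (Φ y)
  set h := A.symm g
  have hj : ∀ j, pd (fun y => f (Φ y) / r) j y = h j := fun j => by
    rw [pd, h1, ContinuousLinearMap.comp_apply, fderiv_eq_sum]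
    show dot (A (Pi.single j 1)) g = _
    rw [← A.apply_symm_apply g, hA]
    simp [dot, Pi.single_apply, h]
  have hg : dot g g = dot h h := by
    conv_lhs => rw [← A.apply_symm_apply g, hA]
  have hi : (pos fun y => f (Φ y) / r).indicator (fun _ => (1 : ℝ)) y
      = (pos f).indicator (fun _ => 1) (Φ y) := by
    by_cases hp : 0 < f (Φ y)
    · rw [indicator_of_mem (show Φ y ∈ pos f from hp),
        indicator_of_mem (show y ∈ pos fun y => f (Φ y) / r from div_pos hp hr)]
    · rw [indicator_of_notMem (show Φ y ∉ pos f from hp), indicator_of_notMem fun hh :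
        y ∈ pos (fun y => f (Φ y) / r) => hp ((div_pos_iff_of_pos_right hr).1 hh)]
  show dens (fun y => f (Φ y) / r) y = dens f (Φ y)
  rw [dens, dens, hi, show grad (fun y => f (Φ y) / r) y = h from funext hj, ← hg]

/-- A similar copy of a minimiser is a minimiser. -/
theorem lipMin_similar (hu : LipMin L u) (A : (Fin d → ℝ) ≃ₗ[ℝ] (Fin d → ℝ))
    (hA : ∀ x y, dot (A x) (A y) = dot x y) (a : Fin d → ℝ) {r : ℝ} (hr : 0 < r)
    (hL' : LipschitzWith L' fun y => u (a + r • A y) / r) :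
    LipMin L' fun y => u (a + r • A y) / r := by
  refine ⟨hL', fun y => div_nonneg (hu.nonneg _) hr.le, fun c R _ v ⟨M, hv⟩ hv0 ⟨K, hK, hKB, hvK⟩ => ?_⟩
  set Ac : (Fin d → ℝ) ≃L[ℝ] (Fin d → ℝ) := A.toContinuousLinearEquiv
  set w : (Fin d → ℝ) → ℝ := fun y => u (a + r • A y) / r
  set Φ : (Fin d → ℝ) → Fin d → ℝ := fun y => a + r • Ac y
  set Ψ : (Fin d → ℝ) → Fin d → ℝ := fun z => Ac.symm (r⁻¹ • (z - a))
  have hΨΦ : ∀ y, Ψ (Φ y) = y := fun y => by simp [Φ, Ψ, smul_smul, inv_mul_cancel₀ hr.ne']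
  have hΦΨ : ∀ z, Φ (Ψ z) = z := fun z => by simp [Φ, Ψ, smul_smul, mul_inv_cancel₀ hr.ne']
  set v' : (Fin d → ℝ) → ℝ := fun z => r * v (Ψ z)
  have hv'L : ∃ N, LipschitzWith N v' := ⟨_, (lipschitzWith_smul r).comp (hv.comp
    ((Ac.symm : (Fin d → ℝ) →L[ℝ] (Fin d → ℝ)).lipschitz.comp
      ((lipschitzWith_smul r⁻¹).comp (LipschitzWith.id.sub (LipschitzWith.const a)))))⟩
  have hΦc : Continuous Φ := continuous_const.add (Ac.continuous.const_smul r)
  have hc := competitor d L u v' hu hv'L (fun z => mul_nonneg hr.le (hv0 _))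
    ⟨Φ '' K, hK.image hΦc, fun z hz => by
      have hn : Ψ z ∉ K := fun h => hz ⟨Ψ z, h, hΦΨ z⟩
      show r * v (Ψ z) = u z
      rw [hvK _ hn]
      show r * (u (Φ (Ψ z)) / r) = u z
      rw [hΦΨ, mul_div_cancel₀ _ hr.ne']⟩
  set T : (Fin d → ℝ) →L[ℝ] (Fin d → ℝ) := r • (Ac : (Fin d → ℝ) →L[ℝ] (Fin d → ℝ))
  have hT : 0 < |T.det| := abs_pos.2 (by
    rw [ContinuousLinearMap.det, ContinuousLinearMap.toLinearMap_smul, LinearMap.det_smul]
    exact mul_ne_zero (pow_ne_zero _ hr.ne') A.isUnit_det'.ne_zero)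
  have hv2 : ∀ y, dens v' (Φ y) = dens v y := fun y => by
    rw [← dens_similar v' Ac hA a hr y]
    congr 1
    funext z
    show r * v (Ψ (Φ z)) / r = v z
    rw [hΨΦ, mul_div_cancel_left₀ _ hr.ne']
  have hu2 : ∀ y, dens u (Φ y) = dens w y := fun y => (dens_similar u Ac hA a hr y).symm
  have hint := integral_image_eq_integral_abs_det_fderiv_smul volume MeasurableSet.univ (f := Φ)
    (fun y _ => (((Ac : (Fin d → ℝ) →L[ℝ] (Fin d → ℝ)).hasFDerivAt.const_smul r).const_add a
      ).hasFDerivWithinAt)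
    (Function.LeftInverse.injective hΨΦ).injOn (fun z => dens v' z - dens u z)
  rw [Set.image_univ, (Function.RightInverse.surjective hΦΨ).range_eq, setIntegral_univ,
    setIntegral_univ] at hint
  simp only [hv2, hu2, smul_eq_mul] at hint
  rw [integral_const_mul] at hint
  have h : 0 ≤ ∫ y, (dens v y - dens w y) := (mul_nonneg_iff_of_pos_left hT).1 (hint ▸ hc.2)
  have h0 : ∀ y ∉ Cone.eball c R, dens v y - dens w y = 0 := fun y hy => sub_eq_zero.2 (dens_congr (by
    filter_upwards [hK.isClosed.isOpen_compl.mem_nhds fun hh => hy (hKB hh)] with z hz using hvK z hz))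
  rw [← setIntegral_eq_integral_of_forall_compl_eq_zero h0, integral_sub
    (integrableOn_dens hv (isBounded_eball' c R)) (integrableOn_dens hL' (isBounded_eball' c R))] at h
  rw [energy_eq, energy_eq]
  linarith

/-- Invariance under translation and scaling. -/
theorem rescale_min : RescaleSpec := by
  intro d L u x r hu hr
  refine lipMin_similar hu (LinearEquiv.refl ℝ _) (fun _ _ => rfl) x hr
    (LipschitzWith.of_dist_le_mul fun y z => ?_)
  have h := hu.lipschitz.dist_le_mul (x + r • y) (x + r • z)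
  rw [dist_add_left, dist_smul₀, Real.norm_eq_abs, abs_of_pos hr] at h
  simp only [LinearEquiv.refl_apply, Real.dist_eq] at h ⊢
  rw [← sub_div, abs_div, abs_of_pos hr, div_le_iff₀ hr]
  linarith

/-- Invariance under linear isometries of the inner product. -/
theorem rotate_min : RotateSpec := by
  intro d L u A hu hA
  have hL : LipschitzWith (L * d) fun x => u (A x) := LipschitzWith.of_dist_le_mul fun y z => by
    refine (hu.lipschitz.dist_le_mul (A y) (A z)).trans ?_
    rw [NNReal.coe_mul, NNReal.coe_natCast, mul_assoc]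
    refine mul_le_mul_of_nonneg_left ?_ L.2
    rw [dist_eq_norm, dist_eq_norm, ← map_sub]
    exact abs_apply_le_of_dot A hA _
  have e : (fun y => u (0 + (1 : ℝ) • A y) / 1) = fun x => u (A x) := funext fun y => by simp
  have h := lipMin_similar hu A hA 0 one_pos (L' := L * d) (by rw [e]; exact hL)
  rwa [e] at h

end

end Vale.Agent.P098.Reg
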