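import Vale.Agent.P098.Reg.LimitSpecs
import Vale.Agent.P098.Reg.VarBase
import Vale.Agent.P098.Reg.HarmCompact
import Vale.Agent.P098.Reg.BlowBasic
import Vale.Agent.P098.Reg.VarScale
import Vale.Agent.P098.Reg.VarLap
import Vale.Agent.P098.Reg.VarNondeg
import Vale.Agent.P098.Reg.HarmWeyl

/-!
# P098: pointwise limits of minimisers

The free boundary of a limit is null by nondegeneracy and Lebesgue density. Off it the densities
converge: where the limit is positive by interior estimates, in the interior of its zero set because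
the minimisers vanish there eventually. Minimality passes to the limit by an interpolated competitor.
-/

namespace Vale.Agent.P098.Reg

open MeasureTheory Set Filter Topology Metric
open Vale.Agent.P098.Cone
open scoped NNReal ENNReal

noncomputable section

variable {d : ℕ} {L : ℝ≥0} {u : ℕ → (Fin d → ℝ) → ℝ} {u0 : (Fin d → ℝ) → ℝ}

/-- Lipschitz functions vanishing at the origin have a pointwise convergent subsequence. -/
theorem subseq : SubseqSpec := by
  intro d L u hu h0
  obtain ⟨D, hDc, hDd⟩ := TopologicalSpace.exists_countable_dense (Fin d → ℝ)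
  have : Countable D := hDc.to_subtype
  obtain ⟨φ, hφ, hl⟩ := exists_subseq (fun n (q : D) => u n q) (fun q => (L : ℝ) * ‖(q : Fin d → ℝ)‖)
    fun q => .of_forall fun n => by rw [Real.norm_eq_abs]; exact Blow.abs_le_lip (hu n) (h0 n) _
  refine ⟨φ, fun y => limUnder atTop fun n => u (φ n) y, hφ, fun y => ?_⟩
  refine (uniform_of_dense hDd (f := fun n => u (φ n)) (z := y) (ρ := 1) one_pos L.2
    (.of_forall fun n z _ z' _ => ?_) fun q hq _ => hl ⟨q, hq⟩).tendsto_at
    (mem_closedBall_self (by norm_num))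
  rw [Real.norm_eq_abs]
  exact Blow.abs_sub_le_lip (hu _) z z'

theorem lim_lipschitz (hu : ∀ n, LipMin L (u n))
    (hl : ∀ y, Tendsto (fun n => u n y) atTop (𝓝 (u0 y))) : LipschitzWith L u0 :=
  Blow.lipschitz_of_tendsto (fun n => (hu n).lipschitz) hl

theorem lim_nonneg (hu : ∀ n, LipMin L (u n))
    (hl : ∀ y, Tendsto (fun n => u n y) atTop (𝓝 (u0 y))) (y : Fin d → ℝ) : 0 ≤ u0 y :=
  ge_of_tendsto' (hl y) fun n => (hu n).nonneg y

/-- Nondegeneracy passes to the limit. -/
theorem lim_nondeg {c : ℝ}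
    (hc : ∀ v : (Fin d → ℝ) → ℝ, LipMin L v →
      ∀ x ∈ closure (pos v), ∀ r : ℝ, 0 < r → ∃ y, ‖y - x‖ ≤ r ∧ c * r ≤ v y)
    (hu : ∀ n, LipMin L (u n)) (hl : ∀ y, Tendsto (fun n => u n y) atTop (𝓝 (u0 y)))
    {x : Fin d → ℝ} (hx : x ∈ closure (pos u0)) {r : ℝ} (hr : 0 < r) :
    ∃ y, ‖y - x‖ ≤ 2 * r ∧ c * r ≤ u0 y := by
  obtain ⟨z, hz, hxz⟩ := Metric.mem_closure_iff.1 hx r hr
  have hev : ∀ᶠ n in atTop, ∃ y, ‖y - z‖ ≤ r ∧ c * r ≤ u n y := by
    filter_upwards [(hl z).eventually (lt_mem_nhds (show 0 < u0 z from hz))] with n hn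
    exact hc _ (hu n) z (subset_closure hn) r hr
  obtain ⟨N, hN⟩ := eventually_atTop.1 hev
  choose y hy using fun n => hN (N + n) (Nat.le_add_right N n)
  obtain ⟨q, -, ψ, hψ, hq⟩ := (isCompact_closedBall z r).tendsto_subseq
    fun n => (by rw [mem_closedBall, dist_eq_norm]; exact (hy n).1 : y n ∈ closedBall z r)
  have ht : Tendsto (fun n => N + ψ n) atTop atTop :=
    tendsto_atTop_mono (fun n => Nat.le_add_left _ _) hψ.tendsto_atTop
  refine ⟨q, ?_, ge_of_tendsto' (Blow.tendsto_moving (w := fun n => u (N + ψ n))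
    (fun n => (hu _).lipschitz) (fun p => (hl p).comp ht) hq) fun n => (hy (ψ n)).2⟩
  have h1 : ‖q - z‖ ≤ r := le_of_tendsto' ((hq.sub_const z).norm) fun n => (hy (ψ n)).1
  rw [dist_eq_norm, norm_sub_rev] at hxz
  linarith [norm_sub_le_norm_sub_add_norm_sub q z x]

/-- The free boundary of a limit is null. -/
theorem lim_fb_null (hN : NondegSpec) (hu : ∀ n, LipMin L (u n))
    (hl : ∀ y, Tendsto (fun n => u n y) atTop (𝓝 (u0 y))) : volume (fb u0) = 0 := by
  obtain ⟨c, hc0, hc⟩ := hN d L
  have hlip := lim_lipschitz hu hl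
  have hopen : IsOpen (pos u0) := isOpen_lt continuous_const hlip.continuous
  have hcL : (L : ℝ) * c < c * (L + c + 1) := by linarith [mul_pos hc0 hc0]
  set κ := c / (L + c + 1) with hκ
  have hκ0 : 0 < κ := by positivity
  have hκ1 : κ ≤ 1 := (div_le_one (by positivity)).2 (by linarith [L.2])
  have key : ∀ᵐ x ∂(volume.restrict (fb u0)), False := by
    filter_upwards [Besicovitch.ae_tendsto_measure_inter_div volume (fb u0),
      ae_restrict_mem isClosed_frontier.measurableSet] with x hx hxs
    have h1 := (ENNReal.tendsto_toReal ENNReal.one_ne_top).comp hx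
    have h2 : ∀ᶠ R in 𝓝[>] (0 : ℝ),
        (volume (fb u0 ∩ closedBall x R) / volume (closedBall x R)).toReal ≤ 1 - (κ / 3) ^ d := by
      filter_upwards [self_mem_nhdsWithin] with R (hR : 0 < R)
      obtain ⟨y, hy, hcy⟩ := lim_nondeg hc hu hl (frontier_subset_closure hxs)
        (show 0 < R / 3 by positivity)
      have hsub : ball y (κ * (R / 3)) ⊆ closedBall x R \ (fb u0) := by
        intro z hz
        rw [mem_ball, dist_eq_norm] at hz
        have h3 : κ * (R / 3) ≤ R / 3 := mul_le_of_le_one_left (by positivity) hκ1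
        refine ⟨?_, fun hzf => ?_⟩
        · rw [mem_closedBall, dist_eq_norm]
          linarith [norm_sub_le_norm_sub_add_norm_sub z y x]
        · have h4 := (abs_le.1 (Blow.abs_sub_le_lip hlip z y)).1
          have h5 : (L : ℝ) * ‖z - y‖ < c * (R / 3) := by
            refine (mul_le_mul_of_nonneg_left hz.le L.2).trans_lt ?_
            rw [← mul_assoc]
            refine mul_lt_mul_of_pos_right ?_ (by positivity)
            rw [hκ, mul_div_assoc', div_lt_iff₀ (by positivity)]
            exact hcL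
          have h6 : 0 < u0 z := by linarith
          rw [fb, hopen.frontier_eq] at hzf
          exact hzf.2 h6
      have hmeas : volume (fb u0 ∩ closedBall x R) + volume (ball y (κ * (R / 3))) ≤
          volume (closedBall x R) := by
        rw [← measure_union (disjoint_left.2 fun z h3 h4 => (hsub h4).2 h3.1) measurableSet_ball]
        exact measure_mono (union_subset inter_subset_right fun z hz => (hsub hz).1)
      have fin : volume (closedBall x R) ≠ ⊤ := measure_closedBall_lt_top.ne
      have e1 : (volume (closedBall x R)).toReal = (2 * R) ^ d := by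
        rw [Real.volume_pi_closedBall x hR.le, ENNReal.toReal_ofReal (by positivity), Fintype.card_fin]
      have e2 : (volume (ball y (κ * (R / 3)))).toReal = (2 * (κ * (R / 3))) ^ d := by
        rw [Real.volume_pi_ball y (by positivity), ENNReal.toReal_ofReal (by positivity), Fintype.card_fin]
      have h7 := ENNReal.toReal_mono fin hmeas
      rw [ENNReal.toReal_add (measure_ne_top_of_subset inter_subset_right fin)
        measure_ball_lt_top.ne, e1, e2, show 2 * (κ * (R / 3)) = κ / 3 * (2 * R) by ring, mul_pow] at h7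
      rw [ENNReal.toReal_div, e1, div_le_iff₀ (by positivity)]
      linarith
    have h3 := le_of_tendsto h1 h2
    simp only [ENNReal.toReal_one] at h3
    linarith [pow_pos (show 0 < κ / 3 by positivity) d]
  rw [eventually_false_iff_eq_bot, ae_eq_bot, Measure.restrict_eq_zero] at key
  exact key

/-- Off the closure of the positivity set of the limit the sequence vanishes eventually. -/
theorem lim_eventually_zero (hN : NondegSpec) (hu : ∀ n, LipMin L (u n))
    (hl : ∀ y, Tendsto (fun n => u n y) atTop (𝓝 (u0 y))) {x : Fin d → ℝ}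
    (hx : x ∉ closure (pos u0)) :
    (u0 =ᶠ[𝓝 x] fun _ => 0) ∧ ∀ᶠ n in atTop, u n =ᶠ[𝓝 x] fun _ => 0 := by
  obtain ⟨c, hc0, hc⟩ := hN d L
  obtain ⟨ε, hε, hball⟩ := Metric.isOpen_iff.1 isClosed_closure.isOpen_compl x hx
  have hz : ∀ y ∈ ball x ε, u0 y = 0 := fun y hy =>
    le_antisymm (not_lt.1 fun h => hball hy (subset_closure h)) (lim_nonneg hu hl y)
  refine ⟨eventually_of_mem (ball_mem_nhds x hε) hz, ?_⟩
  filter_upwards [Blow.unif_of_pointwise (fun n => (hu n).lipschitz) (lim_lipschitz hu hl) hl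
    (isCompact_closedBall x (ε / 2)) (show 0 < c * (ε / 4) / 2 by positivity)] with n hn
  refine eventually_of_mem (ball_mem_nhds x (show 0 < ε / 4 by positivity)) fun y hy => ?_
  by_contra h
  obtain ⟨z, hzy, hcz⟩ := hc _ (hu n) y
    (subset_closure (lt_of_le_of_ne ((hu n).nonneg y) (Ne.symm h) : 0 < u n y)) (ε / 4) (by positivity)
  rw [mem_ball, dist_eq_norm] at hy
  have hzx : ‖z - x‖ ≤ ε / 2 := by linarith [norm_sub_le_norm_sub_add_norm_sub z y x]
  have h2 := (abs_le.1 (hn z (by rwa [mem_closedBall, dist_eq_norm]))).2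
  rw [hz z (by rw [mem_ball, dist_eq_norm]; linarith)] at h2
  linarith [mul_pos hc0 (show 0 < ε / 4 by positivity)]

/-- Where the limit is positive the gradients converge. -/
theorem lim_grad (hH : MinHarmSpec) (hC : CompactSpec) (hu : ∀ n, LipMin L (u n))
    (hl : ∀ y, Tendsto (fun n => u n y) atTop (𝓝 (u0 y))) {x : Fin d → ℝ} (hx : 0 < u0 x) :
    Tendsto (fun n => grad (u n) x) atTop (𝓝 (grad u0 x)) := by
  have hlip := lim_lipschitz hu hl
  set δ := u0 x / (4 * (L + 1)) with hδ
  have hδ0 : 0 < δ := by positivity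
  have hLδ : (L : ℝ) * δ ≤ u0 x / 4 := by
    rw [hδ, mul_div_assoc', div_le_div_iff₀ (by positivity) (by norm_num)]
    nlinarith [L.2]
  refine tendsto_of_subseq_tendsto fun ns hns => ?_
  obtain ⟨φ, w, hφ, -, hw⟩ := hC d (ball x δ) (fun n => u (ns n)) (2 * u0 x) isOpen_ball
    fun K hK hKs => by
      filter_upwards [hns.eventually ((hl x).eventually (Ioo_mem_nhds
        (show u0 x / 2 < u0 x by linarith) (show u0 x < 3 / 2 * u0 x by linarith)))] with n hn
      have hb : ∀ y ∈ ball x δ, |u (ns n) y - u (ns n) x| ≤ u0 x / 4 := fun y hy => by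
        refine (Blow.abs_sub_le_lip (hu _).lipschitz y x).trans
          ((mul_le_mul_of_nonneg_left ?_ L.2).trans hLδ)
        rw [← dist_eq_norm]; exact (mem_ball.1 hy).le
      refine ⟨fun y hy => ?_, pos (u (ns n)), isOpen_lt continuous_const (hu _).lipschitz.continuous,
        fun y hy => ?_, (hH d L _ (hu _)).1⟩
      · have := abs_le.1 (hb y (hKs hy))
        rw [abs_le]; constructor <;> linarith [hn.1, hn.2]
      · have := abs_le.1 (hb y (hKs hy))
        show 0 < u (ns n) y
        linarith [hn.1]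
  refine ⟨φ, ?_⟩
  have e : ∀ y ∈ ball x δ, w y = u0 y := fun y hy =>
    tendsto_nhds_unique ((hw {y} isCompact_singleton (singleton_subset_iff.2 hy)).1.tendsto_at rfl)
      ((hl y).comp (hns.comp hφ.tendsto_atTop))
  have he : w =ᶠ[𝓝 x] u0 := eventually_of_mem (ball_mem_nhds x hδ0) e
  have h := (hw {x} isCompact_singleton (singleton_subset_iff.2 (mem_ball_self hδ0))).2.tendsto_at rfl
  rwa [show grad w x = grad u0 x from funext fun i => pd_congr he i] at h

/-- The dichotomy that holds almost everywhere. -/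
theorem lim_ae (hN : NondegSpec) (hH : MinHarmSpec) (hC : CompactSpec) (hu : ∀ n, LipMin L (u n))
    (hl : ∀ y, Tendsto (fun n => u n y) atTop (𝓝 (u0 y))) :
    ∀ᵐ x, (0 < u0 x ∧ Tendsto (fun n => grad (u n) x) atTop (𝓝 (grad u0 x))) ∨
      ((u0 =ᶠ[𝓝 x] fun _ => 0) ∧ ∀ᶠ n in atTop, u n =ᶠ[𝓝 x] fun _ => 0) := by
  filter_upwards [measure_eq_zero_iff_ae_notMem.1 (lim_fb_null hN hu hl)] with x hx
  by_cases h : 0 < u0 x
  · exact .inl ⟨h, lim_grad hH hC hu hl h⟩
  · refine .inr (lim_eventually_zero hN hu hl fun hcl => hx ?_)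
    rw [fb, IsOpen.frontier_eq (s := pos u0)
      (isOpen_lt continuous_const (lim_lipschitz hu hl).continuous)]
    exact ⟨hcl, h⟩

theorem tendsto_dens_of_pos {w : ℕ → (Fin d → ℝ) → ℝ} {v : (Fin d → ℝ) → ℝ} {x : Fin d → ℝ}
    (hp : ∀ᶠ n in atTop, 0 < w n x) (hv : 0 < v x)
    (hg : Tendsto (fun n => grad (w n) x) atTop (𝓝 (grad v x))) :
    Tendsto (fun n => dens (w n) x) atTop (𝓝 (dens v x)) := by
  have h1 : Tendsto (fun n => dot (grad (w n) x) (grad (w n) x) + 1) atTop (𝓝 (dens v x)) := by
    rw [dens_of_pos hv]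
    exact (((continuous_finsetSum _ fun i _ => (continuous_apply i).mul (continuous_apply i) :
      Continuous fun g : Fin d → ℝ => dot g g).tendsto _).comp hg).add_const 1
  refine h1.congr' ?_
  filter_upwards [hp] with n hn
  exact (dens_of_pos hn).symm

theorem lim_dens
    (hl : ∀ y, Tendsto (fun n => u n y) atTop (𝓝 (u0 y))) {x : Fin d → ℝ}
    (hx : (0 < u0 x ∧ Tendsto (fun n => grad (u n) x) atTop (𝓝 (grad u0 x))) ∨
      ((u0 =ᶠ[𝓝 x] fun _ => 0) ∧ ∀ᶠ n in atTop, u n =ᶠ[𝓝 x] fun _ => 0)) :
    Tendsto (fun n => dens (u n) x) atTop (𝓝 (dens u0 x)) := by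
  rcases hx with ⟨h, hg⟩ | ⟨h, he⟩
  · exact tendsto_dens_of_pos ((hl x).eventually (lt_mem_nhds h)) h hg
  · refine tendsto_nhds_of_eventually_eq ?_
    filter_upwards [he] with n hn
    exact dens_congr (hn.trans h.symm)

theorem pd_mix {f g χ : (Fin d → ℝ) → ℝ} {x : Fin d → ℝ} (hf : DifferentiableAt ℝ f x)
    (hg : DifferentiableAt ℝ g x) (hχ : DifferentiableAt ℝ χ x) (i : Fin d) :
    pd (fun y => f y + χ y * (g y - f y)) i x =
      pd f i x + ((g x - f x) * pd χ i x + χ x * (pd g i x - pd f i x)) := by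
  have h : HasFDerivAt (fun y => f y + χ y * (g y - f y))
      (fderiv ℝ f x + (χ x • (fderiv ℝ g x - fderiv ℝ f x) + (g x - f x) • fderiv ℝ χ x)) x :=
    hf.hasFDerivAt.add (hχ.hasFDerivAt.mul (hg.hasFDerivAt.sub hf.hasFDerivAt))
  simp only [pd, h.fderiv, add_apply, smul_apply,
    sub_apply, smul_eq_mul]
  ring

/-- A cutoff equal to one near a compact set. -/
theorem exists_cut {K : Set (Fin d → ℝ)} (hK : IsCompact K) :
    ∃ (K' : Set (Fin d → ℝ)) (χ : (Fin d → ℝ) → ℝ) (M : ℝ≥0), IsCompact K' ∧ LipschitzWith M χ ∧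
      HasCompactSupport χ ∧ (∀ x, 0 ≤ χ x ∧ χ x ≤ 1) ∧ (∀ x ∈ K, χ =ᶠ[𝓝 x] fun _ => 1) ∧
      ∀ x ∉ K', χ x = 0 := by
  obtain ⟨R, hR⟩ := hK.isBounded.subset_closedBall (0 : Fin d → ℝ)
  refine ⟨closedBall 0 (R + 2), fun x => min 1 (max 0 (R + 2 - ‖x‖)), 1,
    isCompact_closedBall _ _, ?_, ?_, fun x => ⟨le_min zero_le_one (le_max_left _ _), min_le_left _ _⟩,
    fun x hx => ?_, fun x hx => ?_⟩
  · have h : LipschitzWith 1 fun x : Fin d → ℝ => R + 2 - ‖x‖ :=
      LipschitzWith.of_dist_le_mul fun x y => by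
        rw [Real.dist_eq, NNReal.coe_one, one_mul, dist_eq_norm, sub_sub_sub_cancel_left,
          norm_sub_rev]
        exact abs_norm_sub_norm_le y x
    exact (h.const_max 0).const_min 1
  · refine HasCompactSupport.intro (isCompact_closedBall 0 (R + 2)) fun x hx => ?_
    rw [mem_closedBall_zero_iff, not_le] at hx
    rw [max_eq_left (by linarith), min_eq_right zero_le_one]
  · filter_upwards [ball_mem_nhds x one_pos] with y hy
    have := mem_closedBall_zero_iff.1 (hR hx)
    rw [mem_ball, dist_eq_norm] at hy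
    exact min_eq_left (le_max_of_le_right (by linarith [norm_le_norm_add_norm_sub' y x]))
  · rw [mem_closedBall_zero_iff, not_le] at hx
    simp only
    rw [max_eq_left (by linarith), min_eq_right zero_le_one]

/-- Comparison passes to the limit. -/
theorem lim_compare (hN : NondegSpec) (hH : MinHarmSpec) (hC : CompactSpec) (hu : ∀ n, LipMin L (u n))
    (hl : ∀ y, Tendsto (fun n => u n y) atTop (𝓝 (u0 y))) {v : (Fin d → ℝ) → ℝ} {N : ℝ≥0}
    (hv : LipschitzWith N v) (hv0 : ∀ x, 0 ≤ v x) {K : Set (Fin d → ℝ)} (hK : IsCompact K)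
    (hvK : ∀ x ∉ K, v x = u0 x) :
    Integrable (fun x => dens v x - dens u0 x) ∧ 0 ≤ ∫ x, (dens v x - dens u0 x) := by
  have hlip := lim_lipschitz hu hl
  obtain ⟨K', χ, M, hK', hχ, hχc, hχ1, hχK, hχ0⟩ := exists_cut hK
  set w : ℕ → (Fin d → ℝ) → ℝ := fun n x => u n x + χ x * (v x - u n x) with hw
  have hwlip : ∀ n, ∃ P, LipschitzWith P (w n) := fun n => by
    obtain ⟨P, hP⟩ := exists_lipschitz_mul (hv.sub (hu n).lipschitz) hχ hχc
    refine ⟨L + P, ?_⟩
    have := (hu n).lipschitz.add hP
    simpa only [hw, Pi.sub_apply, mul_comm] using this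
  have hw0 : ∀ n x, 0 ≤ w n x := fun n x => by
    have h1 := mul_nonneg (sub_nonneg.2 (hχ1 x).2) ((hu n).nonneg x)
    have h2 := mul_nonneg (hχ1 x).1 (hv0 x)
    simp only [hw]
    linarith
  have hcomp := fun n => competitor d L (u n) (w n) (hu n) (hwlip n) (hw0 n)
    ⟨K', hK', fun x hx => by simp [hw, hχ0 x hx]⟩
  have hcl : IsOpen K'ᶜ := hK'.isClosed.isOpen_compl
  obtain ⟨A, hA⟩ := hK'.exists_bound_of_continuousOn
    (f := fun x => v x - u0 x) (hv.continuous.sub hlip.continuous).continuousOn
  set P : ℝ := L + (max A 0 + 1) * M + (N + L) with hP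
  set C : ℝ := d * P ^ 2 + 1 + (d * (L * L) + 1) with hCd
  have hlim : Tendsto (fun n => ∫ x, (dens (w n) x - dens (u n) x)) atTop
      (𝓝 (∫ x, (dens v x - dens u0 x))) ∧ Integrable fun x => dens v x - dens u0 x := by
    have hdiff : ∀ᵐ x, (∀ n, DifferentiableAt ℝ (u n) x) ∧ DifferentiableAt ℝ v x ∧
        DifferentiableAt ℝ χ x := (ae_all_iff.2 fun n => (hu n).lipschitz.ae_differentiableAt).and
      (hv.ae_differentiableAt.and hχ.ae_differentiableAt)
    have hm : ∀ n, AEStronglyMeasurable (fun x => dens (w n) x - dens (u n) x)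
        (volume : Measure (Fin d → ℝ)) := fun n =>
      ((measurable_dens (hwlip n).choose_spec.continuous).sub
        (measurable_dens (hu n).lipschitz.continuous)).aestronglyMeasurable
    have hBi : Integrable (K'.indicator fun _ : Fin d → ℝ => C) :=
      (integrable_indicator_iff hK'.isClosed.measurableSet).2
        (continuousOn_const.integrableOn_compact hK')
    have hbd : ∀ᶠ n in atTop, ∀ᵐ x, ‖dens (w n) x - dens (u n) x‖ ≤ K'.indicator (fun _ => C) x := by
      filter_upwards [Blow.unif_of_pointwise (fun n => (hu n).lipschitz) hlip hl hK' one_pos] with n hn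
      filter_upwards [hdiff] with x hx
      by_cases hxK : x ∈ K'
      · rw [indicator_of_mem hxK]
        have hpd : ∀ i, |pd (w n) i x| ≤ P := fun i => by
          simp only [hw]
          rw [pd_mix (hx.1 n) hx.2.1 hx.2.2]
          have a1 : |v x - u n x| ≤ max A 0 + 1 := by
            have b1 := abs_le.1 ((Real.norm_eq_abs _).symm.le.trans ((hA x hxK).trans (le_max_left A 0)))
            have b2 := abs_le.1 (hn x hxK)
            rw [abs_le]; constructor <;> linarith
          have a2 := Blow.abs_pd_le_lip hχ i x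
          have a3 := abs_le.1 (Blow.abs_pd_le_lip (hu n).lipschitz i x)
          have a4 := abs_le.1 (Blow.abs_pd_le_lip hv i x)
          have a5 : |(v x - u n x) * pd χ i x| ≤ (max A 0 + 1) * M := by
            rw [abs_mul]
            exact mul_le_mul a1 a2 (abs_nonneg _) (by positivity)
          have a6 : |χ x * (pd v i x - pd (u n) i x)| ≤ N + L := by
            rw [abs_mul, abs_of_nonneg (hχ1 x).1]
            refine (mul_le_of_le_one_left (abs_nonneg _) (hχ1 x).2).trans (abs_le.2 ?_)
            constructor <;> linarith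
          refine (abs_add_le _ _).trans ?_
          refine (add_le_add (abs_le.2 a3) ((abs_add_le _ _).trans (add_le_add a5 a6))).trans ?_
          rw [hP]; linarith
        have hd1 : dens (w n) x ≤ d * P ^ 2 + 1 := by
          refine add_le_add ((Finset.sum_le_sum fun i _ => ?_).trans_eq (by
            rw [Finset.sum_const, Finset.card_univ, Fintype.card_fin, nsmul_eq_mul]))
            (indicator_le' (fun _ _ => le_rfl) (fun _ _ => zero_le_one) _)
          have := abs_le.1 (hpd i)
          simp only [grad]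
          nlinarith
        rw [Real.norm_eq_abs, abs_le, hCd]
        constructor <;>
          linarith [dens_nonneg (w n) x, dens_nonneg (u n) x, dens_le (hu n).lipschitz x,
            show 0 ≤ (d : ℝ) * P ^ 2 by positivity, show 0 ≤ (d : ℝ) * (L * L) by positivity]
      · rw [indicator_of_notMem hxK, dens_congr (show w n =ᶠ[𝓝 x] u n by
          filter_upwards [hcl.mem_nhds hxK] with y hy
          simp [hw, hχ0 y hy]), sub_self, norm_zero]
    have hpt : ∀ᵐ x, Tendsto (fun n => dens (w n) x - dens (u n) x) atTop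
        (𝓝 (dens v x - dens u0 x)) := by
      filter_upwards [lim_ae hN hH hC hu hl, hdiff] with x hx hxd
      refine Tendsto.sub ?_ (lim_dens hl hx)
      by_cases hxK : x ∈ K
      · refine tendsto_nhds_of_eventually_eq (.of_forall fun n => dens_congr ?_)
        filter_upwards [hχK x hxK] with y hy
        simp [hw, hy]
      · have hvx : v =ᶠ[𝓝 x] u0 := by
          filter_upwards [hK.isClosed.isOpen_compl.mem_nhds hxK] with y hy using hvK y hy
        rcases hx with ⟨h, hg⟩ | ⟨h, he⟩
        · have hwx : Tendsto (fun n => w n x) atTop (𝓝 (u0 x)) := by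
            have := (hl x).add (((tendsto_const_nhds (x := v x)).sub (hl x)).const_mul (χ x))
            simpa only [hw, hvx.eq_of_nhds, sub_self, mul_zero, add_zero] using this
          refine tendsto_dens_of_pos (hwx.eventually (lt_mem_nhds h))
            (by rw [hvx.eq_of_nhds]; exact h) (tendsto_pi_nhds.2 fun i => ?_)
          have hgi : Tendsto (fun n => pd (u n) i x) atTop (𝓝 (pd u0 i x)) := tendsto_pi_nhds.1 hg i
          have := hgi.add ((((tendsto_const_nhds (x := v x)).sub (hl x)).mul_const (pd χ i x)).add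
            (((tendsto_const_nhds (x := pd v i x)).sub hgi).const_mul (χ x)))
          rw [hvx.eq_of_nhds, pd_congr hvx i] at this
          simp only [sub_self, zero_mul, mul_zero, add_zero] at this
          simp only [grad, pd_congr hvx i]
          refine this.congr fun n => ?_
          simp only [hw]
          rw [pd_mix (hxd.1 n) hxd.2.1 hxd.2.2, hvx.eq_of_nhds, pd_congr hvx i]
        · refine tendsto_nhds_of_eventually_eq ?_
          filter_upwards [he] with n hn
          refine dens_congr ?_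
          filter_upwards [hn, h, hvx] with y h1 h2 h3
          simp [hw, h1, h2, h3]
    refine ⟨tendsto_integral_filter_of_dominated_convergence _ (.of_forall hm) hbd hBi hpt, ?_⟩
    refine hBi.mono' (((measurable_dens hv.continuous).sub
      (measurable_dens hlip.continuous)).aestronglyMeasurable) ?_
    obtain ⟨n₀, hn₀⟩ := eventually_atTop.1 hbd
    filter_upwards [hpt, ae_all_iff.2 fun n => hn₀ (n₀ + n) (Nat.le_add_right _ _)] with x h1 h2
    exact le_of_tendsto' ((h1.comp (tendsto_atTop_mono (fun n => Nat.le_add_left n n₀) tendsto_id)).norm)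
      h2
  exact ⟨hlim.2, ge_of_tendsto' hlim.1 fun n => (hcomp n).2⟩

/-- A pointwise limit of minimisers is a minimiser, and the densities converge almost everywhere. -/
theorem limit (hN : NondegSpec) (hH : MinHarmSpec) (hC : CompactSpec) : LimitSpec := by
  intro d L u u0 hu hl
  have hlip := lim_lipschitz hu hl
  refine ⟨⟨hlip, lim_nonneg hu hl, fun c R _ v ⟨N, hv⟩ hv0 ⟨K, hK, hKR, hvK⟩ => ?_⟩, ?_⟩
  · obtain ⟨-, h⟩ := lim_compare hN hH hC hu hl hv hv0 hK hvK
    have h0 : ∀ x ∉ eball c R, dens v x - dens u0 x = 0 := fun x hx => sub_eq_zero.2 (dens_congr (by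
      filter_upwards [hK.isClosed.isOpen_compl.mem_nhds fun hh => hx (hKR hh)] with y hy
        using hvK y hy))
    rw [energy_eq, energy_eq]
    rw [← setIntegral_eq_integral_of_forall_compl_eq_zero h0,
      integral_sub (integrableOn_dens hv (isBounded_eball' c R))
        (integrableOn_dens hlip (isBounded_eball' c R))] at h
    linarith
  · filter_upwards [lim_ae hN hH hC hu hl] with x hx using lim_dens hl hx

/-- `LimitSpec`, without hypotheses. -/
theorem limit_spec : LimitSpec := limit (nondeg mean) (minHarm weyl) compact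

end

end Vale.Agent.P098.Reg
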