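import Vale.Agent.P098.Reg.BlowReduce
import Vale.Agent.P098.Reg.Limit
import Vale.Agent.P098.Reg.VarStat

/-!
# P098: blow-ups of homogeneous minimisers and uniform flatness
-/

namespace Vale.Agent.P098.Reg.Blow

open MeasureTheory Set Filter Topology Metric
open Vale.Agent.P098.Cone Vale.Agent.P098.Reg
open scoped NNReal

noncomputable section

variable {d : ℕ} {L : ℝ≥0} {u v : (Fin d → ℝ) → ℝ}

theorem rescale_origin_one (u : (Fin d → ℝ) → ℝ) : rescale u 0 1 = u := by
  funext y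
  simp [rescale]

/-- The functional at all scales passes to limits of minimisers vanishing at the origin. -/
theorem weiss_lim (hres : RescaleSpec) (hlim : LimitSpec) {w : ℕ → (Fin d → ℝ) → ℝ}
    {w0 : (Fin d → ℝ) → ℝ} (hw : ∀ n, LipMin L (w n)) (hz : ∀ n, w n 0 = 0)
    (hl : ∀ y, Tendsto (fun n => w n y) atTop (𝓝 (w0 y))) {s : ℝ} (hs : 0 < s) :
    Tendsto (fun n => weiss (rescale (w n) 0 s)) atTop (𝓝 (weiss (rescale w0 0 s))) := by
  have hm : ∀ n, LipMin L (rescale (w n) 0 s) := fun n => hres d L _ 0 s (hw n) hs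
  have hl' : ∀ y, Tendsto (fun n => rescale (w n) 0 s y) atTop (𝓝 (rescale w0 0 s y)) := fun y => by
    simp only [rescale_zero_apply]
    exact (hl _).div_const s
  exact weiss_tendsto (fun n => (hm n).lipschitz) (fun n => rescale_at_zero (hz n) s) hl'
    (hlim d L _ _ hm hl').2

/-- The functional along a convergent sequence of blow-ups. -/
theorem tendsto_wAt (hres : RescaleSpec) (hlim : LimitSpec) (h : LipMin L u) {p : ℕ → Fin d → ℝ}
    (hp : ∀ n, u (p n) = 0) {r : ℕ → ℝ} (hr : ∀ n, 0 < r n)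
    (hl : ∀ y, Tendsto (fun n => rescale u (p n) (r n) y) atTop (𝓝 (v y))) {s : ℝ} (hs : 0 < s) :
    Tendsto (fun n => wAt u (p n) (r n * s)) atTop (𝓝 (weiss (rescale v 0 s))) := by
  have h1 := weiss_lim (w := fun n => rescale u (p n) (r n)) hres hlim
    (fun n => hres d L u _ _ h (hr n)) (fun n => rescale_at_zero (hp n) _) hl hs
  simpa only [wAt, rescale_rescale] using h1

/-- Limits of nondegenerate minimisers are nondegenerate at the origin. -/
theorem limit_nondeg (hnd : NondegSpec) {w : ℕ → (Fin d → ℝ) → ℝ} {w0 : (Fin d → ℝ) → ℝ}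
    (hw : ∀ n, LipMin L (w n)) (h0 : ∀ n, (0 : Fin d → ℝ) ∈ closure (pos (w n)))
    (hl : ∀ y, Tendsto (fun n => w n y) atTop (𝓝 (w0 y))) :
    (0 : Fin d → ℝ) ∈ closure (pos w0) ∧ w0 ≠ 0 := by
  obtain ⟨c, hc, hcs⟩ := hnd d L
  have key : ∀ R : ℝ, 0 < R → ∃ y : Fin d → ℝ, ‖y‖ ≤ R ∧ y ∈ pos w0 := fun R hR => by
    obtain ⟨n, hn⟩ := (unif_of_pointwise (fun n => (hw n).lipschitz)
      (lipschitz_of_tendsto (fun n => (hw n).lipschitz) hl) hl (isCompact_closedBall 0 R)
      (half_pos (mul_pos hc hR))).exists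
    obtain ⟨y, hy, hy2⟩ := hcs (w n) (hw n) 0 (h0 n) R hR
    rw [sub_zero] at hy
    have := abs_le.1 (hn y (mem_closedBall_zero_iff.2 hy))
    have := mul_pos hc hR
    exact ⟨y, hy, show 0 < w0 y by linarith⟩
  refine ⟨Metric.mem_closure_iff.2 fun ε hε => ?_, fun h => ?_⟩
  · obtain ⟨y, hy, hy2⟩ := key (ε / 2) (half_pos hε)
    exact ⟨y, hy2, by rw [dist_zero_left]; linarith⟩
  · obtain ⟨y, -, hy2⟩ := key 1 one_pos
    exact lt_irrefl (0 : ℝ) (by simpa [pos, h] using hy2)

/-- Blow-ups at nearby points subconverge to a nonzero minimiser. -/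
theorem exists_limit (hnd : NondegSpec) (hres : RescaleSpec) (hsub : SubseqSpec) (hlim : LimitSpec)
    (h : LipMin L u) {p : ℕ → Fin d → ℝ} (hp : ∀ n, u (p n) = 0)
    (hpc : ∀ n, p n ∈ closure (pos u)) {r : ℕ → ℝ} (hr : ∀ n, 0 < r n) :
    ∃ (φ : ℕ → ℕ) (v : (Fin d → ℝ) → ℝ), StrictMono φ ∧ LipMin L v ∧ v 0 = 0 ∧
      (0 : Fin d → ℝ) ∈ closure (pos v) ∧ v ≠ 0 ∧
      ∀ y, Tendsto (fun n => rescale u (p (φ n)) (r (φ n)) y) atTop (𝓝 (v y)) := by
  have hw : ∀ n, LipMin L (rescale u (p n) (r n)) := fun n => hres d L u _ _ h (hr n)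
  obtain ⟨φ, v, hφ, hl⟩ := hsub d L (fun n => rescale u (p n) (r n)) (fun n => (hw n).lipschitz)
    fun n => rescale_at_zero (hp n) _
  have hv := (hlim d L _ v (fun n => hw (φ n)) hl).1
  have hv0 : v 0 = 0 :=
    tendsto_nhds_unique (hl 0) (by simp [rescale_at_zero (hp _)])
  obtain ⟨h1, h2⟩ := limit_nondeg hnd (fun n => hw (φ n))
    (fun n => closure_rescale_zero (hr _) (hpc _)) hl
  exact ⟨φ, v, hφ, hv, hv0, h1, h2, hl⟩

/-- A blow-up at a fixed point along the scales `1 / (n + 1)`: it is homogeneous, and its functional is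
the limit of the functional at small scales. -/
theorem tangent (hst : StationarySpec) (hlap : LapSpec) (hnd : NondegSpec) (hres : RescaleSpec)
    (hsub : SubseqSpec) (hlim : LimitSpec) (h : LipMin L u) {x : Fin d → ℝ} (hx : u x = 0)
    (hxc : x ∈ closure (pos u)) :
    ∃ (r : ℕ → ℝ) (v : (Fin d → ℝ) → ℝ), (∀ n, 0 < r n) ∧ Tendsto r atTop (𝓝 0) ∧ LipMin L v ∧
      Homog v ∧ v ≠ 0 ∧ (∀ y, Tendsto (fun n => rescale u x (r n) y) atTop (𝓝 (v y))) ∧
      (∀ ρ, 0 < ρ → weiss v ≤ wAt u x ρ) ∧ Tendsto (fun n => wAt u x (r n)) atTop (𝓝 (weiss v)) := by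
  obtain ⟨φ, v, hφ, hv, hv0, -, hne, hl⟩ :=
    exists_limit hnd hres hsub hlim h (p := fun _ => x) (fun _ => hx) (fun _ => hxc)
      (r := fun n => 1 / ((n : ℝ) + 1)) (fun n => by positivity)
  set r : ℕ → ℝ := fun n => 1 / ((φ n : ℝ) + 1) with hrdef
  have hr : ∀ n, 0 < r n := fun n => by positivity
  have hr0 : Tendsto r atTop (𝓝 0) :=
    (tendsto_one_div_add_atTop_nhds_zero_nat (𝕜 := ℝ)).comp hφ.tendsto_atTop
  have hW : ∀ s, 0 < s → Tendsto (fun n => wAt u x (r n * s)) atTop (𝓝 (weiss (rescale v 0 s))) :=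
    fun s hs => tendsto_wAt hres hlim h (fun _ => hx) hr hl hs
  have hle : ∀ s ρ : ℝ, 0 < s → 0 < ρ → weiss (rescale v 0 s) ≤ wAt u x ρ := fun s ρ hs hρ => by
    have hev : ∀ᶠ n in atTop, r n * s ≤ ρ := by
      have h1 : Tendsto (fun n => r n * s) atTop (𝓝 0) := by simpa using hr0.mul_const s
      exact (h1.eventually (gt_mem_nhds hρ)).mono fun n hn => le_of_lt hn
    exact le_of_tendsto (hW s hs) (hev.mono fun n hn =>
      monotone_wAt hres hst hlap h hx (mul_pos (hr n) hs) hn)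
  have hconst : ∀ s, 0 < s → weiss (rescale v 0 s) = weiss (rescale v 0 1) := fun s hs =>
    le_antisymm (ge_of_tendsto' (hW 1 one_pos) fun n => hle s _ hs (mul_pos (hr n) one_pos))
      (ge_of_tendsto' (hW s hs) fun n => hle 1 _ one_pos (mul_pos (hr n) hs))
  refine ⟨r, v, hr, hr0, hv, homog_of_const hst hlap hv hv0 hconst, hne, hl, fun ρ hρ => ?_, ?_⟩
  · simpa [rescale_origin_one] using hle 1 ρ one_pos hρ
  · simpa [rescale_origin_one] using hW 1 one_pos

/-- Blow-ups of a homogeneous function at centres tending to `x` are invariant along `x`. -/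
theorem invariant (hres : RescaleSpec) (h : LipMin L u) (hh : Homog u) {p : ℕ → Fin d → ℝ}
    {x : Fin d → ℝ} (hp : Tendsto p atTop (𝓝 x)) {r : ℕ → ℝ} (hr : ∀ n, 0 < r n)
    (hr0 : Tendsto r atTop (𝓝 0))
    (hl : ∀ y, Tendsto (fun n => rescale u (p n) (r n) y) atTop (𝓝 (v y))) (y : Fin d → ℝ) (s : ℝ) :
    v (y + s • x) = v y := by
  have hw : ∀ n, LipschitzWith L (rescale u (p n) (r n)) := fun n => (hres d L u _ _ h (hr n)).lipschitz
  set c : ℕ → ℝ := fun n => 1 + r n * s with hcdef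
  have hc : Tendsto c atTop (𝓝 1) := by simpa using (hr0.mul_const s).const_add 1
  have h1 : Tendsto (fun n => rescale u (p n) (r n) (y + s • p n)) atTop (𝓝 (v (y + s • x))) :=
    tendsto_moving hw hl ((hp.const_smul s).const_add y)
  have h2 : Tendsto (fun n => c n * rescale u (p n) (r n) ((c n)⁻¹ • y)) atTop (𝓝 (v y)) := by
    have h3 : Tendsto (fun n => (c n)⁻¹ • y) atTop (𝓝 y) := by
      simpa using (hc.inv₀ one_ne_zero).smul_const y
    simpa using hc.mul (tendsto_moving hw hl h3)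
  refine tendsto_nhds_unique h1 (h2.congr' ?_)
  filter_upwards [hc.eventually (lt_mem_nhds (zero_lt_one' ℝ))] with n hn
  have e : p n + r n • (y + s • p n) = c n • (p n + r n • (c n)⁻¹ • y) := by
    funext i
    simp only [hcdef, Pi.add_apply, Pi.smul_apply, smul_eq_mul]
    simp only [hcdef] at hn
    field_simp
    ring
  simp only [rescale, e, hh _ _ hn]
  ring

/-! Homogeneous minimisers one dimension above a flat one. -/

variable {u v : (Fin (d + 1) → ℝ) → ℝ} {x : Fin (d + 1) → ℝ}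

/-- At a free boundary point off the origin some blow-up is a half-space solution. -/
theorem blow_half (hc : CompetitorSpec) (hst : StationarySpec) (hlap : LapSpec) (hnd : NondegSpec)
    (hres : RescaleSpec) (hrot : RotateSpec) (hsub : SubseqSpec) (hlim : LimitSpec) (hflat : FlatIn d)
    (h : LipMin L u) (hh : Homog u) (hx : x ∈ fb u) (hx0 : x ≠ 0) :
    ∃ (e : Fin (d + 1) → ℝ) (r : ℕ → ℝ), dot e e = 1 ∧ (∀ n, 0 < r n) ∧ Tendsto r atTop (𝓝 0) ∧
      (∀ y, Tendsto (fun n => rescale u x (r n) y) atTop (𝓝 (halfPlane e y))) ∧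
      Tendsto (fun n => wAt u x (r n)) atTop (𝓝 (omega d)) := by
  obtain ⟨r, v, hr, hr0, hv, hvh, hne, hl, -, hW⟩ :=
    tangent hst hlap hnd hres hsub hlim h (eq_zero_of_fb h hx) (mem_closure_of_fb hx)
  have hinv := invariant hres h hh (p := fun _ => x) tendsto_const_nhds hr hr0 hl
  obtain ⟨f, hf, rfl⟩ := reduce hc hrot hflat hv hvh hne hx0 hinv
  rw [weiss_eq_omega hf] at hW
  exact ⟨f, r, hf, hr, hr0, hl, hW⟩

/-- Blow-ups at centres tending to a free boundary point off the origin are half-space solutions. -/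
theorem moving_half (hc : CompetitorSpec) (hst : StationarySpec) (hlap : LapSpec) (hnd : NondegSpec)
    (hres : RescaleSpec) (hrot : RotateSpec) (hsub : SubseqSpec) (hlim : LimitSpec) (hflat : FlatIn d)
    (h : LipMin L u) (hh : Homog u) {p : ℕ → Fin (d + 1) → ℝ} (hpf : ∀ n, p n ∈ fb u)
    (hp : Tendsto p atTop (𝓝 x)) (hx0 : x ≠ 0) {r : ℕ → ℝ} (hr : ∀ n, 0 < r n)
    (hr0 : Tendsto r atTop (𝓝 0)) (hv : LipMin L v) (hv0 : v 0 = 0)
    (hvc : (0 : Fin (d + 1) → ℝ) ∈ closure (pos v)) (hne : v ≠ 0)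
    (hl : ∀ y, Tendsto (fun n => rescale u (p n) (r n) y) atTop (𝓝 (v y))) :
    ∃ e, dot e e = 1 ∧ v = halfPlane e := by
  have hxfb : x ∈ fb u := isClosed_frontier.mem_of_tendsto hp (.of_forall hpf)
  have hu0 : ∀ n, u (p n) = 0 := fun n => eq_zero_of_fb h (hpf n)
  have hinv := invariant hres h hh hp hr hr0 hl
  obtain ⟨_, r1, -, hr1, -, -, hW1⟩ :=
    blow_half hc hst hlap hnd hres hrot hsub hlim hflat h hh hxfb hx0
  have hup : ∀ s, 0 < s → weiss (rescale v 0 s) ≤ omega d := fun s hs => by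
    refine ge_of_tendsto' hW1 fun k => ?_
    have hlc : ∀ y, Tendsto (fun n => rescale u (p n) (r1 k) y) atTop (𝓝 (rescale u x (r1 k) y)) :=
      fun y => ((h.lipschitz.continuous.tendsto _).comp (hp.add_const _)).div_const _
    have h1 := tendsto_wAt hres hlim h hu0 (fun _ => hr1 k) hlc one_pos
    simp only [mul_one, rescale_origin_one] at h1
    have h2 := tendsto_wAt hres hlim h hu0 hr hl hs
    refine le_of_tendsto_of_tendsto h2 h1 ?_
    have h3 : Tendsto (fun n => r n * s) atTop (𝓝 0) := by simpa using hr0.mul_const s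
    filter_upwards [h3.eventually (gt_mem_nhds (hr1 k))] with n hn
    exact monotone_wAt hres hst hlap h (hu0 n) (mul_pos (hr n) hs) (le_of_lt hn)
  obtain ⟨r2, v0, hr2, hr20, hv0m, hv0h, hv0n, hl0, hlow, -⟩ :=
    tangent hst hlap hnd hres hsub hlim hv hv0 hvc
  have hinv0 : ∀ y (s : ℝ), v0 (y + s • x) = v0 y := fun y s => by
    refine tendsto_nhds_unique (hl0 _) ((hl0 y).congr fun n => ?_)
    simp only [rescale_zero_apply, smul_add, smul_smul, hinv]
  obtain ⟨g, hg, rfl⟩ := reduce hc hrot hflat hv0m hv0h hv0n hx0 hinv0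
  have hconst : ∀ s, 0 < s → weiss (rescale v 0 s) = omega d := fun s hs =>
    le_antisymm (hup s hs) (le_of_eq_of_le (weiss_eq_omega hg).symm (hlow s hs))
  exact reduce hc hrot hflat hv (homog_of_const hst hlap hv hv0 hconst) hne hx0 hinv

theorem abs_le_one_of_unit {e : Fin d → ℝ} (he : dot e e = 1) (i : Fin d) : |e i| ≤ 1 := by
  have h1 : e i * e i ≤ dot e e :=
    Finset.single_le_sum (f := fun j => e j * e j) (fun j _ => mul_self_nonneg _) (Finset.mem_univ i)
  rw [he] at h1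
  exact abs_le_one_iff_mul_self_le_one.2 h1

theorem abs_lin_sub_le {e : Fin d → ℝ} (he : dot e e = 1) (z y : Fin d → ℝ) :
    |lin e z - lin e y| ≤ d * ‖z - y‖ := by
  simp only [lin, ← Finset.sum_sub_distrib, ← mul_sub]
  refine (Finset.abs_sum_le_sum_abs _ _).trans
    ((Finset.sum_le_card_nsmul _ _ ‖z - y‖ fun i _ => ?_).trans_eq (by simp))
  show |e i * (z i - y i)| ≤ _
  rw [abs_mul]
  exact (mul_le_mul (abs_le_one_of_unit he i) (norm_le_pi_norm (z - y) i) (abs_nonneg _) zero_le_one).trans_eq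
    (one_mul _)

/-- Minimisers tending to a half-space solution are eventually close to the linear function. -/
theorem close_of_tendsto (hnd : NondegSpec) {w : ℕ → (Fin d → ℝ) → ℝ} {e : Fin d → ℝ}
    (he : dot e e = 1) (hw : ∀ n, LipMin L (w n))
    (hl : ∀ y, Tendsto (fun n => w n y) atTop (𝓝 (halfPlane e y))) {ε : ℝ} (hε : 0 < ε) :
    ∀ᶠ n in atTop, Close (w n) (lin e) ε (closedBall 0 1) := by
  obtain ⟨c, hc, hcs⟩ := hnd d L
  set η : ℝ := min 1 (ε / (2 * ((d : ℝ) + 1)))
  have hη : 0 < η := lt_min one_pos (by positivity)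
  have hη2 : (d : ℝ) * η < ε / 2 := by
    have h1 : η ≤ ε / (2 * ((d : ℝ) + 1)) := min_le_right _ _
    rw [le_div_iff₀ (by positivity)] at h1
    nlinarith
  set δ : ℝ := min (ε / 2) (c * η / 2)
  have hcη := mul_pos hc hη
  have hδ : 0 < δ := lt_min (half_pos hε) (half_pos hcη)
  filter_upwards [unif_of_pointwise (fun n => (hw n).lipschitz)
    (lipschitz_of_tendsto (fun n => (hw n).lipschitz) hl) hl (isCompact_closedBall 0 2) hδ] with n hn
  have hd1 : δ ≤ ε / 2 := min_le_left _ _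
  have hd2 : δ ≤ c * η / 2 := min_le_right _ _
  have hn1 : ∀ y ∈ closedBall (0 : Fin d → ℝ) 1, |w n y - halfPlane e y| ≤ δ := fun y hy =>
    hn y (closedBall_subset_closedBall one_le_two hy)
  refine ⟨fun y hy => ?_, fun y hy hyc => ?_⟩
  · have h1 := abs_le.1 (hn1 y hy)
    have h2 : lin e y ≤ halfPlane e y := le_max_left _ _
    linarith
  · have h1 := abs_le.1 (hn1 y hy)
    by_cases h2 : -(ε / 2) ≤ lin e y
    · have h3 : halfPlane e y ≤ lin e y + ε / 2 := max_le (by linarith) (by linarith)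
      linarith
    · exfalso
      obtain ⟨z, hz, hz2⟩ := hcs (w n) (hw n) y hyc η hη
      have h3 := abs_le.1 ((abs_lin_sub_le he z y).trans (mul_le_mul_of_nonneg_left hz (Nat.cast_nonneg d)))
      have h4 : z ∈ closedBall (0 : Fin d → ℝ) 2 := by
        rw [mem_closedBall_zero_iff] at hy ⊢
        have h5 : η ≤ 1 := min_le_left _ _
        linarith [norm_le_norm_add_norm_sub' z y]
      have h6 : halfPlane e z = 0 := max_eq_right (by linarith)
      have h7 := abs_le.1 (hn z h4)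
      linarith

/-- Flatness one dimension below gives unit blow-ups and uniform flatness. -/
theorem uniformFlat_of (hc : CompetitorSpec) (hst : StationarySpec) (hlap : LapSpec)
    (hnd : NondegSpec) (hres : RescaleSpec) (hrot : RotateSpec) (hsub : SubseqSpec)
    (hlim : LimitSpec) : UniformFlatSpec := by
  intro d _ hflat L u h hh
  refine ⟨fun x hx => ?_, fun ε hε => ?_⟩
  · obtain ⟨e, r, he, hr, hr0, hl, -⟩ :=
      blow_half hc hst hlap hnd hres hrot hsub hlim hflat h hh hx.2 hx.1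
    exact ⟨e, r, he, hr, hr0, hl⟩
  · by_contra hcon
    push Not at hcon
    choose p hp hp1 r hr hrle hbad using fun n : ℕ => hcon (1 / ((n : ℝ) + 1)) (by positivity)
    obtain ⟨x, hx, φ, hφ, hpx⟩ := (isCompact_sphere (0 : Fin (d + 1) → ℝ) 1).tendsto_subseq
      (x := p) fun n => mem_sphere_zero_iff_norm.2 (hp1 n)
    have hx0 : x ≠ 0 := ne_zero_of_mem_unit_sphere ⟨x, hx⟩
    obtain ⟨ψ, v, hψ, hv, hv0, hvc, hne, hl⟩ :=
      exists_limit hnd hres hsub hlim h (p := fun n => p (φ n)) (fun n => eq_zero_of_fb h (hp _))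
        (fun n => mem_closure_of_fb (hp _)) (r := fun n => r (φ n)) (fun n => hr _)
    have hr0 : Tendsto (fun n => r (φ (ψ n))) atTop (𝓝 0) :=
      (squeeze_zero (fun n => (hr n).le) hrle tendsto_one_div_add_atTop_nhds_zero_nat).comp
        (hφ.comp hψ).tendsto_atTop
    obtain ⟨e, he, rfl⟩ := moving_half hc hst hlap hnd hres hrot hsub hlim hflat h hh
      (p := fun n => p (φ (ψ n))) (fun n => hp _) (hpx.comp hψ.tendsto_atTop) hx0 (fun n => hr _) hr0
      hv hv0 hvc hne hl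
    obtain ⟨n, hn⟩ := (close_of_tendsto hnd he (fun n => hres _ L u _ _ h (hr _)) hl hε).exists
    exact hbad (φ (ψ n)) e he hn

/-- The statement of the module, with the other modules inserted. -/
theorem uniformFlat : UniformFlatSpec :=
  uniformFlat_of competitor stationary lap (nondeg mean) rescale_min rotate_min subseq limit_spec

end

end Vale.Agent.P098.Reg.Blow
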