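import Vale.Agent.P098.Reg.BlowWeiss

/-!
# P098: half-space solutions, reflections, and the product structure of space
-/

namespace Vale.Agent.P098.Reg.Blow

open MeasureTheory Set Filter Topology Metric
open Vale.Agent.P098.Cone Vale.Agent.P098.Reg
open scoped NNReal

noncomputable section

variable {d : ℕ}

/-- The reflection in the hyperplane normal to `n` (the identity if `n = 0`). -/
def refl (n : Fin d → ℝ) : (Fin d → ℝ) →ₗ[ℝ] (Fin d → ℝ) where
  toFun z := z - (2 * dot n z / dot n n) • n
  map_add' a b := by
    have h : dot n (a + b) = dot n a + dot n b := by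
      simp only [dot, Pi.add_apply, mul_add, Finset.sum_add_distrib]
    rw [h, mul_add, add_div, add_smul]
    abel
  map_smul' c a := by
    have h : dot n (c • a) = c * dot n a := by
      simp only [dot, Pi.smul_apply, smul_eq_mul, Finset.mul_sum]
      exact Finset.sum_congr rfl fun i _ => by ring
    rw [h, RingHom.id_apply, smul_sub, smul_smul, mul_left_comm, mul_div_assoc]

theorem refl_apply (n z : Fin d → ℝ) : refl n z = z - (2 * dot n z / dot n n) • n := rfl

theorem dot_sub_smul (a b n : Fin d → ℝ) (c : ℝ) : dot a (b - c • n) = dot a b - c * dot a n := by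
  simp only [dot, Pi.sub_apply, Pi.smul_apply, smul_eq_mul, mul_sub, Finset.sum_sub_distrib, Finset.mul_sum]
  congr 1
  exact Finset.sum_congr rfl fun i _ => by ring

theorem eq_zero_of_dot {n : Fin d → ℝ} (h : dot n n = 0) : n = 0 := funext fun i =>
  mul_self_eq_zero.1 ((Finset.sum_eq_zero_iff_of_nonneg fun j _ => mul_self_nonneg (n j)).1 h i
    (Finset.mem_univ i))

theorem dot_refl (n a b : Fin d → ℝ) : dot (refl n a) (refl n b) = dot a b := by
  simp only [refl_apply]
  rw [dot_sub_smul, dot_comm (a - _) b, dot_sub_smul, dot_comm (a - _) n, dot_sub_smul, dot_comm b a,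
    dot_comm b n]
  rcases eq_or_ne (dot n n) 0 with h | h
  · simp [h]
  · field_simp
    ring

theorem refl_refl (n z : Fin d → ℝ) : refl n (refl n z) = z := by
  rcases eq_or_ne (dot n n) 0 with h | h
  · simp [refl_apply, h]
  · have e : dot n (refl n z) = -dot n z := by
      rw [refl_apply, dot_sub_smul]
      field_simp
      ring
    rw [refl_apply, e, refl_apply, sub_sub, ← add_smul]
    simp [neg_div]

/-- The reflection as an equivalence. -/
def reflEquiv (n : Fin d → ℝ) : (Fin d → ℝ) ≃ₗ[ℝ] (Fin d → ℝ) :=
  LinearEquiv.ofLinearMap (refl n) (refl n) (LinearMap.ext (refl_refl n)) (LinearMap.ext (refl_refl n))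

theorem refl_swap {a b : Fin d → ℝ} (ha : dot a a = 1) (hb : dot b b = 1) : refl (a - b) a = b := by
  rcases eq_or_ne (dot (a - b) (a - b)) 0 with h | h
  · have hab := sub_eq_zero.1 (eq_zero_of_dot h)
    simp [refl_apply, hab]
  · have e : 2 * dot (a - b) a = dot (a - b) (a - b) := by
      have h1 : dot (a - b) a = 1 - dot a b := by
        simp only [dot, Pi.sub_apply, sub_mul, Finset.sum_sub_distrib, mul_comm (b _)]
        rw [← ha]; rfl
      have h2 : dot (a - b) (a - b) = 2 - 2 * dot a b := by
        simp only [dot, Pi.sub_apply, sub_mul, mul_sub, Finset.sum_sub_distrib, mul_comm (b _)]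
        have ha' : ∑ i, a i * a i = 1 := ha
        have hb' : ∑ i, b i * b i = 1 := hb
        linarith
      linarith
    rw [refl_apply, e, div_self h, one_smul]
    abel

theorem measurePreserving_refl (n : Fin d → ℝ) :
    MeasurePreserving (refl n) (volume : Measure (Fin d → ℝ)) volume := by
  have h2 : LinearMap.det (refl n) * LinearMap.det (refl n) = 1 := by
    rw [← LinearMap.det_comp, show refl n ∘ₗ refl n = LinearMap.id from LinearMap.ext (refl_refl n),
      LinearMap.det_id]
  have hne : LinearMap.det (refl n) ≠ 0 := fun h => by simp [h] at h2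
  refine ⟨(refl n).continuous_of_finiteDimensional.measurable, ?_⟩
  rw [Measure.map_linearMap_addHaar_eq_smul_addHaar _ hne]
  rcases mul_self_eq_one_iff.1 h2 with h | h <;> simp [h]

theorem integral_refl (n : Fin d → ℝ) (g : (Fin d → ℝ) → ℝ) : ∫ y, g (refl n y) = ∫ x, g x :=
  (measurePreserving_refl n).integral_comp
    (reflEquiv n).toContinuousLinearEquiv.toHomeomorph.toMeasurableEquiv.measurableEmbedding g

/-! Half-space solutions. -/

theorem lin_eq_dot (e x : Fin d → ℝ) : lin e x = dot e x := rfl

theorem continuous_lin (e : Fin d → ℝ) : Continuous (lin e) := by unfold lin; fun_prop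

theorem pd_lin (e : Fin d → ℝ) (i : Fin d) (x : Fin d → ℝ) : pd (lin e) i x = e i := by
  show pd (fun y => ∑ j, e j * y j) i x = e i
  rw [pd_sum Finset.univ (F := fun j y => e j * y j) (fun j _ => by fun_prop)]
  rw [Finset.sum_congr rfl fun j (_ : j ∈ Finset.univ) =>
    (show pd (fun y : Fin d → ℝ => e j * y j) i x = if i = j then e j else 0 by
      rw [pd_mul (differentiableAt_const _) (differentiableAt_apply j x), pd_const, pd_coord]
      split_ifs <;> ring)]
  simp

theorem pos_halfPlane (e x : Fin d → ℝ) : x ∈ pos (halfPlane e) ↔ 0 < lin e x := by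
  show 0 < max (lin e x) 0 ↔ _
  simp

theorem dens_halfPlane {e : Fin d → ℝ} (he : dot e e = 1) (x : Fin d → ℝ) :
    dens (halfPlane e) x = ({z | 0 < lin e z} : Set (Fin d → ℝ)).indicator (fun _ => 2) x := by
  by_cases h : 0 < lin e x
  · have hg : grad (halfPlane e) x = e := funext fun i => by
      show pd _ i x = _
      rw [pd_congr (g := lin e) ?_ i, pd_lin]
      filter_upwards [(continuous_lin e).continuousAt.eventually_const_lt h] with y hy
      exact max_eq_left hy.le
    simp [dens, hg, he, (pos_halfPlane e x).2 h, h]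
    norm_num
  · have hz : halfPlane e x = 0 := max_eq_right (not_lt.1 h)
    have hmin : IsLocalMin (halfPlane e) x := .of_forall fun y => by rw [hz]; exact le_max_right _ _
    have hg : grad (halfPlane e) x = 0 := funext fun i => by simp [grad, pd, hmin.fderiv_eq_zero]
    simp [dens, hg, mt (pos_halfPlane e x).1 h, h, dot]

theorem wPsi_refl (n x : Fin d → ℝ) : wPsi (refl n x) = wPsi x := by rw [wPsi, wPsi, dot_refl]

/-- The functional takes one value at all half-space solutions. -/
theorem weiss_halfPlane {a b : Fin d → ℝ} (ha : dot a a = 1) (hb : dot b b = 1) :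
    weiss (halfPlane b) = weiss (halfPlane a) := by
  have hlin : ∀ y, lin b (refl (a - b) y) = lin a y := fun y => by
    have h := dot_refl (a - b) a y
    rwa [refl_swap ha hb] at h
  have h1 : ∀ y, dens (halfPlane b) (refl (a - b) y) = dens (halfPlane a) y := fun y => by
    rw [dens_halfPlane ha, dens_halfPlane hb]
    simp [indicator_apply, hlin]
  have h2 : ∀ y, halfPlane b (refl (a - b) y) = halfPlane a y := fun y => by simp [halfPlane, hlin]
  unfold weiss
  rw [← integral_refl (a - b) (fun x => wPhi x * dens (halfPlane b) x),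
    ← integral_refl (a - b) (fun x => wPsi x * halfPlane b x ^ 2)]
  congr 1
  · exact integral_congr_ae (.of_forall fun y => by simp [wPhi, dot_refl, h1])
  · congr 1
    exact integral_congr_ae (.of_forall fun y => by simp [wPsi_refl, h2])

/-- The common value. -/
def omega (d : ℕ) : ℝ := weiss (halfPlane (Pi.single (Fin.last d) (1 : ℝ)))

theorem dot_single_self (i : Fin d) : dot (Pi.single i (1 : ℝ)) (Pi.single i (1 : ℝ)) = 1 := by
  simp [dot, Pi.single_apply]

theorem weiss_eq_omega {e : Fin (d + 1) → ℝ} (he : dot e e = 1) : weiss (halfPlane e) = omega d :=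
  weiss_halfPlane (dot_single_self _) he

/-! The product structure. -/

theorem integral_last_mul (a : ℝ → ℝ) (b : (Fin d → ℝ) → ℝ) :
    ∫ z : Fin (d + 1) → ℝ, a (z (Fin.last d)) * b (Fin.init z) = (∫ t, a t) * ∫ x, b x := by
  have h := volume_preserving_piFinSuccAbove (fun _ : Fin (d + 1) => ℝ) (Fin.last d)
  rw [← integral_prod_mul a b, ← Measure.volume_eq_prod,
    ← h.integral_comp (MeasurableEquiv.measurableEmbedding _) (fun p : ℝ × (Fin d → ℝ) => a p.1 * b p.2)]
  refine integral_congr_ae (.of_forall fun z => ?_)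
  simp [MeasurableEquiv.piFinSuccAbove, Fin.insertNthEquiv, Fin.removeNth_last]

theorem integrable_last_mul {a : ℝ → ℝ} {b : (Fin d → ℝ) → ℝ} (ha : Integrable a) (hb : Integrable b) :
    Integrable fun z : Fin (d + 1) → ℝ => a (z (Fin.last d)) * b (Fin.init z) := by
  have h := volume_preserving_piFinSuccAbove (fun _ : Fin (d + 1) => ℝ) (Fin.last d)
  have hi : Integrable (fun p : ℝ × (Fin d → ℝ) => a p.1 * b p.2) volume := by
    rw [Measure.volume_eq_prod]; exact ha.mul_prod hb
  refine ((h.integrable_comp_emb (MeasurableEquiv.measurableEmbedding _)).2 hi).congr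
    (.of_forall fun z => ?_)
  simp [MeasurableEquiv.piFinSuccAbove, Fin.insertNthEquiv, Fin.removeNth_last]

/-- The projection forgetting the last coordinate. -/
def initL (d : ℕ) : (Fin (d + 1) → ℝ) →L[ℝ] (Fin d → ℝ) :=
  ContinuousLinearMap.pi fun i => ContinuousLinearMap.proj i.castSucc

theorem initL_apply (z : Fin (d + 1) → ℝ) : initL d z = Fin.init z := rfl

theorem snoc_eq (x : Fin d → ℝ) (t : ℝ) :
    (Fin.snoc x t : Fin (d + 1) → ℝ) = fun i => Fin.lastCases t (fun j => x j) i := by
  funext i
  refine Fin.lastCases ?_ (fun j => ?_) i <;> simp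

theorem differentiable_snoc (t : ℝ) :
    Differentiable ℝ fun x : Fin d → ℝ => (Fin.snoc x t : Fin (d + 1) → ℝ) := by
  refine differentiable_pi.2 fun i => ?_
  refine Fin.lastCases ?_ (fun j => ?_) i <;> simp [differentiable_apply]

theorem fderiv_init (f : (Fin d → ℝ) → ℝ) (z : Fin (d + 1) → ℝ) :
    fderiv ℝ (fun w => f (Fin.init w)) z = (fderiv ℝ f (Fin.init z)).comp (initL d) := by
  by_cases h : DifferentiableAt ℝ f (Fin.init z)
  · exact (h.hasFDerivAt.comp z (initL d).hasFDerivAt).fderiv
  · have h' : ¬ DifferentiableAt ℝ (fun w => f (Fin.init w)) z := fun hd => h (by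
      have h1 : DifferentiableAt ℝ (fun w => f (Fin.init w))
          ((fun x : Fin d → ℝ => (Fin.snoc x (z (Fin.last d)) : Fin (d + 1) → ℝ)) (Fin.init z)) := by
        simpa only [Fin.snoc_init_self] using hd
      simpa [Function.comp_def] using h1.comp (Fin.init z) (differentiable_snoc _ _))
    rw [fderiv_zero_of_not_differentiableAt h, fderiv_zero_of_not_differentiableAt h',
      ContinuousLinearMap.zero_comp]

theorem dens_init (f : (Fin d → ℝ) → ℝ) (z : Fin (d + 1) → ℝ) :
    dens (fun w => f (Fin.init w)) z = dens f (Fin.init z) := by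
  have h1 : ∀ i : Fin d, pd (fun w => f (Fin.init w)) i.castSucc z = pd f i (Fin.init z) := fun i => by
    rw [pd, fderiv_init, ContinuousLinearMap.comp_apply, pd]
    congr 1
    funext j
    simp [initL_apply, Fin.init, Pi.single_apply]
  have h2 : pd (fun w => f (Fin.init w)) (Fin.last d) z = 0 := by
    rw [pd, fderiv_init, ContinuousLinearMap.comp_apply]
    convert map_zero (fderiv ℝ f (Fin.init z)) using 2
    funext j
    simp [initL_apply, Fin.init, (Fin.castSucc_lt_last j).ne]
  simp only [dens, dot, grad, Fin.sum_univ_castSucc, h1, h2, mul_zero, add_zero]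
  rfl

end

end Vale.Agent.P098.Reg.Blow
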