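import Vale.Agent.P098.Reg.BlowHalf
import Vale.Agent.P098.Reg.VarBase

/-!
# P098: the dimension reduction for invariant minimisers
-/

namespace Vale.Agent.P098.Reg.Blow

open MeasureTheory Set Filter Topology Metric
open Vale.Agent.P098.Cone Vale.Agent.P098.Reg
open scoped NNReal

noncomputable section

variable {d : ℕ} {L : ℝ≥0}

/-- The cutoff in the last variable. -/
def tent (T t : ℝ) : ℝ := min 1 (max 0 (T + 1 - |t|))

theorem abs_tent_le (T t : ℝ) : |tent T t| ≤ 1 := by
  rw [abs_le]
  exact ⟨(by norm_num : (-1 : ℝ) ≤ 0).trans (le_min zero_le_one (le_max_left _ _)), min_le_left _ _⟩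

theorem abs_tent_sub_le (T s t : ℝ) : |tent T s - tent T t| ≤ |s - t| := by
  refine (abs_min_sub_min_le_max 1 _ 1 _).trans (max_le (by simp) ?_)
  refine (abs_max_sub_max_le_max 0 _ 0 _).trans (max_le (by simp) ?_)
  rw [show T + 1 - |s| - (T + 1 - |t|) = |t| - |s| by ring]
  exact (abs_abs_sub_abs_le_abs_sub t s).trans_eq (abs_sub_comm t s)

theorem tent_eq_one {T t : ℝ} (ht : |t| ≤ T) : tent T t = 1 :=
  min_eq_left (le_max_of_le_right (by linarith))

theorem tent_eq_zero {T t : ℝ} (ht : T + 1 ≤ |t|) : tent T t = 0 := by
  rw [tent, max_eq_left (by linarith)]; exact min_eq_right zero_le_one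

theorem norm_init_le (z : Fin (d + 1) → ℝ) : ‖Fin.init z‖ ≤ ‖z‖ :=
  (pi_norm_le_iff_of_nonneg (norm_nonneg z)).2 fun i => norm_le_pi_norm z i.castSucc

theorem abs_last_le (z : Fin (d + 1) → ℝ) : |z (Fin.last d)| ≤ ‖z‖ := norm_le_pi_norm z _

theorem eq_zero_congr {n : ℕ} {f g : (Fin n → ℝ) → ℝ} {x : Fin n → ℝ} (h : f =ᶠ[𝓝 x] g) :
    dens f x - dens g x = 0 := sub_eq_zero.2 (dens_congr h)

/-- A minimiser that does not depend on the last coordinate minimises in the others. -/
theorem minimizer_of_invariant (hc : CompetitorSpec) {w : (Fin (d + 1) → ℝ) → ℝ} (h : LipMin L w)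
    {W : (Fin d → ℝ) → ℝ} (hW : ∀ z, w z = W (Fin.init z)) (hWl : LipschitzWith L W)
    (hW0 : ∀ x, 0 ≤ W x) : LipMin L W := by
  refine ⟨hWl, hW0, fun c R _ v hv hv0 hK => ?_⟩
  obtain ⟨M, hM⟩ := hv
  obtain ⟨K, hKc, hKR, hKv⟩ := hK
  have hwe : w = fun z => W (Fin.init z) := funext hW
  have hB : Bornology.IsBounded (eball c R) := by
    refine isBounded_iff_forall_norm_le.2 ⟨‖c‖ + |R|, fun x hx => ?_⟩
    have h1 : ‖x - c‖ ≤ |R| := (pi_norm_le_iff_of_nonneg (abs_nonneg R)).2 fun i => by
      rw [Real.norm_eq_abs, ← sq_le_sq]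
      exact (Finset.single_le_sum (f := fun j => (x j - c j) ^ 2) (fun j _ => sq_nonneg _)
        (Finset.mem_univ i)).trans (le_of_lt hx)
    linarith [norm_le_norm_add_norm_sub' x c, norm_sub_rev x c]
  have hoff : ∀ x, x ∉ K → dens v x - dens W x = 0 := fun x hx =>
    eq_zero_congr (by filter_upwards [hKc.isClosed.isOpen_compl.mem_nhds hx] with y hy using hKv y hy)
  have hkey : 0 ≤ ∫ x, (dens v x - dens W x) := by
    set E : ℝ := ∫ x, (dens v x - dens W x)
    obtain ⟨B, hB0⟩ : ∃ B, ∀ x, |v x - W x| ≤ B := by
      obtain ⟨B, hB⟩ := hKc.exists_bound_of_continuousOn (hM.continuous.sub hWl.continuous).continuousOn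
      exact ⟨max B 0, fun x => by
        by_cases hx : x ∈ K
        · exact le_max_of_le_left (by simpa using hB x hx)
        · simp [hKv x hx]⟩
    have hB1 : 0 ≤ B := (abs_nonneg _).trans (hB0 0)
    set N : ℝ≥0 := L + ((M + L) + B.toNNReal)
    set C : ℝ := (↑(d + 1) : ℝ) * (N * N) + 1
    have step : ∀ T : ℝ, 0 < T → 0 ≤ (2 * T) * E + (2 * C) * volume.real K := fun T hT => by
      set wT : (Fin (d + 1) → ℝ) → ℝ := fun z =>
        W (Fin.init z) + tent T (z (Fin.last d)) * (v (Fin.init z) - W (Fin.init z))
      have hlip : LipschitzWith N wT := LipschitzWith.of_dist_le_mul fun z z' => by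
        rw [Real.dist_eq, dist_eq_norm]
        set D := ‖z - z'‖
        have a1 : ‖Fin.init z - Fin.init z'‖ ≤ D := norm_init_le (z - z')
        have a2 : |z (Fin.last d) - z' (Fin.last d)| ≤ D := abs_last_le (z - z')
        have b1 := (abs_sub_le_lip hWl (Fin.init z) (Fin.init z')).trans
          (mul_le_mul_of_nonneg_left a1 L.2)
        have b2 := (abs_sub_le_lip hM (Fin.init z) (Fin.init z')).trans
          (mul_le_mul_of_nonneg_left a1 M.2)
        have b3 : |tent T (z (Fin.last d)) * ((v (Fin.init z) - W (Fin.init z))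
            - (v (Fin.init z') - W (Fin.init z')))| ≤ 1 * ((M + L) * D) := by
          rw [abs_mul]
          refine mul_le_mul (abs_tent_le _ _) ?_ (abs_nonneg _) zero_le_one
          rw [abs_le] at b1 b2 ⊢
          exact ⟨by linarith, by linarith⟩
        have b4 : |(tent T (z (Fin.last d)) - tent T (z' (Fin.last d)))
            * (v (Fin.init z') - W (Fin.init z'))| ≤ D * B := by
          rw [abs_mul]
          exact mul_le_mul ((abs_tent_sub_le _ _ _).trans a2) (hB0 _) (abs_nonneg _) (norm_nonneg _)
        have e : wT z - wT z' = (W (Fin.init z) - W (Fin.init z'))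
            + tent T (z (Fin.last d)) * ((v (Fin.init z) - W (Fin.init z))
              - (v (Fin.init z') - W (Fin.init z')))
            + (tent T (z (Fin.last d)) - tent T (z' (Fin.last d)))
              * (v (Fin.init z') - W (Fin.init z')) := by
          simp only [wT]; ring
        rw [e]
        refine (abs_add_three _ _ _).trans ((add_le_add (add_le_add b1 b3) b4).trans_eq ?_)
        simp only [N, NNReal.coe_add, Real.coe_toNNReal B hB1]
        ring
      have hnn : ∀ z, 0 ≤ wT z := fun z => by
        have h1 : 0 ≤ tent T (z (Fin.last d)) := le_min zero_le_one (le_max_left _ _)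
        have h2 : tent T (z (Fin.last d)) ≤ 1 := min_le_left _ _
        have e : wT z = (1 - tent T (z (Fin.last d))) * W (Fin.init z)
            + tent T (z (Fin.last d)) * v (Fin.init z) := by simp only [wT]; ring
        rw [e]
        exact add_nonneg (mul_nonneg (sub_nonneg.2 h2) (hW0 _)) (mul_nonneg h1 (hv0 _))
      have hsupp : ∃ Z, IsCompact Z ∧ ∀ z ∉ Z, wT z = w z := by
        obtain ⟨r, hr⟩ := hKc.isBounded.subset_closedBall (0 : Fin d → ℝ)
        refine ⟨closedBall 0 (max r (T + 1)), isCompact_closedBall _ _, fun z hz => ?_⟩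
        rw [hW z]
        show W _ + _ = W _
        by_cases hzK : Fin.init z ∈ K
        · have hzr : ‖Fin.init z‖ ≤ r := mem_closedBall_zero_iff.1 (hr hzK)
          have : T + 1 ≤ |z (Fin.last d)| := le_of_not_gt fun hlt => hz <| by
            rw [mem_closedBall_zero_iff, pi_norm_le_iff_of_nonneg (le_max_of_le_right (by linarith))]
            intro i
            refine Fin.lastCases ?_ (fun j => ?_) i
            · exact le_max_of_le_right hlt.le
            · exact le_max_of_le_left ((norm_le_pi_norm (Fin.init z) j).trans hzr)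
          simp [tent_eq_zero this]
        · simp [hKv _ hzK]
      obtain ⟨hint, h0⟩ := hc (d + 1) L w wT h ⟨N, hlip⟩ hnn hsupp
      set a1 : ℝ → ℝ := (Ioo (-T) T).indicator fun _ => 1
      set a2 : ℝ → ℝ := fun t =>
        (Icc (-(T + 1)) (T + 1)).indicator (fun _ => (1 : ℝ)) t - (Ioo (-T) T).indicator (fun _ => 1) t
      set b2 : (Fin d → ℝ) → ℝ := K.indicator fun _ => C
      have hbound : ∀ z, dens wT z - dens w z ≤
          a1 (z (Fin.last d)) * (dens v (Fin.init z) - dens W (Fin.init z))
            + a2 (z (Fin.last d)) * b2 (Fin.init z) := fun z => by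
        have hwz : dens w z = dens W (Fin.init z) := by rw [hwe]; exact dens_init W z
        by_cases hzK : Fin.init z ∈ K
        · by_cases hzT : |z (Fin.last d)| < T
          · have hm : z (Fin.last d) ∈ Ioo (-T) T := abs_lt.1 hzT
            have hm2 : z (Fin.last d) ∈ Icc (-(T + 1)) (T + 1) := ⟨by linarith [hm.1], by linarith [hm.2]⟩
            have e : dens wT z = dens v (Fin.init z) := by
              rw [← dens_init v z]
              refine dens_congr ?_
              have : ContinuousAt (fun y : Fin (d + 1) → ℝ => |y (Fin.last d)|) z :=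
                (continuous_apply (Fin.last d)).abs.continuousAt
              filter_upwards [this.eventually_lt_const hzT] with y hy
              simp [wT, tent_eq_one hy.le]
            simp only [a1, a2, b2, indicator_of_mem hm, indicator_of_mem hm2, e, hwz]
            linarith
          · have hm : z (Fin.last d) ∉ Ioo (-T) T := fun hm => hzT (abs_lt.2 hm)
            by_cases hz2 : |z (Fin.last d)| ≤ T + 1
            · have hm2 : z (Fin.last d) ∈ Icc (-(T + 1)) (T + 1) := abs_le.1 hz2
              have hC : dens wT z ≤ C := Reg.dens_le hlip z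
              simp only [a1, a2, b2, indicator_of_notMem hm, indicator_of_mem hm2, indicator_of_mem hzK]
              linarith [Reg.dens_nonneg w z]
            · have hm2 : z (Fin.last d) ∉ Icc (-(T + 1)) (T + 1) := fun hm2 => hz2 (abs_le.2 hm2)
              have e : dens wT z = dens w z := by
                refine dens_congr ?_
                have : ContinuousAt (fun y : Fin (d + 1) → ℝ => |y (Fin.last d)|) z :=
                  (continuous_apply (Fin.last d)).abs.continuousAt
                filter_upwards [this.eventually_const_lt (not_le.1 hz2)] with y hy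
                simp [wT, hW y, tent_eq_zero hy.le]
              simp only [a1, a2, indicator_of_notMem hm, indicator_of_notMem hm2, e]
              linarith
        · have e : dens wT z = dens w z := by
            refine dens_congr ?_
            have : ContinuousAt (fun y : Fin (d + 1) → ℝ => Fin.init y) z :=
              (initL d).continuous.continuousAt
            filter_upwards [this (hKc.isClosed.isOpen_compl.mem_nhds hzK)] with y hy
            simp [wT, hW y, hKv _ hy]
          simp [b2, hzK, hoff _ hzK, e]
      have ia1 : Integrable a1 := (integrable_indicator_iff measurableSet_Ioo).2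
        (integrableOn_const measure_Ioo_lt_top.ne)
      have ia2 : Integrable a2 := ((integrable_indicator_iff measurableSet_Icc).2
        (integrableOn_const measure_Icc_lt_top.ne)).sub' ia1
      have ib1 : Integrable fun x => dens v x - dens W x :=
        integrable_of_bdd ((measurable_dens hM.continuous).sub (measurable_dens hWl.continuous)) hKc
          (C := (d * (M * M) + 1) + (d * (L * L) + 1)) hoff fun x => by
            rw [abs_le]
            have := Reg.dens_le hM x
            have := Reg.dens_le hWl x
            have := Reg.dens_nonneg v x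
            have := Reg.dens_nonneg W x
            exact ⟨by linarith, by linarith⟩
      have ib2 : Integrable b2 := (integrable_indicator_iff hKc.isClosed.measurableSet).2
        (integrableOn_const hKc.measure_lt_top.ne)
      have h1 : ∫ z, (dens wT z - dens w z) ≤ ∫ z : Fin (d + 1) → ℝ,
          (a1 (z (Fin.last d)) * (dens v (Fin.init z) - dens W (Fin.init z))
            + a2 (z (Fin.last d)) * b2 (Fin.init z)) :=
        integral_mono hint ((integrable_last_mul ia1 ib1).add (integrable_last_mul ia2 ib2)) hbound
      rw [integral_add (integrable_last_mul ia1 ib1) (integrable_last_mul ia2 ib2),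
        integral_last_mul a1 (fun x => dens v x - dens W x), integral_last_mul a2 b2] at h1
      have e1 : ∫ t, a1 t = 2 * T := by
        rw [integral_indicator measurableSet_Ioo, setIntegral_const, Measure.real, Real.volume_Ioo,
          ENNReal.toReal_ofReal (by linarith), smul_eq_mul, mul_one]
        ring
      have e2 : ∫ t, a2 t = 2 := by
        rw [integral_sub ((integrable_indicator_iff measurableSet_Icc).2
          (integrableOn_const measure_Icc_lt_top.ne)) ia1, e1, integral_indicator measurableSet_Icc,
          setIntegral_const, Measure.real, Real.volume_Icc,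
          ENNReal.toReal_ofReal (by linarith), smul_eq_mul, mul_one]
        ring
      have e3 : ∫ x, b2 x = volume.real K * C := by
        rw [integral_indicator hKc.isClosed.measurableSet, setIntegral_const, smul_eq_mul]
      rw [e1, e2, e3] at h1
      calc (0 : ℝ) ≤ _ := h0
        _ ≤ _ := h1
        _ = _ := by ring
    by_contra hneg
    rw [not_le] at hneg
    set P : ℝ := (2 * C) * volume.real K
    have h1 := step ((|P| + 1) / (-2 * E)) (div_pos (by positivity) (by linarith))
    have h2 : 2 * ((|P| + 1) / (-2 * E)) * E = -(|P| + 1) := by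
      have := hneg.ne
      field_simp
    rw [h2] at h1
    linarith [le_abs_self P]
  rw [energy_eq, energy_eq, ← sub_nonneg, ← integral_sub (integrableOn_dens hM hB) (integrableOn_dens hWl hB),
    setIntegral_eq_integral_of_forall_compl_eq_zero fun x hx => hoff x fun hxK => hx (hKR hxK)]
  exact hkey

/-- Homogeneous minimisers invariant in a direction are half-space solutions if that holds one
dimension below. -/
theorem reduce (hc : CompetitorSpec) (hrot : RotateSpec) (hflat : FlatIn d)
    {v : (Fin (d + 1) → ℝ) → ℝ} (h : LipMin L v) (hh : Homog v) (hne : v ≠ 0) {e : Fin (d + 1) → ℝ}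
    (he : e ≠ 0) (hinv : ∀ y (s : ℝ), v (y + s • e) = v y) :
    ∃ f, dot f f = 1 ∧ v = halfPlane f := by
  have hee : 0 < dot e e := (dot_self_nonneg e).lt_of_ne fun h0 => he (eq_zero_of_dot h0.symm)
  set f0 : Fin (d + 1) → ℝ := (Real.sqrt (dot e e))⁻¹ • e with hf0
  have hf1 : dot f0 f0 = 1 := by
    rw [hf0, dot_smul_self, inv_pow, Real.sq_sqrt hee.le, inv_mul_cancel₀ hee.ne']
  set n := Pi.single (Fin.last d) (1 : ℝ) - f0
  set A := reflEquiv n
  have hA : ∀ z, A z = refl n z := fun z => rfl
  have hlast : refl n (Pi.single (Fin.last d) 1) = f0 := refl_swap (dot_single_self _) hf1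
  set w := fun z => v (A z)
  have hw : LipMin (L * ↑(d + 1)) w := hrot (d + 1) L v A h fun x y => dot_refl n x y
  set W : (Fin d → ℝ) → ℝ := fun x => w (Fin.snoc x 0) with hWdef
  have hW : ∀ z, w z = W (Fin.init z) := fun z => by
    have e1 : z = Fin.snoc (Fin.init z) 0 + z (Fin.last d) • Pi.single (Fin.last d) (1 : ℝ) := by
      funext i
      refine Fin.lastCases ?_ (fun j => ?_) i
      · simp
      · simp [Fin.init, (Fin.castSucc_lt_last j).ne]
    show v (A z) = v (A _)
    conv_lhs => rw [e1]
    rw [hA, hA, map_add, map_smul, hlast, hf0, smul_smul, hinv]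
  have hWl : LipschitzWith (L * ↑(d + 1)) W := LipschitzWith.of_dist_le_mul fun x y => by
    refine (hw.lipschitz.dist_le_mul _ _).trans (mul_le_mul_of_nonneg_left ?_ (NNReal.coe_nonneg _))
    rw [dist_eq_norm, dist_eq_norm, pi_norm_le_iff_of_nonneg (norm_nonneg _)]
    intro i
    refine Fin.lastCases ?_ (fun j => ?_) i
    · simp
    · simpa using norm_le_pi_norm (x - y) j
  have hWm := minimizer_of_invariant hc hw hW hWl fun x => hw.nonneg _
  have hWh : Homog W := fun r x hr => by
    have e1 : (Fin.snoc (r • x) 0 : Fin (d + 1) → ℝ) = r • Fin.snoc x 0 := by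
      funext i
      refine Fin.lastCases ?_ (fun j => ?_) i <;> simp
    show v (A _) = r * v (A _)
    rw [e1, hA, hA, map_smul, hh r _ hr]
  have hWne : W ≠ 0 := fun h0 => hne (funext fun y => by
    have := hW (refl n y)
    rw [h0] at this
    simpa [w, hA, refl_refl] using this)
  obtain ⟨g, hg1, hg⟩ := hflat W _ hWm hWh hWne
  refine ⟨refl n (Fin.snoc g 0), ?_, funext fun y => ?_⟩
  · rw [dot_refl, ← hg1]
    simp [dot, Fin.sum_univ_castSucc]
  · have h1 := hW (refl n y)
    simp only [w, hA, refl_refl, hg] at h1
    rw [h1]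
    show max (lin g _) 0 = max (lin _ y) 0
    congr 1
    rw [lin_eq_dot (refl n _), ← dot_refl n (refl n (Fin.snoc g 0)) y, refl_refl]
    simp [lin, dot, Fin.sum_univ_castSucc, Fin.init]

end

end Vale.Agent.P098.Reg.Blow
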