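import Vale.Agent.P098.Reg.BlowBasic

/-!
# P098: the monotonicity formula of Weiss with a continuous weight
-/

namespace Vale.Agent.P098.Reg.Blow

open MeasureTheory Set Filter Topology Metric
open Vale.Agent.P098.Cone Vale.Agent.P098.Reg
open scoped NNReal

noncomputable section

variable {d : ℕ} {L : ℝ≥0} {u v : (Fin d → ℝ) → ℝ}

/-- The defect of homogeneity. -/
def euler (v : (Fin d → ℝ) → ℝ) (y : Fin d → ℝ) : ℝ := dot y (grad v y) - v y

theorem pd_zero_of_not_pos (h : LipMin L u) {x : Fin d → ℝ} (hx : x ∉ pos u) (i : Fin d) :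
    pd u i x = 0 := by
  have hmin : IsLocalMin u x := .of_forall fun y => by
    rw [le_antisymm (not_lt.1 hx) (h.nonneg x)]; exact h.nonneg y
  simp [pd, hmin.fderiv_eq_zero]

theorem measurable_euler (h : Continuous v) : Measurable (euler v) :=
  (Finset.measurable_sum _ fun i _ => (measurable_pi_apply i).mul (measurable_pd v i)).sub h.measurable

theorem abs_dot_grad_le (h : LipschitzWith L v) (y : Fin d → ℝ) :
    |dot y (grad v y)| ≤ d * (L * ‖y‖) := by
  refine (Finset.abs_sum_le_sum_abs _ _).trans ?_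
  refine (Finset.sum_le_card_nsmul _ _ ((L : ℝ) * ‖y‖) fun i _ => ?_).trans_eq (by simp)
  show |y i * pd v i y| ≤ _
  rw [abs_mul, mul_comm (L : ℝ)]
  exact mul_le_mul (norm_le_pi_norm y i) (abs_pd_le_lip h i y) (abs_nonneg _) (norm_nonneg _)

theorem abs_euler_le (h : LipschitzWith L v) (h0 : v 0 = 0) (y : Fin d → ℝ) :
    |euler v y| ≤ (d + 1) * (L * ‖y‖) :=
  (abs_sub _ _).trans ((add_le_add (abs_dot_grad_le h y) (abs_le_lip h h0 y)).trans_eq (by ring))

/-- The derivative of the blow-up in the scale. -/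
theorem hasDerivAt_scale {t : ℝ} (ht : 0 < t) {y : Fin d → ℝ} (hd : DifferentiableAt ℝ v (t • y)) :
    HasDerivAt (fun s => rescale v 0 s y) (euler v (t • y) / t ^ 2) t := by
  have h1 : HasDerivAt (fun s : ℝ => v (s • y)) (fderiv ℝ v (t • y) y) t := by
    have := hd.hasFDerivAt.comp_hasDerivAt t ((hasDerivAt_id t).smul_const y)
    simpa [Function.comp_def] using this
  have h2 := h1.div (hasDerivAt_id t) ht.ne'
  have e : euler v (t • y) = fderiv ℝ v (t • y) y * t - v (t • y) := by
    rw [fderiv_eq_sum, euler, dot, Finset.sum_mul]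
    congr 1
    exact Finset.sum_congr rfl fun i _ => by
      show t * y i * pd v i (t • y) = _
      ring
  simp only [rescale_zero_apply, e]
  simp only [id_eq, mul_one] at h2
  exact h2

theorem ae_diff_smul (h : LipschitzWith L v) {t : ℝ} (ht : t ≠ 0) :
    ∀ᵐ y : Fin d → ℝ, DifferentiableAt ℝ v (t • y) :=
  (Measure.quasiMeasurePreserving_smul volume ht).ae h.ae_differentiableAt

/-- Differentiating a weighted square of the blow-up in the scale. -/
theorem hasDerivAt_sq (h : LipschitzWith L v) (h0 : v 0 = 0) {η c : (Fin d → ℝ) → ℝ}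
    (hη : Continuous η) (hη0 : ∀ y ∉ closedBall (0 : Fin d → ℝ) 1, η y = 0) (hc : Continuous c)
    {t : ℝ} (ht : 0 < t) :
    HasDerivAt (fun s => ∫ y, η y * (rescale v 0 s y - c y) ^ 2)
      (∫ y, η y * (2 * (rescale v 0 t y - c y) * (euler v (t • y) / t ^ 2))) t := by
  have hcont : ∀ s : ℝ, Continuous fun y => rescale v 0 s y := fun s => by
    have := h.continuous
    unfold rescale
    fun_prop
  set b : (Fin d → ℝ) → ℝ := (closedBall (0 : Fin d → ℝ) 1).indicator
    fun y => |η y| * (2 * (L + |c y|) * (4 * L / t))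
  have hb : Integrable b := (integrable_indicator_iff measurableSet_closedBall).2
    ((by fun_prop : Continuous fun y => |η y| * (2 * ((L : ℝ) + |c y|) * (4 * L / t))).continuousOn.integrableOn_compact
      (isCompact_closedBall _ _))
  refine (hasDerivAt_integral_of_dominated_loc_of_lip (bound := b) (ball_mem_nhds t (half_pos ht))
    (.of_forall fun s => (hη.mul (((hcont s).sub hc).pow 2)).aestronglyMeasurable) ?_ ?_
    (.of_forall fun y => ?_) hb ?_).2
  · exact (hη.mul (((hcont t).sub hc).pow 2)).integrable_of_hasCompactSupport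
      (HasCompactSupport.intro (isCompact_closedBall (0 : Fin d → ℝ) 1) fun y hy => by simp [hη0 y hy])
  · exact (hη.measurable.mul (((measurable_const (a := (2 : ℝ))).mul ((hcont t).sub hc).measurable).mul
      (((measurable_euler h.continuous).comp (measurable_const_smul t)).div_const _))).aestronglyMeasurable
  · by_cases hy : y ∈ closedBall (0 : Fin d → ℝ) 1
    · refine LipschitzOnWith.of_dist_le_mul fun s hs s' hs' => ?_
      rw [mem_ball, Real.dist_eq, abs_lt] at hs hs'
      have hy1 := mem_closedBall_zero_iff.1 hy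
      have hs0 : 0 < s := by linarith
      have hs0' : 0 < s' := by linarith
      have hB : ∀ s : ℝ, 0 < s → |rescale v 0 s y| ≤ L := fun s hs => by
        rw [rescale_zero_apply, abs_div, abs_of_pos hs, div_le_iff₀ hs]
        refine (abs_le_lip h h0 _).trans ?_
        rw [norm_smul, Real.norm_eq_abs, abs_of_pos hs]
        calc (L : ℝ) * (s * ‖y‖) ≤ L * (s * 1) := by gcongr
          _ = L * s := by ring
      have hA : |rescale v 0 s y - rescale v 0 s' y| ≤ 4 * L / t * |s - s'| := by
        have e : rescale v 0 s y - rescale v 0 s' y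
            = (v (s • y) - v (s' • y)) / s + rescale v 0 s' y * (s' - s) / s := by
          simp only [rescale_zero_apply]; field_simp; ring
        rw [e]
        refine (abs_add_le _ _).trans ?_
        rw [abs_div, abs_div, abs_mul, abs_of_pos hs0, abs_sub_comm s' s]
        have a1 : |v (s • y) - v (s' • y)| ≤ L * |s - s'| := by
          refine (abs_sub_le_lip h _ _).trans ?_
          rw [← sub_smul, norm_smul, Real.norm_eq_abs]
          calc (L : ℝ) * (|s - s'| * ‖y‖) ≤ L * (|s - s'| * 1) := by gcongr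
            _ = _ := by ring
        have a2 : |rescale v 0 s' y| * |s - s'| ≤ L * |s - s'| :=
          mul_le_mul_of_nonneg_right (hB s' hs0') (abs_nonneg _)
        rw [← add_div, div_le_iff₀ hs0]
        have a3 : 1 / 2 ≤ s / t := by rw [le_div_iff₀ ht]; linarith
        have a4 : 4 * L / t * |s - s'| * s = (s / t) * (4 * L * |s - s'|) := by ring
        rw [a4]
        have a5 : 0 ≤ 4 * (L : ℝ) * |s - s'| := by positivity
        nlinarith
      rw [Real.dist_eq, Real.dist_eq, Real.coe_nnabs, abs_of_nonneg (a := b y)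
        (indicator_nonneg (fun y _ => by positivity) y)]
      simp only [b, indicator_of_mem hy, Pi.mul_apply, Pi.pow_apply, Pi.sub_apply]
      rw [← mul_sub, abs_mul, mul_assoc |η y|]
      refine mul_le_mul_of_nonneg_left ?_ (abs_nonneg _)
      rw [sq_sub_sq, abs_mul, mul_assoc]
      refine mul_le_mul ?_ ((le_of_eq (by ring_nf)).trans hA) (abs_nonneg _) (by positivity)
      have := hB s hs0
      have := hB s' hs0'
      have := le_abs_self (c y)
      have := neg_abs_le (c y)
      simp only [abs_le] at *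
      exact ⟨by linarith, by linarith⟩
    · refine LipschitzOnWith.of_dist_le_mul fun s _ s' _ => ?_
      simp [hη0 y hy]
      positivity
  · filter_upwards [ae_diff_smul h ht.ne'] with y hy
    simpa using (((hasDerivAt_scale ht hy).sub_const (c y)).pow 2).const_mul (η y)

/-! The positive part squared. -/

theorem hasDerivAt_maxsq (z : ℝ) : HasDerivAt (fun z : ℝ => max z 0 ^ 2) (2 * max z 0) z := by
  rcases lt_trichotomy z 0 with hz | hz | hz
  · refine ((hasDerivAt_const z (0 : ℝ)).congr_of_eventuallyEq ?_).congr_deriv (by simp [hz.le])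
    filter_upwards [gt_mem_nhds hz] with w hw
    simp [hw.le]
  · subst hz
    rw [hasDerivAt_iff_isLittleO]
    refine Asymptotics.IsBigO.trans_isLittleO (g := fun w : ℝ => w ^ 2) ?_ ?_
    · refine Asymptotics.isBigO_of_le _ fun w => ?_
      simp only [max_self, sub_zero, smul_eq_mul, mul_zero, Real.norm_eq_abs, abs_pow,
        zero_pow two_ne_zero]
      exact pow_le_pow_left₀ (abs_nonneg _) (by
        rw [abs_of_nonneg (le_max_right w 0)]; exact max_le (le_abs_self w) (abs_nonneg w)) 2
    · simpa using Asymptotics.isLittleO_pow_id (𝕜 := ℝ) one_lt_two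
  · refine ((hasDerivAt_pow 2 z).congr_of_eventuallyEq ?_).congr_deriv (by simp [hz.le])
    filter_upwards [lt_mem_nhds hz] with w hw
    simp [hw.le]

theorem contDiff_maxsq : ContDiff ℝ 1 fun z : ℝ => max z 0 ^ 2 := by
  refine contDiff_one_iff_deriv.2 ⟨fun z => (hasDerivAt_maxsq z).differentiableAt, ?_⟩
  rw [show deriv (fun z : ℝ => max z 0 ^ 2) = fun z => 2 * max z 0 from
    funext fun z => (hasDerivAt_maxsq z).deriv]
  fun_prop

/-- The scaled weight. -/
def sPhi (q : ℝ) (x : Fin d → ℝ) : ℝ := wPhi (q • x)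

theorem dot_smul_self (q : ℝ) (x : Fin d → ℝ) : dot (q • x) (q • x) = q ^ 2 * dot x x := by
  simp only [dot, Pi.smul_apply, smul_eq_mul, Finset.mul_sum]
  exact Finset.sum_congr rfl fun i _ => by ring

theorem contDiff_sPhi (q : ℝ) : ContDiff ℝ 1 (sPhi q : (Fin d → ℝ) → ℝ) := by
  refine contDiff_maxsq.comp ?_
  unfold dot
  fun_prop

theorem smul_notMem_ball {q : ℝ} (hq : 0 < q) {x : Fin d → ℝ}
    (hx : x ∉ closedBall (0 : Fin d → ℝ) q⁻¹) : q • x ∉ closedBall (0 : Fin d → ℝ) 1 := fun h => hx (by
  rw [mem_closedBall_zero_iff] at h ⊢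
  rw [norm_smul, Real.norm_eq_abs, abs_of_pos hq] at h
  rwa [inv_eq_one_div, le_div_iff₀ hq, mul_comm])

theorem sPhi_eq_zero {q : ℝ} (hq : 0 < q) {x : Fin d → ℝ}
    (hx : x ∉ closedBall (0 : Fin d → ℝ) q⁻¹) : sPhi q x = 0 :=
  wPhi_eq_zero (smul_notMem_ball hq hx)

theorem compact_sPhi {q : ℝ} (hq : 0 < q) : HasCompactSupport (sPhi q : (Fin d → ℝ) → ℝ) :=
  HasCompactSupport.intro (isCompact_closedBall _ _) fun _ => sPhi_eq_zero hq

theorem pd_sPhi (q : ℝ) (i : Fin d) (x : Fin d → ℝ) :
    pd (sPhi q) i x = -4 * q ^ 2 * x i * wPsi (q • x) := by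
  have hf : DifferentiableAt ℝ (fun y : Fin d → ℝ => 1 - dot (q • y) (q • y)) x := by
    unfold dot; fun_prop
  have h1 := pd_comp (hasDerivAt_maxsq (1 - dot (q • x) (q • x))) hf i
  have h2 : pd (fun y : Fin d → ℝ => 1 - dot (q • y) (q • y)) i x = -(q ^ 2 * (2 * x i)) := by
    have e : (fun y : Fin d → ℝ => 1 - dot (q • y) (q • y)) = fun y => 1 - ∑ j, q ^ 2 * (y j * y j) := by
      funext y; rw [dot_smul_self, dot, Finset.mul_sum]
    rw [e, pd_sub (differentiableAt_const _) (DifferentiableAt.fun_sum fun j _ => by fun_prop),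
      pd_sum Finset.univ (F := fun j y => q ^ 2 * (y j * y j)) (fun j _ => by fun_prop), pd_const, zero_sub]
    congr 1
    rw [Finset.sum_congr rfl fun j (_ : j ∈ Finset.univ) => (show pd (fun y : Fin d → ℝ => q ^ 2 * (y j * y j)) i x
      = if i = j then q ^ 2 * (2 * x j) else 0 by
        rw [pd_mul (differentiableAt_const _) (by fun_prop), pd_mul (differentiableAt_apply j x)
          (differentiableAt_apply j x), pd_const, pd_coord]
        split_ifs <;> ring)]
    simp
  rw [h2] at h1
  show pd (fun y => max (1 - dot (q • y) (q • y)) 0 ^ 2) i x = _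
  rw [h1]
  show _ = -4 * q ^ 2 * x i * max (1 - dot (q • x) (q • x)) 0
  ring

/-- Stationarity under the radial field. -/
theorem radial_stationary (hst : StationarySpec) (h : LipMin L u) {q : ℝ} (hq : 0 < q) :
    ∫ x, (dens u x * (d * sPhi q x - 4 * q ^ 2 * wPsi (q • x) * dot x x)
      - 2 * (dot (grad u x) (grad u x) * sPhi q x
        - 4 * q ^ 2 * wPsi (q • x) * dot x (grad u x) ^ 2)) = 0 := by
  have hX : ∀ i, ContDiff ℝ 1 fun x : Fin d → ℝ => x i * sPhi q x := fun i =>
    (contDiff_apply ℝ ℝ i).mul (contDiff_sPhi q)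
  have hXc : ∀ i, HasCompactSupport fun x : Fin d → ℝ => x i * sPhi q x := fun i =>
    (compact_sPhi hq).mul_left
  have h0 := hst d L u (fun i x => x i * sPhi q x) h hX hXc
  rw [← integral_indicator (isOpen_pos h.lipschitz.continuous).measurableSet] at h0
  refine (integral_congr_ae (.of_forall fun x => ?_)).trans h0
  have hp : ∀ i j, pd (fun x : Fin d → ℝ => x i * sPhi q x) j x
      = (if j = i then sPhi q x else 0) + x i * (-4 * q ^ 2 * x j * wPsi (q • x)) := fun i j => by
    rw [pd_mul (differentiableAt_apply i x) ((contDiff_sPhi q).differentiable one_ne_zero x), pd_coord,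
      pd_sPhi]
    split_ifs <;> ring
  by_cases hx : x ∈ pos u
  · simp only [dens, indicator_of_mem hx, innerInt, dvg, hp, if_true, Finset.sum_add_distrib,
      mul_add, mul_ite, mul_zero, Finset.sum_ite_eq', Finset.mem_univ, Finset.sum_const,
      Finset.card_univ, Fintype.card_fin, nsmul_eq_mul]
    have e1 : ∑ i, x i * (-4 * q ^ 2 * x i * wPsi (q • x)) = -4 * q ^ 2 * wPsi (q • x) * dot x x := by
      rw [dot, Finset.mul_sum]; exact Finset.sum_congr rfl fun i _ => by ring
    have e2 : ∑ i, pd u i x * pd u i x * sPhi q x = dot (grad u x) (grad u x) * sPhi q x := by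
      rw [dot, Finset.sum_mul]; rfl
    have e3 : ∑ i, ∑ j, pd u i x * pd u j x * (x i * (-4 * q ^ 2 * x j * wPsi (q • x)))
        = -4 * q ^ 2 * wPsi (q • x) * dot x (grad u x) ^ 2 := by
      rw [sq (dot x _), dot, Finset.sum_mul_sum, Finset.mul_sum]
      refine Finset.sum_congr rfl fun i _ => ?_
      rw [Finset.mul_sum]
      exact Finset.sum_congr rfl fun j _ => by simp only [grad]; ring
    rw [e1, e2, e3]
    ring
  · have hg : grad u x = 0 := funext fun i => pd_zero_of_not_pos h hx i
    simp [dens, indicator_of_notMem hx, hg, dot]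

/-- The Laplacian tested with a multiple of the minimiser. -/
theorem radial_lap (hlap : LapSpec) (h : LipMin L u) {q : ℝ} (hq : 0 < q) :
    ∫ x, (dot (grad u x) (grad u x) * sPhi q x
      - 4 * q ^ 2 * wPsi (q • x) * (u x * dot x (grad u x))) = 0 := by
  have hlip : ∃ M, LipschitzWith M (sPhi q : (Fin d → ℝ) → ℝ) :=
    ⟨_, ContDiff.lipschitzWith_of_hasCompactSupport (compact_sPhi hq) (contDiff_sPhi q) one_ne_zero |>.choose_spec⟩
  have h0 := (hlap d L u (sPhi q) h hlip (compact_sPhi hq)).1
  rw [lapT, neg_eq_zero] at h0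
  refine (integral_congr_ae ?_).trans h0
  filter_upwards [h.lipschitz.ae_differentiableAt] with x hx
  have hg : grad (fun x => u x * sPhi q x) x
      = fun i => pd u i x * sPhi q x + u x * (-4 * q ^ 2 * x i * wPsi (q • x)) := funext fun i => by
    show pd _ i x = _
    rw [pd_mul hx ((contDiff_sPhi q).differentiable one_ne_zero x), pd_sPhi]
    ring
  rw [hg]
  simp only [dot, grad, Finset.sum_mul, Finset.mul_sum, ← Finset.sum_sub_distrib]
  exact Finset.sum_congr rfl fun i _ => by ring

theorem integrable_of_bound {f : (Fin d → ℝ) → ℝ} {R C : ℝ} (hf : Measurable f)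
    (h0 : ∀ x ∉ closedBall (0 : Fin d → ℝ) R, f x = 0)
    (hb : ∀ x ∈ closedBall (0 : Fin d → ℝ) R, |f x| ≤ C) : Integrable f := by
  refine Integrable.mono' ((integrable_indicator_iff measurableSet_closedBall).2
    (integrableOn_const (C := C) (measure_closedBall_lt_top (x := (0 : Fin d → ℝ)) (r := R)).ne))
    hf.aestronglyMeasurable (.of_forall fun x => ?_)
  by_cases hx : x ∈ closedBall (0 : Fin d → ℝ) R
  · simpa [indicator_of_mem hx] using hb x hx
  · simp [indicator_of_notMem hx, h0 x hx]

theorem abs_dot_self_le {x : Fin d → ℝ} {R : ℝ} (hx : ‖x‖ ≤ R) : |dot x x| ≤ d * R ^ 2 := by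
  rw [abs_of_nonneg (dot_self_nonneg x)]
  refine (Finset.sum_le_card_nsmul _ _ (R ^ 2) fun i _ => ?_).trans_eq (by simp)
  have := (norm_le_pi_norm x i).trans hx
  rw [Real.norm_eq_abs, abs_le] at this
  show x i * x i ≤ R ^ 2
  nlinarith

/-- The derivative of the energy part in the inverse scale. -/
theorem hasDerivAt_energy (h : LipschitzWith L u) {q : ℝ} (hq : 0 < q) :
    HasDerivAt (fun p => ∫ x, sPhi p x * dens u x)
      (∫ x, -4 * q * dot x x * wPsi (q • x) * dens u x) q := by
  have hm := measurable_dens h.continuous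
  have hP : ∀ p : ℝ, Continuous (sPhi p : (Fin d → ℝ) → ℝ) := fun p => (contDiff_sPhi p).continuous
  have hS : Continuous fun x : Fin d → ℝ => -4 * q * dot x x * wPsi (q • x) :=
    (continuous_const.mul continuous_dotSelf).mul (continuous_wPsi.comp (continuous_const_smul q))
  set C : ℝ := 4 * (2 * q) * (d * (2 / q) ^ 2) * (d * (L : ℝ) ^ 2 + 1)
  refine (hasDerivAt_integral_of_dominated_loc_of_deriv_le
    (bound := (closedBall (0 : Fin d → ℝ) (2 / q)).indicator fun _ => C)
    (F' := fun p x => -4 * p * dot x x * wPsi (p • x) * dens u x) (ball_mem_nhds q (half_pos hq))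
    (.of_forall fun p => ((hP p).measurable.mul hm).aestronglyMeasurable) ?_
    (hS.measurable.mul hm).aestronglyMeasurable (.of_forall fun x p hp => ?_)
    ((integrable_indicator_iff measurableSet_closedBall).2
      (integrableOn_const measure_closedBall_lt_top.ne))
    (.of_forall fun x p _ => ?_)).2
  · refine integrable_of_bound (R := q⁻¹) (C := 1 * (d * (L : ℝ) ^ 2 + 1)) ((hP q).measurable.mul hm)
      (fun x hx => by simp [sPhi_eq_zero hq hx]) fun x _ => ?_
    rw [Pi.mul_apply, abs_mul]
    exact mul_le_mul (by rw [sPhi, wPhi, abs_of_nonneg (sq_nonneg _)]; exact wPhi_le_one _)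
      (abs_dens_le h x) (abs_nonneg _) zero_le_one
  · rw [mem_ball, Real.dist_eq, abs_lt] at hp
    have hp0 : 0 < p := by linarith
    have hC : 0 ≤ C := by positivity
    by_cases hx : x ∈ closedBall (0 : Fin d → ℝ) (2 / q)
    · rw [indicator_of_mem hx, Real.norm_eq_abs]
      simp only [abs_mul, abs_neg, abs_of_pos hp0, abs_of_nonneg (wPsi_nonneg _)]
      rw [mem_closedBall_zero_iff] at hx
      have e : C = 4 * (2 * q) * (d * (2 / q) ^ 2) * 1 * (d * (L : ℝ) ^ 2 + 1) := by ring
      rw [e]
      refine mul_le_mul (mul_le_mul (mul_le_mul ?_ (abs_dot_self_le hx) (abs_nonneg _) (by positivity))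
        (wPsi_le_one _) (wPsi_nonneg _) (by positivity)) (abs_dens_le h x) (abs_nonneg _) (by positivity)
      rw [show |(4 : ℝ)| = 4 from abs_of_pos (by norm_num)]
      linarith
    · rw [indicator_of_notMem hx, norm_le_zero_iff]
      have hp2 : q / 2 < p := by linarith
      have : x ∉ closedBall (0 : Fin d → ℝ) p⁻¹ := fun h' => hx (closedBall_subset_closedBall (by
        rw [inv_le_iff_one_le_mul₀ hp0, div_mul_eq_mul_div, le_div_iff₀ hq]; linarith) h')
      simp [wPsi_eq_zero (smul_notMem_ball hp0 this)]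
  · have h1 : HasDerivAt (fun p : ℝ => 1 - dot (p • x) (p • x)) (-(2 * p * dot x x)) p := by
      simp only [dot_smul_self]
      simpa using (((hasDerivAt_id p).pow 2).mul_const (dot x x)).const_sub 1
    have h2 := ((hasDerivAt_maxsq _).comp p h1).mul_const (dens u x)
    refine h2.congr_deriv ?_
    simp only [wPsi]
    ring

/-- The monotonicity formula. -/
theorem hasDerivAt_weiss (hst : StationarySpec) (hlap : LapSpec) (h : LipMin L u) (h0 : u 0 = 0)
    {t : ℝ} (ht : 0 < t) :
    HasDerivAt (fun s => weiss (rescale u 0 s))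
      (8 / t ^ 3 * ∫ y, wPsi y * euler u (t • y) ^ 2) t := by
  have hl := h.lipschitz
  set q : ℝ := t⁻¹ with hqdef
  have hq : 0 < q := inv_pos.2 ht
  have hsmul : ∀ {s : ℝ}, 0 < s → ∀ g : (Fin d → ℝ) → ℝ,
      ∫ y, g (s • y) = (s ^ d)⁻¹ * ∫ x, g x := fun hs g => by
    rw [Measure.integral_comp_smul volume g, Module.finrank_fin_fun, smul_eq_mul,
      abs_of_pos (inv_pos.2 (pow_pos hs d))]
  have hG : (fun s => ∫ y, wPhi y * dens (rescale u 0 s) y)
      =ᶠ[𝓝 t] fun s => (s ^ d)⁻¹ * ∫ x, sPhi s⁻¹ x * dens u x := by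
    filter_upwards [lt_mem_nhds ht] with s hs
    rw [← hsmul hs]
    refine integral_congr_ae (.of_forall fun y => ?_)
    simp [sPhi, dens_rescale u 0 hs, inv_smul_smul₀ hs.ne']
  have hF := (hasDerivAt_energy hl (inv_pos.2 ht)).comp t (hasDerivAt_inv ht.ne')
  have hE := ((((hasDerivAt_pow d t).inv (pow_ne_zero d ht.ne')).mul hF).congr_of_eventuallyEq hG)
  have hU := (hasDerivAt_sq hl h0 continuous_wPsi (fun y => wPsi_eq_zero) continuous_const ht
    (c := fun _ => 0)).const_mul 4
  simp only [sub_zero] at hU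
  refine (hE.sub hU).congr_deriv ?_
  -- the integrals at the scale `q`
  have hψ : Continuous fun x : Fin d → ℝ => wPsi (q • x) := continuous_wPsi.comp (continuous_const_smul q)
  have hd := continuous_dotSelf (d := d)
  have hmA := measurable_dens hl.continuous
  have hmP : Measurable (sPhi q : (Fin d → ℝ) → ℝ) := (contDiff_sPhi q).continuous.measurable
  have hmG : Measurable fun x => dot (grad u x) (grad u x) :=
    Finset.measurable_sum _ fun i _ => (measurable_pd u i).mul (measurable_pd u i)
  have hmD : Measurable fun x => dot x (grad u x) :=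
    Finset.measurable_sum _ fun i _ => (measurable_pi_apply i).mul (measurable_pd u i)
  have hψ1 : ∀ x : Fin d → ℝ, |wPsi (q • x)| ≤ 1 := fun x => by
    rw [abs_of_nonneg (wPsi_nonneg _)]; exact wPsi_le_one _
  have hψ0 : ∀ x ∉ closedBall (0 : Fin d → ℝ) q⁻¹, wPsi (q • x) = 0 := fun x hx =>
    wPsi_eq_zero (smul_notMem_ball hq hx)
  set K := (L : ℝ) * q⁻¹
  have hK : ∀ x ∈ closedBall (0 : Fin d → ℝ) q⁻¹, |u x| ≤ K ∧ |dot x (grad u x)| ≤ d * K := by
    intro x hx
    rw [mem_closedBall_zero_iff] at hx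
    have := mul_le_mul_of_nonneg_left hx L.2
    exact ⟨(abs_le_lip hl h0 x).trans this, (abs_dot_grad_le hl x).trans
      (mul_le_mul_of_nonneg_left this (Nat.cast_nonneg d))⟩
  have i1 : Integrable fun x => sPhi q x * dens u x :=
    integrable_of_bound (R := q⁻¹) (C := 1 * (d * (L : ℝ) ^ 2 + 1)) (hmP.mul hmA)
      (fun x hx => by simp [sPhi_eq_zero hq hx]) fun x _ => by
        rw [abs_mul]
        exact mul_le_mul (by rw [sPhi, wPhi, abs_of_nonneg (sq_nonneg _)]; exact wPhi_le_one _)
          (abs_dens_le hl x) (abs_nonneg _) zero_le_one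
  have i2 : Integrable fun x => wPsi (q • x) * dot x x * dens u x :=
    integrable_of_bound (R := q⁻¹) (C := 1 * (d * q⁻¹ ^ 2) * (d * (L : ℝ) ^ 2 + 1)) ((hψ.mul hd).measurable.mul hmA)
      (fun x hx => by simp [hψ0 x hx]) fun x hx => by
        rw [abs_mul, abs_mul]
        exact mul_le_mul (mul_le_mul (hψ1 x) (abs_dot_self_le (mem_closedBall_zero_iff.1 hx))
          (abs_nonneg _) zero_le_one) (abs_dens_le hl x) (abs_nonneg _) (by positivity)
  have i3 : Integrable fun x => dot (grad u x) (grad u x) * sPhi q x :=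
    integrable_of_bound (R := q⁻¹) (C := (d * (L : ℝ) ^ 2 + 1) * 1) (hmG.mul hmP)
      (fun x hx => by simp [sPhi_eq_zero hq hx]) fun x _ => by
        rw [abs_mul, abs_of_nonneg (dot_self_nonneg _)]
        refine mul_le_mul ((le_add_of_nonneg_right (indicator_nonneg (fun _ _ => zero_le_one) _)).trans
          (dens_le hl x)) ?_ (abs_nonneg _) (by positivity)
        rw [sPhi, wPhi, abs_of_nonneg (sq_nonneg _)]; exact wPhi_le_one _
  have i4 : Integrable fun x => wPsi (q • x) * (u x * dot x (grad u x)) :=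
    integrable_of_bound (R := q⁻¹) (C := 1 * (K * (d * K))) (hψ.measurable.mul (hl.continuous.measurable.mul hmD))
      (fun x hx => by simp [hψ0 x hx]) fun x hx => by
        rw [abs_mul, abs_mul]
        exact mul_le_mul (hψ1 x) (mul_le_mul (hK x hx).1 (hK x hx).2 (abs_nonneg _)
          ((abs_nonneg _).trans (hK x hx).1)) (by positivity) zero_le_one
  have i5 : Integrable fun x => wPsi (q • x) * dot x (grad u x) ^ 2 :=
    integrable_of_bound (R := q⁻¹) (C := 1 * (d * K) ^ 2) (hψ.measurable.mul (hmD.pow_const 2))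
      (fun x hx => by simp [hψ0 x hx]) fun x hx => by
        rw [abs_mul, abs_pow]
        exact mul_le_mul (hψ1 x) (pow_le_pow_left₀ (abs_nonneg _) (hK x hx).2 2) (by positivity) zero_le_one
  have i6 : Integrable fun x => wPsi (q • x) * u x ^ 2 :=
    integrable_of_bound (R := q⁻¹) (C := 1 * K ^ 2) (hψ.measurable.mul (hl.continuous.measurable.pow_const 2))
      (fun x hx => by simp [hψ0 x hx]) fun x hx => by
        rw [abs_mul, abs_pow]
        exact mul_le_mul (hψ1 x) (pow_le_pow_left₀ (abs_nonneg _) (hK x hx).1 2) (by positivity) zero_le_one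
  have hS := radial_stationary hst h hq
  have hL := radial_lap hlap h hq
  have eS : ∀ x, dens u x * (d * sPhi q x - 4 * q ^ 2 * wPsi (q • x) * dot x x)
      - 2 * (dot (grad u x) (grad u x) * sPhi q x - 4 * q ^ 2 * wPsi (q • x) * dot x (grad u x) ^ 2)
      = (d * (sPhi q x * dens u x) - 4 * q ^ 2 * (wPsi (q • x) * dot x x * dens u x))
        - (2 * (dot (grad u x) (grad u x) * sPhi q x)
          - 8 * q ^ 2 * (wPsi (q • x) * dot x (grad u x) ^ 2)) := fun x => by ring
  simp only [eS] at hS
  rw [integral_sub ((i1.const_mul _).sub' (i2.const_mul _)) ((i3.const_mul _).sub' (i5.const_mul _)),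
    integral_sub (i1.const_mul _) (i2.const_mul _), integral_sub (i3.const_mul _) (i5.const_mul _),
    integral_const_mul, integral_const_mul, integral_const_mul, integral_const_mul] at hS
  have eL : ∀ x, dot (grad u x) (grad u x) * sPhi q x
      - 4 * q ^ 2 * wPsi (q • x) * (u x * dot x (grad u x))
      = dot (grad u x) (grad u x) * sPhi q x - 4 * q ^ 2 * (wPsi (q • x) * (u x * dot x (grad u x))) :=
    fun x => by ring
  simp only [eL] at hL
  rw [integral_sub i3 (i4.const_mul _), integral_const_mul] at hL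
  -- back to the integrals of the derivative
  have eU : ∫ y, wPsi y * (2 * rescale u 0 t y * (euler u (t • y) / t ^ 2))
      = (t ^ d)⁻¹ * (2 * q ^ 3 * ((∫ x, wPsi (q • x) * (u x * dot x (grad u x)))
        - ∫ x, wPsi (q • x) * u x ^ 2)) := by
    rw [← integral_sub i4 i6, ← integral_const_mul, ← hsmul ht]
    refine integral_congr_ae (.of_forall fun y => ?_)
    simp only [rescale_zero_apply, euler, hqdef, inv_smul_smul₀ ht.ne', inv_pow]
    field_simp
  have eR : ∫ y, wPsi y * euler u (t • y) ^ 2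
      = (t ^ d)⁻¹ * ((∫ x, wPsi (q • x) * dot x (grad u x) ^ 2)
        - 2 * (∫ x, wPsi (q • x) * (u x * dot x (grad u x))) + ∫ x, wPsi (q • x) * u x ^ 2) := by
    rw [← integral_const_mul, ← integral_sub i5 (i4.const_mul _), ← integral_add (i5.sub' (i4.const_mul _)) i6,
      ← hsmul ht]
    refine integral_congr_ae (.of_forall fun y => ?_)
    simp only [euler, hqdef, inv_smul_smul₀ ht.ne']
    ring
  have eF : ∫ x, -4 * q * dot x x * wPsi (q • x) * dens u x
      = -4 * q * ∫ x, wPsi (q • x) * dot x x * dens u x := by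
    rw [← integral_const_mul]
    exact integral_congr_ae (.of_forall fun x => by ring)
  rw [eU, eR]
  simp only [← hqdef, eF]
  set A := ∫ x, sPhi q x * dens u x
  set B := ∫ x, wPsi (q • x) * dot x x * dens u x
  set G := ∫ x, dot (grad u x) (grad u x) * sPhi q x
  set P := ∫ x, wPsi (q • x) * dot x (grad u x) ^ 2
  set Q := ∫ x, wPsi (q • x) * (u x * dot x (grad u x))
  set T := ∫ x, wPsi (q • x) * u x ^ 2
  have hA : (d : ℝ) * A = 4 * q ^ 2 * B + (8 * q ^ 2 * Q - 8 * q ^ 2 * P) := by linarith
  have ed : (d : ℝ) * t ^ (d - 1) * t = d * t ^ d := by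
    rcases Nat.eq_zero_or_pos d with hd | hd
    · simp [hd]
    · rw [mul_assoc, ← pow_succ, Nat.sub_add_cancel hd]
  have e1 : (d : ℝ) * t ^ (d - 1) / (t ^ d) ^ 2 * A = q * (t ^ d)⁻¹ * (d * A) := by
    rw [hqdef]
    field_simp
    linear_combination A * ed
  have e2 : (t ^ 2)⁻¹ = q ^ 2 := by rw [hqdef, inv_pow]
  have e3 : 8 / t ^ 3 = 8 * q ^ 3 := by rw [hqdef, inv_pow, div_eq_mul_inv]
  simp only [Function.comp_apply, Pi.inv_apply]
  rw [neg_div, neg_mul, e1, e2, e3, hA]
  ring

/-- The functional at scale `r` about `x`. -/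
def wAt (u : (Fin d → ℝ) → ℝ) (x : Fin d → ℝ) (r : ℝ) : ℝ := weiss (rescale u x r)

theorem wAt_translate (u : (Fin d → ℝ) → ℝ) (x : Fin d → ℝ) (r : ℝ) :
    wAt (rescale u x 1) 0 r = wAt u x r := by
  rw [wAt, wAt, rescale_rescale, one_mul]

theorem monotone_origin (hst : StationarySpec) (hlap : LapSpec) (h : LipMin L u) (h0 : u 0 = 0) :
    MonotoneOn (fun s => weiss (rescale u 0 s)) (Ioi 0) := by
  refine monotoneOn_of_deriv_nonneg (convex_Ioi 0)
    (fun s hs => (hasDerivAt_weiss hst hlap h h0 hs).continuousAt.continuousWithinAt) ?_ ?_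
  · rw [interior_Ioi]
    exact fun s hs => (hasDerivAt_weiss hst hlap h h0 hs).differentiableAt.differentiableWithinAt
  · rw [interior_Ioi]
    intro s hs
    rw [(hasDerivAt_weiss hst hlap h h0 hs).deriv]
    have hs' : (0 : ℝ) < s := hs
    exact mul_nonneg (by positivity) (integral_nonneg fun y => mul_nonneg (wPsi_nonneg y) (sq_nonneg _))

theorem monotone_wAt (hres : RescaleSpec) (hst : StationarySpec) (hlap : LapSpec) (h : LipMin L u)
    {x : Fin d → ℝ} (hx : u x = 0) {r s : ℝ} (hr : 0 < r) (hrs : r ≤ s) :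
    wAt u x r ≤ wAt u x s := by
  rw [← wAt_translate u x r, ← wAt_translate u x s]
  exact monotone_origin hst hlap (hres d L u x 1 h one_pos) (rescale_at_zero hx 1) hr (hr.trans_le hrs) hrs

/-- A minimiser of constant functional is homogeneous. -/
theorem homog_of_const (hst : StationarySpec) (hlap : LapSpec) (h : LipMin L u) (h0 : u 0 = 0)
    {w : ℝ} (hw : ∀ s, 0 < s → weiss (rescale u 0 s) = w) : Homog u := by
  have hl := h.lipschitz
  have hz : ∀ t : ℝ, 0 < t → ∀ᵐ y, wPsi y * euler u (t • y) = 0 := fun t ht => by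
    have h1 : HasDerivAt (fun s => weiss (rescale u 0 s)) 0 t :=
      (hasDerivAt_const t w).congr_of_eventuallyEq ((lt_mem_nhds ht).mono fun s hs => hw s hs)
    have h2 := (hasDerivAt_weiss hst hlap h h0 ht).unique h1
    have h3 : ∫ y, wPsi y * euler u (t • y) ^ 2 = 0 := by
      rcases mul_eq_zero.1 h2 with h4 | h4
      · exact absurd h4 (by positivity)
      · exact h4
    have hi : Integrable fun y => wPsi y * euler u (t • y) ^ 2 :=
      integrable_of_bound (R := 1) (C := 1 * ((d + 1) * (L * t)) ^ 2)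
        (continuous_wPsi.measurable.mul (((measurable_euler hl.continuous).comp
          (measurable_const_smul t)).pow_const 2))
        (fun y hy => by simp [wPsi_eq_zero hy]) fun y hy => by
          rw [abs_mul, abs_pow, abs_of_nonneg (wPsi_nonneg y)]
          refine mul_le_mul (wPsi_le_one y) (pow_le_pow_left₀ (abs_nonneg _)
            ((abs_euler_le hl h0 _).trans ?_) 2) (by positivity) zero_le_one
          rw [norm_smul, Real.norm_eq_abs, abs_of_pos ht]
          rw [mem_closedBall_zero_iff] at hy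
          calc ((d : ℝ) + 1) * (L * (t * ‖y‖)) ≤ (d + 1) * (L * (t * 1)) := by gcongr
            _ = _ := by ring
    filter_upwards [(integral_eq_zero_iff_of_nonneg
      (fun y => mul_nonneg (wPsi_nonneg y) (sq_nonneg _)) hi).1 h3] with y hy
    rcases mul_eq_zero.1 hy with h5 | h5
    · rw [h5, zero_mul]
    · rw [pow_eq_zero_iff two_ne_zero] at h5; rw [h5, mul_zero]
  have key : ∀ R s : ℝ, 0 < R → 0 < s → ∀ y, dot y y < 1 → rescale u 0 s y = rescale u 0 R y := by
    intro R s hR hs y hy
    have hc : ∀ p : ℝ, Continuous fun y => rescale u 0 p y := fun p => by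
      have := hl.continuous; unfold rescale; fun_prop
    set F := fun p => ∫ y, wPsi y * (rescale u 0 p y - rescale u 0 R y) ^ 2
    have hF : ∀ p ∈ Ioi (0 : ℝ), HasDerivAt F 0 p := fun p hp => by
      refine (hasDerivAt_sq hl h0 continuous_wPsi (fun y => wPsi_eq_zero) (hc R) hp).congr_deriv ?_
      refine integral_eq_zero_of_ae ?_
      filter_upwards [hz p hp] with z hzz
      rw [Pi.zero_apply]
      linear_combination (2 * (rescale u 0 p z - rescale u 0 R z) / p ^ 2) * hzz
    have hFs : F s = 0 := by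
      have : F s = F R := (convex_Ioi (0 : ℝ)).is_const_of_fderivWithin_eq_zero (f := F)
        (fun p hp => (hF p hp).differentiableAt.differentiableWithinAt) (fun p hp => by
          rw [fderivWithin_of_isOpen isOpen_Ioi hp, (hF p hp).hasFDerivAt.fderiv]
          exact ContinuousLinearMap.ext fun _ => by simp) (mem_Ioi.2 hs) (mem_Ioi.2 hR)
      simpa [F] using this
    have hcont := continuous_wPsi.mul (((hc s).sub (hc R)).pow 2)
    have h1 := (integral_eq_zero_iff_of_nonneg (fun y => mul_nonneg (wPsi_nonneg y) (sq_nonneg _))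
      (hcont.integrable_of_hasCompactSupport (HasCompactSupport.intro (isCompact_closedBall 0 1)
        fun y hy => by simp [wPsi_eq_zero hy]))).1 hFs
    have h2 : wPsi y * (rescale u 0 s y - rescale u 0 R y) ^ 2 = 0 :=
      congr_fun ((Continuous.ae_eq_iff_eq volume hcont continuous_const).1 h1) y
    have h3 : 0 < wPsi y := lt_max_of_lt_left (by linarith)
    simpa [sub_eq_zero, h3.ne'] using h2
  intro r x hr
  obtain ⟨R, hR0, hR⟩ : ∃ R : ℝ, 0 < R ∧ dot (R⁻¹ • x) (R⁻¹ • x) < 1 := by
    refine ⟨dot x x + 1, by linarith [dot_self_nonneg x], ?_⟩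
    have h1 := dot_self_nonneg x
    rw [dot_smul_self, inv_pow, inv_mul_lt_iff₀ (by positivity)]
    nlinarith
  have h1 := key R (r * R) hR0 (mul_pos hr hR0) _ hR
  simp only [rescale_zero_apply, smul_smul, mul_assoc, mul_inv_cancel₀ hR0.ne', mul_one, one_smul] at h1
  field_simp at h1
  linarith

end

end Vale.Agent.P098.Reg.Blow
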