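import Vale.Agent.P098.Reg.PolyNorm

/-!
# P098: the linearised free boundary condition on polynomials is onto
-/

namespace Vale.Agent.P098.Reg

open Finset MvPolynomial

noncomputable section

variable {n : ℕ}

/-- All monomials have degree at most the integer `m`. -/
def Deg (m : ℤ) (p : Poly n) : Prop := ∀ a ∈ p.support, (a.degree : ℤ) ≤ m

theorem deg_of_totalDegree {p : Poly n} {k : ℕ} (h : p.totalDegree ≤ k) : Deg k p :=
  fun _ ha => Int.ofNat_le.2 (degree_le_of_mem h ha)

theorem totalDegree_of_deg {p : Poly n} {k : ℕ} (h : Deg k p) : p.totalDegree ≤ k :=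
  Finset.sup_le fun _ ha => Int.ofNat_le.1 (h _ ha)

theorem Deg.mono {m m' : ℤ} {p : Poly n} (h : Deg m p) (hm : m ≤ m') : Deg m' p :=
  fun a ha => (h a ha).trans hm

theorem deg_zero (m : ℤ) : Deg m (0 : Poly n) := fun a ha => by simp at ha

theorem Deg.eq_zero {m : ℤ} {p : Poly n} (h : Deg m p) (hm : m < 0) : p = 0 := by
  by_contra hp
  obtain ⟨a, ha⟩ := Finset.nonempty_iff_ne_empty.2 (mt support_eq_empty.1 hp)
  linarith [h a ha, Int.natCast_nonneg a.degree]

theorem Deg.add {m : ℤ} {p q : Poly n} (hp : Deg m p) (hq : Deg m q) : Deg m (p + q) := fun a ha => by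
  classical
  rcases mem_union.1 (support_add ha) with h | h
  · exact hp a h
  · exact hq a h

theorem Deg.neg {m : ℤ} {p : Poly n} (hp : Deg m p) : Deg m (-p) :=
  fun a ha => hp a (by rwa [support_neg] at ha)

theorem Deg.sub {m : ℤ} {p q : Poly n} (hp : Deg m p) (hq : Deg m q) : Deg m (p - q) := by
  rw [sub_eq_add_neg]; exact hp.add hq.neg

theorem Deg.sum {ι : Type*} {m : ℤ} {s : Finset ι} {f : ι → Poly n} (h : ∀ i ∈ s, Deg m (f i)) :
    Deg m (∑ i ∈ s, f i) :=
  Finset.sum_induction f (Deg m) (fun _ _ => Deg.add) (deg_zero m) h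

theorem Deg.mul {a b : ℤ} {p q : Poly n} (hp : Deg a p) (hq : Deg b q) : Deg (a + b) (p * q) := fun c hc => by
  classical
  obtain ⟨x, hx, y, hy, rfl⟩ := Finset.mem_add.1 (support_mul p q hc)
  simp only [map_add, Nat.cast_add]
  exact add_le_add (hp x hx) (hq y hy)

theorem deg_C (c : ℝ) : Deg 0 (C c : Poly n) := fun a ha => by
  classical
  rw [mem_support_iff, coeff_C] at ha
  rw [show a = 0 by by_contra h; exact ha (if_neg (Ne.symm h))]
  simp

theorem deg_X (i : Fin n) : Deg 1 (X i : Poly n) := fun a ha => by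
  rw [support_X, mem_singleton] at ha
  simp [ha]

theorem deg_X_pow (i : Fin n) (j : ℕ) : Deg j (X i ^ j : Poly n) := fun a ha => by
  rw [support_X_pow, mem_singleton] at ha
  simp [ha]

theorem Deg.C_mul {m : ℤ} {p : Poly n} (c : ℝ) (hp : Deg m p) : Deg m (C c * p) := by
  simpa using (deg_C c).mul hp

theorem Deg.pderiv {m : ℤ} {p : Poly n} (hp : Deg m p) (i : Fin n) : Deg (m - 1) (pderiv i p) := by
  intro a ha
  rw [mem_support_iff, coeff_pderiv] at ha
  have h : a + Finsupp.single i 1 ∈ p.support := mem_support_iff.2 fun h0 => ha (by simp [h0])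
  have h' := hp _ h
  simp at h'
  linarith

theorem pderiv_comm' (i j : Fin n) (p : Poly n) : pderiv i (pderiv j p) = pderiv j (pderiv i p) := by
  classical
  refine MvPolynomial.ext _ _ fun a => ?_
  simp only [coeff_pderiv, Finsupp.add_apply, Finsupp.single_apply]
  rw [add_assoc, add_assoc, add_comm (Finsupp.single i 1) (Finsupp.single j 1)]
  rcases eq_or_ne i j with rfl | h
  · rfl
  · simp [h, h.symm]; ring

/-- The Laplacian. -/
def lapP : Poly n →ₗ[ℝ] Poly n :=
  ∑ i, (pderiv i).toLinearMap ∘ₗ (pderiv i).toLinearMap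

theorem lapP_apply (p : Poly n) : lapP p = ∑ i, pderiv i (pderiv i p) := by
  simp [lapP, LinearMap.sum_apply]

theorem Deg.lap {m : ℤ} {p : Poly n} (hp : Deg m p) : Deg (m - 2) (lapP p) := by
  rw [lapP_apply]
  exact Deg.sum fun i _ => by simpa [sub_sub] using (hp.pderiv i).pderiv i

theorem Deg.lap_iter {m : ℤ} {p : Poly n} (hp : Deg m p) (j : ℕ) : Deg (m - 2 * j) ((lapP ^ j) p) := by
  induction j with
  | zero => simpa using hp
  | succ j ih =>
    rw [pow_succ', Module.End.mul_apply]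
    exact ih.lap.mono (by push_cast; linarith)

theorem pderiv_lap_iter {i : Fin n} {p : Poly n} (h : pderiv i p = 0) (j : ℕ) :
    pderiv i ((lapP ^ j) p) = 0 := by
  induction j with
  | zero => simpa using h
  | succ j ih =>
    rw [pow_succ', Module.End.mul_apply, lapP_apply, map_sum]
    exact sum_eq_zero fun l _ => by rw [pderiv_comm', pderiv_comm' i l, ih, map_zero, map_zero]

/-- The Laplacian of a power of a coordinate times a polynomial free of that coordinate. -/
theorem lap_X_pow_mul {i : Fin n} {g : Poly n} (hg : pderiv i g = 0) (a : ℕ) :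
    lapP (X i ^ (a + 1) * g)
      = C ((a + 1) * a : ℝ) * (X i ^ (a - 1) * g) + X i ^ (a + 1) * lapP g := by
  classical
  rw [lapP_apply, lapP_apply]
  have h : ∀ l, pderiv l (pderiv l (X i ^ (a + 1) * g))
      = (if l = i then C ((a + 1) * a : ℝ) * (X i ^ (a - 1) * g) else 0)
        + X i ^ (a + 1) * pderiv l (pderiv l g) := by
    intro l
    rcases eq_or_ne l i with rfl | hl
    · simp [hg, pderiv_mul, pderiv_pow]
      rcases a with _ | a
      · simp
      · simp; ring
    · simp [pderiv_mul, pderiv_pow, pderiv_X_of_ne hl.symm, hl]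
  simp only [h, sum_add_distrib, sum_ite_eq', mem_univ, if_true, mul_sum]

/-- The part free of the variable `i`. -/
def free (i : Fin n) : Poly n →ₗ[ℝ] Poly n where
  toFun p := p.modMonomial (Finsupp.single i 1)
  map_add' p q := MvPolynomial.ext _ _ fun a => by
    by_cases h : Finsupp.single i 1 ≤ a
    · simp [coeff_modMonomial_of_le _ h]
    · simp [coeff_modMonomial_of_not_le _ h]
  map_smul' c p := MvPolynomial.ext _ _ fun a => by
    by_cases h : Finsupp.single i 1 ≤ a
    · simp [coeff_modMonomial_of_le _ h]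
    · simp [coeff_modMonomial_of_not_le _ h]

theorem Deg.free {m : ℤ} {p : Poly n} (hp : Deg m p) (i : Fin n) : Deg m (free i p) := by
  intro a ha
  rw [mem_support_iff] at ha
  by_cases h : Finsupp.single i 1 ≤ a
  · exact absurd (coeff_modMonomial_of_le _ h) ha
  · exact hp a (mem_support_iff.2 (by rwa [← coeff_modMonomial_of_not_le p h]))

theorem pderiv_free (i : Fin n) (p : Poly n) : pderiv i (free i p) = 0 :=
  MvPolynomial.ext _ _ fun a => by
    rw [coeff_pderiv, show free i p = p.modMonomial (Finsupp.single i 1) from rfl,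
      coeff_modMonomial_of_le _ le_add_self, zero_mul, coeff_zero]

/-- Division by the variable `i`. -/
def divX (i : Fin n) : Poly n →ₗ[ℝ] Poly n where
  toFun p := p.divMonomial (Finsupp.single i 1)
  map_add' p q := add_divMonomial p q _
  map_smul' c p := MvPolynomial.ext _ _ fun a => by simp [coeff_divMonomial]

theorem Deg.divX {m : ℤ} {p : Poly n} (hp : Deg m p) (i : Fin n) : Deg (m - 1) (divX i p) := by
  intro a ha
  rw [mem_support_iff, show Reg.divX i p = p.divMonomial (Finsupp.single i 1) from rfl,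
    coeff_divMonomial] at ha
  have h := hp _ (mem_support_iff.2 ha)
  simp at h
  linarith

theorem X_mul_divX {i : Fin n} {p : Poly n} (h : free i p = 0) : X i * divX i p = p := by
  have := divMonomial_add_modMonomial_single p i
  rw [show p.modMonomial (Finsupp.single i 1) = 0 from h, add_zero] at this
  exact this

/-- The harmonic correction with prescribed normal derivative on the hyperplane. -/
def ckMap (N : ℕ) (i : Fin n) : Poly n →ₗ[ℝ] Poly n :=
  ∑ j ∈ range N, LinearMap.mulLeft ℝ (C ((-1) ^ j / (2 * (2 * j + 1).factorial) : ℝ) * X i ^ (2 * j + 1))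
    ∘ₗ (lapP ^ j) ∘ₗ free i

theorem ckMap_apply (N : ℕ) (i : Fin n) (f : Poly n) :
    ckMap N i f = ∑ j ∈ range N, C ((-1) ^ j / (2 * (2 * j + 1).factorial) : ℝ)
      * (X i ^ (2 * j + 1) * (lapP ^ j) (free i f)) := by
  simp [ckMap, LinearMap.sum_apply, mul_assoc]

theorem deg_ckMap (N : ℕ) (i : Fin n) {f : Poly n} {m : ℤ} (hf : Deg m f) :
    Deg (m + 1) (ckMap N i f) := by
  rw [ckMap_apply]
  refine Deg.sum fun j _ => Deg.C_mul _ ?_
  exact ((deg_X_pow i (2 * j + 1)).mul ((hf.free i).lap_iter j)).mono (by push_cast; linarith)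

theorem lap_ckMap {k : ℕ} (i : Fin n) {f : Poly n} (hf : Deg k f) : lapP (ckMap (k + 1) i f) = 0 := by
  rw [ckMap_apply, map_sum]
  simp only [C_mul', map_smul]
  set g : ℕ → Poly n := fun j => (lapP ^ j) (free i f)
  set c : ℕ → ℝ := fun j => (-1) ^ j / (2 * (2 * j + 1).factorial)
  set T : ℕ → Poly n := fun j => c j • (X i ^ (2 * j + 1) * g (j + 1))
  have hk : g (k + 1) = 0 := (((hf.free i).lap_iter (k + 1))).eq_zero (by push_cast; linarith)
  have h0 : lapP (X i ^ (2 * 0 + 1) * g 0) = X i ^ (2 * 0 + 1) * g 1 := by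
    rw [lap_X_pow_mul (pderiv_lap_iter (pderiv_free i f) 0) (2 * 0)]
    simp [g]
  have hs : ∀ j, c (j + 1) • lapP (X i ^ (2 * (j + 1) + 1) * g (j + 1)) = T (j + 1) - T j := by
    intro j
    rw [lap_X_pow_mul (pderiv_lap_iter (pderiv_free i f) (j + 1)) (2 * (j + 1))]
    have e : c (j + 1) * (((2 * (j + 1) : ℕ) + 1) * (2 * (j + 1) : ℕ)) = -c j := by
      simp only [c]
      rw [show 2 * (j + 1) + 1 = (2 * j + 1) + 1 + 1 by ring, Nat.factorial_succ, Nat.factorial_succ]
      push_cast
      field_simp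
      ring
    rw [show (lapP ^ (j + 1)) (free i f) = g (j + 1) from rfl,
      show lapP (g (j + 1)) = g (j + 1 + 1) by simp only [g]; rw [pow_succ' lapP (j + 1)]; rfl,
      show 2 * (j + 1) - 1 = 2 * j + 1 by omega, smul_add, C_mul', smul_smul, e]
    simp only [T, neg_smul]
    abel
  rw [sum_range_succ', show (lapP ^ 0) (free i f) = g 0 from rfl, h0]
  simp only [g, c, T] at hs ⊢
  rw [sum_congr rfl fun j _ => hs j, sum_range_sub (fun j => ((-1 : ℝ) ^ j / (2 * (2 * j + 1).factorial)) •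
    (X i ^ (2 * j + 1) * (lapP ^ (j + 1)) (free i f))), sub_add_cancel, show (lapP ^ (k + 1)) (free i f) = 0 from hk]
  simp

theorem free_two_pderiv_ckMap (N : ℕ) (i : Fin n) (f : Poly n) :
    free i (C 2 * pderiv i (ckMap (N + 1) i f) - f) = 0 := by
  rw [ckMap_apply, sum_range_succ']
  have hx : ∀ p : Poly n, free i (X i * p) = 0 := fun p => X_mul_modMonomial i p
  have e : ∀ j, free i (C 2 * pderiv i (C ((-1) ^ (j + 1) / (2 * (2 * (j + 1) + 1).factorial) : ℝ)
      * (X i ^ (2 * (j + 1) + 1) * (lapP ^ (j + 1)) (free i f)))) = 0 := fun j => by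
    rw [pderiv_C_mul, pderiv_mul, pderiv_lap_iter (pderiv_free i f), mul_zero, add_zero, pderiv_pow,
      pderiv_X_self, show 2 * (j + 1) + 1 - 1 = (2 * j + 1) + 1 by omega, pow_succ']
    convert hx (C 2 * (C ((-1) ^ (j + 1) / (2 * (2 * (j + 1) + 1).factorial) : ℝ)
      * (((2 * (j + 1) + 1 : ℕ) : Poly n) * X i ^ (2 * j + 1) * (lapP ^ (j + 1)) (free i f)))) using 2
    ring
  rw [map_add (pderiv i), map_sum (pderiv i), mul_add, mul_sum, map_sub, map_add (free i), map_sum (free i),
    sum_eq_zero fun j _ => e j, zero_add, sub_eq_zero]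
  simp [pderiv_free, ← mul_assoc, ← C_mul]
  rw [mul_comm (C 2) (free i f), mul_assoc, ← C_mul]
  norm_num
  exact MvPolynomial.ext _ _ fun a => by
    by_cases h : Finsupp.single i 1 ≤ a
    · simp [free, coeff_modMonomial_of_le _ h]
    · simp [free, coeff_modMonomial_of_not_le _ h]

/-- A right inverse of the linearised condition. -/
theorem exists_correction (k : ℕ) (i : Fin n) : ∃ (Kp Ka : Poly n →ₗ[ℝ] Poly n) (Cn : ℝ), 0 ≤ Cn ∧
    ∀ f : Poly n, f.totalDegree ≤ k → lapP (Kp f) = 0 ∧ eval 0 (Kp f) = 0 ∧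
      (Kp f).totalDegree ≤ k + 1 ∧ (Ka f).totalDegree ≤ k ∧
      C 2 * pderiv i (Kp f) - X i * Ka f = f ∧ nrm (Kp f) ≤ Cn * nrm f ∧ nrm (Ka f) ≤ Cn * nrm f := by
  set Kp := ckMap (k + 1) i
  set Ka : Poly n →ₗ[ℝ] Poly n :=
    divX i ∘ₗ ((2 : ℝ) • (pderiv i).toLinearMap ∘ₗ Kp - LinearMap.id)
  obtain ⟨C1, hC1, h1⟩ := exists_bound_of_linear Kp k
  obtain ⟨C2, hC2, h2⟩ := exists_bound_of_linear Ka k
  refine ⟨Kp, Ka, max C1 C2, hC1.trans (le_max_left _ _), fun f hf => ?_⟩
  have hd := deg_of_totalDegree hf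
  have hKa : Ka f = divX i (C 2 * pderiv i (Kp f) - f) := by simp [Ka, C_mul']
  refine ⟨lap_ckMap i hd, ?_, totalDegree_of_deg (by exact_mod_cast deg_ckMap _ i hd), ?_, ?_,
    (h1 f hf).trans (mul_le_mul_of_nonneg_right (le_max_left _ _) (nrm_nonneg f)),
    (h2 f hf).trans (mul_le_mul_of_nonneg_right (le_max_right _ _) (nrm_nonneg f))⟩
  · simp [Kp, ckMap_apply]
  · rw [hKa]
    refine totalDegree_of_deg (((Deg.sub (m := (k : ℤ)) ?_ hd).divX i).mono (by linarith))
    exact (((deg_ckMap _ i hd).pderiv i).C_mul 2).mono (by linarith)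
  · rw [hKa, X_mul_divX (free_two_pderiv_ckMap k i f), sub_sub_cancel]

end

end Vale.Agent.P098.Reg
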