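import Vale.Agent.P098.Cone.Basic

/-!
# P098: regularity of one-homogeneous minimisers, definitions shared by the modules

Points are functions `Fin d → ℝ`. Boxes are balls of the sup norm; the inner product is `dot`.
-/

namespace Vale.Agent.P098.Reg

open MeasureTheory Set Filter Topology
open Vale.Agent.P098.Cone
open scoped NNReal

noncomputable section

variable {d : ℕ}

/-- The positivity set. -/
def pos (u : (Fin d → ℝ) → ℝ) : Set (Fin d → ℝ) := {y | 0 < u y}

/-- The free boundary. -/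
def fb (u : (Fin d → ℝ) → ℝ) : Set (Fin d → ℝ) := frontier (pos u)

/-- A nonnegative Lipschitz minimiser, with the constant displayed. -/
structure LipMin (L : ℝ≥0) (u : (Fin d → ℝ) → ℝ) : Prop where
  lipschitz : LipschitzWith L u
  nonneg : ∀ x, 0 ≤ u x
  minimizer : IsMinimizer u

/-- One-homogeneity. -/
def Homog (u : (Fin d → ℝ) → ℝ) : Prop := ∀ (r : ℝ) (x : Fin d → ℝ), 0 < r → u (r • x) = r * u x

/-- The energy density. -/
def dens (v : (Fin d → ℝ) → ℝ) (x : Fin d → ℝ) : ℝ :=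
  dot (grad v x) (grad v x) + (pos v).indicator (fun _ => 1) x

/-- The divergence of a vector field given by components. -/
def dvg (X : Fin d → (Fin d → ℝ) → ℝ) (x : Fin d → ℝ) : ℝ := ∑ i, pd (X i) i x

/-- The Laplacian of `u` as a functional on test functions. -/
def lapT (u φ : (Fin d → ℝ) → ℝ) : ℝ := -∫ x, dot (grad u x) (grad φ x)

/-- The integrand of the first inner variation in the direction `X`. -/
def innerInt (u : (Fin d → ℝ) → ℝ) (X : Fin d → (Fin d → ℝ) → ℝ) (x : Fin d → ℝ) : ℝ :=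
  (dot (grad u x) (grad u x) + 1) * dvg X x
    - 2 * ∑ i, ∑ j, pd u i x * pd u j x * pd (X i) j x

/-- The blow-up of `u` at `x` of size `r`. -/
def rescale (u : (Fin d → ℝ) → ℝ) (x : Fin d → ℝ) (r : ℝ) (y : Fin d → ℝ) : ℝ := u (x + r • y) / r

/-- `u` is within `ε` of `P` on `S`; from above this is asked on the closure of the positivity set. -/
def Close (u P : (Fin d → ℝ) → ℝ) (ε : ℝ) (S : Set (Fin d → ℝ)) : Prop :=
  (∀ x ∈ S, P x - u x ≤ ε) ∧ (∀ x ∈ S, x ∈ closure (pos u) → u x - P x ≤ ε)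

/-- The linear function with gradient `e`. -/
def lin (e x : Fin d → ℝ) : ℝ := ∑ i, e i * x i

/-- The half-space solution with gradient `e`. -/
def halfPlane (e x : Fin d → ℝ) : ℝ := max (lin e x) 0

/-- At every free boundary point of `S` some blow-up is a unit half-space solution. -/
def BlowUnit (u : (Fin d → ℝ) → ℝ) (S : Set (Fin d → ℝ)) : Prop :=
  ∀ x ∈ S ∩ fb u, ∃ (e : Fin d → ℝ) (r : ℕ → ℝ), dot e e = 1 ∧ (∀ n, 0 < r n) ∧
    Tendsto r atTop (𝓝 0) ∧ ∀ y, Tendsto (fun n => rescale u x (r n) y) atTop (𝓝 (halfPlane e y))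

/-- Every nonzero homogeneous minimiser in dimension `d` is a half-space solution. -/
def FlatIn (d : ℕ) : Prop :=
  ∀ (u : (Fin d → ℝ) → ℝ) (L : ℝ≥0), LipMin L u → Homog u → u ≠ 0 →
    ∃ e : Fin d → ℝ, dot e e = 1 ∧ u = halfPlane e

/-- Weakly harmonic on an open set. -/
def WeakHarm (v : (Fin d → ℝ) → ℝ) (U : Set (Fin d → ℝ)) : Prop :=
  ∀ φ : (Fin d → ℝ) → ℝ, ContDiff ℝ (⊤ : ℕ∞) φ → HasCompactSupport φ → tsupport φ ⊆ U →
    ∫ x, v x * ∑ i, hess φ i i x = 0

/-- Weakly subharmonic on an open set. -/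
def WeakSub (v : (Fin d → ℝ) → ℝ) (U : Set (Fin d → ℝ)) : Prop :=
  ∀ φ : (Fin d → ℝ) → ℝ, ContDiff ℝ (⊤ : ℕ∞) φ → HasCompactSupport φ → tsupport φ ⊆ U →
    (∀ x, 0 ≤ φ x) → 0 ≤ ∫ x, v x * ∑ i, hess φ i i x

/-- Harmonic in the classical sense on an open set. -/
def Harm (v : (Fin d → ℝ) → ℝ) (U : Set (Fin d → ℝ)) : Prop :=
  ContDiffOn ℝ (⊤ : ℕ∞) v U ∧ ∀ x ∈ U, ∑ i, hess v i i x = 0

end

end Vale.Agent.P098.Reg
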