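import Vale.Agent.P098.Reg.Iterate

/-!
# P098: uniform flatness gives expansions at every free boundary point
-/

namespace Vale.Agent.P098.Reg

open Finset MvPolynomial Filter Topology Metric
open Vale.Agent.P098.Cone
open scoped NNReal

noncomputable section

variable {d : ℕ}

/-- The reflection exchanging the last axis and `e`. -/
def flipMap (e : Fin (d + 1) → ℝ) : (Fin (d + 1) → ℝ) →ₗ[ℝ] (Fin (d + 1) → ℝ) where
  toFun y := y - (2 * dot (Pi.single (Fin.last d) 1 - e) y
    / dot (Pi.single (Fin.last d) 1 - e) (Pi.single (Fin.last d) 1 - e)) • (Pi.single (Fin.last d) 1 - e)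
  map_add' y z := by
    funext i
    simp only [dot, Pi.sub_apply, Pi.add_apply, Pi.smul_apply, smul_eq_mul, mul_add, sum_add_distrib, add_div]
    ring
  map_smul' c y := by
    funext i
    simp only [dot, Pi.sub_apply, Pi.smul_apply, smul_eq_mul, RingHom.id_apply, ← mul_assoc]
    rw [show ∑ x, ((Pi.single (Fin.last d) (1 : ℝ) : Fin (d + 1) → ℝ) x - e x) * c * y x
        = c * ∑ x, ((Pi.single (Fin.last d) (1 : ℝ) : Fin (d + 1) → ℝ) x - e x) * y x by
      rw [mul_sum]; exact sum_congr rfl fun x _ => by ring]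
    ring

theorem dot_single (y : Fin (d + 1) → ℝ) : dot (Pi.single (Fin.last d) (1 : ℝ)) y = y (Fin.last d) := by
  simp [dot, Pi.single_apply]

theorem dot_sub_self (w : Fin (d + 1) → ℝ) (h : dot w w = 0) : w = 0 :=
  funext fun i => mul_self_eq_zero.1 ((sum_eq_zero_iff_of_nonneg fun j _ => mul_self_nonneg (w j)).1 h i
    (Finset.mem_univ i))

theorem dot_sub_smul (y z w : Fin (d + 1) → ℝ) (a b : ℝ) :
    dot (y - a • w) (z - b • w) = dot y z - a * dot w z - b * dot w y + a * b * dot w w := by
  simp only [dot, Pi.sub_apply, Pi.smul_apply, smul_eq_mul, mul_sum]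
  simp only [← sum_sub_distrib, ← sum_add_distrib]
  exact sum_congr rfl fun i _ => by ring

theorem dot_flip (e y z : Fin (d + 1) → ℝ) : dot (flipMap e y) (flipMap e z) = dot y z := by
  set w := Pi.single (Fin.last d) (1 : ℝ) - e
  show dot (y - (2 * dot w y / dot w w) • w) (z - (2 * dot w z / dot w w) • w) = dot y z
  rw [dot_sub_smul]
  rcases eq_or_ne (dot w w) 0 with h | h
  · simp [h]
  · field_simp; ring

theorem flip_flip (e y : Fin (d + 1) → ℝ) : flipMap e (flipMap e y) = y := by
  set w := Pi.single (Fin.last d) (1 : ℝ) - e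
  show (y - (2 * dot w y / dot w w) • w)
    - (2 * dot w (y - (2 * dot w y / dot w w) • w) / dot w w) • w = y
  rcases eq_or_ne (dot w w) 0 with h | h
  · simp [h]
  · have : dot w (y - (2 * dot w y / dot w w) • w) = -dot w y := by
      have e2 := dot_sub_smul w y w 0 (2 * dot w y / dot w w)
      rw [zero_smul, sub_zero] at e2
      rw [e2]; field_simp; ring
    rw [this, mul_neg, neg_div, neg_smul, sub_neg_eq_add, sub_add_cancel]

theorem flip_axis {e : Fin (d + 1) → ℝ} (he : dot e e = 1) :
    flipMap e (Pi.single (Fin.last d) 1) = e := by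
  set l : Fin (d + 1) → ℝ := Pi.single (Fin.last d) 1
  show l - (2 * dot (l - e) l / dot (l - e) (l - e)) • (l - e) = e
  rcases eq_or_ne (dot (l - e) (l - e)) 0 with h | h
  · have := dot_sub_self _ h
    rw [this, smul_zero, sub_zero]
    exact sub_eq_zero.1 this
  · have h2 : 2 * dot (l - e) l = dot (l - e) (l - e) := by
      have hl : dot l l = 1 := by simp [l, dot, Pi.single_apply]
      have : dot (l - e) (l - e) = 2 * dot (l - e) l + (dot e e - dot l l) := by
        simp only [dot, Pi.sub_apply, mul_sum, ← sum_sub_distrib, ← sum_add_distrib]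
        exact sum_congr rfl fun i _ => by ring
      rw [this, hl, he]; ring
    rw [h2, div_self h, one_smul, sub_sub_cancel]

theorem norm_flip_le (e y : Fin (d + 1) → ℝ) : ‖flipMap e y‖ ≤ ((d : ℝ) + 1) * ‖y‖ := by
  refine (pi_norm_le_iff_of_nonneg (by positivity)).2 fun i => ?_
  rw [Real.norm_eq_abs]
  refine abs_le_of_sq_le_sq ?_ (by positivity)
  calc flipMap e y i ^ 2 ≤ dot (flipMap e y) (flipMap e y) := by
        rw [sq]
        exact single_le_sum (f := fun j => flipMap e y j * flipMap e y j) (fun j _ => mul_self_nonneg _)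
          (Finset.mem_univ i)
    _ = dot y y := dot_flip e y y
    _ ≤ ∑ _j : Fin (d + 1), ‖y‖ ^ 2 := sum_le_sum fun j _ => by
        rw [← sq, ← sq_abs]
        exact pow_le_pow_left₀ (abs_nonneg _) (norm_le_pi_norm y j) 2
    _ ≤ (((d : ℝ) + 1) * ‖y‖) ^ 2 := by
        simp only [sum_const, card_univ, Fintype.card_fin, nsmul_eq_mul, Nat.cast_add, Nat.cast_one, mul_pow]
        exact mul_le_mul_of_nonneg_right (le_self_pow₀ (by linarith [Nat.cast_nonneg (α := ℝ) d]) two_ne_zero)
          (sq_nonneg _)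

/-- The reflection as an equivalence. -/
def flipEquiv (e : Fin (d + 1) → ℝ) : (Fin (d + 1) → ℝ) ≃ₗ[ℝ] (Fin (d + 1) → ℝ) :=
  LinearEquiv.ofInvolutive (flipMap e) (flip_flip e)

/-- Uniform flatness gives expansions of order four and a half. -/
theorem expand (hLin : LinearSpec) (hE : EstimateSpec) (hR : RescaleSpec) (hRot : RotateSpec) :
    ExpandSpec := by
  classical
  intro d hd L u hu hhom hblow hflat
  set D : ℝ := (d : ℝ) + 1
  have hD : 1 ≤ D := le_add_of_nonneg_left (Nat.cast_nonneg d)
  have hD0 : 0 < D := zero_lt_one.trans_le hD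
  obtain ⟨ε₀, C₀, hε₀, hC₀, hexp⟩ := exists_centred_expansion hLin hE hR hd (L * (d + 1 : ℕ))
  obtain ⟨r₁, hr₁, hflat⟩ := hflat (ε₀ / D) (by positivity)
  set r : ℝ := min r₁ (1 / 2)
  have hr : 0 < r := lt_min hr₁ (by norm_num)
  set s : ℝ := r / D
  have hs : 0 < s := by positivity
  set K : ℝ := s⁻¹ * D ^ 2
  set C : ℝ := s * max 1 K ^ 4 * (1 + C₀) + s * C₀ * (D / s) ^ 4 * Real.sqrt (D / s)
  refine ⟨C, s / D, by positivity, by positivity, fun x hx hx1 => ?_⟩
  obtain ⟨e, he, hclose⟩ := hflat x hx hx1 r hr (min_le_left _ _)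
  set A := flipMap e
  set w := fun y => rescale u x r (A y)
  have hw : LipMin (L * (d + 1 : ℕ)) w :=
    hRot (d + 1) L _ (flipEquiv e) (hR _ L u x r hu hr) (dot_flip e)
  set v := rescale w 0 D⁻¹
  have hv_eq : ∀ y, v y = u (x + s • A y) / s := fun y => by
    simp only [v, w, rescale, zero_add, A, map_smul, smul_smul, ← div_eq_mul_inv, s]
    field_simp
  set Φ : (Fin (d + 1) → ℝ) ≃ₜ (Fin (d + 1) → ℝ) :=
    (flipEquiv e).toContinuousLinearEquiv.toHomeomorph.trans
      ((Homeomorph.smulOfNeZero s hs.ne').trans (Homeomorph.addLeft x))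
  have hΦ : ∀ y, Φ y = x + s • A y := fun y => rfl
  have hpos : pos v = Φ ⁻¹' pos u := by
    ext y; simp [pos, hv_eq, hΦ, div_pos_iff_of_pos_right hs]
  have hcl : ∀ y, y ∈ closure (pos v) ↔ x + s • A y ∈ closure (pos u) := fun y => by
    rw [hpos, ← Homeomorph.preimage_closure]; rfl
  have hfb : ∀ y, y ∈ fb v ↔ x + s • A y ∈ fb u := fun y => by
    rw [fb, hpos, ← Homeomorph.preimage_frontier]; rfl
  have hcen : Centred (L * (d + 1 : ℕ)) v := by
    refine ⟨hR _ _ w 0 D⁻¹ hw (by positivity), (hfb 0).2 (by simpa [A] using hx), fun y hy => ?_⟩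
    have hne : x + s • A y ≠ 0 := fun h0 => by
      have h1 : ‖x‖ = ‖s • A y‖ := by rw [eq_neg_of_add_eq_zero_left h0, norm_neg]
      rw [hx1, norm_smul, Real.norm_of_nonneg hs.le] at h1
      have h2 : s * ‖A y‖ ≤ r := by
        refine (mul_le_mul_of_nonneg_left ((norm_flip_le e y).trans
          (mul_le_of_le_one_right (by positivity) (by simpa using hy.1))) hs.le).trans (le_of_eq ?_)
        simp only [s, D]; field_simp
      linarith [min_le_right r₁ (1 / 2 : ℝ)]
    obtain ⟨e', t, he', ht, ht0, hlim⟩ := hblow _ ⟨hne, (hfb y).1 hy.2⟩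
    refine ⟨A e', fun n => t n / s, by rw [dot_flip, he'], fun n => div_pos (ht n) hs,
      by simpa using ht0.div_const s, fun z => ?_⟩
    have hl : lin (A e') z = lin e' (A z) := by
      show dot (A e') z = dot e' (A z)
      conv_lhs => rw [← flip_flip e z]
      exact dot_flip e e' (A z)
    rw [show halfPlane (A e') z = halfPlane e' (A z) by simp only [halfPlane, hl]]
    refine (hlim (A z)).congr fun n => ?_
    simp only [rescale, hv_eq, map_add, map_smul, smul_add, smul_smul, A, add_assoc, div_div]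
    rw [mul_div_cancel₀ _ hs.ne']
  have hlin : ∀ y, lin e (A y) = y (Fin.last d) := fun y => by
    show dot e (A y) = _
    conv_lhs => rw [← flip_axis he]
    rw [dot_flip, dot_single]
  have hin : ∀ y ∈ closedBall (0 : Fin (d + 1) → ℝ) 1, D⁻¹ • A y ∈ closedBall (0 : Fin (d + 1) → ℝ) 1 := by
    intro y hy
    rw [mem_closedBall_zero_iff, norm_smul, Real.norm_of_nonneg (by positivity), inv_mul_le_iff₀ hD0]
    exact (norm_flip_le e y).trans (mul_le_mul_of_nonneg_left (by simpa using hy) hD0.le)
  have hv_r : ∀ y, v y = rescale u x r (D⁻¹ • A y) * D := fun y => by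
    simp only [hv_eq, rescale, smul_smul, ← div_eq_mul_inv, s]; field_simp
  have hlA : ∀ y : Fin (d + 1) → ℝ, lin e (D⁻¹ • A y) * D = apx 0 y := fun y => by
    have : lin e (D⁻¹ • A y) = D⁻¹ * lin e (A y) := by
      simp only [lin, Pi.smul_apply, smul_eq_mul, mul_sum]
      exact sum_congr rfl fun i _ => by ring
    rw [this, hlin, apx, add_zero, eval_X]; field_simp
  have hclose0 : Close v (apx 0) ε₀ (closedBall 0 1) := by
    refine ⟨fun y hy => ?_, fun y hy hyc => ?_⟩
    all_goals rw [hv_r, ← hlA y, ← sub_mul, ← le_div_iff₀ hD0]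
    · exact hclose.1 _ (hin y hy)
    · refine hclose.2 _ (hin y hy) ((mem_closure_rescale hr).2 ?_)
      rw [smul_smul, show r * D⁻¹ = s by simp only [s]; rfl]
      exact (hcl y).1 hyc
  obtain ⟨q, hqd, hq0, hql, hqn, hq1, hq⟩ := hexp v hcen hclose0
  set l : Fin (d + 1) → Poly (d + 1) := fun i =>
    ∑ j, MvPolynomial.C (s⁻¹ * A (Pi.single j 1) i) * MvPolynomial.X j
  set P : Poly (d + 1) := MvPolynomial.C s * aeval l (MvPolynomial.X (Fin.last d) + q)
  have hl : ∀ i y, eval y (l i) = s⁻¹ * A y i := fun i y => by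
    have hA : A y = ∑ j, y j • A (Pi.single j 1) := by
      conv_lhs => rw [show y = ∑ j, y j • Pi.single j (1 : ℝ) from pi_eq_sum_univ' y]
      rw [map_sum]
      exact sum_congr rfl fun j _ => map_smul A _ _
    simp only [l, map_sum, map_mul, eval_C, eval_X]
    rw [hA, Finset.sum_apply, mul_sum]
    exact sum_congr rfl fun j _ => by simp; ring
  have hP : ∀ y, eval y P = s * apx q (s⁻¹ • A y) := fun y => by
    simp only [P, map_mul, eval_C, apx]
    congr 1
    generalize MvPolynomial.X (Fin.last d) + q = p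
    induction p using MvPolynomial.induction_on with
    | C a => simp
    | add p p' hp hp' => rw [map_add, map_add, map_add, hp, hp']
    | mul_X p i hp => rw [map_mul, map_mul, hp, aeval_X, hl, map_mul, eval_X, Pi.smul_apply, smul_eq_mul]
  have hdl : ∀ i, Deg 1 (l i) := fun i =>
    Deg.sum fun j _ => ((deg_X j).C_mul _)
  have hnl : ∀ i, nrm (l i) ≤ K := by
    intro i
    refine (nrm_sum _ _).trans ((sum_le_sum (g := fun _ => s⁻¹ * D) fun j _ => (nrm_C_mul _ _).trans
      ((mul_le_of_le_one_right (abs_nonneg _) (nrm_X j)).trans ?_)).trans_eq ?_)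
    · rw [abs_mul, abs_of_pos (inv_pos.2 hs)]
      refine mul_le_mul_of_nonneg_left (((Real.norm_eq_abs _).symm.trans_le (norm_le_pi_norm _ i)).trans
        ((norm_flip_le e _).trans ?_)) (by positivity)
      rw [Pi.norm_single, norm_one, mul_one]
    · simp [K, D]; ring
  have hXq : (MvPolynomial.X (Fin.last d) + q).totalDegree ≤ 4 := totalDegree_of_deg
    (((deg_X (Fin.last d)).mono (by norm_num)).add (deg_of_totalDegree hqd))
  have hmon : ∀ m ∈ (MvPolynomial.X (Fin.last d) + q).support,
      Deg (4 : ℤ) (∏ i ∈ m.support, l i ^ m i) ∧ nrm (∏ i ∈ m.support, l i ^ m i) ≤ max 1 K ^ 4 := by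
    intro m hm
    have key : ∀ S : Finset (Fin (d + 1)), Deg ((∑ i ∈ S, m i : ℕ) : ℤ) (∏ i ∈ S, l i ^ m i) ∧
        nrm (∏ i ∈ S, l i ^ m i) ≤ max 1 K ^ (∑ i ∈ S, m i) := by
      intro S
      induction S using Finset.induction_on with
      | empty =>
        rw [prod_empty, sum_empty, pow_zero, ← C_1]
        exact ⟨deg_C 1, (nrm_C 1).trans (le_of_eq abs_one)⟩
      | insert i S hi ih =>
        rw [prod_insert hi, sum_insert hi, pow_add, Nat.cast_add]
        refine ⟨Deg.mul ?_ ih.1, (nrm_mul _ _).trans (mul_le_mul ((nrm_pow_le _ _).trans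
          (pow_le_pow_left₀ (nrm_nonneg _) ((hnl i).trans (le_max_right _ _)) _)) ih.2 (nrm_nonneg _)
          (by positivity))⟩
        induction m i with
        | zero => rw [pow_zero, ← C_1]; exact deg_C 1
        | succ j ihj => rw [pow_succ, Nat.cast_succ]; exact ihj.mul (hdl i)
    have hm4 : ∑ i ∈ m.support, m i ≤ 4 := degree_le_of_mem hXq hm
    exact ⟨(key _).1.mono (by exact_mod_cast hm4), (key _).2.trans (pow_le_pow_right₀ (le_max_left _ _) hm4)⟩
  have haev : aeval l (MvPolynomial.X (Fin.last d) + q)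
      = ∑ m ∈ (MvPolynomial.X (Fin.last d) + q).support,
        MvPolynomial.C ((MvPolynomial.X (Fin.last d) + q).coeff m) * ∏ i ∈ m.support, l i ^ m i := by
    conv_lhs => rw [as_sum (MvPolynomial.X (Fin.last d) + q), map_sum]
    exact sum_congr rfl fun m _ => by rw [aeval_monomial]; rfl
  have hPd : P.totalDegree ≤ 4 := by
    refine totalDegree_of_deg (Deg.C_mul s ?_)
    rw [haev]
    exact Deg.sum fun m hm => (hmon m hm).1.C_mul _
  have hCa : 0 ≤ s * C₀ * (D / s) ^ 4 * Real.sqrt (D / s) := by positivity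
  have hPn : nrm P ≤ C := by
    refine (nrm_C_mul _ _).trans ?_
    rw [abs_of_pos hs, haev]
    refine le_trans ?_ (le_add_of_nonneg_right hCa)
    rw [mul_assoc]
    refine mul_le_mul_of_nonneg_left ((nrm_sum _ _).trans ((sum_le_sum fun m hm => (nrm_C_mul _ _).trans
      (mul_le_mul_of_nonneg_left (hmon m hm).2 (abs_nonneg _))).trans ?_)) hs.le
    rw [← sum_mul, mul_comm (max 1 K ^ 4)]
    exact mul_le_mul_of_nonneg_right ((nrm_add _ _).trans (add_le_add (nrm_X _) hqn)) (by positivity)
  set c : (Fin (d + 1) → Fin (4 + 1)) → ℝ := fun a =>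
    P.coeff (Finsupp.equivFunOnFinite.symm fun i => (a i : ℕ))
  have hc : pEval c = fun y => eval y P := by
    funext y
    rw [pEval, eval_eq']
    refine (sum_of_injOn (fun m i => (⟨min (m i) 4, by omega⟩ : Fin (4 + 1))) ?_ (fun m _ => Finset.mem_univ _) ?_ ?_).symm
    · intro m hm m' hm' h
      ext i
      have h' := Fin.mk.inj (congrFun h i)
      have h1 := (le_degree_coord m i).trans (degree_le_of_mem hPd hm)
      have h2 := (le_degree_coord m' i).trans (degree_le_of_mem hPd hm')
      omega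
    · intro a _ ha
      simp only [c]
      rw [notMem_support_iff.1, zero_mul]
      intro hmem
      refine ha ⟨_, hmem, funext fun i => Fin.ext ?_⟩
      simp only [Finsupp.coe_equivFunOnFinite_symm]
      exact min_eq_left (Nat.lt_succ_iff.1 (a i).2)
    · intro m hm
      have hmi : ∀ i, min (m i) 4 = m i := fun i =>
        min_eq_left ((le_degree_coord m i).trans (degree_le_of_mem hPd hm))
      simp only [c, hmi]
      congr 2
      ext i; simp
  have hgr : grad (pEval c) 0 = A (grad (apx q) 0) := by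
    have hd1 : HasFDerivAt (fun y => s * apx q (s⁻¹ • A y))
        (s • (fderiv ℝ (apx q) 0).comp (s⁻¹ • LinearMap.toContinuousLinearMap A)) 0 := by
      have h1 : HasFDerivAt (fun y => s⁻¹ • A y) (s⁻¹ • LinearMap.toContinuousLinearMap A) 0 :=
        ((LinearMap.toContinuousLinearMap A).hasFDerivAt).const_smul s⁻¹
      have h2 : HasFDerivAt (apx q) (fderiv ℝ (apx q) 0) (s⁻¹ • A 0) := by
        rw [map_zero, smul_zero]
        exact ((contDiff_eval (MvPolynomial.X (Fin.last d) + q)).differentiable one_ne_zero 0).hasFDerivAt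
      exact (h2.comp (0 : Fin (d + 1) → ℝ) h1).const_smul s
    funext i
    rw [grad, pd, hc, funext hP, hd1.fderiv]
    show s • fderiv ℝ (apx q) 0 (s⁻¹ • A (Pi.single i 1)) = _
    rw [map_smul, smul_smul, mul_inv_cancel₀ hs.ne', one_smul, fderiv_eq_sum]
    calc ∑ j, A (Pi.single i 1) j * pd (apx q) j 0 = dot (A (Pi.single i 1)) (A (A (grad (apx q) 0))) := by
          rw [flip_flip]; rfl
      _ = dot (Pi.single i (1 : ℝ)) (A (grad (apx q) 0)) := dot_flip e _ _
      _ = _ := by simp [dot, Pi.single_apply]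
  have hbound : ∀ y : Fin (d + 1) → ℝ, ‖y‖ ≤ s / D →
      eval y P - u (x + y) ≤ C * (‖y‖ ^ 4 * Real.sqrt ‖y‖) ∧
      (x + y ∈ closure (pos u) → u (x + y) - eval y P ≤ C * (‖y‖ ^ 4 * Real.sqrt ‖y‖)) := by
    intro y hy
    set z := s⁻¹ • A y
    have hzn : ‖z‖ ≤ D / s * ‖y‖ := by
      rw [norm_smul, Real.norm_of_nonneg (by positivity), div_eq_inv_mul, mul_assoc]
      exact mul_le_mul_of_nonneg_left (norm_flip_le e y) (by positivity)
    have hz1 : ‖z‖ ≤ 1 := hzn.trans (by
      calc D / s * ‖y‖ ≤ D / s * (s / D) := mul_le_mul_of_nonneg_left hy (by positivity)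
        _ = 1 := by field_simp)
    have hAz : x + s • A z = x + y := by
      simp only [z, map_smul, smul_smul, mul_inv_cancel₀ hs.ne', one_smul, A, flip_flip]
    have hsv : u (x + y) = s * v z := by rw [hv_eq, hAz]; field_simp
    have hk : s * (C₀ * (‖z‖ ^ 4 * Real.sqrt ‖z‖)) ≤ C * (‖y‖ ^ 4 * Real.sqrt ‖y‖) := by
      calc s * (C₀ * (‖z‖ ^ 4 * Real.sqrt ‖z‖))
          ≤ s * (C₀ * ((D / s * ‖y‖) ^ 4 * Real.sqrt (D / s * ‖y‖))) := mul_le_mul_of_nonneg_left
            (mul_le_mul_of_nonneg_left (mul_le_mul (pow_le_pow_left₀ (norm_nonneg _) hzn 4)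
              (Real.sqrt_le_sqrt hzn) (Real.sqrt_nonneg _) (by positivity)) hC₀) hs.le
        _ = s * C₀ * (D / s) ^ 4 * Real.sqrt (D / s) * (‖y‖ ^ 4 * Real.sqrt ‖y‖) := by
            rw [Real.sqrt_mul (by positivity)]; ring
        _ ≤ _ := mul_le_mul_of_nonneg_right (le_add_of_nonneg_left (by positivity)) (by positivity)
    have heval : eval y P = s * apx q z := hP y
    refine ⟨?_, fun hyc => ?_⟩
    · rw [heval, hsv, ← mul_sub]
      exact (mul_le_mul_of_nonneg_left (hq z hz1).1 hs.le).trans hk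
    · rw [heval, hsv, ← mul_sub]
      exact (mul_le_mul_of_nonneg_left ((hq z hz1).2 ((hcl z).2 (by rw [hAz]; exact hyc))) hs.le).trans hk
  refine ⟨c, fun a => (abs_coeff_le_nrm P _).trans hPn, ?_, ?_, ?_, fun y hy => by
    rw [hc]; exact hbound y hy⟩
  · rw [hc]
    show eval (0 : Fin (d + 1) → ℝ) P = 0
    rw [hP, map_zero, smul_zero, apx, map_add, hq0, eval_X, Pi.zero_apply, add_zero, mul_zero]
  · rw [hgr, dot_flip, hq1]
  · intro y
    rw [hc]
    simp only [hess_eval]
    rw [← map_sum, ← lapP_apply, show lapP P = 0 from ?_, map_zero]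
    set M : Fin (d + 1) → Fin (d + 1) → ℝ := fun k i => s⁻¹ * A (Pi.single i 1) k
    have hpl : ∀ k i, pderiv i (l k) = MvPolynomial.C (M k i) := fun k i => by
      simp [l, M, pderiv_X, Pi.single_apply]
    have hch : ∀ i (p : Poly (d + 1)),
        pderiv i (aeval l p) = ∑ k, MvPolynomial.C (M k i) * aeval l (pderiv k p) := by
      intro i p
      induction p using MvPolynomial.induction_on with
      | C a => simp
      | add p p' hp hp' => simp only [map_add, hp, hp', mul_add, sum_add_distrib]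
      | mul_X p k hp =>
        rw [map_mul, pderiv_mul, hp, aeval_X, hpl]
        simp only [pderiv_mul, map_add, map_mul, aeval_X, pderiv_X, Pi.single_apply, mul_add, sum_add_distrib,
          apply_ite (aeval l), map_one, map_zero, mul_ite, mul_one, mul_zero, sum_ite_eq, Finset.mem_univ, if_true,
          sum_mul]
        rw [mul_comm (aeval l p)]
        congr 1
        exact sum_congr rfl fun _ _ => by ring
    have hM : ∀ k m, ∑ i, M k i * M m i = if k = m then s⁻¹ * s⁻¹ else 0 := fun k m => by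
      have hsym : ∀ k i, A (Pi.single i 1) k = A (Pi.single k 1) i := fun k i => by
        have := dot_flip e (Pi.single i (1 : ℝ)) (A (Pi.single k 1))
        rw [flip_flip] at this
        simpa [dot, Pi.single_apply] using this
      have := dot_flip e (Pi.single k (1 : ℝ)) (Pi.single m (1 : ℝ))
      simp only [M, hsym k, hsym m]
      rw [show ∑ i, s⁻¹ * A (Pi.single k 1) i * (s⁻¹ * A (Pi.single m 1) i)
          = s⁻¹ * s⁻¹ * dot (A (Pi.single k 1)) (A (Pi.single m 1)) by
        rw [dot, mul_sum]; exact sum_congr rfl fun i _ => by ring, this]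
      simp [dot, Pi.single_apply, eq_comm]
    have hX : lapP (MvPolynomial.X (Fin.last d) + q) = 0 := by
      rw [map_add, hql, add_zero, lapP_apply]
      exact sum_eq_zero fun i _ => by simp [pderiv_X, Pi.single_apply, apply_ite (pderiv _)]
    rw [lapP_apply] at hX
    rw [lapP_apply]
    have hii : ∀ i, pderiv i (pderiv i P) = ∑ k, ∑ m, MvPolynomial.C (s * (M k i * M m i))
        * aeval l (pderiv m (pderiv k (MvPolynomial.X (Fin.last d) + q))) := fun i => by
      simp only [P, pderiv_C_mul, hch, map_sum, mul_sum]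
      refine sum_congr rfl fun k _ => sum_congr rfl fun m _ => ?_
      simp only [M, C_mul]
      ring
    simp only [hii]
    rw [sum_comm]
    calc _ = ∑ k, ∑ m, MvPolynomial.C (s * ∑ i, M k i * M m i)
          * aeval l (pderiv m (pderiv k (MvPolynomial.X (Fin.last d) + q))) := by
          refine sum_congr rfl fun k _ => ?_
          rw [sum_comm]
          refine sum_congr rfl fun m _ => ?_
          rw [← sum_mul, ← map_sum, ← mul_sum]
      _ = MvPolynomial.C (s * (s⁻¹ * s⁻¹))
          * aeval l (∑ k, pderiv k (pderiv k (MvPolynomial.X (Fin.last d) + q))) := by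
          rw [map_sum, mul_sum]
          refine sum_congr rfl fun k _ => ?_
          rw [sum_eq_single k (fun m _ hm => by rw [hM, if_neg hm.symm, mul_zero, C_0, zero_mul])
            (fun h => absurd (Finset.mem_univ k) h), hM, if_pos rfl]
      _ = 0 := by rw [hX, map_zero, mul_zero]

end

end Vale.Agent.P098.Reg
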