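import Vale.Agent.P098.Reg.ExtDerivBase

/-!
# P098: the derivatives extend continuously to the free boundary (`boundaryDeriv`)

Near a free boundary point `x` the derivatives of `u` at `z` are compared with those of the model at
the nearest free boundary point `x₀`, by the interior estimates on the ball of radius the distance;
the models at `x₀` and `x` are compared on a ball given by nondegeneracy.
-/

namespace Vale.Agent.P098.Reg

open Set Filter Topology Metric
open Vale.Agent.P098.Cone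
open scoped ContDiff NNReal

noncomputable section

variable {n : ℕ} {u : (Fin n → ℝ) → ℝ} {L : ℝ≥0}

theorem LipMin.isOpenPos (h : LipMin L u) : IsOpen (pos u) :=
  isOpen_lt continuous_const h.lipschitz.continuous

theorem frontier_or_pos_of_closure {x : Fin n → ℝ} (hx : x ∈ closure (pos u)) :
    x ∈ pos u ∨ x ∈ fb u := by
  by_cases hp : x ∈ pos u
  · exact .inl hp
  · exact .inr ⟨hx, fun h' => hp (interior_subset h')⟩

theorem LipMin.notMem_of_fb (h : LipMin L u) {x : Fin n → ℝ} (hx : x ∈ fb u) : x ∉ pos u :=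
  fun hp => hx.2 (h.isOpenPos.interior_eq.symm ▸ hp)

theorem fb_subset_closure {x : Fin n → ℝ} (hx : x ∈ fb u) : x ∈ closure (pos u) :=
  frontier_subset_closure hx

/-- A ball about a positive point that avoids the free boundary lies in the positivity set. -/
theorem ball_subset_pos (h : LipMin L u) {z : Fin n → ℝ} (hz : z ∈ pos u) {r : ℝ} (hr : 0 < r)
    (hfree : ∀ y ∈ fb u, r ≤ dist z y) : ball z r ⊆ pos u := by
  have hpre : IsPreconnected (ball z r) := (convex_ball z r).isPreconnected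
  refine hpre.subset_left_of_subset_union h.isOpenPos isClosed_closure.isOpen_compl
    (disjoint_compl_right.mono_left subset_closure) (fun y hy => ?_) ⟨z, mem_ball_self hr, hz⟩
  by_cases hp : y ∈ pos u
  · exact .inl hp
  · refine .inr fun hc => ?_
    have hfb : y ∈ fb u := ⟨hc, fun h' => hp (interior_subset h')⟩
    rw [mem_ball, dist_comm] at hy
    exact absurd (hfree y hfb) (not_le.2 hy)

theorem hess_sub {f g : (Fin n → ℝ) → ℝ} {U : Set (Fin n → ℝ)} (hU : IsOpen U)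
    (hf : ContDiffOn ℝ ∞ f U) (hg : ContDiffOn ℝ ∞ g U) {x : Fin n → ℝ} (hx : x ∈ U) (i j : Fin n) :
    hess (fun y => f y - g y) i j x = hess f i j x - hess g i j x := by
  have hd : ∀ {v : (Fin n → ℝ) → ℝ}, ContDiffOn ℝ ∞ v U → ∀ y ∈ U, DifferentiableAt ℝ v y :=
    fun hv y hy => (hv.contDiffAt (hU.mem_nhds hy)).differentiableAt (by simp)
  show pd (fun y => pd (fun y => f y - g y) i y) j x = _
  rw [pd_congr (g := fun y => pd f i y - pd g i y)
    (by filter_upwards [hU.mem_nhds hx] with y hy using pd_sub (hd hf y hy) (hd hg y hy) i) j]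
  exact pd_sub (hd (contDiffOn_pd hf hU i) x hx) (hd (contDiffOn_pd hg hU i) x hx) j

theorem Harm.sub {f g : (Fin n → ℝ) → ℝ} {U : Set (Fin n → ℝ)} (hU : IsOpen U)
    (hf : Harm f U) (hg : Harm g U) : Harm (fun y => f y - g y) U :=
  ⟨hf.1.sub hg.1, fun x hx => by
    simp only [hess_sub hU hf.1 hg.1 hx, Finset.sum_sub_distrib, hf.2 x hx, hg.2 x hx, sub_zero]⟩

theorem Harm.restrict {f : (Fin n → ℝ) → ℝ} {U V : Set (Fin n → ℝ)} (hf : Harm f U) (hs : V ⊆ U) :
    Harm f V := ⟨hf.1.mono hs, fun x hx => hf.2 x (hs hx)⟩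

/-- A derivative of a model varies at a bounded rate. -/
theorem Model.lipschitz {K a : ℝ} {x₀ : Fin n → ℝ} {P : (Fin n → ℝ) → ℝ} (hP : Model u K a x₀ P)
    {j : ℕ} (hj : j ≤ 4) {p q : Fin n → ℝ} (hp : p ∈ closedBall x₀ a) (hq : q ∈ closedBall x₀ a) :
    ‖iteratedFDeriv ℝ j P p - iteratedFDeriv ℝ j P q‖ ≤ K * ‖p - q‖ := by
  have hc : ContDiff ℝ ∞ P := contDiffOn_univ.1 hP.harm.1
  refine Convex.norm_image_sub_le_of_norm_fderiv_le (𝕜 := ℝ)
    (fun w _ => hc.differentiable_iteratedFDeriv (WithTop.coe_lt_coe.2 (by exact_mod_cast ENat.natCast_lt_top j)) w)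
    (fun w hw => ?_) (convex_closedBall x₀ a) hq hp
  rw [norm_fderiv_iteratedFDeriv]
  exact hP.bound (j + 1) (by omega) w hw

theorem div_pow_le {t : ℝ} (ht : 0 < t) {j : ℕ} (hj : j ≤ 4) {δ : ℝ} (htd : t ≤ δ) (hδ : δ ≤ 1) :
    t ^ 4 * Real.sqrt t / t ^ j ≤ Real.sqrt δ := by
  rw [show t ^ 4 = t ^ (4 - j) * t ^ j by rw [← pow_add]; congr 1; omega]
  calc t ^ (4 - j) * t ^ j * Real.sqrt t / t ^ j = t ^ (4 - j) * Real.sqrt t := by
        field_simp
    _ ≤ 1 * Real.sqrt δ := mul_le_mul (pow_le_one₀ ht.le (htd.trans hδ)) (Real.sqrt_le_sqrt htd)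
          (Real.sqrt_nonneg _) zero_le_one
    _ = Real.sqrt δ := one_mul _

/-- The derivatives of `u` near `x` are close to those of the model at `x`. -/
theorem exists_modulus (hE : EstimateSpec) (hN : NondegSpec) (hM : MinHarmSpec) (hu : LipMin L u)
    {K a : ℝ} (hK : 0 ≤ K) (ha : 0 < a) {x : Fin n → ℝ} (hx : x ∈ fb u)
    {P : (Fin n → ℝ) → ℝ} (hP : Model u K a x P)
    (hall : ∀ x₀ ∈ fb u, ‖x₀ - x‖ ≤ a → ∃ Q, Model u K a x₀ Q) {j : ℕ} (hj : j ≤ 4) :
    ∃ A δ₀ : ℝ, 0 < δ₀ ∧ ∀ z ∈ pos u, ‖z - x‖ ≤ δ₀ →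
      ‖iteratedFDeriv ℝ j u z - iteratedFDeriv ℝ j P x‖ ≤ A * Real.sqrt ‖z - x‖ := by
  obtain ⟨c, hc, hN⟩ := hN n L
  obtain ⟨Cj, hCj, hEst⟩ := hE n j
  set τ : ℝ := min 1 (c / ((L : ℝ) + 1))
  have hτ : 0 < τ := lt_min one_pos (by positivity)
  have hH := (hM n L u hu).1
  refine ⟨Cj * (K * 32) + Cj * (2 * K * 5 ^ 5 / τ ^ j) + 9 * K, min 1 a / 12,
    by positivity, fun z hz hzx => ?_⟩
  set δ := ‖z - x‖
  have hδ1 : 12 * δ ≤ 1 := by linarith [min_le_left 1 a]
  have hδa : 12 * δ ≤ a := by linarith [min_le_right 1 a]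
  have hz0 : 0 < δ := norm_pos_iff.2 (sub_ne_zero.2 fun e => hu.notMem_of_fb hx (e ▸ hz))
  obtain ⟨x₀, hx₀, hd⟩ := (isClosed_frontier : IsClosed (fb u)).exists_infDist_eq_dist ⟨x, hx⟩ z
  have hmin : ∀ y ∈ fb u, dist z x₀ ≤ dist z y := fun y hy => hd ▸ infDist_le_dist_of_mem hy
  set ρ := dist z x₀
  have hρ : 0 < ρ := dist_pos.2 fun e => hu.notMem_of_fb hx₀ (e ▸ hz)
  have hρδ : ρ ≤ δ := (hmin x hx).trans (le_of_eq (dist_eq_norm z x))
  have hx₀x : ‖x₀ - x‖ ≤ 2 * δ := by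
    rw [← dist_eq_norm]
    have h1 : dist z x = δ := dist_eq_norm z x
    linarith [dist_triangle x₀ z x, dist_comm x₀ z]
  obtain ⟨Q, hQ⟩ := hall x₀ hx₀ (by linarith)
  have hsub := ball_subset_pos hu hz hρ hmin
  have hzb : z ∈ closedBall x₀ a := mem_closedBall.2 (by linarith)
  have hcu : ContDiffAt ℝ (j : ℕ) u z :=
    (hH.1.contDiffAt (hu.isOpenPos.mem_nhds hz)).of_le (WithTop.coe_le_coe.2 le_top)
  have hcP : ContDiff ℝ (j : ℕ) P :=
    (contDiffOn_univ.1 hP.harm.1).of_le (WithTop.coe_le_coe.2 le_top)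
  have hcQ : ContDiff ℝ (j : ℕ) Q :=
    (contDiffOn_univ.1 hQ.harm.1).of_le (WithTop.coe_le_coe.2 le_top)
  -- the estimate against the model at the nearest point
  have e1 : ‖iteratedFDeriv ℝ j u z - iteratedFDeriv ℝ j Q z‖ ≤ Cj * (K * 32) * Real.sqrt δ := by
    have hb : ∀ y ∈ ball z ρ, |u y - Q y| ≤ K * (32 * (ρ ^ 4 * Real.sqrt ρ)) := fun y hy => by
      rw [mem_ball, dist_eq_norm] at hy
      have hy2 : ‖y - x₀‖ ≤ 2 * ρ := by
        rw [← dist_eq_norm]
        linarith [dist_triangle y z x₀, dist_eq_norm y z]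
      rw [abs_sub_comm]
      refine (hQ.approx y (by linarith) (subset_closure (hsub (by rwa [mem_ball, dist_eq_norm])))).trans ?_
      refine mul_le_mul_of_nonneg_left ?_ hK
      calc ‖y - x₀‖ ^ 4 * Real.sqrt ‖y - x₀‖ ≤ (2 * ρ) ^ 4 * Real.sqrt (2 * ρ) := by gcongr
        _ ≤ (2 * ρ) ^ 4 * (2 * Real.sqrt ρ) := by
            rw [Real.sqrt_mul zero_le_two]
            gcongr
            rw [Real.sqrt_le_left (by norm_num)]; norm_num
        _ = 32 * (ρ ^ 4 * Real.sqrt ρ) := by ring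
    have h := hEst (fun y => u y - Q y) z ρ _ hρ
      ((hH.restrict hsub).sub isOpen_ball (hQ.harm.restrict (subset_univ _))) hb
    rw [show (fun y => u y - Q y) = u - Q from rfl, iteratedFDeriv_sub_apply hcu hcQ.contDiffAt] at h
    refine h.trans (le_of_eq_of_le ?_ (mul_le_mul_of_nonneg_left (div_pow_le hρ hj hρδ (by linarith))
      (mul_nonneg hCj (mul_nonneg hK (by norm_num)))))
    ring
  -- the two models on a ball inside the positivity set
  obtain ⟨y, hy, hyu⟩ := hN u hu x₀ (fb_subset_closure hx₀) δ hz0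
  have hsub2 : ball y (τ * δ) ⊆ pos u := fun w hw => by
    rw [mem_ball] at hw
    have h1 := hu.lipschitz.dist_le_mul y w
    rw [Real.dist_eq] at h1
    have h3 := le_abs_self (u y - u w)
    have h4 : (L : ℝ) * dist y w ≤ L * (τ * δ) := by
      rw [dist_comm y w]; exact mul_le_mul_of_nonneg_left hw.le L.coe_nonneg
    have h2 : ((L : ℝ) + 1) * (τ * δ) ≤ c * δ := by
      rw [← mul_assoc]
      refine mul_le_mul_of_nonneg_right ?_ hz0.le
      rw [mul_comm]
      exact (le_div_iff₀ (by positivity)).1 (min_le_right _ _)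
    have h5 : 0 < τ * δ := by positivity
    show 0 < u w
    nlinarith
  have hyz : ‖z - y‖ ≤ 2 * δ := by
    rw [← dist_eq_norm]
    linarith [dist_triangle z x₀ y, dist_comm x₀ y, dist_eq_norm y x₀]
  have hyx : ‖y - x‖ ≤ 3 * δ := by
    rw [← dist_eq_norm]
    linarith [dist_triangle y x₀ x, dist_eq_norm y x₀, dist_eq_norm x₀ x]
  have e2 : ‖iteratedFDeriv ℝ j Q y - iteratedFDeriv ℝ j P y‖
      ≤ Cj * (2 * K * 5 ^ 5 / τ ^ j) * Real.sqrt δ := by
    have hs4 : Real.sqrt (4 * δ) ≤ 5 * Real.sqrt δ := by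
      rw [Real.sqrt_mul (by norm_num : (0 : ℝ) ≤ 4)]
      gcongr
      rw [Real.sqrt_le_left (by norm_num)]; norm_num
    have hb : ∀ w ∈ ball y (τ * δ), |Q w - P w| ≤ 2 * K * (5 ^ 5 * (δ ^ 4 * Real.sqrt δ)) := fun w hw => by
      have hwp := subset_closure (hsub2 hw)
      rw [mem_ball] at hw
      have hw' : dist w y ≤ δ := hw.le.trans (mul_le_of_le_one_left hz0.le (min_le_left _ _))
      have w0 : ‖w - x₀‖ ≤ 4 * δ := by
        rw [← dist_eq_norm]; linarith [dist_triangle w y x₀, dist_eq_norm y x₀]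
      have wx : ‖w - x‖ ≤ 4 * δ := by
        rw [← dist_eq_norm]; linarith [dist_triangle w y x, dist_eq_norm y x]
      have bd : ∀ {t : ℝ}, 0 ≤ t → t ≤ 4 * δ →
          K * (t ^ 4 * Real.sqrt t) ≤ K * (5 ^ 5 * (δ ^ 4 * Real.sqrt δ)) := fun {t} ht0 ht => by
        refine mul_le_mul_of_nonneg_left ?_ hK
        calc t ^ 4 * Real.sqrt t ≤ (4 * δ) ^ 4 * Real.sqrt (4 * δ) := by gcongr
          _ ≤ (5 * δ) ^ 4 * (5 * Real.sqrt δ) := by
              refine mul_le_mul ?_ hs4 (Real.sqrt_nonneg _) (by positivity)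
              gcongr; norm_num
          _ = 5 ^ 5 * (δ ^ 4 * Real.sqrt δ) := by ring
      have g1 := (hQ.approx w (by linarith) hwp).trans (bd (norm_nonneg _) w0)
      have g2 := (hP.approx w (by linarith) hwp).trans (bd (norm_nonneg _) wx)
      rw [abs_le] at g1 g2 ⊢
      constructor <;> linarith
    have h := hEst (fun w => Q w - P w) y (τ * δ) _ (by positivity)
      ((hQ.harm.restrict (subset_univ _)).sub isOpen_ball (hP.harm.restrict (subset_univ _))) hb
    rw [show (fun w => Q w - P w) = Q - P from rfl, iteratedFDeriv_sub_apply hcQ.contDiffAt hcP.contDiffAt] at h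
    refine h.trans (le_of_eq_of_le ?_ (mul_le_mul_of_nonneg_left (div_pow_le hz0 hj le_rfl (by linarith))
      (mul_nonneg hCj (by positivity))))
    rw [mul_pow]
    field_simp
  -- moving the points
  have hroot : δ ≤ Real.sqrt δ := Real.le_sqrt_of_sq_le (by nlinarith)
  have e3 : ‖iteratedFDeriv ℝ j Q z - iteratedFDeriv ℝ j Q y‖ ≤ K * (2 * δ) :=
    (hQ.lipschitz hj hzb (mem_closedBall.2 (by rw [dist_eq_norm]; linarith))).trans
      (mul_le_mul_of_nonneg_left hyz hK)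
  have e4 : ‖iteratedFDeriv ℝ j P y - iteratedFDeriv ℝ j P x‖ ≤ K * (3 * δ) :=
    (hP.lipschitz hj (mem_closedBall.2 (by rw [dist_eq_norm]; linarith))
      (mem_closedBall_self ha.le)).trans (mul_le_mul_of_nonneg_left hyx hK)
  have t1 := norm_sub_le_norm_sub_add_norm_sub (iteratedFDeriv ℝ j u z) (iteratedFDeriv ℝ j Q z)
    (iteratedFDeriv ℝ j P x)
  have t2 := norm_sub_le_norm_sub_add_norm_sub (iteratedFDeriv ℝ j Q z) (iteratedFDeriv ℝ j Q y)
    (iteratedFDeriv ℝ j P x)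
  have t3 := norm_sub_le_norm_sub_add_norm_sub (iteratedFDeriv ℝ j Q y) (iteratedFDeriv ℝ j P y)
    (iteratedFDeriv ℝ j P x)
  have h5 : 5 * K * δ ≤ 9 * K * Real.sqrt δ :=
    mul_le_mul (by linarith) hroot hz0.le (by positivity)
  linarith

/-- The derivatives converge at every free boundary point other than the origin. -/
theorem exists_limit (hE : EstimateSpec) (hN : NondegSpec) (hM : MinHarmSpec) (hu : LipMin L u)
    (hh : Homog u) (hX : Expands 4 u) {x : Fin n → ℝ} (hx : x ∈ fb u) (hx0 : x ≠ 0) :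
    ∃ P : (Fin n → ℝ) → ℝ, dot (grad P x) (grad P x) = 1 ∧ ∀ j : ℕ, j ≤ 4 →
      Tendsto (iteratedFDeriv ℝ j u) (𝓝[pos u] x) (𝓝 (iteratedFDeriv ℝ j P x)) := by
  have hn : 0 < ‖x‖ := norm_pos_iff.2 hx0
  obtain ⟨K, a, hK, ha, hal, hmod⟩ := exists_model hh hX (half_pos hn)
  obtain ⟨P, hP⟩ := hmod x hx (by linarith) (by linarith)
  have hall : ∀ x₀ ∈ fb u, ‖x₀ - x‖ ≤ a → ∃ Q, Model u K a x₀ Q := fun x₀ h0 hd => by
    have b1 := norm_sub_norm_le x x₀
    have b2 := norm_sub_norm_le x₀ x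
    rw [norm_sub_rev] at b1
    exact hmod x₀ h0 (by linarith) (by linarith)
  refine ⟨P, hP.unit, fun j hj => ?_⟩
  obtain ⟨A, δ₀, hδ₀, hA⟩ := exists_modulus hE hN hM hu hK ha hx hP hall hj
  rw [tendsto_iff_norm_sub_tendsto_zero]
  have hev : ∀ᶠ z in 𝓝[pos u] x,
      ‖iteratedFDeriv ℝ j u z - iteratedFDeriv ℝ j P x‖ ≤ A * Real.sqrt ‖z - x‖ := by
    filter_upwards [self_mem_nhdsWithin, mem_nhdsWithin_of_mem_nhds (closedBall_mem_nhds x hδ₀)]
      with z hz hzb using hA z hz (by rwa [← dist_eq_norm, ← mem_closedBall])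
  refine squeeze_zero' (.of_forall fun z => norm_nonneg _) hev ?_
  have hc : Continuous fun z : Fin n → ℝ => A * Real.sqrt ‖z - x‖ := by fun_prop
  simpa using tendsto_nhdsWithin_of_tendsto_nhds (s := pos u) (hc.tendsto x)

/-- The expansions give derivatives up to the free boundary. -/
theorem boundaryDeriv (hE : EstimateSpec) (hN : NondegSpec) (hM : MinHarmSpec) : BoundaryDerivSpec := by
  intro d _ L u hu hh hX
  refine ⟨fun j hj => ⟨extendFrom (pos u) (iteratedFDeriv ℝ j u),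
    continuousOn_extendFrom (fun x hx => hx.1) (fun x hx => ?_), fun z hz => ?_⟩, fun x hx hx0 => ?_⟩
  · rcases frontier_or_pos_of_closure hx.1 with hp | hf
    · exact ⟨_, ((hM _ L u hu).1.1.continuousOn_iteratedFDerivWithin (WithTop.coe_le_coe.2 le_top)
        hu.isOpenPos.uniqueDiffOn).congr (fun y hy => (iteratedFDerivWithin_of_isOpen j hu.isOpenPos hy).symm)
        x hp⟩
    · obtain ⟨P, _, hP⟩ := exists_limit hE hN hM hu hh hX hf (by simpa using hx.2)
      exact ⟨_, hP j hj⟩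
  · exact extendFrom_eq (subset_closure hz)
      (((hM _ L u hu).1.1.continuousOn_iteratedFDerivWithin (WithTop.coe_le_coe.2 le_top)
        hu.isOpenPos.uniqueDiffOn).congr (fun y hy => (iteratedFDerivWithin_of_isOpen j hu.isOpenPos hy).symm)
        z hz)
  · obtain ⟨P, hP1, hP⟩ := exists_limit hE hN hM hu hh hX hx hx0
    have hg : ∀ i, Tendsto (fun z => pd u i z) (𝓝[pos u] x) (𝓝 (pd P i x)) := fun i => by
      have h := ((ContinuousMultilinearMap.apply ℝ (fun _ : Fin 1 => Fin (d + 1) → ℝ) ℝ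
        (fun _ => Pi.single i 1)).continuous.tendsto _).comp (hP 1 (by norm_num))
      have e : ∀ (v : (Fin (d + 1) → ℝ) → ℝ) z,
          iteratedFDeriv ℝ 1 v z (fun _ => Pi.single i 1) = pd v i z := fun v z => by
        rw [iteratedFDeriv_one_apply]; rfl
      simpa [Function.comp_def, e] using h
    rw [← hP1]
    simp only [dot, grad]
    exact tendsto_finsetSum _ fun i _ => (hg i).mul (hg i)

end

end Vale.Agent.P098.Reg
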