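import Vale.Agent.P098.Reg.Specs

/-!
# P098: derivatives up to the free boundary, the models at the free boundary points

By homogeneity the expansions at the points of length one give at every free boundary point of an
annulus a harmonic model with bounded derivatives.
-/

namespace Vale.Agent.P098.Reg

open Set Filter Topology Metric Finset
open Vale.Agent.P098.Cone
open scoped ContDiff NNReal

noncomputable section

variable {n : ℕ} {u : (Fin n → ℝ) → ℝ}

/-- A harmonic model of `u` at `x₀`, with all bounds displayed. -/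
structure Model (u : (Fin n → ℝ) → ℝ) (K a : ℝ) (x₀ : Fin n → ℝ) (P : (Fin n → ℝ) → ℝ) : Prop where
  harm : Harm P univ
  bound : ∀ j : ℕ, j ≤ 5 → ∀ w ∈ closedBall x₀ a, ‖iteratedFDeriv ℝ j P w‖ ≤ K
  unit : dot (grad P x₀) (grad P x₀) = 1
  approx : ∀ w, ‖w - x₀‖ ≤ a → w ∈ closure (pos u) →
    |P w - u w| ≤ K * (‖w - x₀‖ ^ 4 * Real.sqrt ‖w - x₀‖)

theorem contDiff_pEval {k : ℕ} (c : (Fin n → Fin (k + 1)) → ℝ) {r : WithTop ℕ∞} :
    ContDiff ℝ r (pEval c) :=
  ContDiff.sum fun a _ => contDiff_const.mul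
    (contDiff_prod fun i _ => (contDiff_apply ℝ ℝ i).pow _)

/-- The derivatives of a polynomial are bounded by its coefficients. -/
theorem exists_pEval_bound (n k j : ℕ) : ∃ B : ℝ, 0 ≤ B ∧
    ∀ (c : (Fin n → Fin (k + 1)) → ℝ) (C : ℝ), (∀ a, |c a| ≤ C) →
      ∀ y : Fin n → ℝ, ‖y‖ ≤ 1 → ‖iteratedFDeriv ℝ j (pEval c) y‖ ≤ B * C := by
  set mon : (Fin n → Fin (k + 1)) → (Fin n → ℝ) → ℝ := fun a y => ∏ i, y i ^ (a i : ℕ)
  have hm : ∀ a, ContDiff ℝ j (mon a) := fun a =>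
    contDiff_prod fun i _ => (contDiff_apply ℝ ℝ i).pow _
  have hb : ∀ a, ∃ b : ℝ, ∀ y ∈ closedBall (0 : Fin n → ℝ) 1, ‖iteratedFDeriv ℝ j (mon a) y‖ ≤ b :=
    fun a => (isCompact_closedBall _ _).exists_bound_of_continuousOn
      ((hm a).continuous_iteratedFDeriv le_rfl).continuousOn
  choose b hb using hb
  refine ⟨∑ a, |b a|, sum_nonneg fun a _ => abs_nonneg _, fun c C hc y hy => ?_⟩
  have e : pEval c = fun z => ∑ a, c a • mon a z := by
    funext z; simp [pEval, mon, smul_eq_mul]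
  rw [e, iteratedFDeriv_fun_sum_apply (f := fun a z => c a • mon a z)
    fun a _ => ((hm a).const_smul (c a)).contDiffAt, Finset.sum_mul]
  refine (norm_sum_le _ _).trans (sum_le_sum fun a _ => ?_)
  rw [iteratedFDeriv_const_smul_apply' (hm a).contDiffAt, norm_smul, Real.norm_eq_abs, mul_comm]
  exact mul_le_mul ((hb a y (by simpa using hy)).trans (le_abs_self _)) (hc a) (abs_nonneg _)
    (abs_nonneg _)

theorem pd_scaled {f : (Fin n → ℝ) → ℝ} (hf : Differentiable ℝ f) (b q : ℝ) (x₀ : Fin n → ℝ)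
    (i : Fin n) : pd (fun w => b * f (q • (w - x₀))) i = fun w => b * q * pd f i (q • (w - x₀)) := by
  funext w
  have h1 : HasFDerivAt (fun w => q • (w - x₀))
      (q • ContinuousLinearMap.id ℝ (Fin n → ℝ)) w :=
    ((hasFDerivAt_id w).sub_const x₀).const_smul q
  have h2 := ((hf (q • (w - x₀))).hasFDerivAt.comp w h1).const_mul b
  have h3 : (fun w => b * f (q • (w - x₀))) = fun w => b * (f ∘ fun w => q • (w - x₀)) w := rfl
  rw [pd, h3, h2.fderiv, pd]
  simp [mul_assoc]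

theorem hess_scaled {f : (Fin n → ℝ) → ℝ} (hf : ContDiff ℝ ∞ f) (b q : ℝ) (x₀ : Fin n → ℝ)
    (i j : Fin n) (w : Fin n → ℝ) :
    hess (fun w => b * f (q • (w - x₀))) i j w = b * q * q * hess f i j (q • (w - x₀)) := by
  have hd : Differentiable ℝ (pd f i) := by
    have h := ((hf.fderiv_right (m := 1) (WithTop.coe_le_coe.2 le_top)).clm_apply
      (contDiff_const (c := (Pi.single i 1 : Fin n → ℝ)))).differentiable one_ne_zero
    exact h
  show pd (fun y => pd (fun w => b * f (q • (w - x₀))) i y) j w = _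
  rw [show (fun y => pd (fun w => b * f (q • (w - x₀))) i y)
      = fun w => b * q * pd f i (q • (w - x₀)) from pd_scaled (hf.differentiable (by simp)) b q x₀ i,
    congrFun (pd_scaled hd (b * q) q x₀ j) w]
  rfl

/-- The derivatives of a scaled polynomial. -/
theorem norm_iterated_scaled {f : (Fin n → ℝ) → ℝ} (hf : ContDiff ℝ ∞ f) {s : ℝ} (hs : 0 < s)
    (x₀ w : Fin n → ℝ) (j : ℕ) :
    ‖iteratedFDeriv ℝ j (fun w => s * f (s⁻¹ • (w - x₀))) w‖
      ≤ s * s⁻¹ ^ j * ‖iteratedFDeriv ℝ j f (s⁻¹ • (w - x₀))‖ := by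
  set A : (Fin n → ℝ) →L[ℝ] (Fin n → ℝ) := s⁻¹ • ContinuousLinearMap.id ℝ _
  have hA : ‖A‖ ≤ s⁻¹ := ContinuousLinearMap.opNorm_le_bound _ (by positivity) fun z => by
    show ‖s⁻¹ • z‖ ≤ _
    rw [norm_smul, Real.norm_eq_abs, abs_of_pos (inv_pos.2 hs)]
  have hc : ContDiff ℝ ∞ (f ∘ A) := hf.comp A.contDiff
  have hc' : ContDiff ℝ j (f ∘ A) := hc.of_le (WithTop.coe_le_coe.2 le_top)
  have e : (fun w => s * f (s⁻¹ • (w - x₀))) = fun w => (s • (f ∘ A)) (w - x₀) := rfl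
  rw [e, iteratedFDeriv_comp_sub j x₀ w, iteratedFDeriv_const_smul_apply hc'.contDiffAt, norm_smul,
    A.iteratedFDeriv_comp_right hf (w - x₀) (WithTop.coe_le_coe.2 le_top), Real.norm_eq_abs,
    abs_of_pos hs, mul_assoc]
  refine mul_le_mul_of_nonneg_left ((ContinuousMultilinearMap.norm_compContinuousLinearMap_le _ _).trans ?_) hs.le
  rw [Finset.prod_const, Finset.card_univ, Fintype.card_fin, mul_comm]
  exact mul_le_mul (pow_le_pow_left₀ (norm_nonneg _) hA j) le_rfl (norm_nonneg _) (by positivity)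

theorem pos_smul (hh : Homog u) {r : ℝ} (hr : 0 < r) (x : Fin n → ℝ) :
    r • x ∈ pos u ↔ x ∈ pos u := by
  show 0 < u (r • x) ↔ 0 < u x
  rw [hh r x hr, mul_pos_iff_of_pos_left hr]

theorem preimage_smul_pos (hh : Homog u) {r : ℝ} (hr : 0 < r) :
    (Homeomorph.smulOfNeZero r hr.ne' : (Fin n → ℝ) ≃ₜ (Fin n → ℝ)) ⁻¹' pos u = pos u := by
  ext x; exact pos_smul hh hr x

theorem fb_smul (hh : Homog u) {r : ℝ} (hr : 0 < r) {x : Fin n → ℝ} (hx : x ∈ fb u) :
    r • x ∈ fb u := by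
  set e : (Fin n → ℝ) ≃ₜ (Fin n → ℝ) := Homeomorph.smulOfNeZero r hr.ne'
  have h : x ∈ e ⁻¹' fb u := by
    rw [fb, e.preimage_frontier, preimage_smul_pos hh hr]; exact hx
  exact h

theorem closure_pos_smul (hh : Homog u) {r : ℝ} (hr : 0 < r) {x : Fin n → ℝ}
    (hx : x ∈ closure (pos u)) : r • x ∈ closure (pos u) := by
  set e : (Fin n → ℝ) ≃ₜ (Fin n → ℝ) := Homeomorph.smulOfNeZero r hr.ne'
  have h : x ∈ e ⁻¹' closure (pos u) := by
    rw [e.preimage_closure, preimage_smul_pos hh hr]; exact hx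
  exact h

/-- Models at every free boundary point of an annulus, with common constants. -/
theorem exists_model (hh : Homog u) (hX : Expands 4 u) {a : ℝ} (ha : 0 < a) :
    ∃ K a' : ℝ, 0 ≤ K ∧ 0 < a' ∧ a' ≤ a ∧
      ∀ x₀ ∈ fb u, a ≤ ‖x₀‖ → ‖x₀‖ ≤ 4 * a → ∃ P, Model u K a' x₀ P := by
  obtain ⟨C, r₀, hr₀, hC, hX⟩ := hX
  choose B hB0 hB using fun j => exists_pEval_bound n 4 j
  set Kb : ℝ := 4 * a * ∑ j ∈ range 6, a⁻¹ ^ j * (B j * C)
  set Ka : ℝ := 4 * a * C / (a ^ 4 * Real.sqrt a)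
  have hKb : 0 ≤ Kb := mul_nonneg (by positivity)
    (sum_nonneg fun j _ => mul_nonneg (by positivity) (mul_nonneg (hB0 j) hC))
  have hKa : 0 ≤ Ka := by positivity
  refine ⟨Kb + Ka, min a (a * r₀), by positivity, lt_min ha (by positivity), min_le_left _ _,
    fun x₀ hx₀ h1 h2 => ?_⟩
  set s := ‖x₀‖
  have hs : 0 < s := ha.trans_le h1
  have hn : ‖s⁻¹ • x₀‖ = 1 := by
    rw [norm_smul, Real.norm_eq_abs, abs_of_pos (inv_pos.2 hs), inv_mul_cancel₀ hs.ne']
  obtain ⟨c, hc, hc0, hc1, hlap, hap⟩ := hX _ (fb_smul hh (inv_pos.2 hs) hx₀) hn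
  refine ⟨fun w => s * pEval c (s⁻¹ • (w - x₀)), ⟨⟨?_, fun w _ => ?_⟩, fun j hj w hw => ?_, ?_,
    fun w hw hwp => ?_⟩⟩
  · exact (contDiff_const.mul ((contDiff_pEval c).comp
      ((contDiff_id.sub contDiff_const).const_smul s⁻¹))).contDiffOn
  · simp only [hess_scaled (contDiff_pEval c), ← Finset.mul_sum, hlap, mul_zero]
  · rw [mem_closedBall, dist_eq_norm] at hw
    have hy : ‖s⁻¹ • (w - x₀)‖ ≤ 1 := by
      rw [norm_smul, Real.norm_eq_abs, abs_of_pos (inv_pos.2 hs), inv_mul_le_iff₀ hs, mul_one]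
      exact (hw.trans (min_le_left _ _)).trans h1
    calc ‖iteratedFDeriv ℝ j (fun w => s * pEval c (s⁻¹ • (w - x₀))) w‖
        ≤ s * s⁻¹ ^ j * ‖iteratedFDeriv ℝ j (pEval c) (s⁻¹ • (w - x₀))‖ :=
          norm_iterated_scaled (contDiff_pEval c) hs x₀ w j
      _ ≤ 4 * a * a⁻¹ ^ j * (B j * C) := by
          refine mul_le_mul (mul_le_mul h2 ?_ (by positivity) (by positivity)) (hB j c C hc _ hy)
            (norm_nonneg _) (by positivity)
          exact pow_le_pow_left₀ (by positivity) (inv_anti₀ ha h1) j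
      _ ≤ Kb := by
          rw [mul_assoc]
          exact mul_le_mul_of_nonneg_left (single_le_sum (f := fun j => a⁻¹ ^ j * (B j * C))
            (fun j _ => mul_nonneg (by positivity) (mul_nonneg (hB0 j) hC))
            (Finset.mem_range.2 (by omega))) (by positivity)
      _ ≤ Kb + Ka := by linarith
  · have e : grad (fun w => s * pEval c (s⁻¹ • (w - x₀))) x₀ = grad (pEval c) 0 := by
      funext i
      simp [grad, congrFun (pd_scaled ((contDiff_pEval c (r := 1)).differentiable one_ne_zero) s s⁻¹ x₀ i) x₀,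
        hs.ne']
    rw [e, hc1]
  · set y := s⁻¹ • (w - x₀) with hy
    have hny : ‖y‖ = s⁻¹ * ‖w - x₀‖ := by
      rw [hy, norm_smul, Real.norm_eq_abs, abs_of_pos (inv_pos.2 hs)]
    have hyr : ‖y‖ ≤ r₀ := by
      rw [hny, inv_mul_le_iff₀ hs]
      exact (hw.trans (min_le_right _ _)).trans (mul_le_mul_of_nonneg_right h1 hr₀.le)
    have ew : s⁻¹ • x₀ + y = s⁻¹ • w := by rw [hy, ← smul_add, add_sub_cancel]
    obtain ⟨g1, g2⟩ := hap y hyr
    have g2' := g2 (ew ▸ closure_pos_smul hh (inv_pos.2 hs) hwp)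
    rw [ew, hh _ _ (inv_pos.2 hs)] at g1 g2'
    have hab : |pEval c y - s⁻¹ * u w| ≤ C * (‖y‖ ^ 4 * Real.sqrt ‖y‖) :=
      abs_le.2 ⟨by linarith, g1⟩
    have hle : ‖y‖ ≤ ‖w - x₀‖ / a := by
      rw [hny, inv_mul_eq_div]; exact div_le_div_of_nonneg_left (norm_nonneg _) ha h1
    calc |s * pEval c y - u w| = s * |pEval c y - s⁻¹ * u w| := by
          rw [← abs_of_pos hs, ← abs_mul, abs_of_pos hs, mul_sub, ← mul_assoc, mul_inv_cancel₀ hs.ne',
            one_mul]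
      _ ≤ 4 * a * (C * ((‖w - x₀‖ / a) ^ 4 * Real.sqrt (‖w - x₀‖ / a))) := by
          refine mul_le_mul h2 (hab.trans ?_) (abs_nonneg _) (by positivity)
          gcongr
      _ = Ka * (‖w - x₀‖ ^ 4 * Real.sqrt ‖w - x₀‖) := by
          simp only [Ka, div_pow, Real.sqrt_div' _ ha.le]
          field_simp
      _ ≤ (Kb + Ka) * (‖w - x₀‖ ^ 4 * Real.sqrt ‖w - x₀‖) := by gcongr; linarith

end

end Vale.Agent.P098.Reg
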