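import Mathlib

/-!
# P098: reflection across a hypersurface given by a height function, abstract part

`η` is a height along the direction `e`: it drops by `t` when the point moves by `t • e`, the open
side is `η < 0` and the hypersurface is `η = 0`.
-/

namespace Vale.Agent.P098.Reg

open Set Filter Topology Metric

variable {E : Type*} [NormedAddCommGroup E] [NormedSpace ℝ E]

/-- A height function on an open set. -/
structure Height (η : E → ℝ) (e : E) (V : Set E) (K : ℝ) : Prop where
  isOpen : IsOpen V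
  nonneg : 0 ≤ K
  lip : ∀ y ∈ V, ∀ z ∈ V, |η y - η z| ≤ K * ‖y - z‖
  shift : ∀ z ∈ V, ∀ t : ℝ, z + t • e ∈ V → η (z + t • e) = η z - t

namespace Height

variable {η : E → ℝ} {e : E} {V : Set E} {K : ℝ}

lemma neg (h : Height η e V K) : Height (fun z => -η z) (-e) V K where
  isOpen := h.isOpen
  nonneg := h.nonneg
  lip y hy z hz := by rw [neg_sub_neg, abs_sub_comm]; exact h.lip y hy z hz
  shift z hz t ht := by
    simp only [smul_neg, ← neg_smul] at ht ⊢
    rw [h.shift z hz (-t) ht]; ring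

lemma continuousOn (h : Height η e V K) : ContinuousOn η V := by
  refine (LipschitzOnWith.of_dist_le_mul (K := ⟨K, h.nonneg⟩) fun y hy z hz => ?_).continuousOn
  rw [dist_eq_norm, dist_eq_norm, Real.norm_eq_abs]
  exact h.lip y hy z hz

/-- A function with a derivative on the open side, continuous up to the hypersurface together with
it, has this derivative on the closed side. -/
theorem hasFDerivWithinAt_side (h : Height η e V K) {F : Type*} [NormedAddCommGroup F]
    [NormedSpace ℝ F] {f : E → F} {H : E → E →L[ℝ] F} {x : E} (hx : x ∈ V) (hx0 : η x = 0)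
    (hf : ContinuousOn f (V ∩ {z | η z ≤ 0})) (hH : ContinuousWithinAt H (V ∩ {z | η z ≤ 0}) x)
    (hd : ∀ z ∈ V, η z < 0 → HasFDerivAt f (H z) z) :
    HasFDerivWithinAt f (H x) (V ∩ {z | η z ≤ 0}) x := by
  rw [hasFDerivWithinAt_iff_isLittleO, Asymptotics.isLittleO_iff]
  intro c hc
  have hK := h.nonneg
  set A : ℝ := 4 * K * ‖e‖ + 1 with hA
  have hA0 : 0 < A := by positivity
  obtain ⟨R₁, hR₁, hV⟩ := Metric.isOpen_iff.1 h.isOpen x hx
  obtain ⟨R₂, hR₂, hcl⟩ := Metric.continuousWithinAt_iff.1 hH (c / A) (by positivity)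
  set R := min R₁ R₂
  have hR : 0 < R := lt_min hR₁ hR₂
  filter_upwards [self_mem_nhdsWithin,
    mem_nhdsWithin_of_mem_nhds (ball_mem_nhds x (show 0 < R / (2 * A + 2) by positivity))] with y hy hyb
  set n := ‖y - x‖ with hn
  have hn0 : 0 ≤ n := norm_nonneg _
  have hnR : (2 * A + 2) * n < R := by
    rw [mem_ball, dist_eq_norm] at hyb
    rw [hn, mul_comm]
    exact (lt_div_iff₀ (by positivity)).1 hyb
  rcases hn0.eq_or_lt with h0 | hpos
  · have : y = x := by rw [← sub_eq_zero, ← norm_eq_zero]; exact h0.symm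
    subst this; simp; positivity
  set M := 2 * K * n with hM
  have hM0 : 0 ≤ M := by positivity
  set Φ : ℝ → F := fun δ => f (y + δ • e) - f (x + δ • e) - H x (y - x) with hΦ
  have hmain : ∀ δ : ℝ, 0 < δ → δ * ‖e‖ ≤ n → ‖Φ δ‖ ≤ c * n := by
    intro δ hδ hδn
    set S := ball x R ∩ {z | η z < 0} with hS
    have hball : ∀ (s t : ℝ), s ∈ Icc (0 : ℝ) 1 → |t| ≤ δ + M →
        x + s • (y - x) + t • e ∈ ball x R := by
      intro s t hs ht
      rw [mem_ball, dist_eq_norm, show x + s • (y - x) + t • e - x = s • (y - x) + t • e by abel]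
      refine lt_of_le_of_lt (norm_add_le _ _) ?_
      rw [norm_smul, norm_smul, Real.norm_of_nonneg hs.1, Real.norm_eq_abs]
      have h1 : s * n ≤ n := mul_le_of_le_one_left hn0 hs.2
      have h2 : |t| * ‖e‖ ≤ (δ + M) * ‖e‖ := mul_le_mul_of_nonneg_right ht (norm_nonneg e)
      have h3 : M * ‖e‖ ≤ A * n := by
        rw [hM, hA]; nlinarith [mul_nonneg (mul_nonneg hK (norm_nonneg e)) hn0]
      nlinarith
    have hmemV : ∀ s ∈ Icc (0 : ℝ) 1, x + s • (y - x) ∈ V := fun s hs => by
      have := hball s 0 hs (by simp; positivity)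
      rw [zero_smul, add_zero] at this
      exact hV (ball_subset_ball (min_le_left _ _) this)
    -- the three segments
    have seg : ∀ (a b : E), (∀ θ ∈ Icc (0 : ℝ) 1, a + θ • (b - a) ∈ S) →
        ‖f b - f a - H x (b - a)‖ ≤ c / A * ‖b - a‖ := by
      intro a b hab
      have hsub : segment ℝ a b ⊆ S := by
        rw [segment_eq_image']; rintro _ ⟨θ, hθ, rfl⟩; exact hab θ hθ
      refine Convex.norm_image_sub_le_of_norm_hasFDerivWithin_le' (f' := H) (fun z hz => ?_)
        (fun z hz => ?_) (convex_segment a b) (left_mem_segment ℝ a b) (right_mem_segment ℝ a b)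
      · exact (hd z (hV (ball_subset_ball (min_le_left _ _) (hsub hz).1)) (hsub hz).2).hasFDerivWithinAt
      · have hzV := hV (ball_subset_ball (min_le_left _ _) (hsub hz).1)
        have hlt : η z < 0 := (hsub hz).2
        have := hcl (show z ∈ V ∩ {z | η z ≤ 0} from ⟨hzV, hlt.le⟩)
          (lt_of_lt_of_le (mem_ball.1 (hsub hz).1) (min_le_right _ _))
        rw [dist_eq_norm] at this
        exact this.le
    have hin : ∀ s ∈ Icc (0 : ℝ) 1, ∀ t : ℝ, |t| ≤ δ + M → η (x + s • (y - x)) < t →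
        x + s • (y - x) + t • e ∈ S := fun s hs t ht hlt => by
      refine ⟨hball s t hs ht, ?_⟩
      show η _ < 0
      rw [h.shift _ (hmemV s hs) t (hV (ball_subset_ball (min_le_left _ _) (hball s t hs ht)))]
      linarith
    have hy0 : η y ≤ 0 := hy.2
    set a₀ := x + δ • e
    set a₁ := x + (δ + M) • e
    set a₂ := y + (δ + M) • e
    set a₃ := y + δ • e
    have s1 := seg a₀ a₁ fun θ hθ => by
      have e1 : a₀ + θ • (a₁ - a₀) = x + (0 : ℝ) • (y - x) + (δ + θ * M) • e := by
        simp only [a₀, a₁, zero_smul, smul_sub, smul_add, smul_smul, add_smul]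
        abel
      rw [e1]
      refine hin 0 ⟨le_rfl, zero_le_one⟩ _ ?_ ?_
      · rw [abs_of_nonneg (by nlinarith [hθ.1])]; nlinarith [hθ.2]
      · simp only [zero_smul, add_zero, hx0]; nlinarith [hθ.1]
    have s2 := seg a₁ a₂ fun θ hθ => by
      have e1 : a₁ + θ • (a₂ - a₁) = x + θ • (y - x) + (δ + M) • e := by
        simp only [a₁, a₂, smul_sub, smul_add]; abel
      rw [e1]
      refine hin θ hθ _ (by rw [abs_of_nonneg (by positivity)]) ?_
      have := (abs_le.1 (h.lip _ (hmemV θ hθ) x hx)).2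
      rw [hx0, sub_zero, add_sub_cancel_left, norm_smul, Real.norm_of_nonneg hθ.1] at this
      nlinarith [hθ.2, mul_nonneg hK hn0]
    have s3 := seg a₃ a₂ fun θ hθ => by
      have e1 : a₃ + θ • (a₂ - a₃) = x + (1 : ℝ) • (y - x) + (δ + θ * M) • e := by
        simp only [a₃, a₂, one_smul, smul_sub, smul_add, smul_smul, add_smul]
        abel
      rw [e1]
      refine hin 1 ⟨zero_le_one, le_rfl⟩ _ ?_ ?_
      · rw [abs_of_nonneg (by nlinarith [hθ.1])]; nlinarith [hθ.2]
      · simp only [one_smul, add_sub_cancel]; nlinarith [hθ.1]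
    have hsplit : Φ δ = (f a₂ - f a₁ - H x (a₂ - a₁)) + (f a₁ - f a₀ - H x (a₁ - a₀))
        - (f a₂ - f a₃ - H x (a₂ - a₃)) := by
      have : H x (y - x) = H x (a₂ - a₁) + H x (a₁ - a₀) - H x (a₂ - a₃) := by
        rw [← map_add, ← map_sub]; congr 1; simp only [a₀, a₁, a₂, a₃]; abel
      rw [hΦ]
      show f a₃ - f a₀ - H x (y - x) = _
      rw [this]; abel
    have n1 : ‖a₁ - a₀‖ = M * ‖e‖ := by
      rw [show a₁ - a₀ = M • e by simp only [a₀, a₁, add_smul]; abel, norm_smul,
        Real.norm_of_nonneg hM0]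
    have n3 : ‖a₂ - a₃‖ = M * ‖e‖ := by
      rw [show a₂ - a₃ = M • e by simp only [a₂, a₃, add_smul]; abel, norm_smul,
        Real.norm_of_nonneg hM0]
    have n2 : ‖a₂ - a₁‖ = n := by rw [show a₂ - a₁ = y - x by simp only [a₁, a₂]; abel]
    rw [hsplit]
    calc _ ≤ c / A * n + c / A * (M * ‖e‖) + c / A * (M * ‖e‖) := by
          refine (norm_sub_le _ _).trans (add_le_add ((norm_add_le _ _).trans (add_le_add ?_ ?_)) ?_)
          · rwa [n2] at s2
          · rwa [n1] at s1
          · rwa [n3] at s3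
      _ = c * n := by rw [hM]; field_simp; rw [hA]; ring
  -- let δ tend to zero
  have hyV : y ∈ V := hy.1
  have hlim : ∀ z ∈ V ∩ {z | η z ≤ 0},
      Tendsto (fun δ : ℝ => f (z + δ • e)) (𝓝[>] 0) (𝓝 (f z)) := by
    intro z hz
    have hcont : Tendsto (fun δ : ℝ => z + δ • e) (𝓝 0) (𝓝 z) :=
      (continuous_const.add (continuous_id.smul continuous_const)).tendsto' 0 z (by simp)
    refine (hf z hz).tendsto.comp (tendsto_nhdsWithin_iff.2 ⟨hcont.mono_left nhdsWithin_le_nhds, ?_⟩)
    filter_upwards [self_mem_nhdsWithin,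
      nhdsWithin_le_nhds (hcont (h.isOpen.mem_nhds hz.1))] with δ hδ hδV
    refine ⟨hδV, ?_⟩
    show η _ ≤ 0
    rw [h.shift z hz.1 δ hδV]
    linarith [show η z ≤ 0 from hz.2, show (0 : ℝ) < δ from hδ]
  have hT : Tendsto (fun δ => ‖Φ δ‖) (𝓝[>] 0) (𝓝 ‖f y - f x - H x (y - x)‖) :=
    ((hlim y hy).sub (hlim x ⟨hx, hx0.le⟩)).sub_const _ |>.norm
  refine le_of_tendsto hT ?_
  have hev : Tendsto (fun δ : ℝ => δ * ‖e‖) (𝓝[>] 0) (𝓝 0) := by
    have hc' : Continuous fun δ : ℝ => δ * ‖e‖ := continuous_id.mul continuous_const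
    simpa using (hc'.tendsto (0 : ℝ)).mono_left nhdsWithin_le_nhds
  filter_upwards [self_mem_nhdsWithin, (hev.eventually (gt_mem_nhds hpos))] with δ hδ hδn
  exact hmain δ hδ hδn.le

/-- Gluing of the two sides. -/
theorem hasFDerivAt_glue (h : Height η e V K) {F : Type*} [NormedAddCommGroup F]
    [NormedSpace ℝ F] {f : E → F} {H : E → E →L[ℝ] F} {x : E} (hx : x ∈ V)
    (hf : ContinuousOn f V) (hH : ContinuousAt H x)
    (hd : ∀ z ∈ V, η z ≠ 0 → HasFDerivAt f (H z) z) : HasFDerivAt f (H x) x := by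
  rcases eq_or_ne (η x) 0 with hx0 | hx0
  · have h1 := h.hasFDerivWithinAt_side hx hx0 (hf.mono inter_subset_left) hH.continuousWithinAt
      fun z hz hlt => hd z hz hlt.ne
    have h2 := h.neg.hasFDerivWithinAt_side hx (by simpa using hx0) (hf.mono inter_subset_left)
      hH.continuousWithinAt fun z hz hlt => hd z hz (by
        intro h0; simp [h0] at hlt)
    refine (h1.union h2).hasFDerivAt ?_
    refine mem_of_superset (h.isOpen.mem_nhds hx) fun z hz => ?_
    rcases le_total (η z) 0 with h0 | h0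
    · exact .inl ⟨hz, h0⟩
    · exact .inr ⟨hz, by simpa using h0⟩
  · exact hd x hx hx0

end Height

end Vale.Agent.P098.Reg
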