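import Mathlib
import Vale.Agent.P098.Reg.ExtReflectCore

/-!
# P098: reflection, regularity of the height and of the reflected function

A family `g j m` stands for the `j`-th derivative in the directions `m`, and `D j m` for its
differential, so that only scalar functions occur.
-/

namespace Vale.Agent.P098.Reg

open Set Filter Topology Metric
open scoped ContDiff

noncomputable section

variable {E : Type*} [NormedAddCommGroup E] [NormedSpace ℝ E]

/-- The empty tuple of directions. -/
def noDir : Fin 0 → E := Fin.elim0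

/-- Derivatives of order at most four, continuous up to the hypersurface, near which the height and
the reflected points are controlled. -/
structure Jets (η : E → ℝ) (e : E) (V V₁ : Set E) (K : ℝ) (c : Fin 5 → ℝ)
    (g : (j : ℕ) → (Fin j → E) → E → ℝ) (D : (j : ℕ) → (Fin j → E) → E → E →L[ℝ] ℝ) : Prop where
  height : Height η e V K
  open₁ : IsOpen V₁
  sub : V₁ ⊆ V
  proj : ∀ z ∈ V₁, z + η z • e ∈ V
  refl : ∀ z ∈ V₁, ∀ i, z + (c i * η z) • e ∈ V
  one_lt : ∀ i, 1 < c i
  cont : ∀ j ≤ 4, ∀ m, ContinuousOn (g j m) (V ∩ {z | η z ≤ 0})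
  apply : ∀ (j : ℕ) (m : Fin j → E) (z v : E), D j m z v = g (j + 1) (Fin.cons v m) z
  deriv : ∀ j < 4, ∀ m, ∀ z ∈ V, η z < 0 → HasFDerivAt (g j m) (D j m z) z
  zero : ∀ z ∈ V, η z = 0 → g 0 noDir z = 0
  slope : ∀ z ∈ V, η z = 0 → D 0 noDir z e ≠ 0

namespace Jets

variable [FiniteDimensional ℝ E] {η : E → ℝ} {e : E} {V V₁ : Set E} {K : ℝ} {c : Fin 5 → ℝ}
  {g : (j : ℕ) → (Fin j → E) → E → ℝ} {D : (j : ℕ) → (Fin j → E) → E → E →L[ℝ] ℝ}

lemma contOn_D (h : Jets η e V V₁ K c g D) {j : ℕ} (hj : j < 4) (m : Fin j → E) :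
    ContinuousOn (D j m) (V ∩ {z | η z ≤ 0}) :=
  continuousOn_clm_apply.2 fun v => by simpa only [h.apply] using h.cont (j + 1) hj (Fin.cons v m)

lemma derivWithin (h : Jets η e V V₁ K c g D) {j : ℕ} (hj : j < 4) (m : Fin j → E) {z : E}
    (hz : z ∈ V) (hz0 : η z ≤ 0) :
    HasFDerivWithinAt (g j m) (D j m z) (V ∩ {z | η z ≤ 0}) z := by
  rcases hz0.lt_or_eq with hlt | heq
  · exact (h.deriv j hj m z hz hlt).hasFDerivWithinAt
  · exact h.height.hasFDerivWithinAt_side hz heq (h.cont j hj.le m)
      (h.contOn_D hj m z ⟨hz, heq.le⟩) (h.deriv j hj m)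

omit [FiniteDimensional ℝ E] in
lemma proj_zero (h : Jets η e V V₁ K c g D) {z : E} (hz : z ∈ V₁) : η (z + η z • e) = 0 := by
  rw [h.height.shift z (h.sub hz) _ (h.proj z hz), sub_self]

omit [FiniteDimensional ℝ E] in
lemma proj_side (h : Jets η e V V₁ K c g D) {z : E} (hz : z ∈ V₁) :
    z + η z • e ∈ V ∩ {z | η z ≤ 0} := ⟨h.proj z hz, (h.proj_zero hz).le⟩

omit [FiniteDimensional ℝ E] in
lemma continuousOn_eta (h : Jets η e V V₁ K c g D) : ContinuousOn η V₁ :=
  h.height.continuousOn.mono h.sub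

/-- Traces on the hypersurface are as smooth as the height allows. -/
lemma trace_smooth (h : Jets η e V V₁ K c g D) (k : ℕ) :
    ContDiffOn ℝ (k : WithTop ℕ∞) η V₁ → ∀ j, j + k ≤ 4 → ∀ m,
      ContDiffOn ℝ (k : WithTop ℕ∞) (fun z => g j m (z + η z • e)) V₁ := by
  induction k with
  | zero =>
    intro _ j hj m
    rw [Nat.cast_zero, contDiffOn_zero]
    exact (h.cont j (by omega) m).comp
      (continuousOn_id.add (h.continuousOn_eta.smul continuousOn_const)) fun z hz => h.proj_side hz
  | succ k ih =>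
    intro hη j hj m
    have hηk : ContDiffOn ℝ (k : WithTop ℕ∞) η V₁ := hη.of_le (by simp)
    rw [Nat.cast_succ, contDiffOn_succ_iff_fderiv_of_isOpen h.open₁] at hη
    have hd : ∀ z ∈ V₁, HasFDerivAt (fun z => g j m (z + η z • e))
        ((D j m (z + η z • e)).comp
          (ContinuousLinearMap.id ℝ E + (fderiv ℝ η z).smulRight e)) z := fun z hz => by
      have hp : HasFDerivWithinAt (fun z => z + η z • e)
          (ContinuousLinearMap.id ℝ E + (fderiv ℝ η z).smulRight e) V₁ z :=
        ((hasFDerivAt_id z).add ((hη.1.differentiableAt (h.open₁.mem_nhds hz)).hasFDerivAt.smul_const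
          e)).hasFDerivWithinAt
      exact ((h.derivWithin (by omega) m (h.proj z hz) (h.proj_zero hz).le).comp z hp
        fun w hw => h.proj_side hw).hasFDerivAt (h.open₁.mem_nhds hz)
    rw [Nat.cast_succ, contDiffOn_succ_iff_fderiv_of_isOpen h.open₁]
    refine ⟨fun z hz => (hd z hz).differentiableAt.differentiableWithinAt, by simp, ?_⟩
    refine ContDiffOn.congr ?_ fun z hz => (hd z hz).fderiv
    have h1 : ContDiffOn ℝ (k : WithTop ℕ∞) (fun z => D j m (z + η z • e)) V₁ :=
      contDiffOn_clm_apply.2 fun v => by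
        simpa only [h.apply] using ih hηk (j + 1) (by omega) (Fin.cons v m)
    exact h1.clm_comp (contDiffOn_const.add (hη.2.2.smulRight contDiffOn_const))

/-- The derivative of the height. -/
lemma hasFDerivAt_eta (h : Jets η e V V₁ K c g D) {x : E} (hx : x ∈ V₁) :
    HasFDerivAt η (-(D 0 noDir (x + η x • e) e)⁻¹ • D 0 noDir (x + η x • e)) x := by
  set p : E → E := fun z => z + η z • e with hp
  set A := D 0 noDir (p x)
  have hne : A e ≠ 0 := h.slope _ (h.proj x hx) (h.proj_zero hx)
  have h0 := h.derivWithin (by norm_num) noDir (h.proj x hx) (h.proj_zero hx).le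
  rw [hasFDerivWithinAt_iff_isLittleO] at h0
  have hpc : Tendsto p (𝓝 x) (𝓝[V ∩ {z | η z ≤ 0}] (p x)) := by
    refine tendsto_nhdsWithin_iff.2 ⟨?_, ?_⟩
    · exact (continuousAt_id.add
        ((h.continuousOn_eta.continuousAt (h.open₁.mem_nhds hx)).smul continuousAt_const)).tendsto
    · filter_upwards [h.open₁.mem_nhds hx] with z hz using h.proj_side hz
  have hO : (fun z => p z - p x) =O[𝓝 x] fun z => z - x := by
    refine Asymptotics.IsBigO.of_bound (1 + K * ‖e‖) ?_
    filter_upwards [h.open₁.mem_nhds hx] with z hz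
    rw [show p z - p x = (z - x) + (η z - η x) • e by simp only [hp, sub_smul]; abel, add_mul, one_mul]
    refine (norm_add_le _ _).trans (add_le_add le_rfl ?_)
    rw [norm_smul, Real.norm_eq_abs]
    nlinarith [h.height.lip z (h.sub hz) x (h.sub hx), norm_nonneg e]
  have h2 := (h0.comp_tendsto hpc).trans_isBigO hO
  have h3 : (fun z => A (p z - p x)) =o[𝓝 x] fun z => z - x := by
    refine h2.neg_left.congr' ?_ Filter.EventuallyEq.rfl
    filter_upwards [h.open₁.mem_nhds hx] with z hz
    simp [Function.comp, h.zero _ (h.proj z hz) (h.proj_zero hz),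
      h.zero _ (h.proj x hx) (h.proj_zero hx), p, A]
  refine HasFDerivAt.of_isLittleO ?_
  refine (h3.const_mul_left (A e)⁻¹).congr (fun z => ?_) (fun z => rfl)
  rw [show p z - p x = (z - x) + (η z - η x) • e by simp only [hp, sub_smul]; abel,
    map_add, map_smul]
  simp only [_root_.smul_apply, smul_eq_mul]
  field_simp
  ring

/-- The height is four times continuously differentiable. -/
lemma smooth_eta (h : Jets η e V V₁ K c g D) :
    ∀ k : ℕ, k ≤ 4 → ContDiffOn ℝ (k : WithTop ℕ∞) η V₁ := by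
  intro k
  induction k with
  | zero => intro _; rw [Nat.cast_zero, contDiffOn_zero]; exact h.continuousOn_eta
  | succ k ih =>
    intro hk
    rw [Nat.cast_succ, contDiffOn_succ_iff_fderiv_of_isOpen h.open₁]
    refine ⟨fun z hz => (h.hasFDerivAt_eta hz).differentiableAt.differentiableWithinAt, by simp, ?_⟩
    refine ContDiffOn.congr ?_ fun z hz => (h.hasFDerivAt_eta hz).fderiv
    have h2 : ∀ v, ContDiffOn ℝ (k : WithTop ℕ∞) (fun z => D 0 noDir (z + η z • e) v) V₁ := fun v => by
      simpa only [h.apply] using h.trace_smooth k (ih (by omega)) 1 (by omega) (Fin.cons v noDir)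
    exact (((h2 e).inv fun z hz => h.slope _ (h.proj z hz) (h.proj_zero hz)).neg).smul
      (contDiffOn_clm_apply.2 h2)

end Jets

/-- The reflected extension with coefficients `a`. -/
def piece (η : E → ℝ) (e : E) (c a : Fin 5 → ℝ) (f : E → ℝ) (z : E) : ℝ :=
  if η z < 0 then (∑ i, a i) * f z else ∑ i, a i * f (z + (c i * η z) • e)

namespace Jets

variable [FiniteDimensional ℝ E] {η : E → ℝ} {e : E} {V V₁ : Set E} {K : ℝ} {c : Fin 5 → ℝ}
  {g : (j : ℕ) → (Fin j → E) → E → ℝ} {D : (j : ℕ) → (Fin j → E) → E → E →L[ℝ] ℝ}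

omit [FiniteDimensional ℝ E] in
lemma refl_side (h : Jets η e V V₁ K c g D) {z : E} (hz : z ∈ V₁) (h0 : 0 ≤ η z) (i : Fin 5) :
    z + (c i * η z) • e ∈ V ∩ {z | η z ≤ 0} := by
  refine ⟨h.refl z hz i, ?_⟩
  show η _ ≤ 0
  rw [h.height.shift z (h.sub hz) _ (h.refl z hz i)]
  nlinarith [h.one_lt i]

omit [FiniteDimensional ℝ E] in
lemma piece_cont (h : Jets η e V V₁ K c g D) {j : ℕ} (hj : j ≤ 4) (a : Fin 5 → ℝ) (m : Fin j → E) :
    ContinuousOn (piece η e c a (g j m)) V₁ := by
  have hA : ContinuousOn (piece η e c a (g j m)) (V₁ ∩ {z | η z ≤ 0}) := by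
    refine ((continuousOn_const (c := ∑ i, a i)).mul
      ((h.cont j hj m).mono (inter_subset_inter_left _ h.sub))).congr fun z hz => ?_
    unfold piece
    rcases (show η z ≤ 0 from hz.2).lt_or_eq with hlt | heq
    · rw [if_pos hlt]; rfl
    · rw [if_neg (by linarith)]
      simp [heq, Finset.sum_mul]
  have hB : ContinuousOn (piece η e c a (g j m)) (V₁ ∩ {z | 0 ≤ η z}) := by
    refine (continuousOn_finsetSum Finset.univ fun (i : Fin 5) _ =>
      (continuousOn_const (c := a i)).mul ((h.cont j hj m).comp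
        (continuousOn_id.add ((continuousOn_const.mul (h.continuousOn_eta.mono inter_subset_left)).smul
          continuousOn_const)) fun z hz => h.refl_side hz.1 hz.2 i)).congr fun z hz => ?_
    unfold piece
    rw [if_neg (not_lt.2 hz.2)]
    rfl
  intro x hx
  have hxn : V₁ ∈ 𝓝 x := h.open₁.mem_nhds hx
  have hc : ContinuousAt η x := h.continuousOn_eta.continuousAt hxn
  rcases lt_trichotomy (η x) 0 with hlt | heq | hgt
  · exact (hA x ⟨hx, hlt.le⟩).mono_of_mem_nhdsWithin (mem_nhdsWithin_of_mem_nhds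
      (inter_mem hxn (mem_of_superset (hc (Iio_mem_nhds hlt)) fun _ (hz : η _ < 0) => hz.le)))
  · refine ((hA x ⟨hx, heq.le⟩).union (hB x ⟨hx, heq.ge⟩)).mono fun z hz => ?_
    rcases le_total (η z) 0 with h0 | h0
    · exact .inl ⟨hz, h0⟩
    · exact .inr ⟨hz, h0⟩
  · exact (hB x ⟨hx, hgt.le⟩).mono_of_mem_nhdsWithin (mem_nhdsWithin_of_mem_nhds
      (inter_mem hxn (mem_of_superset (hc (Ioi_mem_nhds hgt)) fun _ (hz : 0 < η _) => hz.le)))

/-- The derivative of the reflected extension, and its value on a vector. -/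
lemma piece_deriv (h : Jets η e V V₁ K c g D) {j : ℕ} (hj : j < 4) (a : Fin 5 → ℝ)
    (ha : ∑ i, a i * c i = 0) (m : Fin j → E) :
    ∃ P : E → E →L[ℝ] ℝ, (∀ x ∈ V₁, HasFDerivAt (piece η e c a (g j m)) (P x) x) ∧
      ∀ x v, P x v = piece η e c a (g (j + 1) (Fin.cons v m)) x +
        fderiv ℝ η x v * piece η e c (fun i => a i * c i) (g (j + 1) (Fin.cons e m)) x := by
  set P : E → E →L[ℝ] ℝ := fun z => if η z < 0 then (∑ i, a i) • D j m z
    else ∑ i, a i • (D j m (z + (c i * η z) • e)).comp
      (ContinuousLinearMap.id ℝ E + (c i • fderiv ℝ η z).smulRight e) with hP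
  have happ : ∀ x v, P x v = piece η e c a (g (j + 1) (Fin.cons v m)) x +
      fderiv ℝ η x v * piece η e c (fun i => a i * c i) (g (j + 1) (Fin.cons e m)) x := by
    intro x v
    by_cases hx : η x < 0
    · simp [hP, piece, hx, ha, h.apply]
    · simp only [hP, piece, if_neg hx, _root_.sum_apply, _root_.smul_apply, ContinuousLinearMap.comp_apply,
        _root_.add_apply, ContinuousLinearMap.id_apply, ContinuousLinearMap.smulRight_apply,
        map_add, map_smul, smul_eq_mul, ← h.apply, Finset.mul_sum, ← Finset.sum_add_distrib]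
      exact Finset.sum_congr rfl fun i _ => by ring
  refine ⟨P, fun x hx => ?_, happ⟩
  have hη := h.smooth_eta 4 le_rfl
  have hηd : ∀ z ∈ V₁, HasFDerivAt η (fderiv ℝ η z) z := fun z hz =>
    ((hη.differentiableOn (by norm_num)).differentiableAt (h.open₁.mem_nhds hz)).hasFDerivAt
  have hH : Height η e V₁ K :=
    ⟨h.open₁, h.height.nonneg, fun y hy z hz => h.height.lip y (h.sub hy) z (h.sub hz),
      fun z hz t ht => h.height.shift z (h.sub hz) t (h.sub ht)⟩
  refine hH.hasFDerivAt_glue hx (h.piece_cont hj.le a m) (H := P) ?_ fun z hz hz0 => ?_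
  · refine (continuousOn_clm_apply.2 fun v => ?_ : ContinuousOn P V₁).continuousAt
      (h.open₁.mem_nhds hx)
    simp only [happ]
    exact (h.piece_cont hj a _).add (((hη.continuousOn_fderiv_of_isOpen h.open₁ (by norm_num)).clm_apply
      continuousOn_const).mul (h.piece_cont hj _ _))
  · have hzn : V₁ ∈ 𝓝 z := h.open₁.mem_nhds hz
    have hc : ContinuousAt η z := h.continuousOn_eta.continuousAt hzn
    rcases hz0.lt_or_gt with hlt | hgt
    · have he : piece η e c a (g j m) =ᶠ[𝓝 z] fun w => (∑ i, a i) • g j m w := by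
        filter_upwards [hc (Iio_mem_nhds hlt)] with w (hw : η w < 0)
        simp [piece, hw]
      refine HasFDerivAt.congr_of_eventuallyEq ?_ he
      simp only [hP, if_pos hlt]
      exact (h.deriv j hj m z (h.sub hz) hlt).fun_const_smul _
    · have he : piece η e c a (g j m) =ᶠ[𝓝 z] fun w => ∑ i, a i • g j m (w + (c i * η w) • e) := by
        filter_upwards [hc (Ioi_mem_nhds hgt)] with w (hw : 0 < η w)
        simp [piece, not_lt.2 hw.le]
      refine HasFDerivAt.congr_of_eventuallyEq ?_ he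
      simp only [hP, if_neg (not_lt.2 hgt.le)]
      refine HasFDerivAt.fun_sum fun i _ => HasFDerivAt.fun_const_smul ?_ (a i)
      have hψ : HasFDerivAt (fun w => w + (c i * η w) • e)
          (ContinuousLinearMap.id ℝ E + (c i • fderiv ℝ η z).smulRight e) z :=
        (hasFDerivAt_id z).add (((hηd z hz).const_mul (c i)).smul_const e)
      have hlt' : η (z + (c i * η z) • e) < 0 := by
        rw [h.height.shift z (h.sub hz) _ (h.refl z hz i)]
        nlinarith [h.one_lt i]
      exact (h.deriv j hj m _ (h.refl z hz i) hlt').comp z hψ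

/-- Vanishing moments give a reflected extension of class `C^k`. -/
theorem piece_smooth (h : Jets η e V V₁ K c g D) (k : ℕ) :
    ∀ j, j + k ≤ 4 → ∀ a : Fin 5 → ℝ, (∀ m, 1 ≤ m → m ≤ k → ∑ i, a i * c i ^ m = 0) →
      ∀ m, ContDiffOn ℝ (k : WithTop ℕ∞) (piece η e c a (g j m)) V₁ := by
  induction k with
  | zero => intro j hj a _ m; rw [Nat.cast_zero, contDiffOn_zero]; exact h.piece_cont (by omega) a m
  | succ k ih =>
    intro j hj a ha m
    obtain ⟨P, hd, happ⟩ := h.piece_deriv (show j < 4 by omega) a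
      (by simpa using ha 1 le_rfl (by omega)) m
    rw [Nat.cast_succ, contDiffOn_succ_iff_fderiv_of_isOpen h.open₁]
    refine ⟨fun z hz => (hd z hz).differentiableAt.differentiableWithinAt, by simp, ?_⟩
    refine ContDiffOn.congr ?_ fun z hz => (hd z hz).fderiv
    refine contDiffOn_clm_apply.2 fun v => ?_
    simp only [happ]
    exact (ih (j + 1) (by omega) a (fun n hn hnk => ha n hn (by omega)) _).add
      ((((h.smooth_eta (k + 1) (by omega)).fderiv_of_isOpen h.open₁ (by norm_num)).clm_apply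
        contDiffOn_const).mul (ih (j + 1) (by omega) (fun i => a i * c i) (fun n hn hnk => by
          rw [← ha (n + 1) (by omega) (by omega)]
          exact Finset.sum_congr rfl fun i _ => by ring) _))

end Jets

end

end Vale.Agent.P098.Reg
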