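import Mathlib
import Vale.Agent.P098.Reg.Specs
import Vale.Agent.P098.Reg.ExtReflectPiece

/-!
# P098: reflection, the height of the free boundary and the local extension
-/

namespace Vale.Agent.P098.Reg

open Set Filter Topology Metric
open Vale.Agent.P098.Cone
open scoped NNReal ContDiff

noncomputable section

variable {E : Type*} [NormedAddCommGroup E] [NormedSpace ℝ E]

/-- Monotonicity along `e` where the slope is at least `c`. -/
lemma grow {u : E → ℝ} {e : E} {c t : ℝ} {x₀ z : E} {R : ℝ} (hc : 0 < c) (hu : Continuous u)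
    (hd : ∀ y ∈ ball x₀ R, 0 < u y → ∃ s, 2 * c ≤ s ∧ HasDerivAt (fun r : ℝ => u (y + r • e)) s 0)
    (hz : 0 < u z) (ht : 0 ≤ t) (hball : ∀ s ∈ Icc (0 : ℝ) t, z + s • e ∈ ball x₀ R) :
    u z + c * t ≤ u (z + t • e) := by
  set S := {s : ℝ | u z + c * s ≤ u (z + s • e)} with hS
  have hcl : IsClosed (S ∩ Icc 0 t) := by
    refine IsClosed.inter ?_ isClosed_Icc
    exact isClosed_le (continuous_const.add (continuous_const.mul continuous_id))
      (hu.comp (continuous_const.add (continuous_id.smul continuous_const)))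
  refine hcl.Icc_subset_of_forall_mem_nhdsWithin (by simp [hS]) (fun s hs => ?_) ⟨ht, le_rfl⟩
  have hpos : 0 < u (z + s • e) := lt_of_lt_of_le (by nlinarith [hs.2.1]) hs.1
  obtain ⟨r, hr, hder⟩ := hd _ (hball s ⟨hs.2.1, hs.2.2.le⟩) hpos
  have h1 : Tendsto (slope (fun r : ℝ => u (z + s • e + r • e)) 0) (𝓝[>] 0) (𝓝 r) :=
    (hasDerivAt_iff_tendsto_slope.1 hder).mono_left (nhdsWithin_mono _ fun x (hx : 0 < x) => hx.ne')
  have h2 : Tendsto (fun w : ℝ => w - s) (𝓝[>] s) (𝓝[>] 0) := by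
    refine tendsto_nhdsWithin_iff.2 ⟨?_, ?_⟩
    · exact ((continuous_id.sub continuous_const).tendsto' s 0 (sub_self s)).mono_left nhdsWithin_le_nhds
    · filter_upwards [self_mem_nhdsWithin] with w (hw : s < w)
      exact sub_pos.2 hw
  filter_upwards [(h1.comp h2).eventually (lt_mem_nhds (show c < r by linarith)),
    self_mem_nhdsWithin] with w hw (hsw : s < w)
  simp only [Function.comp_apply, slope_def_field, zero_smul, add_zero, sub_zero] at hw
  rw [lt_div_iff₀ (sub_pos.2 hsw), show z + s • e + (w - s) • e = z + w • e by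
    rw [sub_smul]; abel] at hw
  show u z + c * w ≤ u (z + w • e)
  linarith [show u z + c * s ≤ u (z + s • e) from hs.1]

/-- Near a zero in the closure of the positivity set with positive slope the positivity set lies
above a height. -/
lemma exists_height {u : E → ℝ} {L : ℝ≥0} {e x₀ : E} {R c : ℝ} (hu : LipschitzWith L u)
    (he : ‖e‖ = 1) (hR : 0 < R) (hc : 0 < c)
    (hd : ∀ y ∈ ball x₀ R, 0 < u y → ∃ s, 2 * c ≤ s ∧ HasDerivAt (fun r : ℝ => u (y + r • e)) s 0)
    (h0 : u x₀ ≤ 0) (hx₀ : x₀ ∈ closure {y | 0 < u y}) :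
    ∃ (ρ : ℝ) (η : E → ℝ) (K : ℝ), 0 < ρ ∧ ρ ≤ R ∧ Height η e (ball x₀ ρ) K ∧ η x₀ = 0 ∧
      (∀ z ∈ ball x₀ ρ, 0 < u z ↔ η z < 0) ∧
      (∀ z ∈ ball x₀ ρ, η z ≤ 0 → z ∈ closure {y | 0 < u y}) := by
  have hcont := hu.continuous
  set t₀ := R / 8 with ht₀
  have ht0 : 0 < t₀ := by positivity
  set K : ℝ := L / c with hK
  have hK0 : 0 ≤ K := by positivity
  set ρ := t₀ / (4 * (K + 2)) with hρ
  have hρ0 : 0 < ρ := by positivity
  have hρK : ρ * (4 * (K + 2)) = t₀ := by rw [hρ]; field_simp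
  have hρt : 8 * ρ ≤ t₀ := by nlinarith
  have hLρ : (L : ℝ) * ρ < c * t₀ / 2 := by
    have : (L : ℝ) = K * c := by rw [hK]; field_simp
    rw [this]; nlinarith [mul_pos hc hρ0]
  have hnear : ∀ z ∈ ball x₀ (2 * t₀), ∀ s : ℝ, |s| ≤ 4 * t₀ → z + s • e ∈ ball x₀ R := by
    intro z hz s hs
    rw [mem_ball, dist_eq_norm] at hz ⊢
    rw [show z + s • e - x₀ = (z - x₀) + s • e by abel]
    refine lt_of_le_of_lt (norm_add_le _ _) ?_
    rw [norm_smul, he, mul_one, Real.norm_eq_abs]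
    linarith
  have hline : ∀ z ∈ ball x₀ (2 * t₀), ∀ s s' : ℝ, |s| ≤ 2 * t₀ → |s'| ≤ 2 * t₀ → s ≤ s' →
      0 < u (z + s • e) → u (z + s • e) + c * (s' - s) ≤ u (z + s' • e) := by
    intro z hz s s' hs hs' hss hpos
    have := grow hc hcont hd hpos (sub_nonneg.2 hss) fun r hr => by
      rw [add_assoc, ← add_smul]
      exact hnear z hz _ (abs_le.2 ⟨by linarith [hr.1, (abs_le.1 hs).1], by
        linarith [hr.2, (abs_le.1 hs').2]⟩)
    rwa [add_assoc, ← add_smul, add_sub_cancel] at this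
  have hx₀b : x₀ ∈ ball x₀ (2 * t₀) := mem_ball_self (by positivity)
  have hlipu : ∀ a b : E, u a - u b ≤ L * ‖a - b‖ := fun a b => by
    refine le_trans (le_abs_self _) ?_
    simpa [dist_eq_norm, Real.norm_eq_abs] using hu.dist_le_mul a b
  have hup : c * t₀ ≤ u (x₀ + t₀ • e) := by
    obtain ⟨y, hy, hyl⟩ := mem_closure_iff_seq_limit.1 hx₀
    refine ge_of_tendsto (((hcont.comp (continuous_id.add continuous_const)).tendsto x₀).comp hyl) ?_
    filter_upwards [hyl.eventually (ball_mem_nhds x₀ (show 0 < 2 * t₀ by positivity))] with n hn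
    have h := hline (y n) hn 0 t₀ (by simp; positivity) (by rw [abs_of_pos ht0]; linarith) ht0.le
      (by simpa using hy n)
    simp only [zero_smul, add_zero, sub_zero] at h
    show c * t₀ ≤ u (y n + t₀ • e)
    linarith [show 0 < u (y n) from hy n]
  have hdown : ∀ s : ℝ, 0 ≤ s → s ≤ t₀ → u (x₀ + (-s) • e) ≤ 0 := by
    intro s hs hs'
    by_contra hpos
    have h := hline x₀ hx₀b (-s) 0 (by rw [abs_neg, abs_of_nonneg hs]; linarith) (by simp; positivity)
      (by linarith) (not_le.1 hpos)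
    simp only [zero_smul, add_zero] at h
    nlinarith [not_le.1 hpos]
  have htop : ∀ z ∈ ball x₀ ρ, 0 < u (z + t₀ • e) := fun z hz => by
    have := hlipu (x₀ + t₀ • e) (z + t₀ • e)
    rw [add_sub_add_right_eq_sub, norm_sub_rev] at this
    rw [mem_ball, dist_eq_norm] at hz
    have : (L : ℝ) * ‖z - x₀‖ ≤ L * ρ := mul_le_mul_of_nonneg_left hz.le L.2
    nlinarith
  have hbot : ∀ z ∈ ball x₀ ρ, u (z + (-t₀) • e) ≤ 0 := fun z hz => by
    by_contra hpos
    have hz2 : z ∈ ball x₀ (2 * t₀) := ball_subset_ball (by linarith) hz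
    have h := hline z hz2 (-t₀) (-(t₀ / 2)) (by rw [abs_neg, abs_of_pos ht0]; linarith)
      (by rw [abs_neg, abs_of_pos (half_pos ht0)]; linarith) (by linarith) (not_le.1 hpos)
    have h2 := hlipu (z + (-(t₀ / 2)) • e) (x₀ + (-(t₀ / 2)) • e)
    rw [add_sub_add_right_eq_sub] at h2
    rw [mem_ball, dist_eq_norm] at hz
    have : (L : ℝ) * ‖z - x₀‖ ≤ L * ρ := mul_le_mul_of_nonneg_left hz.le L.2
    nlinarith [hdown (t₀ / 2) (by linarith) (by linarith), not_le.1 hpos]
  set P : E → Set ℝ := fun z => {s | s ∈ Icc (-t₀) t₀ ∧ 0 < u (z + s • e)} with hP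
  set η : E → ℝ := fun z => sInf (P z) with hη
  have hne : ∀ z ∈ ball x₀ ρ, (P z).Nonempty := fun z hz => ⟨t₀, ⟨by linarith, le_rfl⟩, htop z hz⟩
  have hbdd : ∀ z, BddBelow (P z) := fun z => ⟨-t₀, fun s hs => hs.1.1⟩
  have hrange : ∀ z ∈ ball x₀ ρ, η z ∈ Icc (-t₀) t₀ := fun z hz =>
    ⟨le_csInf (hne z hz) fun s hs => hs.1.1, csInf_le (hbdd z) ⟨⟨by linarith, le_rfl⟩, htop z hz⟩⟩
  have hiff : ∀ z ∈ ball x₀ ρ, ∀ s ∈ Icc (-t₀) t₀, (0 < u (z + s • e) ↔ η z < s) := by
    intro z hz s hs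
    constructor
    · intro hpos
      have hs0 : -t₀ < s := lt_of_le_of_ne hs.1 fun h => by
        rw [← h] at hpos; exact absurd hpos (not_lt.2 (hbot z hz))
      have hev : ∀ᶠ r in 𝓝[<] s, -t₀ < r ∧ 0 < u (z + r • e) :=
        nhdsWithin_le_nhds ((lt_mem_nhds hs0).and
          ((hcont.comp (continuous_const.add (continuous_id.smul continuous_const))).tendsto s
            |>.eventually (lt_mem_nhds hpos)))
      obtain ⟨r, ⟨hr1, hr2⟩, hr3⟩ := (hev.and self_mem_nhdsWithin).exists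
      have hr3' : r < s := hr3
      exact lt_of_le_of_lt (csInf_le (hbdd z) ⟨⟨hr1.le, by linarith [hs.2]⟩, hr2⟩) hr3'
    · intro h
      obtain ⟨r, hr, hrs⟩ := (csInf_lt_iff (hbdd z) (hne z hz)).1 h
      have := hline z (ball_subset_ball (by linarith) hz) r s
        (abs_le.2 ⟨by linarith [hr.1.1], by linarith [hr.1.2]⟩)
        (abs_le.2 ⟨by linarith [hs.1], by linarith [hs.2]⟩) hrs.le hr.2
      nlinarith [hr.2]
  have hgrow : ∀ z ∈ ball x₀ ρ, ∀ s ∈ Icc (-t₀) t₀, η z < s → c * (s - η z) ≤ u (z + s • e) := by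
    intro z hz s hs h
    refine le_of_forall_lt_imp_le_of_dense fun b hb => ?_
    have hb' : b / c < s - η z := (div_lt_iff₀ hc).2 (by linarith)
    obtain ⟨r, hr1, hr2⟩ := exists_between (show η z < min s (s - b / c) from lt_min h (by linarith))
    have hrs : r < s := lt_of_lt_of_le hr2 (min_le_left _ _)
    have hr4 : r < s - b / c := lt_of_lt_of_le hr2 (min_le_right _ _)
    have hrI : r ∈ Icc (-t₀) t₀ := ⟨by linarith [(hrange z hz).1], by linarith [hs.2]⟩
    have hrp := (hiff z hz r hrI).2 hr1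
    have := hline z (ball_subset_ball (by linarith) hz) r s
      (abs_le.2 ⟨by linarith [hrI.1], by linarith [hrI.2]⟩)
      (abs_le.2 ⟨by linarith [hs.1], by linarith [hs.2]⟩) hrs.le hrp
    have : b / c < s - r := by linarith
    rw [div_lt_iff₀ hc] at this
    nlinarith
  have hlip : ∀ y ∈ ball x₀ ρ, ∀ z ∈ ball x₀ ρ, η y - η z ≤ K * ‖y - z‖ := by
    intro y hy z hz
    by_contra h
    rw [not_le] at h
    have hlt : η z < η y := by nlinarith [norm_nonneg (y - z)]
    have h1 := hgrow z hz (η y) (hrange y hy) hlt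
    have h2 := hlipu (z + η y • e) (y + η y • e)
    rw [add_sub_add_right_eq_sub, norm_sub_rev] at h2
    have h3 : (L : ℝ) * ‖y - z‖ < c * (η y - η z) := by
      have := mul_lt_mul_of_pos_left h hc
      rwa [← mul_assoc, hK, mul_div_cancel₀ _ hc.ne'] at this
    exact absurd ((hiff y hy _ (hrange y hy)).1 (by linarith)) (lt_irrefl _)
  have hlip' : ∀ y ∈ ball x₀ ρ, ∀ z ∈ ball x₀ ρ, |η y - η z| ≤ K * ‖y - z‖ := fun y hy z hz => by
    refine abs_le.2 ⟨?_, hlip y hy z hz⟩
    have := hlip z hz y hy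
    rw [norm_sub_rev] at this
    linarith
  have hx0 : η x₀ = 0 := by
    have hm := mem_ball_self (x := x₀) hρ0
    refine le_antisymm ?_ ?_
    · by_contra h
      rw [not_le] at h
      obtain ⟨y, hy, hyl⟩ := mem_closure_iff_seq_limit.1 hx₀
      obtain ⟨n, hn, hn2⟩ := ((hyl.eventually (ball_mem_nhds x₀ hρ0)).and
        (hyl.eventually (ball_mem_nhds x₀ (show 0 < η x₀ / (K + 1) by positivity)))).exists
      have h1 : η (y n) < 0 := (hiff _ hn 0 ⟨by linarith, ht0.le⟩).1 (by simpa using hy n)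
      have h2 := hlip x₀ hm (y n) hn
      rw [dist_eq_norm, norm_sub_rev, lt_div_iff₀ (by positivity)] at hn2
      nlinarith [norm_nonneg (x₀ - y n)]
    · by_contra h
      rw [not_le] at h
      have := (hiff x₀ hm 0 ⟨by linarith, ht0.le⟩).2 h
      simp at this
      linarith
  have hsmall : ∀ z ∈ ball x₀ ρ, |η z| ≤ t₀ / 4 := fun z hz => by
    have := hlip' z hz x₀ (mem_ball_self hρ0)
    rw [hx0, sub_zero] at this
    rw [mem_ball, dist_eq_norm] at hz
    nlinarith [norm_nonneg (z - x₀)]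
  refine ⟨ρ, η, K, hρ0, by linarith, ⟨isOpen_ball, hK0, hlip', fun z hz t hzt => ?_⟩, hx0,
    fun z hz => by simpa using hiff z hz 0 ⟨by linarith, ht0.le⟩, fun z hz h0z => ?_⟩
  · have htb : |t| ≤ 2 * ρ := by
      have h : ‖t • e‖ ≤ ‖z + t • e - x₀‖ + ‖z - x₀‖ := by
        refine le_trans (le_of_eq ?_) (norm_sub_le _ _); congr 1; abel
      rw [norm_smul, he, mul_one, Real.norm_eq_abs] at h
      rw [mem_ball, dist_eq_norm] at hz hzt
      linarith
    have a1 := abs_le.1 (hsmall z hz)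
    have a2 := abs_le.1 (hsmall _ hzt)
    have a3 := abs_le.1 htb
    have hkey : ∀ s : ℝ, |s| ≤ t₀ / 2 → (η (z + t • e) < s ↔ η z < s + t) := fun s hs => by
      have hs := abs_le.1 hs
      rw [← hiff _ hzt s ⟨by linarith, by linarith⟩, ← hiff z hz (s + t) ⟨by linarith, by linarith⟩,
        add_assoc, ← add_smul, add_comm t s]
    refine le_antisymm ?_ ?_
    · by_contra h
      rw [not_le] at h
      obtain ⟨s, hs1, hs2⟩ := exists_between h
      exact absurd ((hkey s (abs_le.2 ⟨by linarith, by linarith⟩)).2 (by linarith)) (by linarith)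
    · by_contra h
      rw [not_le] at h
      obtain ⟨s, hs1, hs2⟩ := exists_between h
      exact absurd ((hkey s (abs_le.2 ⟨by linarith, by linarith⟩)).1 hs1) (by linarith)
  · rcases h0z.lt_or_eq with hlt | heq
    · exact subset_closure (show 0 < u z by simpa using (hiff z hz 0 ⟨by linarith, ht0.le⟩).2 hlt)
    · refine mem_closure_of_tendsto (f := fun r : ℝ => z + r • e) (b := 𝓝[>] (0 : ℝ))
        (((continuous_const.add (continuous_id.smul continuous_const)).tendsto' (0 : ℝ) z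
          (by simp)).mono_left nhdsWithin_le_nhds) ?_
      filter_upwards [self_mem_nhdsWithin, nhdsWithin_le_nhds (gt_mem_nhds ht0)] with r (hr : 0 < r) hr2
      exact (hiff z hz r ⟨by linarith, hr2.le⟩).2 (by rw [heq]; exact hr)

end

end Vale.Agent.P098.Reg
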