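import Mathlib
import Vale.Agent.P098.Reg.Specs
import Vale.Agent.P098.Reg.ExtReflectLocal

/-!
# P098: an extension of class `C⁴` across the free boundary
-/

namespace Vale.Agent.P098.Reg

open Set Filter Topology Metric
open Vale.Agent.P098.Cone
open scoped NNReal ContDiff Manifold

noncomputable section

namespace Refl

variable {d : ℕ}

/-- Evaluation of a family at a tuple of directions, and its differential. -/
def jetD (G : (j : ℕ) → (Fin d → ℝ) → ContinuousMultilinearMap ℝ (fun _ : Fin j => (Fin d → ℝ)) ℝ)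
    (j : ℕ) (m : Fin j → Fin d → ℝ) (z : Fin d → ℝ) : (Fin d → ℝ) →L[ℝ] ℝ :=
  (G (j + 1) z).toContinuousLinearMap (Fin.cons 0 m) 0

lemma jetD_apply (G : (j : ℕ) → (Fin d → ℝ) → ContinuousMultilinearMap ℝ (fun _ : Fin j => (Fin d → ℝ)) ℝ)
    (j : ℕ) (m : Fin j → Fin d → ℝ) (z v : Fin d → ℝ) :
    jetD G j m z v = G (j + 1) z (Fin.cons v m) := by
  simp [jetD, ContinuousMultilinearMap.toContinuousLinearMap, Fin.update_cons_zero]

variable {L : ℝ≥0} {u : (Fin d → ℝ) → ℝ}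

lemma isOpen_pos_of_lip (hu : LipschitzWith L u) : IsOpen (pos u) :=
  isOpen_lt continuous_const hu.continuous

lemma zero_of_homog (hh : Homog u) : u 0 = 0 := by
  have := hh 2 0 two_pos
  rw [smul_zero] at this
  linarith

lemma ne_zero_of_pos (hh : Homog u) {z : Fin d → ℝ} (hz : z ∈ pos u) : z ≠ 0 := fun h => by
  have := zero_of_homog hh
  rw [h] at hz
  exact absurd (show 0 < u 0 from hz) (by linarith)

lemma hasFDerivAt_jet (hu : LipschitzWith L u) (hs : ContDiffOn ℝ (⊤ : ℕ∞) u (pos u))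
    {G : (j : ℕ) → (Fin d → ℝ) → ContinuousMultilinearMap ℝ (fun _ : Fin j => (Fin d → ℝ)) ℝ}
    (hG : ∀ j ≤ 4, ∀ z ∈ pos u, G j z = iteratedFDeriv ℝ j u z) {j : ℕ} (hj : j < 4)
    (m : Fin j → Fin d → ℝ) {z : Fin d → ℝ} (hz : z ∈ pos u) :
    HasFDerivAt (fun y => G j y m) (jetD G j m z) z := by
  have hn : pos u ∈ 𝓝 z := (isOpen_pos_of_lip hu).mem_nhds hz
  have h1 : DifferentiableAt ℝ (iteratedFDeriv ℝ j u) z :=
    (hs.contDiffAt hn).differentiableAt_iteratedFDeriv (by exact_mod_cast WithTop.coe_lt_top j)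
  have h2 := h1.hasFDerivAt.continuousMultilinear_apply_const m
  have he : (fun y => G j y m) =ᶠ[𝓝 z] fun y => iteratedFDeriv ℝ j u y m := by
    filter_upwards [hn] with y hy
    rw [hG j hj.le y hy]
  refine (h2.congr_of_eventuallyEq he).congr_fderiv ?_
  ext1 v
  rw [jetD_apply, hG (j + 1) (by omega) z hz, fderiv_iteratedFDeriv]
  simp

/-- The local extension at a free boundary point. -/
lemma local_extension (hu : LipschitzWith L u) (hn : ∀ x, 0 ≤ u x) (hh : Homog u)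
    (hs : ContDiffOn ℝ (⊤ : ℕ∞) u (pos u))
    (G : (j : ℕ) → (Fin d → ℝ) → ContinuousMultilinearMap ℝ (fun _ : Fin j => (Fin d → ℝ)) ℝ)
    (hGc : ∀ j ≤ 4, ContinuousOn (G j) (closure (pos u) \ {0}))
    (hG : ∀ j ≤ 4, ∀ z ∈ pos u, G j z = iteratedFDeriv ℝ j u z)
    {x₀ : Fin d → ℝ} (hx : x₀ ∈ fb u) (hx0 : x₀ ≠ 0)
    (hgrad : Tendsto (fun z => dot (grad u z) (grad u z)) (𝓝[pos u] x₀) (𝓝 1)) :
    ∃ U ∈ 𝓝 x₀, ∃ w : (Fin d → ℝ) → ℝ, ContDiffOn ℝ 4 w U ∧ ∀ y ∈ U, 0 < u y → w y = u y := by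
  set g : (j : ℕ) → (Fin j → Fin d → ℝ) → (Fin d → ℝ) → ℝ := fun j m z => G j z m with hg
  have hgc : ∀ j ≤ 4, ∀ m, ContinuousOn (g j m) (closure (pos u) \ {0}) := fun j hj m =>
    (continuous_eval_const m).comp_continuousOn (hGc j hj)
  have hcl : x₀ ∈ closure (pos u) \ {0} := ⟨frontier_subset_closure hx, hx0⟩
  have hne : (𝓝[pos u] x₀).NeBot := mem_closure_iff_nhdsWithin_neBot.1 hcl.1
  have hsub : pos u ⊆ closure (pos u) \ {0} := fun z hz => ⟨subset_closure hz, ne_zero_of_pos hh hz⟩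
  have hpd : ∀ z ∈ pos u, ∀ i, pd u i z = g 1 (fun _ => Pi.single i 1) z := fun z hz i => by
    rw [hg]; dsimp only
    rw [hG 1 (by norm_num) z hz, iteratedFDeriv_one_apply]
    rfl
  have hone : ∑ i, g 1 (fun _ => Pi.single i 1) x₀ ^ 2 = 1 := by
    have hc : ContinuousWithinAt (fun z => ∑ i, g 1 (fun _ => Pi.single i 1) z ^ 2) (pos u) x₀ :=
      ((continuousOn_finsetSum _ fun i _ => (hgc 1 (by norm_num) _).pow 2) x₀ hcl).mono hsub
    refine tendsto_nhds_unique hc.tendsto (hgrad.congr' ?_)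
    filter_upwards [self_mem_nhdsWithin] with z hz
    simp only [dot, grad, ← sq]
    exact Finset.sum_congr rfl fun i _ => by rw [hpd z hz i]
  obtain ⟨i, hi⟩ : ∃ i, g 1 (fun _ => Pi.single i 1) x₀ ≠ 0 := by
    by_contra h
    push Not at h
    simp [h] at hone
  obtain ⟨e, he, hce⟩ : ∃ e : Fin d → ℝ, ‖e‖ = 1 ∧ 0 < g 1 (fun _ => e) x₀ := by
    rcases hi.lt_or_gt with hlt | hgt
    · refine ⟨(-1 : ℝ) • Pi.single i 1, by simp [Pi.norm_single], ?_⟩
      have : g 1 (fun _ => (-1 : ℝ) • Pi.single i 1) x₀ = -g 1 (fun _ => Pi.single i 1) x₀ := by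
        have h := (G 1 x₀).map_smul_univ (fun _ : Fin 1 => (-1 : ℝ)) (fun _ : Fin 1 => Pi.single i (1 : ℝ))
        simpa [hg] using h
      linarith
    · exact ⟨Pi.single i 1, by simp [Pi.norm_single], hgt⟩
  set s₀ := g 1 (fun _ => e) x₀ with hs₀
  have hone' : ∀ z : Fin d → ℝ, jetD G 0 noDir z e = g 1 (fun _ => e) z := fun z => by
    rw [jetD_apply]
    congr 1
    funext k
    rw [show k = 0 from Fin.ext (by omega)]
    rfl
  obtain ⟨R₁, hR₁, hR₁'⟩ := Metric.continuousWithinAt_iff.1 (hgc 1 (by norm_num) (fun _ => e) x₀ hcl)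
    (s₀ / 2) (half_pos hce)
  set R := min R₁ ‖x₀‖ with hR
  have hR0 : 0 < R := lt_min hR₁ (norm_pos_iff.2 hx0)
  have hball : ∀ y ∈ ball x₀ R, y ≠ 0 := fun y hy h0 => by
    rw [mem_ball, h0, dist_eq_norm, zero_sub, norm_neg] at hy
    exact absurd (lt_of_lt_of_le hy (min_le_right _ _)) (lt_irrefl _)
  have hslope : ∀ y ∈ ball x₀ R, y ∈ closure (pos u) → s₀ / 2 ≤ g 1 (fun _ => e) y := fun y hy hyc => by
    have := hR₁' (show y ∈ closure (pos u) \ {0} from ⟨hyc, hball y hy⟩)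
      (lt_of_lt_of_le (mem_ball.1 hy) (min_le_left _ _))
    rw [Real.dist_eq] at this
    linarith [(abs_lt.1 this).1]
  have hnot : ¬ 0 < u x₀ := fun h => hx.2 (by rwa [(isOpen_pos_of_lip hu).interior_eq])
  have hd : ∀ y ∈ ball x₀ R, 0 < u y →
      ∃ s, 2 * (s₀ / 4) ≤ s ∧ HasDerivAt (fun r : ℝ => u (y + r • e)) s 0 := fun y hy hyp => by
    refine ⟨g 1 (fun _ => e) y, le_trans (le_of_eq (by ring)) (hslope y hy (subset_closure hyp)), ?_⟩
    have h1 : HasFDerivAt u (fderiv ℝ u y) (y + (0 : ℝ) • e) := by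
      rw [zero_smul, add_zero]
      exact ((hs.contDiffAt ((isOpen_pos_of_lip hu).mem_nhds hyp)).differentiableAt
        (by simp)).hasFDerivAt
    have h2 := h1.comp_hasDerivAt (0 : ℝ) (((hasDerivAt_id (0 : ℝ)).smul_const e).const_add y)
    refine h2.congr_deriv ?_
    rw [hg]; dsimp only
    rw [hG 1 (by norm_num) y hyp, iteratedFDeriv_one_apply]
    simp
  obtain ⟨ρ, η, K, hρ, hρR, hH, hη0, hiff, hclo⟩ :=
    exists_height hu he hR0 (show 0 < s₀ / 4 by linarith) hd (not_lt.1 hnot) hcl.1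
  have hK := hH.nonneg
  set ρ₁ := ρ / (1 + 7 * K) with hρ₁def
  have hρ₁ : 0 < ρ₁ := by positivity
  have hρ₁le : ρ₁ ≤ ρ := div_le_self hρ.le (by linarith)
  have hρ₁K : ρ₁ * (1 + 7 * K) = ρ := by rw [hρ₁def]; field_simp
  set c : Fin 5 → ℝ := ![2, 3, 4, 5, 6] with hc
  set a : Fin 5 → ℝ := ![15, -40, 45, -24, 5] with ha
  have hmove : ∀ z ∈ ball x₀ ρ₁, ∀ t : ℝ, |t| ≤ 6 * |η z| → z + t • e ∈ ball x₀ ρ := by
    intro z hz t ht
    have hzρ : z ∈ ball x₀ ρ := ball_subset_ball hρ₁le hz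
    have := hH.lip z hzρ x₀ (mem_ball_self hρ)
    rw [hη0, sub_zero] at this
    rw [mem_ball, dist_eq_norm] at hz ⊢
    rw [show z + t • e - x₀ = (z - x₀) + t • e by abel]
    refine lt_of_le_of_lt (norm_add_le _ _) ?_
    rw [norm_smul, he, mul_one, Real.norm_eq_abs]
    nlinarith [norm_nonneg (z - x₀)]
  have hside : ball x₀ ρ ∩ {z | η z ≤ 0} ⊆ closure (pos u) \ {0} := fun z hz =>
    ⟨hclo z hz.1 hz.2, hball z (ball_subset_ball hρR hz.1)⟩
  have hJ : Jets η e (ball x₀ ρ) (ball x₀ ρ₁) K c g (jetD G) := by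
    refine ⟨hH, isOpen_ball, ball_subset_ball hρ₁le, fun z hz => hmove z hz _ ?_,
      fun z hz k => hmove z hz _ ?_, fun k => by fin_cases k <;> norm_num [hc],
      fun j hj m => (hgc j hj m).mono hside, fun j m z v => jetD_apply G j m z v,
      fun j hj m z hz hlt => hasFDerivAt_jet hu hs hG hj m ((hiff z hz).2 hlt), ?_, ?_⟩
    · linarith [abs_nonneg (η z)]
    · rw [abs_mul]
      refine mul_le_mul_of_nonneg_right ?_ (abs_nonneg _)
      fin_cases k <;> norm_num [hc]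
    · intro z hz hz0
      have hzc : z ∈ closure (pos u) \ {0} := hside ⟨hz, hz0.le⟩
      have := mem_closure_iff_nhdsWithin_neBot.1 hzc.1
      have h1 : Tendsto (g 0 noDir) (𝓝[pos u] z) (𝓝 (g 0 noDir z)) :=
        (((hgc 0 (by norm_num) noDir) z hzc).mono hsub).tendsto
      have h2 : Tendsto (g 0 noDir) (𝓝[pos u] z) (𝓝 (u z)) := by
        refine ((hu.continuous.tendsto z).mono_left nhdsWithin_le_nhds).congr' ?_
        filter_upwards [self_mem_nhdsWithin] with y hy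
        simp [hg, hG 0 (by norm_num) y hy]
      rw [tendsto_nhds_unique h1 h2]
      exact le_antisymm (not_lt.1 fun h => by linarith [(hiff z hz).1 h]) (hn z)
    · intro z hz hz0
      rw [hone']
      exact (lt_of_lt_of_le (half_pos hce) (hslope z (ball_subset_ball hρR hz) (hside ⟨hz, hz0.le⟩).1)).ne'
  refine ⟨ball x₀ ρ₁, ball_mem_nhds x₀ hρ₁, piece η e c a (g 0 noDir), ?_, fun y hy hyp => ?_⟩
  · exact hJ.piece_smooth 4 0 le_rfl a (fun m h1 h4 => by
      interval_cases m <;> simp [Fin.sum_univ_five, ha, hc] <;> norm_num) noDir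
  · have hlt := (hiff y (ball_subset_ball hρ₁le hy)).1 hyp
    rw [piece, if_pos hlt, show ∑ k, a k = 1 by simp [Fin.sum_univ_five, ha]; norm_num, one_mul]
    simp [hg, hG 0 (by norm_num) y hyp]

/-- The Euclidean length. -/
def len (x : Fin d → ℝ) : ℝ := Real.sqrt (dot x x)

end Refl

open Refl in
/-- Derivatives up to the free boundary give an extension. -/
theorem reflect (hm : MinHarmSpec) : ReflectSpec := by
  intro d _ L u hu hh hB
  obtain ⟨hB1, hB2⟩ := hB
  choose G' hGc' hG' using hB1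
  classical
  set G : (j : ℕ) → (Fin (d + 1) → ℝ) →
      ContinuousMultilinearMap ℝ (fun _ : Fin j => (Fin (d + 1) → ℝ)) ℝ :=
    fun j => if h : j ≤ 4 then G' j h else 0 with hGdef
  have hGc : ∀ j ≤ 4, ContinuousOn (G j) (closure (pos u) \ {0}) := fun j hj => by
    simp only [hGdef, dif_pos hj]; exact hGc' j hj
  have hG : ∀ j ≤ 4, ∀ z ∈ pos u, G j z = iteratedFDeriv ℝ j u z := fun j hj z hz => by
    simp only [hGdef, dif_pos hj]; exact hG' j hj z hz
  have hs : ContDiffOn ℝ (⊤ : ℕ∞) u (pos u) := (hm _ L u hu).1.1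
  have hop := isOpen_pos_of_lip hu.lipschitz
  have hlenc : Continuous (len (d := d + 1)) := by unfold len dot; fun_prop
  set t : (Fin (d + 1) → ℝ) → Set ℝ := fun y => if 0 < u y ∧ 1 / 2 < len y then {u y} else univ with ht
  have htc : ∀ y, Convex ℝ (t y) := fun y => by
    simp only [ht]; split
    · exact convex_singleton _
    · exact convex_univ
  have hloc : ∀ x, ∃ U ∈ 𝓝 x, ∃ g : (Fin (d + 1) → ℝ) → ℝ,
      ContMDiffOn 𝓘(ℝ, Fin (d + 1) → ℝ) 𝓘(ℝ, ℝ) ((4 : ℕ∞) : WithTop ℕ∞) g U ∧ ∀ y ∈ U, g y ∈ t y := by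
    intro x
    have key : ∀ (U : Set (Fin (d + 1) → ℝ)), U ∈ 𝓝 x → ∀ w : (Fin (d + 1) → ℝ) → ℝ,
        ContDiffOn ℝ 4 w U → (∀ y ∈ U, 0 < u y → 1 / 2 < len y → w y = u y) →
        ∃ U ∈ 𝓝 x, ∃ g : (Fin (d + 1) → ℝ) → ℝ,
          ContMDiffOn 𝓘(ℝ, Fin (d + 1) → ℝ) 𝓘(ℝ, ℝ) ((4 : ℕ∞) : WithTop ℕ∞) g U ∧ ∀ y ∈ U, g y ∈ t y := fun U hU w hw hwu =>
      ⟨U, hU, w, contMDiffOn_iff_contDiffOn.2 hw, fun y hy => by
        simp only [ht]; split
        · next h => exact mem_singleton_iff.2 (hwu y hy h.1 h.2)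
        · trivial⟩
    by_cases hx0 : x = 0
    · refine key {y | len y < 1 / 2} ((isOpen_lt hlenc continuous_const).mem_nhds ?_) 0
        contDiffOn_const fun y hy _ h2 => absurd (lt_trans h2 hy) (lt_irrefl _)
      show len x < 1 / 2
      simp [hx0, len, dot]
    by_cases hxp : 0 < u x
    · exact key (pos u) (hop.mem_nhds hxp) u
        (hs.of_le (WithTop.coe_le_coe.2 le_top)) fun y _ _ _ => rfl
    by_cases hxc : x ∈ closure (pos u)
    · have hxf : x ∈ fb u := by rw [fb, hop.frontier_eq]; exact ⟨hxc, hxp⟩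
      obtain ⟨U, hU, w, hw, hwu⟩ := local_extension hu.lipschitz hu.nonneg hh hs G hGc hG hxf hx0
        (hB2 x hxf hx0)
      exact key U hU w hw fun y hy h1 _ => hwu y hy h1
    · exact key (closure (pos u))ᶜ (isClosed_closure.isOpen_compl.mem_nhds hxc) 0 contDiffOn_const
        fun y hy h1 _ => absurd (subset_closure (show y ∈ pos u from h1)) hy
  obtain ⟨g, hg⟩ := exists_contMDiffMap_forall_mem_convex_of_local (n := (4 : ℕ∞)) 𝓘(ℝ, Fin (d + 1) → ℝ)
    htc hloc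
  have hgd : ContDiff ℝ 4 (g : (Fin (d + 1) → ℝ) → ℝ) := contMDiff_iff_contDiff.1 g.contMDiff
  have hlen : ∀ x : Fin (d + 1) → ℝ, x ≠ 0 → 0 < len x := fun x hx =>
    Real.sqrt_pos.2 ((dot_self_nonneg x).lt_of_ne fun h => hx (funext fun i => mul_self_eq_zero.1
      ((Finset.sum_eq_zero_iff_of_nonneg fun j _ => mul_self_nonneg (x j)).1 h.symm i (Finset.mem_univ i))))
  have hlen4 : ContDiffOn ℝ 4 (len (d := d + 1)) {0}ᶜ := by
    have hdd : ContDiff ℝ 4 fun x : Fin (d + 1) → ℝ => dot x x := by unfold dot; fun_prop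
    exact fun x hx => (hdd.contDiffAt.sqrt (fun h => by
      have := hlen x hx; simp [len, h] at this)).contDiffWithinAt
  refine ⟨{0}ᶜ, fun x => len x * g ((len x)⁻¹ • x), isOpen_compl_singleton, fun x _ hx => hx, ?_,
    fun x hx hxp => ?_, fun x hx hx0 => ?_⟩
  · exact hlen4.mul (hgd.comp_contDiffOn
      ((hlen4.inv fun x hx => (hlen x hx).ne').smul contDiffOn_id))
  · have hl := hlen x hx
    have hmem := hg ((len x)⁻¹ • x)
    have hlx : len ((len x)⁻¹ • x) = 1 := by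
      rw [len, show dot ((len x)⁻¹ • x) ((len x)⁻¹ • x) = (len x)⁻¹ ^ 2 * dot x x by
        simp only [dot, Pi.smul_apply, smul_eq_mul, Finset.mul_sum]
        exact Finset.sum_congr rfl fun i _ => by ring,
        Real.sqrt_mul (sq_nonneg _), Real.sqrt_sq (inv_nonneg.2 hl.le)]
      exact inv_mul_cancel₀ hl.ne'
    have hpx : 0 < u ((len x)⁻¹ • x) := by
      rw [hh _ x (inv_pos.2 hl)]; exact mul_pos (inv_pos.2 hl) hxp
    simp only [ht, if_pos (show 0 < u ((len x)⁻¹ • x) ∧ 1 / 2 < len ((len x)⁻¹ • x) from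
      ⟨hpx, by rw [hlx]; norm_num⟩), mem_singleton_iff] at hmem
    show len x * g _ = u x
    rw [hmem, hh _ x (inv_pos.2 hl), ← mul_assoc, mul_inv_cancel₀ hl.ne', one_mul]
  · set w := fun x : Fin (d + 1) → ℝ => len x * g ((len x)⁻¹ • x) with hw
    have hwc : ContDiffOn ℝ 4 w {0}ᶜ := hlen4.mul (hgd.comp_contDiffOn
      ((hlen4.inv fun x hx => (hlen x hx).ne').smul contDiffOn_id))
    have := mem_closure_iff_nhdsWithin_neBot.1 (frontier_subset_closure hx : x ∈ closure (pos u))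
    have hcont : ContinuousAt (fun z => ∑ i, pd w i z ^ 2) x := by
      refine (continuousOn_finsetSum _ fun i _ => ?_ : ContinuousOn (fun z => ∑ i, pd w i z ^ 2) {0}ᶜ).continuousAt
        (isOpen_compl_singleton.mem_nhds hx0)
      exact ((hwc.continuousOn_fderiv_of_isOpen isOpen_compl_singleton (by norm_num)).clm_apply
        continuousOn_const).pow 2
    refine tendsto_nhds_unique (hcont.tendsto.mono_left (nhdsWithin_le_nhds (s := pos u)))
      ((hB2 x hx hx0).congr' ?_)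
    filter_upwards [self_mem_nhdsWithin] with z hz
    have he : w =ᶠ[𝓝 z] u := by
      filter_upwards [hop.mem_nhds hz] with y hy
      have hy0 : y ≠ 0 := ne_zero_of_pos hh hy
      have hl := hlen y hy0
      have hmem := hg ((len y)⁻¹ • y)
      have hlx : len ((len y)⁻¹ • y) = 1 := by
        rw [len, show dot ((len y)⁻¹ • y) ((len y)⁻¹ • y) = (len y)⁻¹ ^ 2 * dot y y by
          simp only [dot, Pi.smul_apply, smul_eq_mul, Finset.mul_sum]
          exact Finset.sum_congr rfl fun i _ => by ring,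
          Real.sqrt_mul (sq_nonneg _), Real.sqrt_sq (inv_nonneg.2 hl.le)]
        exact inv_mul_cancel₀ hl.ne'
      have hpx : 0 < u ((len y)⁻¹ • y) := by
        rw [hh _ y (inv_pos.2 hl)]; exact mul_pos (inv_pos.2 hl) hy
      simp only [ht, if_pos (show 0 < u ((len y)⁻¹ • y) ∧ 1 / 2 < len ((len y)⁻¹ • y) from
        ⟨hpx, by rw [hlx]; norm_num⟩), mem_singleton_iff] at hmem
      show len y * g _ = u y
      rw [hmem, hh _ y (inv_pos.2 hl), ← mul_assoc, mul_inv_cancel₀ hl.ne', one_mul]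
    simp only [dot, grad, ← sq]
    exact Finset.sum_congr rfl fun i _ => by rw [pd_congr he i]

end

end Vale.Agent.P098.Reg
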