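import Vale.Agent.P098.Reg.Base

/-!
# P098: the induction on the dimension

The modules and the rigidity of regular cones enter as arguments.
-/

namespace Vale.Agent.P098.Reg

open MeasureTheory Set Filter Topology
open Vale.Agent.P098.Cone
open scoped NNReal

noncomputable section

/-- A minimising cone in dimension `d` whose free boundary is four times differentiable off the
origin is a half-space solution. The hypotheses are the fields of a regular cone. -/
def RigidFour (d : ℕ) : Prop :=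
  ∀ (u w : (Fin d → ℝ) → ℝ) (O : Set (Fin d → ℝ)),
    (∃ L : ℝ≥0, LipschitzWith L u) → (∀ x, 0 ≤ u x) →
    (∀ (r : ℝ) (x : Fin d → ℝ), 0 < r → u (r • x) = r * u x) → IsOpen O →
    (∀ x ∈ closure {y | 0 < u y}, x ≠ 0 → x ∈ O) → ContDiffOn ℝ 4 w O →
    (∀ x ∈ O, 0 < u x → w x = u x) → (∀ x, 0 < u x → ∑ i, hess u i i x = 0) →
    (∀ x ∈ frontier {y | 0 < u y}, x ≠ 0 → ∑ i, pd w i x ^ 2 = 1) →
    IsMinimizer u → u ≠ 0 →
    ∃ e : Fin d → ℝ, ∑ i, e i ^ 2 = 1 ∧ ∀ x, u x = max (∑ i, e i * x i) 0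

/-- One step of the induction. -/
theorem flat_succ (hU : UniformFlatSpec) (hE : ExpandSpec) (hB : BoundaryDerivSpec) (hR : ReflectSpec)
    (hH : MinHarmSpec) {d : ℕ} (hd : 1 ≤ d) (hrig : RigidFour (d + 1)) (hflat : FlatIn d) :
    FlatIn (d + 1) := by
  intro u L hu hh h0
  obtain ⟨hblow, hclose⟩ := hU d hd hflat L u hu hh
  obtain ⟨O, w, hO, hcov, hw, hagree, hfree⟩ :=
    hR d hd L u hu hh (hB d hd L u hu hh (hE d hd L u hu hh hblow hclose))
  obtain ⟨e, he, hu'⟩ := hrig u w O ⟨L, hu.lipschitz⟩ hu.nonneg hh hO hcov hw hagree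
    (fun x hx => (hH (d + 1) L u hu).1.2 x hx) hfree hu.minimizer h0
  exact ⟨e, by simpa [dot, sq] using he, funext hu'⟩

/-- Every nonzero one-homogeneous Lipschitz minimiser is a half-space solution up to dimension `N`. -/
theorem flat_upto (hU : UniformFlatSpec) (hE : ExpandSpec) (hB : BoundaryDerivSpec) (hR : ReflectSpec)
    (hH : MinHarmSpec) {N : ℕ} (hrig : ∀ d, 2 ≤ d → d ≤ N → RigidFour d) :
    ∀ d, 1 ≤ d → d ≤ N → FlatIn d := by
  intro d h1
  induction d, h1 using Nat.le_induction with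
  | base => exact fun _ => base
  | succ d hd ih =>
    exact fun hdN => flat_succ hU hE hB hR hH hd (hrig (d + 1) (by omega) hdN) (ih (by omega))

/-- The statement with the definitions of the cones unfolded. -/
theorem answer_of (hU : UniformFlatSpec) (hE : ExpandSpec) (hB : BoundaryDerivSpec) (hR : ReflectSpec)
    (hH : MinHarmSpec) {N : ℕ} (hrig : ∀ d, 2 ≤ d → d ≤ N → RigidFour d) :
    ∀ d, 1 ≤ d → d ≤ N → ∀ u : (Fin d → ℝ) → ℝ, (∃ L, LipschitzWith L u) → (∀ x, 0 ≤ u x) →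
      (∀ (r : ℝ) (x : Fin d → ℝ), 0 < r → u (r • x) = r * u x) → IsMinimizer u → u ≠ 0 →
      ∃ e : Fin d → ℝ, ∑ i, e i ^ 2 = 1 ∧ ∀ x, u x = max (∑ i, e i * x i) 0 := by
  intro d h1 hN u ⟨L, hL⟩ h0 hh hm hne
  obtain ⟨e, he, hu⟩ := flat_upto hU hE hB hR hH hrig d h1 hN u L ⟨hL, h0, hm⟩ hh hne
  exact ⟨e, by simpa [dot, sq] using he, fun x => congrFun hu x⟩

end

end Vale.Agent.P098.Reg
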