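import Vale.Agent.P098.Reg.HarmWeyl

/-!
# P098: interior estimates of every order for harmonic functions
-/

namespace Vale.Agent.P098.Reg

open MeasureTheory Set Filter Topology Metric
open Vale.Agent.P098.Cone
open Vale.Agent.P100 (sqr lap)
open scoped ContDiff

noncomputable section

variable {d : ℕ}

/-- The derivatives of a convolution are bounded by those of the kernel. -/
theorem conv_bound {g : (Fin d → ℝ) → ℝ} (hg : Integrable g) (j : ℕ) :
    ∀ {E : Type} [NormedAddCommGroup E] [NormedSpace ℝ E] [CompleteSpace E]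
      {K : (Fin d → ℝ) → E} {B : ℝ}, ContDiff ℝ ∞ K → HasCompactSupport K →
      (∀ z, ‖iteratedFDeriv ℝ j K z‖ ≤ B) → ∀ x,
        ‖iteratedFDeriv ℝ j (fun x => ∫ t, g t • K (x - t)) x‖ ≤ B * ∫ t, |g t| := by
  induction j with
  | zero =>
    intro E _ _ _ K B hK hc hB x
    simp only [norm_iteratedFDeriv_zero] at hB ⊢
    rw [← MeasureTheory.integral_const_mul]
    refine norm_integral_le_of_norm_le (hg.abs.const_mul B) (.of_forall fun t => ?_)
    rw [norm_smul, Real.norm_eq_abs, mul_comm]
    exact mul_le_mul_of_nonneg_right (hB _) (abs_nonneg _)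
  | succ j ih =>
    intro E _ _ _ K B hK hc hB x
    have hd : ∀ x, HasFDerivAt (fun x => ∫ t, g t • K (x - t))
        (∫ t, g t • fderiv ℝ K (x - t)) x := fun x => by
      have h := hc.hasFDerivAt_convolution_right
        (ContinuousLinearMap.lsmul ℝ ℝ : ℝ →L[ℝ] E →L[ℝ] E)
        (hg.locallyIntegrable (μ := volume)) (hK.of_le (by simp)) x
      refine h.congr_fderiv ?_
      rw [convolution_def]
      refine integral_congr_ae (.of_forall fun t => ?_)
      ext w
      rfl
    rw [← norm_iteratedFDeriv_fderiv,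
      show fderiv ℝ (fun x => ∫ t, g t • K (x - t)) = fun x => ∫ t, g t • fderiv ℝ K (x - t) from
        funext fun x => (hd x).fderiv]
    refine ih (hK.fderiv_right le_rfl) (hc.fderiv ℝ) (fun z => ?_) x
    rw [norm_iteratedFDeriv_fderiv]
    exact hB z

/-- The derivatives of the kernel of size one are bounded. -/
theorem exists_ker_bound (d j : ℕ) :
    ∃ B, 0 ≤ B ∧ ∀ z : Fin d → ℝ, ‖iteratedFDeriv ℝ j (ker 1) z‖ ≤ B := by
  have hc : Continuous (iteratedFDeriv ℝ j (ker 1 : (Fin d → ℝ) → ℝ)) :=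
    (contDiff_ker 1).continuous_iteratedFDeriv (WithTop.coe_le_coe.2 le_top)
  obtain ⟨B, hB⟩ := hc.norm.bounded_above_of_compact_support
    ((hasCompactSupport_ker one_pos).iteratedFDeriv j).norm
  refine ⟨max B 0, le_max_right _ _, fun z => ?_⟩
  have := hB z
  rw [Real.norm_eq_abs, abs_norm] at this
  exact this.trans (le_max_left _ _)

theorem ker_bound_scale {j : ℕ} {B : ℝ} (hB : ∀ z : Fin d → ℝ, ‖iteratedFDeriv ℝ j (ker 1) z‖ ≤ B)
    {e : ℝ} (he : 0 < e) (z : Fin d → ℝ) :
    ‖iteratedFDeriv ℝ j (ker e) z‖ ≤ B / e ^ (d + j) := by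
  set L : (Fin d → ℝ) →L[ℝ] (Fin d → ℝ) := e⁻¹ • ContinuousLinearMap.id ℝ _
  have hLn : ‖L‖ ≤ e⁻¹ := by
    refine (ContinuousLinearMap.opNorm_le_bound _ (by positivity) fun w => ?_)
    show ‖e⁻¹ • w‖ ≤ e⁻¹ * ‖w‖
    rw [norm_smul, Real.norm_eq_abs, abs_of_pos (inv_pos.2 he)]
  have e1 : (ker e : (Fin d → ℝ) → ℝ) = fun z => (1 / e ^ d) • (ker 1 ∘ L) z := by
    funext w
    show bump (sqr w / e ^ 2) / e ^ d = (1 / e ^ d) * (bump (sqr (e⁻¹ • w) / 1 ^ 2) / 1 ^ d)
    rw [P100.sqr_smul, inv_pow, inv_mul_eq_div]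
    simp only [one_pow, div_one]
    ring
  have hcomp : ContDiff ℝ ∞ (ker 1 ∘ L : (Fin d → ℝ) → ℝ) := (contDiff_ker 1).comp L.contDiff
  rw [e1, iteratedFDeriv_const_smul_apply' ((hcomp.of_le (WithTop.coe_le_coe.2 le_top)).contDiffAt),
    norm_smul, L.iteratedFDeriv_comp_right (contDiff_ker 1) z (WithTop.coe_le_coe.2 le_top),
    Real.norm_eq_abs, abs_of_pos (by positivity)]
  have hB0 : 0 ≤ B := (norm_nonneg _).trans (hB 0)
  calc 1 / e ^ d * ‖(iteratedFDeriv ℝ j (ker 1) (L z)).compContinuousLinearMap fun _ => L‖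
      ≤ 1 / e ^ d * (B * (e⁻¹) ^ j) := by
        refine mul_le_mul_of_nonneg_left
          ((ContinuousMultilinearMap.norm_compContinuousLinearMap_le _ _).trans ?_) (by positivity)
        rw [Finset.prod_const, Finset.card_univ, Fintype.card_fin]
        exact mul_le_mul (hB _) (pow_le_pow_left₀ (norm_nonneg _) hLn j) (by positivity) hB0
    _ = B / e ^ (d + j) := by rw [inv_pow, pow_add]; field_simp

/-- Interior estimates of every order. -/
theorem estimate : EstimateSpec := by
  intro d j
  obtain ⟨B, hB0, hB⟩ := exists_ker_bound d j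
  refine ⟨B * 4 ^ (d + j) / mass d, div_nonneg (by positivity) (mass_pos d).le,
    fun v x r M hr hv hM => ?_⟩
  have hM0 : 0 ≤ M := (abs_nonneg _).trans (hM x (mem_ball_self hr))
  have hR : 0 < r / 4 := by positivity
  have hsub : closedBall x (2 * (r / 4)) ⊆ ball x r := closedBall_subset_ball (by linarith)
  have hc : ContinuousOn v (closedBall x (2 * (r / 4))) := hv.1.continuousOn.mono hsub
  set g := cutBall v x (2 * (r / 4))
  have hg : Integrable g := integrable_cutBall hc
  have hev : v =ᶠ[𝓝 x] (1 / mass d) • fun y => avg g y (r / 4) := by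
    filter_upwards [closedBall_mem_nhds x hR] with y hy
    rw [rep (hv.weakHarm isOpen_ball) hR hsub hc hy, Pi.smul_apply, smul_eq_mul]
    ring
  have hint : ∫ t, |g t| ≤ M * r ^ d := by
    have hb : ∀ t, |g t| ≤ (closedBall x (2 * (r / 4))).indicator (fun _ => M) t := fun t => by
      by_cases ht : t ∈ closedBall x (2 * (r / 4))
      · simp only [g, cutBall, indicator_of_mem ht]; exact hM t (hsub ht)
      · simp [g, cutBall, indicator_of_notMem ht]
    refine (integral_mono hg.abs ((integrable_indicator_iff measurableSet_closedBall).2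
      (continuousOn_const.integrableOn_compact (isCompact_closedBall _ _))) hb).trans ?_
    rw [integral_indicator measurableSet_closedBall, setIntegral_const, measureReal_def,
      Real.volume_pi_closedBall x (by positivity), ENNReal.toReal_ofReal (by positivity),
      Fintype.card_fin, smul_eq_mul, mul_comm]
    exact le_of_eq (by ring)
  have hCD : ContDiff ℝ ∞ fun y => avg g y (r / 4) := contDiff_avg hg hR
  rw [(hev.iteratedFDeriv ℝ j).eq_of_nhds,
    iteratedFDeriv_const_smul_apply ((hCD.of_le (WithTop.coe_le_coe.2 le_top)).contDiffAt),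
    norm_smul, Real.norm_eq_abs, abs_of_pos (one_div_pos.2 (mass_pos d))]
  have hb : ‖iteratedFDeriv ℝ j (fun y => avg g y (r / 4)) x‖ ≤ B / (r / 4) ^ (d + j) * (M * r ^ d) :=
    (conv_bound hg j (contDiff_ker (r / 4)) (hasCompactSupport_ker hR)
      (fun z => ker_bound_scale hB hR z) x).trans (mul_le_mul_of_nonneg_left hint (by positivity))
  calc 1 / mass d * ‖iteratedFDeriv ℝ j (fun y => avg g y (r / 4)) x‖
      ≤ 1 / mass d * (B / (r / 4) ^ (d + j) * (M * r ^ d)) :=
        mul_le_mul_of_nonneg_left hb (one_div_pos.2 (mass_pos d)).le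
    _ = B * 4 ^ (d + j) / mass d * M / r ^ j := by
        rw [div_pow, pow_add r]
        field_simp

end

end Vale.Agent.P098.Reg
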