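import Vale.Agent.P098.Reg.HarmWeyl
import Vale.Agent.P098.Reg.HarmEstimate
import Vale.Agent.P098.Reg.HarmCompact

/-!
# P098: harmonic functions (`weyl`, `estimate`, `compact`, `mean`)
-/
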