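import Vale.Agent.P098.Reg.LinBarrier

/-!
# P098: the linearisation lemma
-/

namespace Vale.Agent.P098.Reg.Lin

open MeasureTheory Set Filter Topology Metric
open Vale.Agent.P098.Cone
open scoped NNReal ContDiff

noncomputable section

variable {d : ℕ}

/-- The defect of `P` from being the last coordinate, pointwise. -/
def defect (P : (Fin (d + 1) → ℝ) → ℝ) (x : Fin (d + 1) → ℝ) : ℝ :=
  |dot (grad P x) (grad P x) - 1| + ∑ i, ∑ j, |hess P i j x|

/-- Its supremum on the box. -/
def defectSup (P : (Fin (d + 1) → ℝ) → ℝ) : ℝ := sSup (defect P '' box)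

theorem defect_le {P : (Fin (d + 1) → ℝ) → ℝ} (hP : ContDiff ℝ ∞ P) {x : Fin (d + 1) → ℝ}
    (hx : x ∈ box) :
    |dot (grad P x) (grad P x) - 1| ≤ defectSup P ∧ ∀ i j, |hess P i j x| ≤ defectSup P := by
  have hc : Continuous (defect P) := by
    have h1 : ∀ i, Continuous (pd P i) := fun i => (contDiff_pd hP i).continuous
    have h2 : ∀ i j, Continuous (hess P i j) := fun i j =>
      (contDiff_pd (contDiff_pd hP i) j).continuous
    exact ((continuous_finsetSum _ fun i _ => (h1 i).mul (h1 i)).sub continuous_const).abs.add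
      (continuous_finsetSum _ fun i _ => continuous_finsetSum _ fun j _ => (h2 i j).abs)
  have hb : defect P x ≤ defectSup P :=
    le_csSup ((isCompact_closedBall 0 1).image hc).bddAbove (mem_image_of_mem _ hx)
  have hs : 0 ≤ ∑ i, ∑ j, |hess P i j x| :=
    Finset.sum_nonneg fun i _ => Finset.sum_nonneg fun j _ => abs_nonneg _
  refine ⟨le_trans (le_add_of_nonneg_right hs) hb, fun i j => le_trans ?_ hb⟩
  refine le_trans ?_ (le_add_of_nonneg_left (abs_nonneg _))
  exact (Finset.single_le_sum (f := fun j => |hess P i j x|) (fun j _ => abs_nonneg _) (Finset.mem_univ j)).trans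
    (Finset.single_le_sum (f := fun i => ∑ j, |hess P i j x|)
      (fun i _ => Finset.sum_nonneg fun j _ => abs_nonneg _) (Finset.mem_univ i))

theorem defectSup_nonneg {P : (Fin (d + 1) → ℝ) → ℝ} (hP : ContDiff ℝ ∞ P) : 0 ≤ defectSup P :=
  (abs_nonneg _).trans (defect_le hP (x := 0) (by simp)).1

theorem eventually_grad {P : ℕ → (Fin (d + 1) → ℝ) → ℝ}
    (hg : TendstoUniformlyOn (fun n => grad (P n)) (fun _ => Pi.single (Fin.last d) (1 : ℝ)) atTop box)
    {η : ℝ} (hη : 0 < η) :
    ∀ᶠ n in atTop, ∀ x ∈ box, ∀ i, |pd (P n) i x - if i = Fin.last d then 1 else 0| ≤ η := by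
  filter_upwards [Metric.tendstoUniformlyOn_iff.1 hg η hη] with n hn x hx i
  have h2 : dist (Pi.single (Fin.last d) (1 : ℝ) : Fin (d + 1) → ℝ) (grad (P n) x) < η := hn x hx
  have h1 := (dist_le_pi_dist (Pi.single (Fin.last d) (1 : ℝ) : Fin (d + 1) → ℝ) (grad (P n) x) i).trans h2.le
  rw [dist_comm, Real.dist_eq, Pi.single_apply] at h1
  exact h1

theorem tendsto_defectSup {P : ℕ → (Fin (d + 1) → ℝ) → ℝ} (hP : ∀ n, ContDiff ℝ ∞ (P n))
    (hg : TendstoUniformlyOn (fun n => grad (P n)) (fun _ => Pi.single (Fin.last d) (1 : ℝ)) atTop box)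
    (hh : TendstoUniformlyOn (fun n => hessMat (P n)) (fun _ => 0) atTop box) :
    Tendsto (fun n => defectSup (P n)) atTop (𝓝 0) := by
  rw [Metric.tendsto_nhds]
  intro r hr
  set N := (d : ℝ) + 1 with hN
  set η := min 1 (r / (2 * (4 * N + N * N))) with hη
  have hη0 : 0 < η := by positivity
  have hη1 : η * (2 * (4 * N + N * N)) ≤ r := (le_div_iff₀ (by positivity)).1 (min_le_right _ _)
  filter_upwards [eventually_grad hg hη0, Metric.tendstoUniformlyOn_iff.1 hh η hη0] with n h1 h2
  rw [Real.dist_eq, sub_zero, abs_of_nonneg (defectSup_nonneg (hP n))]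
  refine lt_of_le_of_lt (csSup_le ⟨_, mem_image_of_mem _ (show (0 : Fin (d + 1) → ℝ) ∈ box by simp)⟩ ?_)
    (show η * (4 * N + N * N) < r by linarith)
  rintro _ ⟨x, hx, rfl⟩
  rw [defect, mul_add]
  refine add_le_add ?_ ?_
  · have e : dot (grad (P n) x) (grad (P n) x) - 1
        = ∑ i, (pd (P n) i x * pd (P n) i x - if i = Fin.last d then 1 else 0) := by
      simp [Finset.sum_sub_distrib, dot, grad]
    rw [e]
    refine (Finset.abs_sum_le_sum_abs _ _).trans ?_
    calc ∑ i, |pd (P n) i x * pd (P n) i x - if i = Fin.last d then 1 else 0|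
        ≤ ∑ _i : Fin (d + 1), η * 4 := Finset.sum_le_sum fun i _ => by
          have h3 := h1 x hx i
          set t := (if i = Fin.last d then (1 : ℝ) else 0) with ht
          have ht2 : t * t = t := by by_cases hi : i = Fin.last d <;> simp [ht, hi]
          have ht1 : |t| ≤ 1 := by by_cases hi : i = Fin.last d <;> simp [ht, hi]
          calc |pd (P n) i x * pd (P n) i x - t| = |(pd (P n) i x - t) * ((pd (P n) i x - t) + 2 * t)| := by
                congr 1; linear_combination ht2
            _ ≤ η * 4 := by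
                rw [abs_mul]
                refine mul_le_mul h3 ((abs_add_le _ _).trans ?_) (abs_nonneg _) hη0.le
                rw [abs_mul, abs_two]
                linarith [min_le_left (1 : ℝ) (r / (2 * (4 * N + N * N)))]
      _ = η * (4 * N) := by simp [hN]; ring
  · calc ∑ i, ∑ j, |hess (P n) i j x| ≤ ∑ _i : Fin (d + 1), ∑ _j : Fin (d + 1), η :=
          Finset.sum_le_sum fun i _ => Finset.sum_le_sum fun j _ => by
            have h3 := ((dist_le_pi_dist (0 : Fin (d + 1) → ℝ) (hessMat (P n) x i) j).trans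
              ((dist_le_pi_dist (0 : Fin (d + 1) → Fin (d + 1) → ℝ) (hessMat (P n) x) i).trans (h2 x hx).le))
            rw [dist_comm, Real.dist_eq, Pi.zero_apply, sub_zero] at h3
            exact h3
      _ = η * (N * N) := by simp [hN]; ring

theorem eventually_coord {P : ℕ → (Fin (d + 1) → ℝ) → ℝ} (hP : ∀ n, ContDiff ℝ ∞ (P n))
    (h0 : ∀ n, P n 0 = 0)
    (hg : TendstoUniformlyOn (fun n => grad (P n)) (fun _ => Pi.single (Fin.last d) (1 : ℝ)) atTop box)
    {η : ℝ} (hη : 0 < η) : ∀ᶠ n in atTop, ∀ x ∈ box, |P n x - x (Fin.last d)| ≤ η := by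
  set N := (d : ℝ) + 1 with hN
  filter_upwards [eventually_grad hg (show 0 < η / N by positivity)] with n hn x hx
  have hd : ∀ y, DifferentiableAt ℝ (fun z => P n z - z (Fin.last d)) y := fun y =>
    ((hP n).differentiable (by simp) y).sub (differentiableAt_apply _ y)
  have hbd : ∀ y ∈ box, ‖fderiv ℝ (fun z => P n z - z (Fin.last d)) y‖ ≤ η := fun y hy => by
    refine ContinuousLinearMap.opNorm_le_bound _ hη.le fun v => ?_
    rw [fderiv_eq_sum]
    refine (Finset.abs_sum_le_sum_abs _ _).trans ?_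
    calc ∑ i, |v i * pd (fun z => P n z - z (Fin.last d)) i y| ≤ ∑ _i : Fin (d + 1), ‖v‖ * (η / N) :=
          Finset.sum_le_sum fun i _ => by
            rw [abs_mul, pd_sub ((hP n).differentiable (by simp) y) (differentiableAt_apply _ y), pd_coord]
            exact mul_le_mul (by simpa using norm_le_pi_norm v i) (hn y hy i) (abs_nonneg _) (norm_nonneg _)
      _ = η * ‖v‖ := by simp [hN]; field_simp
  have h2 := (convex_closedBall (0 : Fin (d + 1) → ℝ) 1).norm_image_sub_le_of_norm_fderiv_le
    (fun y _ => hd y) hbd (mem_closedBall_self zero_le_one) hx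
  simp only [h0, Pi.zero_apply, sub_zero, Real.norm_eq_abs] at h2
  exact h2.trans (mul_le_of_le_one_right hη.le (mem_closedBall_zero_iff.1 hx))

theorem harm_corr {L : ℝ≥0} {u P : ℕ → (Fin (d + 1) → ℝ) → ℝ} {ε σ κ : ℕ → ℝ} (hh : MinHarmSpec)
    (S : Approach L u P ε σ κ) (n : ℕ) : Harm (corr u P ε n) (pos (u n)) := by
  have hu := (hh _ _ _ (S.near n).min).1
  have ho : IsOpen (pos (u n)) := isOpen_lt continuous_const (S.near n).continuous
  have hP := (S.near n).contDiff
  refine ⟨contDiffOn_const.mul (hu.1.sub hP.contDiffOn), fun x hx => ?_⟩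
  have hu2 : ContDiffAt ℝ 2 (u n) x := harm_contDiffAt hu ho hx
  have hP2 : ContDiffAt ℝ 2 (P n) x := hP.contDiffAt.of_le (WithTop.coe_le_coe.2 le_top)
  have e : corr u P ε n = fun y => (ε n)⁻¹ * (u n y + (-1) * P n y) := by
    funext y; rw [corr]; ring
  rw [e, Finset.sum_congr rfl fun i _ => by
    rw [hess_const_mul (hu2.add (contDiffAt_const.mul hP2)), hess_sub hu2 hP2],
    ← Finset.mul_sum, Finset.sum_sub_distrib, hu.2 x hx,
    show ∑ i, hess (P n) i i x = 0 from (S.near n).harm.2 x (mem_univ x)]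
  simp

/-- The linearisation lemma. -/
theorem linear (hC : CompactSpec) (hh : MinHarmSpec) (hL : LapSpec) (hF : FluxSpec)
    (hS : StationarySpec) : LinearSpec := by
  intro d hd L u P ε σ hu hu0 hP hgrad hhess hε hε0 hσ0 hclose hres hblow
  have hPd : ∀ n, ContDiff ℝ ∞ (P n) := fun n => contDiffOn_univ.1 (hP n).1.1
  have hσnn : ∀ n, 0 ≤ σ n := fun n =>
    (abs_nonneg _).trans (hres n 0 (by simp) (hu0 n))
  have hκ := tendsto_defectSup hPd hgrad hhess
  obtain ⟨N0, hN0⟩ := eventually_atTop.1 ((hσ0.eventually (eventually_lt_nhds zero_lt_one)).and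
    (hκ.eventually (eventually_lt_nhds zero_lt_one)))
  have hsh : Tendsto (fun n => n + N0) atTop atTop := tendsto_add_atTop_nat N0
  set u' := fun n => u (n + N0) with hu'
  set P' := fun n => P (n + N0) with hP'
  set ε' := fun n => ε (n + N0) with hε'
  set σ' := fun n => σ (n + N0) with hσ'
  set κ' := fun n => defectSup (P (n + N0)) with hκ'
  have hgrad' : TendstoUniformlyOn (fun n => grad (P' n)) (fun _ => Pi.single (Fin.last d) (1 : ℝ))
      atTop box := fun V hV => hsh.eventually (hgrad V hV)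
  have S : Approach L u' P' ε' σ' κ' :=
    { near := fun n => ⟨hu _, (hP _).1, hε _, hσnn _, hclose _, fun x hx hf => hres _ x hx hf⟩
      sig_le := fun n => by
        have h1 := (hN0 (n + N0) (by omega)).1
        rw [div_lt_one (hε _)] at h1
        exact h1.le
      kap_nonneg := fun n => defectSup_nonneg (hPd _)
      kap_le := fun n => (hN0 (n + N0) (by omega)).2.le
      grad_le := fun n x hx => (defect_le (hPd _) hx).1
      hess_le := fun n x hx => (defect_le (hPd _) hx).2
      eps_tendsto := hε0.comp hsh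
      sig_tendsto := hσ0.comp hsh
      kap_tendsto := hκ.comp hsh
      coord := fun η hη => hsh.eventually (eventually_coord hPd (fun n => (hP n).2) hgrad hη) }
  have hUb : upper d ⊆ box := fun x hx =>
    ball_subset_closedBall (ball_subset_ball (by norm_num) hx.1)
  obtain ⟨ψ, w, hψ, hw, hconv⟩ := hC (d + 1) (upper d) (corr u' P' ε') 1 isOpen_upper fun K hK hKU => by
    filter_upwards [S.compact_pos hK (hKU.trans hUb) fun x hx => (hKU hx).2] with n hn
    refine ⟨fun x hx => ?_, pos (u' n), isOpen_lt continuous_const (S.near n).continuous, hn,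
      harm_corr hh S n⟩
    rw [corr, abs_mul, abs_inv, abs_of_pos (hε _), inv_mul_le_iff₀ (hε _), mul_one]
    exact (S.near n).abs_sub_le_eps (hUb (hKU hx)) (hn hx)
  have hsh2 : Tendsto ψ atTop atTop := hψ.tendsto_atTop
  have S2 : Approach L (fun n => u' (ψ n)) (fun n => P' (ψ n)) (fun n => ε' (ψ n)) (fun n => σ' (ψ n))
      (fun n => κ' (ψ n)) :=
    { near := fun n => S.near _
      sig_le := fun n => S.sig_le _
      kap_nonneg := fun n => S.kap_nonneg _
      kap_le := fun n => S.kap_le _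
      grad_le := fun n => S.grad_le _
      hess_le := fun n => S.hess_le _
      eps_tendsto := S.eps_tendsto.comp hsh2
      sig_tendsto := S.sig_tendsto.comp hsh2
      kap_tendsto := S.kap_tendsto.comp hsh2
      coord := fun η hη => hsh2.eventually (S.coord η hη) }
  have hwb : ∀ x ∈ upper d, |w x| ≤ 1 := fun x hx => by
    refine le_of_tendsto (((hconv {x} isCompact_singleton (singleton_subset_iff.2 hx)).1.tendsto_at
      (mem_singleton x)).abs) ?_
    filter_upwards [S2.compact_pos isCompact_singleton (singleton_subset_iff.2 (hUb hx))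
      (by simpa using hx.2)] with n hn
    rw [corr, abs_mul, abs_inv, abs_of_pos (hε _), inv_mul_le_iff₀ (hε _), mul_one]
    exact (S.near _).abs_sub_le_eps (hUb hx) (hn (mem_singleton x))
  obtain ⟨h, hH, hhb, heven, hhw⟩ := reflect hC (show (7 / 10 : ℝ) < 3 / 4 by norm_num)
    hw.1.continuousOn hwb fun g hg hgc hgs hge =>
      half_equation hh hL hF hS S2 hw hwb (fun K hK hKU => (hconv K hK hKU).2) hg hgc hgs hge
  have hmain : ∀ γ : ℝ, 0 < γ → ∀ᶠ n in atTop, Close (u' (ψ n))
      (fun x => P' (ψ n) x + ε' (ψ n) * h x) (γ * ε' (ψ n)) (closedBall 0 (1 / 4)) := fun γ hγ =>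
    barrier hd hh S2 (fun n => hblow _) (fun η hη => hsh2.eventually (eventually_grad hgrad' hη))
      hH hhb heven (fun K hK hKU => by
        have h1 := (hconv K hK fun x hx => (hKU hx).1).1
        exact h1.congr_right fun x hx => (hhw x (hKU hx).2 (hKU hx).1.2).symm) hγ
  set v := (ball (0 : Fin (d + 1) → ℝ) (1 / 2)).indicator h with hv
  have hb12 : ball (0 : Fin (d + 1) → ℝ) (1 / 2) ⊆ ball 0 (7 / 10) := ball_subset_ball (by norm_num)
  have hvh : ∀ x ∈ ball (0 : Fin (d + 1) → ℝ) (1 / 2), v x = h x := fun x hx => indicator_of_mem hx h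
  refine ⟨fun n => ψ n + N0, v, fun a b hab => Nat.add_lt_add_right (hψ hab) N0, ?_, fun x => ?_,
    fun x hx => (hvh x hx).symm ▸ hhb x (hb12 hx), ?_, fun γ hγ => ?_⟩
  · refine ⟨(hH.1.mono hb12).congr hvh, fun x hx => ?_⟩
    rw [← hH.2 x (hb12 hx)]
    refine Finset.sum_congr rfl fun i _ => pd_congr ?_ i
    filter_upwards [isOpen_ball.mem_nhds hx] with y hy
    exact pd_congr (eventually_of_mem (isOpen_ball.mem_nhds hy) hvh) i
  · rw [← refl_eq_update]
    by_cases hx : x ∈ ball (0 : Fin (d + 1) → ℝ) (1 / 2)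
    · have hx' : refl x ∈ ball (0 : Fin (d + 1) → ℝ) (1 / 2) := by
        rw [mem_ball_zero_iff, norm_refl]; exact mem_ball_zero_iff.1 hx
      rw [hvh _ hx, hvh _ hx', heven x (hb12 hx)]
    · have hx' : refl x ∉ ball (0 : Fin (d + 1) → ℝ) (1 / 2) := by
        rw [mem_ball_zero_iff, norm_refl]; exact fun h => hx (mem_ball_zero_iff.2 h)
      rw [hv, indicator_of_notMem hx, indicator_of_notMem hx']
  · have h0 : (0 : Fin (d + 1) → ℝ) ∈ closedBall 0 (1 / 4) := mem_closedBall_self (by norm_num)
    rw [hvh 0 (mem_ball_self (by norm_num))]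
    refine abs_eq_zero.1 (le_antisymm (le_of_forall_pos_le_add fun r hr => ?_) (abs_nonneg _))
    obtain ⟨n, hn⟩ := (hmain r hr).exists
    have hz : u' (ψ n) 0 = 0 :=
      fb_eq_zero (S.near _).continuous (S.near _).min.nonneg (hu0 _)
    have hp : P' (ψ n) 0 = 0 := (hP _).2
    have c1 := hn.1 0 h0
    have c2 := hn.2 0 h0 (frontier_subset_closure (hu0 _))
    simp only [hz, hp, zero_add, sub_zero, zero_sub] at c1 c2
    rw [zero_add, abs_le]
    have he : 0 < ε' (ψ n) := hε _
    constructor <;> nlinarith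
  · filter_upwards [hmain γ hγ] with n hn
    have hs : closedBall (0 : Fin (d + 1) → ℝ) (1 / 4) ⊆ ball 0 (1 / 2) :=
      closedBall_subset_ball (by norm_num)
    refine ⟨fun x hx => ?_, fun x hx hxc => ?_⟩
    · show P (ψ n + N0) x + ε (ψ n + N0) * v x - u (ψ n + N0) x ≤ _
      rw [hvh x (hs hx)]
      exact hn.1 x hx
    · show u (ψ n + N0) x - (P (ψ n + N0) x + ε (ψ n + N0) * v x) ≤ _
      rw [hvh x (hs hx)]
      exact hn.2 x hx hxc

end

end Vale.Agent.P098.Reg.Lin
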