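import Vale.Agent.P098.Reg.LipMain
import Vale.Agent.P098.Cone.Example
import Vale.Agent.P098.Reg.VarScale

/-!
# P098: the half-space solutions are Sobolev minimisers
-/

namespace Vale.Agent.P098.Reg

open MeasureTheory Set Filter Topology Metric
open Vale.Agent.P098.Cone
open scoped ContDiff NNReal

noncomputable section

variable {d : ℕ}

theorem pd_half_of_pos {e x : Fin d → ℝ} (hx : 0 < ∑ i, e i * x i) (i : Fin d) :
    pd (half e) i x = e i := by
  rw [pd_congr (f := half e) (g := fun y => ∑ i, e i * y i) (by
    filter_upwards [((contDiff_linear e).continuous.tendsto x).eventually (lt_mem_nhds hx)] with z hz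
    exact max_eq_left hz.le) i, pd_linear]

/-- The half-space solutions minimise against all competitors in `H¹_loc`. -/
theorem sobMin_half {e : Fin d → ℝ} (he : ∑ i, e i ^ 2 = 1) : SobMin (half e) ∧ HomogAE (half e) := by
  obtain ⟨Lu, hu⟩ := lipschitz_half e
  refine ⟨⟨.of_forall fun x => le_max_right _ _, grad (half e), H1loc_lipschitz hu, ?_⟩,
    fun r hr => .of_forall fun x => (regularCone_half he).homog r x hr⟩
  intro c R _ v H hv hv0 ⟨K, hK, hKB, hvK⟩
  set B := Cone.eball c R
  set G := grad (half e)
  have hG : H1loc (half e) G := H1loc_lipschitz hu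
  have hBb : Bornology.IsBounded B := isBounded_eball' c R
  have hBo : IsOpen B := isOpen_lt (by fun_prop) continuous_const
  -- the gradients agree off `K`
  have hD : ∀ i, LocallyIntegrable fun x => H x i - G x i := fun i => (hv.gl2 i).1.sub (hG.gl2 i).1
  have hweak : ∀ i (φ : (Fin d → ℝ) → ℝ), ContDiff ℝ (⊤ : ℕ∞) φ → HasCompactSupport φ →
      (∀ x ∈ K, pd φ i x = 0) → ∫ x, (H x i - G x i) * φ x = 0 := by
    intro i φ hφ hc hK0
    have e1 : ∫ x, v x * pd φ i x = ∫ x, half e x * pd φ i x := by
      refine integral_congr_ae (hvK.mono fun x hx => ?_)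
      show v x * _ = half e x * _
      by_cases hxK : x ∈ K
      · simp [hK0 x hxK]
      · rw [hx hxK]
    rw [hv.weak i φ hφ hc, hG.weak i φ hφ hc, neg_inj] at e1
    simp only [sub_mul]
    rw [integral_sub (integrable_test_mul (hv.gl2 i).1 hφ.continuous hc)
      (integrable_test_mul (hG.gl2 i).1 hφ.continuous hc), e1, sub_self]
  have hoff : ∀ i, ∀ᵐ x, x ∈ Kᶜ → H x i - G x i = 0 := fun i =>
    hK.isClosed.isOpen_compl.ae_eq_zero_of_integral_contDiff_smul_eq_zero ((hD i).locallyIntegrableOn _)
      fun φ hφ hc hs => by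
        simp only [smul_eq_mul, mul_comm (φ _)]
        exact hweak i φ hφ hc fun x hx => pd_eq_zero_of_notMem (fun h => hs h hx) i
  have hint : ∀ i, IntegrableOn (fun x => H x i - G x i) B := fun i =>
    ((hD i).integrableOn_isCompact hBb.isCompact_closure).mono_set subset_closure
  have hzero : ∀ i, ∫ x in B, (H x i - G x i) = 0 := by
    intro i
    obtain ⟨χ, hχ, hχc, -, -, hχ1⟩ := exists_cutoff hK hBo hKB
    have h0 := hweak i χ hχ hχc fun x hx => by
      rw [pd_congr (g := fun _ => (1 : ℝ)) (hχ1.filter_mono (nhds_le_nhdsSet hx)) i, pd_const]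
    rw [← h0, ← integral_indicator hBo.measurableSet]
    refine integral_congr_ae ((hoff i).mono fun x hx => ?_)
    show B.indicator (fun x => H x i - G x i) x = (H x i - G x i) * χ x
    by_cases hxK : x ∈ K
    · rw [indicator_of_mem (hKB hxK), hχ1.self_of_nhdsSet x hxK, mul_one]
    · rw [hx hxK, zero_mul]
      by_cases hxB : x ∈ B
      · rw [indicator_of_mem hxB, hx hxK]
      · rw [indicator_of_notMem hxB]
  have hsum : IntegrableOn (fun x => ∑ i, 2 * e i * (H x i - G x i)) B :=
    integrable_finsetSum _ fun i _ => (hint i).const_mul _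
  have hS : ∫ x in B, ∑ i, 2 * e i * (H x i - G x i) = 0 := by
    rw [integral_finsetSum _ fun i _ => (hint i).const_mul _]
    exact Finset.sum_eq_zero fun i _ => by rw [MeasureTheory.integral_const_mul, hzero i, mul_zero]
  -- the pointwise inequality
  have hpt : ∀ᵐ x, (dot (G x) (G x) + (pos (half e)).indicator (fun _ => 1) x)
      + ∑ i, 2 * e i * (H x i - G x i) ≤ dot (H x) (H x) + (pos v).indicator (fun _ => 1) x := by
    filter_upwards [ae_all_iff.2 fun i => hv.grad_zero hv0 i] with x hH
    have h1 : dot (G x) (G x) + (pos (half e)).indicator (fun _ => 1) x = ∑ i, 2 * e i * G x i := by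
      by_cases hx : 0 < half e x
      · have hp : 0 < ∑ i, e i * x i := (lt_max_iff.1 hx).resolve_right (lt_irrefl 0)
        rw [indicator_of_mem (show x ∈ pos (half e) from hx)]
        simp only [G, dot, grad, pd_half_of_pos hp, mul_assoc, ← Finset.mul_sum, ← sq, he]
        norm_num
      · rw [indicator_of_notMem (show x ∉ pos (half e) from hx),
          show G x = 0 from grad_eq_zero_of_nonpos (fun y => le_max_right _ _) (not_lt.1 hx)]
        simp [dot]
    have h2 : ∑ i, 2 * e i * H x i ≤ dot (H x) (H x) + (pos v).indicator (fun _ => 1) x := by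
      by_cases hx : 0 < v x
      · rw [indicator_of_mem (show x ∈ pos v from hx), ← he, dot, ← Finset.sum_add_distrib]
        exact Finset.sum_le_sum fun i _ => by linarith [sq_nonneg (H x i - e i)]
      · rw [indicator_of_notMem (show x ∉ pos v from hx)]
        simp [dot, fun i => hH i hx]
    simp only [mul_sub, Finset.sum_sub_distrib]
    linarith
  have h := integral_mono_ae ((hG.integrableOn_energy hBb).add hsum) (hv.integrableOn_energy hBb)
    (ae_restrict_of_ae hpt)
  rw [integral_add' (hG.integrableOn_energy hBb) hsum, hS, add_zero] at h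
  exact h

end

end Vale.Agent.P098.Reg
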