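import Vale.Agent.P098.Reg.VarLap

/-!
# P098: the flux through the free boundary is bounded by the Laplacian
-/

namespace Vale.Agent.P098.Reg

open MeasureTheory Set Filter Topology Finset
open Vale.Agent.P098.Cone
open scoped NNReal

noncomputable section

variable {d : ℕ}

theorem dot_smul_right (p q : Fin d → ℝ) (t : ℝ) : dot p (fun i => t * q i) = t * dot p q := by
  simp only [dot, mul_sum]
  exact sum_congr rfl fun i _ => by ring

/-- Near the free boundary the field is bounded by its values on it. -/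
theorem eventually_norm_le {u φ : (Fin d → ℝ) → ℝ} (hu : Continuous u) (h0 : ∀ x, 0 ≤ u x)
    (hφ : Continuous φ) (hc : HasCompactSupport φ) {Z : Fin d → (Fin d → ℝ) → ℝ}
    (hZ : ∀ i, Continuous (Z i)) {M η : ℝ} (hM : 0 ≤ M) (hη : 0 < η)
    (hb : ∀ x ∈ fb u ∩ tsupport φ, ∑ i, Z i x ^ 2 ≤ M ^ 2) :
    ∀ᶠ t in 𝓝[>] (0 : ℝ), ∀ x ∈ layerSet u φ t, ∑ i, Z i x ^ 2 ≤ (M + η) ^ 2 := by
  set K := tsupport φ ∩ closure (pos u) ∩ {x | (M + η) ^ 2 ≤ ∑ i, Z i x ^ 2}
  have hK : IsCompact K := (hc.inter_right isClosed_closure).inter_right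
    (isClosed_le continuous_const (continuous_finsetSum _ fun i _ => (hZ i).pow 2))
  rcases K.eq_empty_or_nonempty with he | hne
  · refine .of_forall fun t x hx => le_of_not_ge fun hge => ?_
    have h : x ∈ K := ⟨⟨layer_subset t hx, subset_closure hx.1⟩, hge⟩
    simp [he] at h
  obtain ⟨x₀, hx₀, hmin⟩ := hK.exists_isMinOn hne hu.continuousOn
  have hpos : 0 < u x₀ := lt_of_le_of_ne (h0 x₀) fun e => by
    have hfb : x₀ ∈ fb u := by
      rw [fb, (isOpen_pos hu).frontier_eq]
      exact ⟨hx₀.1.2, fun h : 0 < u x₀ => by rw [← e] at h; exact lt_irrefl _ h⟩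
    have h1 : (M + η) ^ 2 ≤ M ^ 2 := le_trans hx₀.2 (hb x₀ ⟨hfb, hx₀.1.1⟩)
    nlinarith
  obtain ⟨B, hB⟩ := hφ.bounded_above_of_compact_support hc
  have h : ∀ᶠ t in 𝓝[>] (0 : ℝ), t * B < u x₀ :=
    ((continuous_id.mul continuous_const).tendsto' (0 : ℝ) 0 (by simp) |>.eventually
      (gt_mem_nhds hpos)).filter_mono nhdsWithin_le_nhds
  filter_upwards [h, self_mem_nhdsWithin] with t ht (ht0 : 0 < t) x hx
  refine le_of_not_ge fun hge => ?_
  have h1 : u x₀ ≤ u x := hmin (show x ∈ K from ⟨⟨layer_subset t hx, subset_closure hx.1⟩, hge⟩)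
  have h2 : t * φ x ≤ t * B := mul_le_mul_of_nonneg_left ((le_abs_self _).trans (hB x)) ht0.le
  linarith [hx.2]

/-- The flux through the free boundary is bounded by the Laplacian. -/
theorem flux : FluxSpec := by
  intro d L u φ Z M hu ⟨N, hφ⟩ hc hφ0 hZ hM hb
  obtain ⟨χ, hχ, hχc, -, -, hχ1⟩ := exists_cutoff hc isOpen_univ (subset_univ (tsupport φ))
  set Z' : Fin d → (Fin d → ℝ) → ℝ := fun i x => χ x * Z i x
  have hZ'1 : ∀ i, ContDiff ℝ 1 (Z' i) := fun i => (hχ.of_le (by simp)).mul (hZ i)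
  have hZ'c : ∀ i, HasCompactSupport (Z' i) := fun i => hχc.mul_right
  have hZ'L : ∀ i, ∃ P, LipschitzWith P (Z' i) := fun i =>
    (hZ'1 i).lipschitzWith_of_hasCompactSupport (hZ'c i) one_ne_zero
  have heq : ∀ i, ∀ x ∈ tsupport φ, Z' i =ᶠ[𝓝 x] Z i := fun i x hx => by
    filter_upwards [(eventually_nhdsSet_iff_forall.1 hχ1) x hx] with y hy
    simp [Z', hy]
  set D : (Fin d → ℝ) → ℝ := dvg fun i y => φ y * Z i y
  set P : (Fin d → ℝ) → ℝ := fun x => φ x * |dvg Z x|
  set A : (Fin d → ℝ) → ℝ := fun x => dot (grad u x) (grad u x) + 1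
  set S : (Fin d → ℝ) → ℝ := fun x => (∑ i, Z i x * pd u i x)
  have hLip : ∀ (ζ : (Fin d → ℝ) → ℝ) (Q : ℝ≥0), LipschitzWith Q ζ → HasCompactSupport ζ →
      tsupport ζ ⊆ tsupport φ → ∀ i, ∃ R, LipschitzWith R fun y => ζ y * Z i y := by
    intro ζ Q hζ hζc hs i
    obtain ⟨R', hR'⟩ := hZ'L i
    obtain ⟨R, hR⟩ := exists_lipschitz_mul hR' hζ hζc
    refine ⟨R, ?_⟩
    have e : (fun y => ζ y * Z i y) = fun y => Z' i y * ζ y := funext fun y => by
      by_cases hy : y ∈ tsupport ζ
      · rw [(heq i y (hs hy)).eq_of_nhds, mul_comm]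
      · simp [image_eq_zero_of_notMem_tsupport hy]
    rwa [e]
  have hint : ∀ (ζ : (Fin d → ℝ) → ℝ) (Q : ℝ≥0), LipschitzWith Q ζ → HasCompactSupport ζ →
      tsupport ζ ⊆ tsupport φ → Integrable (dvg fun i y => ζ y * Z i y) ∧
        ∫ x, dvg (fun i y => ζ y * Z i y) x = 0 := by
    intro ζ Q hζ hζc hs
    have hi : ∀ i, Integrable (pd (fun y => ζ y * Z i y) i) := fun i => by
      obtain ⟨R, hR⟩ := hLip ζ Q hζ hζc hs i
      exact integrable_of_bdd (measurable_pd _ i) hζc.mul_right
        (fun x hx => pd_eq_zero_of_notMem hx i) (abs_pd_le hR i)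
    refine ⟨integrable_finsetSum _ fun i _ => hi i, ?_⟩
    simp only [dvg]
    rw [integral_finsetSum _ fun i _ => hi i]
    refine sum_eq_zero fun i _ => ?_
    obtain ⟨R, hR⟩ := hLip ζ Q hζ hζc hs i
    exact integral_pd_lipschitz hR hζc.mul_right i
  obtain ⟨hD, -⟩ := hint φ N hφ hc subset_rfl
  have hP : Integrable P := (hφ.continuous.mul (continuous_finsetSum _ fun i _ =>
    ((hZ i).continuous_fderiv one_ne_zero).clm_apply continuous_const).abs).integrable_of_hasCompactSupport
      hc.mul_right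
  have hA : IntegrableOn A (tsupport φ) := by
    have : IsFiniteMeasure (volume.restrict (tsupport φ)) := isFiniteMeasure_restrict.2 hc.measure_lt_top.ne
    refine Integrable.of_bound ((measurable_dot_grad u u).add_const 1).aestronglyMeasurable
      (d * (L * L) + 1) (.of_forall fun x => ?_)
    rw [Real.norm_eq_abs, abs_of_nonneg (add_nonneg (dot_self_nonneg _) zero_le_one)]
    exact add_le_add_left ((le_abs_self _).trans (abs_dot_grad_le hu.lipschitz hu.lipschitz x)) _
  refine le_of_forall_pos_le_add fun ε hε => ?_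
  set T := lapT u φ
  have hT : 0 ≤ T := lapT_nonneg hu hφ hc hφ0
  set η := min 1 (ε / (2 * (M + T + 2)))
  have hη : 0 < η := lt_min one_pos (by positivity)
  have hη2 : (M + η) * (T + η) ≤ M * T + ε / 2 := by
    have h1 : η ≤ 1 := min_le_left _ _
    have h2 : η * (2 * (M + T + 2)) ≤ ε := (le_div_iff₀ (by positivity)).1 (min_le_right _ _)
    nlinarith
  have e1 := (tendsto_layer hu.lipschitz.continuous hφ.continuous hD.norm).eventually
    (ge_mem_nhds (show (0 : ℝ) < ε / 4 by positivity))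
  have e2 := (tendsto_layer hu.lipschitz.continuous hφ.continuous hP).eventually
    (ge_mem_nhds (show (0 : ℝ) < ε / 4 by positivity))
  obtain ⟨t, h1, h2, h3, h4, (ht : 0 < t)⟩ := (e1.and <| e2.and <| (layer_le hu hφ hc hφ0 hη).and <|
    (eventually_norm_le hu.lipschitz.continuous hu.nonneg hφ.continuous hc (fun i => (hZ i).continuous)
      hM hη hb).and self_mem_nhdsWithin).exists
  set E := layerSet u φ t
  have hEm : MeasurableSet E := measurableSet_layer hu.lipschitz.continuous hφ.continuous t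
  have hposm : MeasurableSet (pos u) := measurableSet_pos hu.lipschitz.continuous
  set ζ : (Fin d → ℝ) → ℝ := fun x => min (φ x) (t⁻¹ * u x)
  have hζL : LipschitzWith (max N (‖t⁻¹‖₊ * L)) ζ :=
    hφ.min ((lipschitzWith_smul t⁻¹).comp hu.lipschitz)
  have hζ0 : ∀ x, 0 ≤ ζ x := fun x => le_min (hφ0 x) (mul_nonneg (inv_nonneg.2 ht.le) (hu.nonneg x))
  have hζs : tsupport ζ ⊆ tsupport φ := closure_minimal (fun x hx => by
    refine subset_tsupport φ fun e => hx ?_
    exact le_antisymm ((min_le_left _ _).trans_eq e) (hζ0 x)) (isClosed_tsupport φ)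
  have hζc : HasCompactSupport ζ := hc.of_isClosed_subset (isClosed_tsupport ζ) hζs
  obtain ⟨hζi, hζ⟩ := hint ζ _ hζL hζc hζs
  set G : (Fin d → ℝ) → ℝ := fun x => t⁻¹ * u x * dvg Z x + t⁻¹ * S x
  have hpt : ∀ᵐ x : Fin d → ℝ,
      dvg (fun i y => ζ y * Z i y) x = (pos u \ E).indicator D x + E.indicator G x := by
    filter_upwards [hu.lipschitz.ae_differentiableAt, hφ.ae_differentiableAt, hζL.ae_differentiableAt]
      with x hux hφx hζx
    have hZd : ∀ i, DifferentiableAt ℝ (Z i) x := fun i => (hZ i).differentiable one_ne_zero x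
    have hd : ∀ (f : (Fin d → ℝ) → ℝ), DifferentiableAt ℝ f x →
        dvg (fun i y => f y * Z i y) x = f x * dvg Z x + ∑ i, Z i x * pd f i x := fun f hf => by
      simp only [dvg, mul_sum, ← sum_add_distrib]
      exact sum_congr rfl fun i _ => pd_mul hf (hZd i) i
    rw [hd ζ hζx]
    by_cases hx : 0 < u x
    · have hux' : DifferentiableAt ℝ (fun y => t⁻¹ * u y) x := hux.const_mul t⁻¹
      by_cases hle : u x ≤ t * φ x
      · have hxE : x ∈ E := ⟨hx, hle⟩
        rw [indicator_of_notMem (fun h : x ∈ pos u \ E => h.2 hxE), indicator_of_mem hxE, zero_add]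
        have hv : ζ x = t⁻¹ * u x := min_eq_right (by rwa [inv_mul_le_iff₀ ht])
        have hp : ∀ i, pd ζ i x = t⁻¹ * pd u i x := fun i => by
          rw [pd_eq_of_le hζx hux' (.of_forall fun y => min_le_right _ _) hv i,
            pd_mul (differentiableAt_const t⁻¹) hux, pd_const, mul_zero, add_zero]
        simp only [G, S, hv, hp, mul_sum]
        congr 1
        exact sum_congr rfl fun i _ => by ring
      · push Not at hle
        have hxE : x ∉ E := fun h => not_lt.2 h.2 hle
        rw [indicator_of_mem (show x ∈ pos u \ E from ⟨hx, hxE⟩), indicator_of_notMem hxE, add_zero]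
        have hv : ζ x = φ x := min_eq_left (by rw [le_inv_mul_iff₀ ht]; exact hle.le)
        simp only [D, hd φ hφx, hv, pd_eq_of_le hζx hφx (.of_forall fun y => min_le_left _ _) hv]
    · rw [indicator_of_notMem (fun h : x ∈ pos u \ E => hx h.1),
        indicator_of_notMem (fun h : x ∈ E => hx h.1), add_zero]
      have hv : ζ x = 0 := le_antisymm ((min_le_right _ _).trans (by
        rw [le_antisymm (not_lt.1 hx) (hu.nonneg x), mul_zero])) (hζ0 x)
      simp [hv, pd_eq_zero_of_nonpos hζ0 hv.le]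
  have i1 : Integrable ((pos u \ E).indicator D) := hD.indicator (hposm.diff hEm)
  have i2 : Integrable (E.indicator G) := by
    have := (hζi.congr hpt).sub i1
    exact this.congr (.of_forall fun x => add_sub_cancel_left _ _)
  rw [integral_congr_ae hpt, integral_add i1 i2, integral_indicator (hposm.diff hEm),
    integral_indicator hEm, setIntegral_sdiff (μ := volume) (s := pos u) hEm hD.integrableOn (fun x hx => hx.1)] at hζ
  have hGi : IntegrableOn G E := (integrable_indicator_iff hEm).1 i2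
  have hG : |∫ x in E, G x| ≤ (∫ x in E, P x) + t⁻¹ * (M + η) / 2 * ∫ x in E, A x := by
    rw [← integral_const_mul, ← integral_add hP.integrableOn ((hA.mono_set (layer_subset t)).const_mul _)]
    refine (abs_integral_le_integral_abs).trans (setIntegral_mono_on hGi.abs
      (hP.integrableOn.add ((hA.mono_set (layer_subset t)).const_mul _)) hEm fun x hx => ?_)
    refine (abs_add_le _ _).trans (add_le_add ?_ ?_)
    · rw [abs_mul, abs_of_nonneg (mul_nonneg (inv_nonneg.2 ht.le) (hu.nonneg x))]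
      exact mul_le_mul_of_nonneg_right (by rw [inv_mul_le_iff₀ ht]; exact hx.2) (abs_nonneg _)
    · rw [abs_mul, abs_of_nonneg (inv_nonneg.2 ht.le), mul_div_assoc, mul_assoc]
      refine mul_le_mul_of_nonneg_left ?_ (inv_nonneg.2 ht.le)
      have hA0 : 0 ≤ dot (grad u x) (grad u x) := dot_self_nonneg _
      refine abs_le_of_sq_le_sq ?_ (by positivity)
      have hz : dot (fun i => Z i x) (fun i => Z i x) ≤ (M + η) ^ 2 := by
        simpa only [dot, ← sq] using h4 x hx
      calc S x ^ 2 ≤ dot (fun i => Z i x) (fun i => Z i x) * dot (grad u x) (grad u x) :=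
            dot_sq_le (fun i => Z i x) (grad u x)
        _ ≤ (M + η) ^ 2 * dot (grad u x) (grad u x) := mul_le_mul_of_nonneg_right hz hA0
        _ ≤ ((M + η) / 2 * A x) ^ 2 := by
          rw [mul_pow, div_pow, div_mul_eq_mul_div, mul_div_assoc]
          refine mul_le_mul_of_nonneg_left ?_ (sq_nonneg _)
          simp only [A]
          nlinarith [sq_nonneg (dot (grad u x) (grad u x) - 1)]
  have hA2 : t⁻¹ * (M + η) / 2 * (∫ x in E, A x) ≤ (M + η) * (T + η) := by
    refine (mul_le_mul_of_nonneg_left h3 (by positivity)).trans_eq ?_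
    field_simp
    rfl
  have hD' : |∫ x in E, D x| ≤ ε / 4 := by
    rw [← Real.norm_eq_abs]; exact (norm_integral_le_integral_norm _).trans h1
  rw [abs_le] at hD' hG ⊢
  constructor <;> linarith

end

end Vale.Agent.P098.Reg
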