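import Vale.Agent.P098.Reg.Expand
import Vale.Agent.P098.Reg.ExtDeriv
import Vale.Agent.P098.Reg.ExtReflect
import Vale.Agent.P098.Reg.BlowFlat
import Vale.Agent.P098.Reg.Glue
import Vale.Agent.P098.Reg.Harm
import Vale.Agent.P098.Reg.Linear
import Vale.Agent.P098.Reg.LipHalf
import Vale.Agent.P098.Reg.VarFlux
import Vale.Agent.P098.Reg.VarNondeg
import Vale.Agent.P098.Reg.VarScale

/-!
# P098: assembly of the regularity modules
-/

namespace Vale.Agent.P098.Reg

open MeasureTheory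
open Vale.Agent.P098.Cone
open scoped NNReal

noncomputable section

/-- Minimisers are harmonic where positive. -/
theorem minHarm' : MinHarmSpec := minHarm weyl

/-- Minimisers are nondegenerate. -/
theorem nondeg' : NondegSpec := nondeg mean

/-- Derivatives up to the free boundary. -/
theorem boundaryDeriv' : BoundaryDerivSpec := boundaryDeriv estimate nondeg' minHarm'

/-- The linearisation. -/
theorem linear' : LinearSpec := Lin.linear compact minHarm' lap flux stationary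

/-- Rigidity of Lipschitz one-homogeneous minimisers up to dimension six, and the converse. -/
theorem answer_six
    (hrig : ∀ d, 2 ≤ d → d ≤ 6 → RigidFour d) :
    ∀ d : ℕ, 1 ≤ d → d ≤ 6 →
      (∀ u : (Fin d → ℝ) → ℝ, (∃ L, LipschitzWith L u) → (∀ x, 0 ≤ u x) →
        (∀ (r : ℝ) (x : Fin d → ℝ), 0 < r → u (r • x) = r * u x) → IsMinimizer u → u ≠ 0 →
        ∃ e : Fin d → ℝ, ∑ i, e i ^ 2 = 1 ∧ ∀ x, u x = max (∑ i, e i * x i) 0) ∧
      (∀ e : Fin d → ℝ, ∑ i, e i ^ 2 = 1 →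
        ((∃ L, LipschitzWith L fun x : Fin d → ℝ => max (∑ i, e i * x i) 0) ∧
          (∀ (r : ℝ) (x : Fin d → ℝ), 0 < r →
            max (∑ i, e i * (r • x) i) 0 = r * max (∑ i, e i * x i) 0) ∧
          IsMinimizer (fun x : Fin d → ℝ => max (∑ i, e i * x i) 0) ∧
          (fun x : Fin d → ℝ => max (∑ i, e i * x i) 0) ≠ 0)) := by
  intro d h1 h6
  refine ⟨answer_of Blow.uniformFlat (expand linear' estimate rescale_min rotate_min)
    boundaryDeriv' (reflect minHarm') minHarm' hrig d h1 h6, fun e he => ⟨lipschitz_half e, fun r x hr =>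
    (regularCone_half he).homog r x hr, isMinimizer_half he, fun h => ?_⟩⟩
  have h0 := congrFun h e
  simp only [Pi.zero_apply, ← sq, he] at h0
  norm_num at h0

/-- Rigidity of one-homogeneous Sobolev minimisers up to dimension six, and the converse. -/
theorem answer_sobolev (hrig : ∀ d, 2 ≤ d → d ≤ 6 → RigidFour d) :
    ∀ d : ℕ, 1 ≤ d → d ≤ 6 →
      (∀ u : (Fin d → ℝ) → ℝ, SobMin u → HomogAE u → ¬ u =ᵐ[volume] 0 →
        ∃ e : Fin d → ℝ, ∑ i, e i ^ 2 = 1 ∧ u =ᵐ[volume] fun x => max (∑ i, e i * x i) 0) ∧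
      (∀ e : Fin d → ℝ, ∑ i, e i ^ 2 = 1 →
        SobMin (fun x : Fin d → ℝ => max (∑ i, e i * x i) 0) ∧
          HomogAE (fun x : Fin d → ℝ => max (∑ i, e i * x i) 0) ∧
          ¬ (fun x : Fin d → ℝ => max (∑ i, e i * x i) 0) =ᵐ[volume] 0) := by
  intro d h1 h6
  obtain ⟨hflat, hhalf⟩ := answer_six hrig d h1 h6
  refine ⟨fun u hu hh h0 => ?_, fun e he => ⟨(sobMin_half he).1, (sobMin_half he).2, fun h => ?_⟩⟩
  · obtain ⟨L, w, hw, hwh, hae⟩ := lipMin_of_sobMin hu hh
    obtain ⟨e, he, hwe⟩ := hflat w ⟨L, hw.lipschitz⟩ hw.nonneg hwh hw.minimizer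
      fun hw0 => h0 (hw0 ▸ hae)
    exact ⟨e, he, hae.trans (.of_forall hwe)⟩
  · obtain ⟨⟨L, hL⟩, -, -, hne⟩ := hhalf e he
    exact hne ((Continuous.ae_eq_iff_eq volume hL.continuous continuous_zero).1 h)

end

end Vale.Agent.P098.Reg
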