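import Vale.Agent.P098.Reg.Defs
import Vale.Agent.P100.Super

/-!
# P098: the radial kernel and the means of a weakly harmonic function

`ker e z = bump (|z|² / e²) / e ^ d` is a family of smooth radial kernels of the same mass. Its
derivative in `e` is a multiple of the Laplacian of the test function `pot (|z|² / e²)`, so the means
of a weakly harmonic function do not depend on `e`.
-/

namespace Vale.Agent.P098.Reg

open MeasureTheory Set Filter Topology Metric
open Vale.Agent.P098.Cone
open Vale.Agent.P100 (sqr lap)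
open scoped ContDiff

noncomputable section

variable {d : ℕ}

/-- The profile: one up to zero, zero from one half on. -/
def bump (s : ℝ) : ℝ := Real.smoothTransition (1 - 2 * s)

/-- The primitive of half the profile that vanishes from one half on. -/
def pot (s : ℝ) : ℝ := (1 / 2) * ∫ t in (1 : ℝ)..s, bump t

/-- The profile of the derivative of the kernel in the size. -/
def prof (d : ℕ) (s : ℝ) : ℝ := 2 * s * deriv bump s + d * bump s

/-- The kernel of size `e`. -/
def ker (e : ℝ) (z : Fin d → ℝ) : ℝ := bump (sqr z / e ^ 2) / e ^ d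

/-- The common mass of the kernels. -/
def mass (d : ℕ) : ℝ := ∫ z : Fin d → ℝ, bump (sqr z)

/-- The test function. -/
def testFn (x : Fin d → ℝ) (e : ℝ) (y : Fin d → ℝ) : ℝ := pot (sqr (y - x) / e ^ 2)

/-- The mean of `g` at `x` of size `e`. -/
def avg (g : (Fin d → ℝ) → ℝ) (x : Fin d → ℝ) (e : ℝ) : ℝ := ∫ y, g y * ker e (x - y)

theorem bump_contDiff : ContDiff ℝ ∞ bump :=
  Real.smoothTransition.contDiff.comp (contDiff_const.sub (contDiff_const.mul contDiff_id))

theorem bump_nonneg (s : ℝ) : 0 ≤ bump s := Real.smoothTransition.nonneg _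

theorem bump_le_one (s : ℝ) : bump s ≤ 1 := Real.smoothTransition.le_one _

theorem bump_eq_zero {s : ℝ} (h : 1 / 2 ≤ s) : bump s = 0 :=
  Real.smoothTransition.zero_of_nonpos (by linarith)

theorem bump_eq_one {s : ℝ} (h : s ≤ 0) : bump s = 1 :=
  Real.smoothTransition.one_of_one_le (by linarith)

theorem deriv_bump_contDiff : ContDiff ℝ ∞ (deriv bump) :=
  (contDiff_infty_iff_deriv.1 bump_contDiff).2

theorem hasDerivAt_bump (s : ℝ) : HasDerivAt bump (deriv bump s) s :=
  ((bump_contDiff.differentiable (by simp)) s).hasDerivAt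

theorem deriv_bump_eq_zero {s : ℝ} (h : s < 0 ∨ 1 / 2 < s) : deriv bump s = 0 := by
  rcases h with h | h
  · exact HasDerivAt.deriv ((hasDerivAt_const s (1 : ℝ)).congr_of_eventuallyEq
      (by filter_upwards [gt_mem_nhds h] with t ht using bump_eq_one ht.le))
  · exact HasDerivAt.deriv ((hasDerivAt_const s (0 : ℝ)).congr_of_eventuallyEq
      (by filter_upwards [lt_mem_nhds h] with t ht using bump_eq_zero ht.le))

theorem hasDerivAt_pot (s : ℝ) : HasDerivAt pot (bump s / 2) s := by
  have hc := bump_contDiff.continuous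
  refine ((intervalIntegral.integral_hasDerivAt_right (hc.intervalIntegrable _ _)
    (hc.stronglyMeasurableAtFilter _ _) hc.continuousAt).const_mul (1 / 2)).congr_deriv ?_
  ring

theorem pot_contDiff : ContDiff ℝ ∞ pot := by
  refine contDiff_infty_iff_deriv.2 ⟨fun s => (hasDerivAt_pot s).differentiableAt, ?_⟩
  rw [show deriv pot = fun s => bump s / 2 from funext fun s => (hasDerivAt_pot s).deriv]
  exact bump_contDiff.div_const 2

theorem pot_eq_zero {s : ℝ} (h : 1 / 2 ≤ s) : pot s = 0 := by
  rw [pot, intervalIntegral.integral_congr (g := fun _ => (0 : ℝ)) fun t ht => bump_eq_zero ?_]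
  · simp
  · rcases Set.mem_uIcc.1 ht with ht | ht <;> linarith [ht.1]

theorem pot_nonpos (s : ℝ) : pot s ≤ 0 := by
  rcases le_or_gt s (1 / 2) with h | h
  · rw [pot, intervalIntegral.integral_symm]
    have := intervalIntegral.integral_nonneg (μ := volume) (h.trans (by norm_num : (1 / 2 : ℝ) ≤ 1))
      fun t _ => bump_nonneg t
    linarith
  · exact (pot_eq_zero h.le).le

theorem prof_bound (d : ℕ) : ∃ B, 0 ≤ B ∧ ∀ s, |prof d s| ≤ B := by
  have hc : Continuous (prof d) :=
    ((continuous_const.mul continuous_id).mul deriv_bump_contDiff.continuous).add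
      (continuous_const.mul bump_contDiff.continuous)
  obtain ⟨B, hB⟩ := (isCompact_Icc (a := (0 : ℝ)) (b := 1)).exists_bound_of_continuousOn hc.continuousOn
  refine ⟨max B d, le_max_of_le_right (Nat.cast_nonneg d), fun s => ?_⟩
  rcases lt_or_ge s 0 with h | h
  · rw [prof, deriv_bump_eq_zero (.inl h), bump_eq_one h.le]
    simp
  rcases le_or_gt s 1 with h1 | h1
  · exact (hB s ⟨h, h1⟩).trans (le_max_left _ _)
  · rw [prof, deriv_bump_eq_zero (.inr (by linarith)), bump_eq_zero (by linarith)]
    simp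

theorem norm_sq_le_sqr (z : Fin d → ℝ) : ‖z‖ ^ 2 ≤ sqr z := by
  have h : ‖z‖ ≤ Real.sqrt (sqr z) :=
    (pi_norm_le_iff_of_nonneg (Real.sqrt_nonneg _)).2 fun i => by
      rw [Real.norm_eq_abs, ← Real.sqrt_sq_eq_abs]
      exact Real.sqrt_le_sqrt (P100.sq_le_sqr z i)
  calc ‖z‖ ^ 2 ≤ Real.sqrt (sqr z) ^ 2 := pow_le_pow_left₀ (norm_nonneg _) h 2
    _ = sqr z := Real.sq_sqrt (P100.sqr_nonneg z)

theorem one_le_div {e : ℝ} {z : Fin d → ℝ} (he : 0 < e) (hz : e < ‖z‖) :
    1 / 2 ≤ sqr z / e ^ 2 := by
  rw [le_div_iff₀ (pow_pos he 2)]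
  have h1 := pow_le_pow_left₀ he.le hz.le 2
  have h2 := norm_sq_le_sqr z
  linarith [sq_nonneg e]

theorem ker_eq_zero {e : ℝ} {z : Fin d → ℝ} (he : 0 < e) (hz : e < ‖z‖) : ker e z = 0 := by
  rw [ker, bump_eq_zero (one_le_div he hz), zero_div]

theorem ker_nonneg {e : ℝ} (he : 0 < e) (z : Fin d → ℝ) : 0 ≤ ker e z :=
  div_nonneg (bump_nonneg _) (pow_nonneg he.le _)

theorem ker_le {e : ℝ} (he : 0 < e) (z : Fin d → ℝ) : ker e z ≤ 1 / e ^ d :=
  div_le_div_of_nonneg_right (bump_le_one _) (pow_nonneg he.le _)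

theorem contDiff_ker (e : ℝ) : ContDiff ℝ ∞ (ker e : (Fin d → ℝ) → ℝ) :=
  (bump_contDiff.comp (P100.contDiff_sqr.div_const _)).div_const _

theorem hasCompactSupport_ker {e : ℝ} (he : 0 < e) :
    HasCompactSupport (ker e : (Fin d → ℝ) → ℝ) :=
  HasCompactSupport.intro (isCompact_closedBall 0 e) fun z hz =>
    ker_eq_zero he (by simpa [mem_closedBall, dist_eq_norm] using hz)

theorem bump_sqr_continuous : Continuous fun z : Fin d → ℝ => bump (sqr z) :=
  bump_contDiff.continuous.comp P100.continuous_sqr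

theorem mass_pos (d : ℕ) : 0 < mass d :=
  Continuous.integral_pos_of_hasCompactSupport_nonneg_nonzero (x := (0 : Fin d → ℝ))
    bump_sqr_continuous (HasCompactSupport.intro (isCompact_closedBall 0 1) fun z hz =>
      bump_eq_zero (by simpa using one_le_div one_pos (by simpa [mem_closedBall, dist_eq_norm] using hz)))
    (fun z => bump_nonneg _) (by simp [P100.sqr_zero, bump_eq_one le_rfl])

theorem integral_ker {e : ℝ} (he : 0 < e) (x : Fin d → ℝ) :
    ∫ y, ker e (x - y) = mass d := by
  rw [integral_sub_left_eq_self (fun z => ker e z) volume x]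
  have h1 : ∀ z : Fin d → ℝ, ker e z = (1 / e ^ d) * bump (sqr (e⁻¹ • z)) := fun z => by
    rw [ker, P100.sqr_smul, inv_pow, inv_mul_eq_div]
    ring
  simp only [h1]
  rw [MeasureTheory.integral_const_mul,
    Measure.integral_comp_inv_smul_of_nonneg volume (fun z : Fin d → ℝ => bump (sqr z)) he.le,
    Module.finrank_fin_fun, smul_eq_mul, mass]
  field_simp

theorem lap_eq_hess (f : (Fin d → ℝ) → ℝ) (x : Fin d → ℝ) : lap f x = ∑ i, hess f i i x := rfl

theorem testFn_contDiff (x : Fin d → ℝ) (e : ℝ) : ContDiff ℝ ∞ (testFn x e) :=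
  pot_contDiff.comp ((P100.contDiff_sqr.comp (contDiff_id.sub contDiff_const)).div_const _)

theorem tsupport_testFn (x : Fin d → ℝ) {e : ℝ} (he : 0 < e) :
    tsupport (testFn x e) ⊆ closedBall x e := by
  refine closure_minimal (fun y hy => ?_) isClosed_closedBall
  by_contra h
  exact hy (pot_eq_zero (one_le_div he (by simpa [mem_closedBall, dist_eq_norm] using h)))

theorem hasCompactSupport_testFn (x : Fin d → ℝ) {e : ℝ} (he : 0 < e) :
    HasCompactSupport (testFn x e) :=
  (isCompact_closedBall x e).of_isClosed_subset (isClosed_tsupport _) (tsupport_testFn x he)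

theorem lap_testFn (x y : Fin d → ℝ) {e : ℝ} (he : 0 < e) :
    lap (testFn x e) y = prof d (sqr (y - x) / e ^ 2) / e ^ 2 := by
  set θ : ℝ → ℝ := fun t => pot (t / e ^ 2)
  have h1 : ∀ t, HasDerivAt θ (bump (t / e ^ 2) / 2 / e ^ 2) t := fun t => by
    refine ((hasDerivAt_pot (t / e ^ 2)).comp t ((hasDerivAt_id' t).div_const _)).congr_deriv ?_
    ring
  have h2 : ∀ t, HasDerivAt (fun t => bump (t / e ^ 2) / 2 / e ^ 2)
      (deriv bump (t / e ^ 2) / 2 / e ^ 2 / e ^ 2) t := fun t => by
    refine ((((hasDerivAt_bump (t / e ^ 2)).comp t ((hasDerivAt_id' t).div_const _)).div_const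
      2).div_const _).congr_deriv ?_
    ring
  have hl := (P100.radial h1 h2 (y - x)).2
  have hs : ∀ (f : (Fin d → ℝ) → ℝ) (i : Fin d) (z : Fin d → ℝ),
      pd (fun w => f (w - x)) i z = pd f i (z - x) := fun f i z => by
    simp only [pd, fderiv_comp_sub]
  have e1 : lap (testFn x e) y = lap (fun z => θ (sqr z)) (y - x) := by
    refine Finset.sum_congr rfl fun i _ => ?_
    rw [show pd (testFn x e) i = fun w => pd (fun z => θ (sqr z)) i (w - x) from
      funext fun w => hs (fun z => θ (sqr z)) i w]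
    exact hs _ i y
  rw [e1, hl, prof]
  field_simp
  ring

theorem lap_testFn_continuous (x : Fin d → ℝ) (e : ℝ) : Continuous (lap (testFn x e)) :=
  P100.continuous_lap ((testFn_contDiff x e).of_le (WithTop.coe_le_coe.2 le_top))

theorem hasDerivAt_avg {g : (Fin d → ℝ) → ℝ} (hg : Integrable g) (x : Fin d → ℝ) {e : ℝ}
    (he : 0 < e) :
    HasDerivAt (avg g x) (-(e ^ 2 / e ^ (d + 1)) * ∫ y, g y * lap (testFn x e) y) e := by
  obtain ⟨B, hB0, hB⟩ := prof_bound d
  have hq : ∀ y, sqr (x - y) = sqr (y - x) := fun y => by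
    simp only [P100.sqr, Pi.sub_apply]
    exact Finset.sum_congr rfl fun i _ => by ring
  have hd : ∀ y, ∀ r : ℝ, 0 < r → HasDerivAt (fun r => g y * ker r (x - y))
      (-(g y) * prof d (sqr (y - x) / r ^ 2) / r ^ (d + 1)) r := by
    intro y r hr
    have hr0 := hr.ne'
    have h1 : HasDerivAt (fun r : ℝ => sqr (x - y) / r ^ 2) (-(2 * sqr (x - y)) / r ^ 3) r := by
      refine (((hasDerivAt_pow 2 r).inv (pow_ne_zero 2 hr0)).const_mul (sqr (x - y))).congr_deriv ?_
      field_simp
      push_cast
      ring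
    have h2 := ((hasDerivAt_bump _).comp r h1).div (hasDerivAt_pow d r) (pow_ne_zero d hr0)
    refine (h2.const_mul (g y)).congr_deriv ?_
    rw [Function.comp_apply, prof, ← hq y]
    rcases d with _ | k
    · field_simp
      ring
    · simp only [Nat.add_sub_cancel]
      field_simp
      push_cast
      ring
  have hs : Ioo (e / 2) (2 * e) ∈ 𝓝 e := Ioo_mem_nhds (by linarith) (by linarith)
  have hker : ∀ r : ℝ, Continuous fun y => ker r (x - y) := fun r =>
    (contDiff_ker r).continuous.comp (continuous_const.sub continuous_id)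
  have hprof : Continuous (prof d) :=
    ((continuous_const.mul continuous_id).mul deriv_bump_contDiff.continuous).add
      (continuous_const.mul bump_contDiff.continuous)
  have key := hasDerivAt_integral_of_dominated_loc_of_deriv_le (μ := volume) (x₀ := e)
    (F := fun r y => g y * ker r (x - y))
    (F' := fun r y => -(g y) * prof d (sqr (y - x) / r ^ 2) / r ^ (d + 1))
    (bound := fun y => ‖g y‖ * (B / (e / 2) ^ (d + 1))) hs
    (.of_forall fun r => hg.aestronglyMeasurable.mul (hker r).aestronglyMeasurable)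
    (hg.mul_bdd (c := 1 / e ^ d) (hker e).aestronglyMeasurable
      (.of_forall fun y => by rw [Real.norm_eq_abs, abs_of_nonneg (ker_nonneg he _)]; exact ker_le he _))
    ((hg.aestronglyMeasurable.neg.mul (hprof.comp ((P100.continuous_sqr.comp
      (continuous_id.sub continuous_const)).div_const _)).aestronglyMeasurable).mul
      aestronglyMeasurable_const)
    (.of_forall fun y r hr => ?_) (hg.norm.mul_const _)
    (.of_forall fun y r hr => hd y r (by linarith [hr.1]))
  · refine key.2.congr_deriv ?_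
    rw [← MeasureTheory.integral_const_mul]
    refine integral_congr_ae (.of_forall fun y => ?_)
    show -(g y) * prof d (sqr (y - x) / e ^ 2) / e ^ (d + 1)
      = -(e ^ 2 / e ^ (d + 1)) * (g y * lap (testFn x e) y)
    rw [lap_testFn x y he]
    field_simp
  · have hr0 : 0 < r := by linarith [hr.1]
    rw [norm_div, norm_mul, norm_neg, mul_div_assoc, Real.norm_eq_abs (prof d _),
      Real.norm_eq_abs (r ^ (d + 1)), abs_of_pos (pow_pos hr0 _)]
    exact mul_le_mul_of_nonneg_left (div_le_div₀ hB0 (hB _) (pow_pos (by linarith) _)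
      (pow_le_pow_left₀ (by linarith) hr.1.le _)) (norm_nonneg _)

theorem tendsto_avg {g : (Fin d → ℝ) → ℝ} (hg : Integrable g) {x : Fin d → ℝ}
    (hx : ContinuousAt g x) : Tendsto (avg g x) (𝓝[>] 0) (𝓝 (mass d * g x)) := by
  rw [Metric.tendsto_nhdsWithin_nhds]
  intro η hη
  have hm := mass_pos d
  obtain ⟨δ, hδ, hgδ⟩ := Metric.continuousAt_iff.1 hx (η / (2 * mass d)) (by positivity)
  refine ⟨δ, hδ, fun e he hed => ?_⟩
  have he0 : (0 : ℝ) < e := he
  rw [Real.dist_eq, sub_zero, abs_of_pos he0] at hed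
  have hker : Continuous fun y => ker e (x - y) :=
    (contDiff_ker e).continuous.comp (continuous_const.sub continuous_id)
  have hi1 : Integrable fun y => g y * ker e (x - y) :=
    hg.mul_bdd (c := 1 / e ^ d) hker.aestronglyMeasurable
      (.of_forall fun y => by rw [Real.norm_eq_abs, abs_of_nonneg (ker_nonneg he0 _)]; exact ker_le he0 _)
  have hi2 : Integrable fun y => ker e (x - y) :=
    hker.integrable_of_hasCompactSupport (HasCompactSupport.intro (isCompact_closedBall x e) fun y hy =>
      ker_eq_zero he0 (by simpa [mem_closedBall, dist_eq_norm, norm_sub_rev] using hy))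
  have e1 : avg g x e - mass d * g x = ∫ y, (g y - g x) * ker e (x - y) := by
    simp only [sub_mul]
    rw [integral_sub hi1 (hi2.const_mul _), MeasureTheory.integral_const_mul, integral_ker he0 x, avg]
    ring
  rw [Real.dist_eq, e1, ← Real.norm_eq_abs]
  refine (norm_integral_le_of_norm_le (hi2.const_mul (η / (2 * mass d))) (.of_forall fun y => ?_)).trans_lt ?_
  · rw [norm_mul, Real.norm_eq_abs (ker e _), abs_of_nonneg (ker_nonneg he0 _)]
    by_cases hy : e < ‖x - y‖
    · simp [ker_eq_zero he0 hy]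
    · refine mul_le_mul_of_nonneg_right ?_ (ker_nonneg he0 _)
      have := hgδ (x := y) (by rw [dist_eq_norm, norm_sub_rev]; linarith [not_lt.1 hy])
      rw [Real.dist_eq] at this
      exact this.le
  · rw [MeasureTheory.integral_const_mul, integral_ker he0 x]
    field_simp
    linarith

end

end Vale.Agent.P098.Reg
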