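import Vale.Agent.P098.Reg.Step

/-!
# P098: the iteration at one free boundary point
-/

namespace Vale.Agent.P098.Reg

open Finset MvPolynomial Filter Topology Metric
open Vale.Agent.P098.Cone
open scoped ContDiff NNReal

noncomputable section

variable {d : ℕ}

theorem mem_fb_rescale {n : ℕ} {u : (Fin n → ℝ) → ℝ} {x y : Fin n → ℝ} {r : ℝ} (hr : 0 < r) :
    y ∈ fb (rescale u x r) ↔ x + r • y ∈ fb u := by
  have e : pos (rescale u x r)
      = ((Homeomorph.smulOfNeZero r hr.ne').trans (Homeomorph.addLeft x)) ⁻¹' pos u := by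
    ext z; simp [pos, rescale, div_pos_iff_of_pos_right hr]
  rw [fb, fb, e, ← Homeomorph.preimage_frontier]
  rfl

theorem mem_closure_rescale {n : ℕ} {u : (Fin n → ℝ) → ℝ} {x y : Fin n → ℝ} {r : ℝ} (hr : 0 < r) :
    y ∈ closure (pos (rescale u x r)) ↔ x + r • y ∈ closure (pos u) := by
  have e : pos (rescale u x r)
      = ((Homeomorph.smulOfNeZero r hr.ne').trans (Homeomorph.addLeft x)) ⁻¹' pos u := by
    ext z; simp [pos, rescale, div_pos_iff_of_pos_right hr]
  rw [e, ← Homeomorph.preimage_closure]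
  rfl

theorem rescale_rescale {n : ℕ} {u : (Fin n → ℝ) → ℝ} {x y : Fin n → ℝ} {r s : ℝ} :
    rescale (rescale u x r) y s = rescale u (x + r • y) (r * s) := by
  funext z
  simp only [rescale, smul_add, smul_smul, add_assoc, div_div]

theorem Centred.scale {L : ℝ≥0} {u : (Fin (d + 1) → ℝ) → ℝ} (hR : RescaleSpec) (h : Centred L u) {θ : ℝ}
    (h0 : 0 < θ) (h1 : θ ≤ 1) : Centred L (rescale u 0 θ) where
  min := hR _ L u 0 θ h.min h0
  zero := (mem_fb_rescale h0).2 (by simpa using h.zero)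
  blow := by
    intro x hx
    have hx' : θ • x ∈ closedBall (0 : Fin (d + 1) → ℝ) 1 ∩ fb u := by
      refine ⟨?_, by simpa using (mem_fb_rescale h0).1 hx.2⟩
      simp only [mem_closedBall_zero_iff, norm_smul, Real.norm_of_nonneg h0.le]
      exact mul_le_one₀ h1 (norm_nonneg _) (by simpa using hx.1)
    obtain ⟨e, r, he, hr, hr0, hlim⟩ := h.blow _ hx'
    refine ⟨e, fun n => r n / θ, he, fun n => div_pos (hr n) h0, by simpa using hr0.div_const θ, fun y => ?_⟩
    refine (hlim y).congr fun n => ?_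
    rw [rescale_rescale, zero_add, mul_div_cancel₀ _ h0.ne']

/-- The polynomial correction read at the scale `θ`. -/
def pScale (θ : ℝ) (p : Poly (d + 1)) : Poly (d + 1) := C θ⁻¹ * scaleP θ p

theorem apx_pScale {θ : ℝ} (h0 : θ ≠ 0) (p : Poly (d + 1)) (y : Fin (d + 1) → ℝ) :
    apx (pScale θ p) y = θ⁻¹ * apx p (θ • y) := by
  simp only [apx, pScale, map_add, map_mul, eval_X, eval_C, eval_scaleP, Pi.smul_apply, smul_eq_mul, mul_add]
  field_simp

theorem resP_scale {θ : ℝ} (h0 : θ ≠ 0) (p a : Poly (d + 1)) :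
    resP (pScale θ p) (C θ * scaleP θ a) = scaleP θ (resP p a) := by
  have hX : C θ⁻¹ * scaleP θ (X (Fin.last d) : Poly (d + 1)) = X (Fin.last d) := by
    rw [scaleP, aeval_X, ← mul_assoc, ← C_mul, inv_mul_cancel₀ h0, C_1, one_mul]
  have hP : X (Fin.last d) + pScale θ p = C θ⁻¹ * scaleP θ (X (Fin.last d) + p) := by
    rw [pScale, map_add, mul_add, hX]
  have hd' : ∀ q : Poly (d + 1), ∀ i, pderiv i (C θ⁻¹ * scaleP θ q) = scaleP θ (pderiv i q) := fun q i => by
    rw [pderiv_C_mul, pderiv_scaleP, ← mul_assoc, ← C_mul, inv_mul_cancel₀ h0, C_1, one_mul]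
  rw [resP_eq, resP_eq, hP, map_sub, map_sub, map_sum, map_one, map_mul]
  simp only [hd', map_mul]
  rw [mul_mul_mul_comm, ← C_mul, mul_inv_cancel₀ h0, C_1, one_mul]

theorem deg_scaleP {θ : ℝ} {k : ℤ} {p : Poly (d + 1)} (hp : Deg k p) : Deg k (scaleP θ p) := by
  rw [as_sum p, map_sum]
  refine Deg.sum fun m hm => ?_
  rw [scaleP_monomial]
  intro a ha
  rw [support_monomial] at ha
  split_ifs at ha
  · simp at ha
  · rw [mem_singleton] at ha
    rw [ha]; exact hp m hm

theorem lap_pScale {θ : ℝ} (p : Poly (d + 1)) (h : lapP p = 0) : lapP (pScale θ p) = 0 := by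
  rw [lapP_apply] at h ⊢
  simp only [pScale, pderiv_C_mul, pderiv_scaleP, ← mul_sum]
  rw [← map_sum, h, map_zero, mul_zero, mul_zero, mul_zero]

theorem eval_zero_pScale {θ : ℝ} {p : Poly (d + 1)} (h : eval 0 p = 0) : eval 0 (pScale θ p) = 0 := by
  rw [pScale, map_mul, eval_scaleP, smul_zero, h, mul_zero]

theorem nrm_pScale_le {θ : ℝ} (h0 : 0 < θ) (h1 : θ ≤ 1) {p : Poly (d + 1)} (h : eval 0 p = 0) :
    nrm (pScale θ p) ≤ nrm p := by
  refine (nrm_C_mul _ _).trans ?_
  rw [abs_of_pos (inv_pos.2 h0), inv_mul_le_iff₀ h0]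
  refine (nrm_scaleP_split h0.le h1 1 p).trans ?_
  have : lowPart 1 p = 0 := by
    rw [lowPart, range_one, sum_singleton, homogeneousComponent_zero]
    have : coeff 0 p = 0 := by
      rw [← constantCoeff_eq, ← eval_zero]; exact h
    rw [this, C_0]
  simp [this]

theorem abs_eval_le_of_deg {k : ℕ} {p : Poly (d + 1)} (hp : p.totalDegree ≤ k) {y : Fin (d + 1) → ℝ} {R : ℝ}
    (hR : 1 ≤ R) (hy : ‖y‖ ≤ R) : |eval y p| ≤ R ^ k * nrm p := by
  have hR0 : 0 < R := zero_lt_one.trans_le hR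
  have e : y = R • (R⁻¹ • y) := by rw [smul_smul, mul_inv_cancel₀ hR0.ne', one_smul]
  rw [e, ← eval_scaleP]
  refine (abs_eval_le _ ?_).trans ?_
  · rw [norm_smul, Real.norm_of_nonneg (inv_nonneg.2 hR0.le), inv_mul_le_iff₀ hR0, mul_one]; exact hy
  · conv_lhs => rw [as_sum p, map_sum]
    conv_rhs => rw [nrm, mul_sum]
    refine (nrm_sum _ _).trans (sum_le_sum fun m hm => ?_)
    rw [scaleP_monomial]
    refine (nrm_monomial_le _ _).trans ?_
    rw [abs_mul, abs_of_nonneg (pow_nonneg hR0.le _), mul_comm]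
    exact mul_le_mul_of_nonneg_right (pow_le_pow_right₀ hR (degree_le_of_mem hp hm)) (abs_nonneg _)

theorem geomSum_le {s : ℝ} (h0 : 0 ≤ s) (h1 : s < 1) (j : ℕ) : ∑ i ∈ range j, s ^ i ≤ (1 - s)⁻¹ := by
  have h := geom_sum_mul_neg s j
  rw [← one_div, le_div_iff₀ (by linarith), h]
  linarith [pow_nonneg h0 j]

theorem exists_poly_limit {k : ℕ} {q : ℕ → Poly (d + 1)} {K s : ℝ} (hs : s < 1)
    (hq : ∀ j, (q j).totalDegree ≤ k) (hinc : ∀ j, nrm (q (j + 1) - q j) ≤ K * s ^ j) :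
    ∃ Q : Poly (d + 1), Q.totalDegree ≤ k ∧
      (∀ y, Tendsto (fun j => eval y (q j)) atTop (𝓝 (eval y Q))) ∧
      (∀ i y, Tendsto (fun j => eval y (pderiv i (q j))) atTop (𝓝 (eval y (pderiv i Q)))) ∧
      ((∀ j, lapP (q j) = 0) → lapP Q = 0) ∧
      nrm Q ≤ nrm (q 0) + K / (1 - s) := by
  classical
  set S : Finset (Fin (d + 1) →₀ ℕ) :=
    ((Fintype.piFinset fun _ : Fin (d + 1) => range (k + 1)).image Finsupp.equivFunOnFinite.symm).filter
      (fun m => m.degree ≤ k)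
  have hS : ∀ j, (q j).support ⊆ S := fun j m hm => mem_filter.2
    ⟨mem_image.2 ⟨Finsupp.equivFunOnFinite m, Fintype.mem_piFinset.2 fun i => mem_range.2
      (Nat.lt_succ_of_le ((le_degree_coord m i).trans (degree_le_of_mem (hq j) hm))),
      Equiv.symm_apply_apply _ m⟩, degree_le_of_mem (hq j) hm⟩
  have hc : ∀ m, CauchySeq fun j => (q j).coeff m := fun m =>
    cauchySeq_of_le_geometric s K hs fun j => by
      rw [Real.dist_eq, abs_sub_comm, ← coeff_sub]
      exact (abs_coeff_le_nrm _ m).trans (hinc j)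
  choose c hc' using fun m => cauchySeq_tendsto_of_complete (hc m)
  set Q : Poly (d + 1) := ∑ m ∈ S, monomial m (c m)
  have hQd : Q.totalDegree ≤ k := by
    refine totalDegree_of_deg (Deg.sum fun m hm a ha => ?_)
    have := support_monomial_subset ha
    rw [mem_singleton] at this
    rw [this]
    exact_mod_cast (mem_filter.1 hm).2
  have hex : ∀ j, q j = ∑ m ∈ S, monomial m ((q j).coeff m) := fun j => by
    conv_lhs => rw [as_sum (q j)]
    exact sum_subset (hS j) fun m _ hm => by rw [notMem_support_iff.1 hm, monomial_zero]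
  have hlin : ∀ (T : Poly (d + 1) →ₗ[ℝ] ℝ), Tendsto (fun j => T (q j)) atTop (𝓝 (T Q)) := by
    intro T
    have e : ∀ g : (Fin (d + 1) →₀ ℕ) → ℝ, T (∑ m ∈ S, monomial m (g m)) = ∑ m ∈ S, g m * T (monomial m 1) :=
      fun g => by
        rw [map_sum]
        refine sum_congr rfl fun m _ => ?_
        rw [show monomial m (g m) = g m • monomial m (1 : ℝ) by rw [smul_monomial, smul_eq_mul, mul_one],
          map_smul, smul_eq_mul]
    simp only [Q, e]
    refine (tendsto_finsetSum S fun m _ => (hc' m).mul_const (T (monomial m 1))).congr fun j => ?_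
    conv_rhs => rw [hex j, e]
  refine ⟨Q, hQd, fun y => hlin (aeval y).toLinearMap, fun i y =>
    hlin ((aeval y).toLinearMap ∘ₗ (pderiv i).toLinearMap), fun h => MvPolynomial.funext fun y => ?_, ?_⟩
  · rw [map_zero]
    refine tendsto_nhds_unique (hlin ((aeval y).toLinearMap ∘ₗ lapP)) ((tendsto_const_nhds (x := (0 : ℝ))).congr fun j => ?_)
    simp [h j]
  have hQS : Q.support ⊆ S := fun m hm => by
    by_contra h
    refine mem_support_iff.1 hm ?_
    rw [coeff_sum]
    exact sum_eq_zero fun a ha => by rw [coeff_monomial, if_neg (fun (e : a = m) => h (by rw [← e]; exact ha))]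
  have hQc : ∀ m ∈ S, Q.coeff m = c m := fun m hm => by
    rw [coeff_sum, sum_eq_single m (fun b _ hb => by rw [coeff_monomial, if_neg hb]) (fun h => absurd hm h),
      coeff_monomial, if_pos rfl]
  rw [nrm_eq_sum hQS, sum_congr rfl fun m hm => by rw [hQc m hm]]
  have h1 : ∀ j, ∑ m ∈ S, |(q j).coeff m| ≤ nrm (q 0) + K / (1 - s) := by
    intro j
    have hK : 0 ≤ K := by simpa using (nrm_nonneg _).trans (hinc 0)
    rcases le_or_gt 0 s with hs0 | hs0
    · rw [← nrm_eq_sum (hS j)]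
      have h2 : nrm (q j) ≤ nrm (q 0) + K * ∑ i ∈ range j, s ^ i := by
        induction j with
        | zero => simp
        | succ j ih =>
          rw [sum_range_succ, mul_add, ← add_assoc]
          have := nrm_add (q j) (q (j + 1) - q j)
          rw [add_sub_cancel] at this
          linarith [hinc j]
      refine h2.trans (add_le_add le_rfl ?_)
      rw [div_eq_mul_inv]
      exact mul_le_mul_of_nonneg_left (geomSum_le hs0 hs _) hK
    · have h3 := (nrm_nonneg _).trans (hinc 1)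
      rw [pow_one] at h3
      have hK0 : K = 0 := le_antisymm (by
        by_contra h; exact absurd h3 (not_le.2 (mul_neg_of_pos_of_neg (not_le.1 h) hs0))) hK
      have hconst : ∀ i, q (i + 1) = q i := fun i =>
        sub_eq_zero.1 (eq_zero_of_nrm (by simpa [hK0] using hinc i))
      have : q j = q 0 := by
        induction j with
        | zero => rfl
        | succ j ih => rw [hconst, ih]
      rw [← nrm_eq_sum (hS j), this, hK0, zero_div, add_zero]
  exact le_of_tendsto' (tendsto_finsetSum S fun m _ => (hc' m).abs) h1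

/-- The state of the iteration at one scale. -/
structure Stage (u : (Fin (d + 1) → ℝ) → ℝ) (δ η ε : ℝ) (p a : Poly (d + 1)) : Prop where
  degp : p.totalDegree ≤ 4
  lap : lapP p = 0
  zero : eval 0 p = 0
  dega : a.totalDegree ≤ 3
  bdp : nrm p ≤ η
  bda : nrm a ≤ η
  res : nrm (resP p a) ≤ δ * ε
  close : Close u (apx p) ε (closedBall 0 1)

/-- The expansion at a centred, sufficiently flat point. -/
theorem exists_centred_expansion (hLin : LinearSpec) (hE : EstimateSpec) (hR : RescaleSpec) (hd : 1 ≤ d)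
    (L : ℝ≥0) : ∃ ε₀ C : ℝ, 0 < ε₀ ∧ 0 ≤ C ∧ ∀ u : (Fin (d + 1) → ℝ) → ℝ, Centred L u →
      Close u (apx 0) ε₀ (closedBall 0 1) → ∃ q : Poly (d + 1), q.totalDegree ≤ 4 ∧ eval 0 q = 0 ∧ lapP q = 0 ∧
        nrm q ≤ C ∧ dot (grad (apx q) 0) (grad (apx q) 0) = 1 ∧
        ∀ y : Fin (d + 1) → ℝ, ‖y‖ ≤ 1 →
          apx q y - u y ≤ C * (‖y‖ ^ 4 * Real.sqrt ‖y‖) ∧
          (y ∈ closure (pos u) → u y - apx q y ≤ C * (‖y‖ ^ 4 * Real.sqrt ‖y‖)) := by
  obtain ⟨θ, δ, η, C, hθ0, hθ8, hδ, hη, hC, hstep⟩ := exists_step hLin hE hd L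
  have hθ1 : θ ≤ 1 := by linarith
  set t := Real.sqrt θ
  have ht0 : 0 < t := Real.sqrt_pos.2 hθ0
  have ht1 : t < 1 := by rw [show (1 : ℝ) = Real.sqrt 1 from Real.sqrt_one.symm]; exact Real.sqrt_lt_sqrt hθ0.le (by linarith)
  set g := gain θ
  have hg : g = θ ^ 3 * t := rfl
  have hg0 : 0 < g := by rw [hg]; positivity
  have hg1 : g < 1 := by
    rw [hg]
    calc θ ^ 3 * t ≤ 1 * t := mul_le_mul_of_nonneg_right (pow_le_one₀ hθ0.le hθ1) ht0.le
      _ < 1 := by rwa [one_mul]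
  have h1g : 0 < 1 - g := by linarith
  set ε₀ : ℝ := min η (η * (1 - g) / (C + 1))
  have hε₀ : 0 < ε₀ := lt_min hη (by positivity)
  set Kf : ℝ := (C / (1 - t) + 1) * (ε₀ * θ⁻¹ ^ 8)
  refine ⟨ε₀, Kf, hε₀, ?_, fun u hu hcl => ?_⟩
  · have : 0 < 1 - t := by linarith
    positivity
  set v : ℕ → (Fin (d + 1) → ℝ) → ℝ := fun j => rescale u 0 (θ ^ j)
  have hv : ∀ j, Centred L (v j) := fun j => hu.scale hR (pow_pos hθ0 j) (pow_le_one₀ hθ0.le hθ1)
  have hbound : ∀ j, C * ε₀ * ∑ i ∈ range j, g ^ i ≤ η := fun j => by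
    calc C * ε₀ * ∑ i ∈ range j, g ^ i ≤ C * ε₀ * (1 - g)⁻¹ :=
          mul_le_mul_of_nonneg_left (geomSum_le hg0.le hg1 _) (by positivity)
      _ ≤ η := by
          rw [← div_eq_mul_inv, div_le_iff₀ h1g]
          have h := (min_le_right η (η * (1 - g) / (C + 1)))
          rw [le_div_iff₀ (by positivity)] at h
          linarith [mul_comm ε₀ C, hε₀]
  have hnext : ∀ j (x : Poly (d + 1) × Poly (d + 1)),
      Stage (v j) δ η (ε₀ * g ^ j) x.1 x.2 → nrm x.1 ≤ C * ε₀ * ∑ i ∈ range j, g ^ i →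
      nrm x.2 ≤ C * ε₀ * ∑ i ∈ range j, g ^ i →
      ∃ x' : Poly (d + 1) × Poly (d + 1), Stage (v (j + 1)) δ η (ε₀ * g ^ (j + 1)) x'.1 x'.2 ∧
        nrm x'.1 ≤ C * ε₀ * ∑ i ∈ range (j + 1), g ^ i ∧ nrm x'.2 ≤ C * ε₀ * ∑ i ∈ range (j + 1), g ^ i ∧
        nrm (x'.1 - pScale θ x.1) ≤ C * (ε₀ * g ^ j) := by
    rintro j ⟨p, a⟩ hx hpb hab
    have hε : 0 < ε₀ * g ^ j := by positivity
    have hεη : ε₀ * g ^ j ≤ η :=
      (mul_le_of_le_one_right hε₀.le (pow_le_one₀ hg0.le hg1.le)).trans (min_le_left _ _)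
    obtain ⟨p', a', h1, h2, h3, h4, h5, h6, h7, h8⟩ :=
      hstep (v j) p a _ (hv j) hx.degp hx.lap hx.zero hx.bdp hx.dega hx.bda hε hεη hx.res hx.close
    have hp' : nrm p' ≤ C * ε₀ * ∑ i ∈ range (j + 1), g ^ i := by
      have := nrm_add p (p' - p)
      rw [add_sub_cancel] at this
      rw [sum_range_succ, mul_add, mul_assoc C ε₀ (g ^ j)]
      linarith
    have ha' : nrm a' ≤ C * ε₀ * ∑ i ∈ range (j + 1), g ^ i := by
      have := nrm_add a (a' - a)
      rw [add_sub_cancel] at this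
      rw [sum_range_succ, mul_add, mul_assoc C ε₀ (g ^ j)]
      linarith
    have hp'' : nrm (pScale θ p') ≤ C * ε₀ * ∑ i ∈ range (j + 1), g ^ i :=
      (nrm_pScale_le hθ0 hθ1 h3).trans hp'
    have ha'' : nrm (MvPolynomial.C θ * scaleP θ a') ≤ C * ε₀ * ∑ i ∈ range (j + 1), g ^ i := by
      refine ((nrm_C_mul _ _).trans ?_).trans ha'
      rw [abs_of_pos hθ0]
      exact (mul_le_of_le_one_left (nrm_nonneg _) hθ1).trans (nrm_scaleP_le hθ0.le hθ1 _)
    have hgj : ε₀ * g ^ (j + 1) = g * (ε₀ * g ^ j) := by ring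
    refine ⟨(pScale θ p', MvPolynomial.C θ * scaleP θ a'),
      ⟨totalDegree_of_deg ((deg_scaleP (deg_of_totalDegree h1)).C_mul _), lap_pScale p' h2,
        eval_zero_pScale h3, totalDegree_of_deg ((deg_scaleP (deg_of_totalDegree h4)).C_mul _),
        hp''.trans (hbound _), ha''.trans (hbound _), by rw [resP_scale hθ0.ne', hgj]; exact h7, ?_⟩,
      hp'', ha'', ?_⟩
    · have hv1 : v (j + 1) = rescale (v j) 0 θ := by
        simp only [v, rescale_rescale, smul_zero, add_zero, pow_succ]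
      have hin : ∀ y ∈ closedBall (0 : Fin (d + 1) → ℝ) 1, θ • y ∈ closedBall (0 : Fin (d + 1) → ℝ) θ := by
        intro y hy
        simp only [mem_closedBall_zero_iff, norm_smul, Real.norm_of_nonneg hθ0.le] at hy ⊢
        exact mul_le_of_le_one_right hθ0.le hy
      refine ⟨fun y hy => ?_, fun y hy hyc => ?_⟩
      all_goals rw [hv1, apx_pScale hθ0.ne', hgj, rescale, zero_add, ← div_eq_inv_mul, ← sub_div,
        div_le_iff₀ hθ0, mul_comm (g * _) θ, ← mul_assoc]
      · exact h8.1 _ (hin y hy)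
      · rw [hv1, mem_closure_rescale hθ0, zero_add] at hyc
        exact h8.2 _ (hin y hy) hyc
    · rw [show pScale θ p' - pScale θ p = pScale θ (p' - p) by simp only [pScale, map_sub, mul_sub]]
      exact (nrm_pScale_le hθ0 hθ1 (by rw [map_sub, h3, hx.zero, sub_zero])).trans h5
  classical
  choose nx hnx using hnext
  set G : ∀ j, {x : Poly (d + 1) × Poly (d + 1) // Stage (v j) δ η (ε₀ * g ^ j) x.1 x.2 ∧
      nrm x.1 ≤ C * ε₀ * ∑ i ∈ range j, g ^ i ∧ nrm x.2 ≤ C * ε₀ * ∑ i ∈ range j, g ^ i} := fun j =>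
    Nat.rec ⟨(0, 0), ⟨by simp, by simp, by simp, by simp, by simpa using hη.le, by simpa using hη.le,
        by simp [resP, lamP, quadP]; positivity,
        by simpa [show v 0 = u from funext fun y => by simp [v, rescale]] using hcl⟩, by simp, by simp⟩
      (fun j x => ⟨nx j x.1 x.2.1 x.2.2.1 x.2.2.2,
        (hnx j x.1 x.2.1 x.2.2.1 x.2.2.2).1, (hnx j x.1 x.2.1 x.2.2.1 x.2.2.2).2.1,
        (hnx j x.1 x.2.1 x.2.2.1 x.2.2.2).2.2.1⟩) j
  set p : ℕ → Poly (d + 1) := fun j => (G j).1.1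
  have hp : ∀ j, Stage (v j) δ η (ε₀ * g ^ j) (p j) (G j).1.2 := fun j => (G j).2.1
  have hdiff : ∀ j, nrm (p (j + 1) - pScale θ (p j)) ≤ C * (ε₀ * g ^ j) := fun j =>
    (hnx j (G j).1 (G j).2.1 (G j).2.2.1 (G j).2.2.2).2.2.2
  have hp0 : p 0 = 0 := rfl
  set q : ℕ → Poly (d + 1) := fun j => MvPolynomial.C (θ ^ j) * scaleP ((θ ^ j)⁻¹) (p j)
  have hq : ∀ j, (q j).totalDegree ≤ 4 := fun j =>
    totalDegree_of_deg ((deg_scaleP (deg_of_totalDegree (hp j).degp)).C_mul _)
  have hev : ∀ j y, eval y (q j) = θ ^ j * eval ((θ ^ j)⁻¹ • y) (p j) := fun j y => by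
    simp [q, eval_scaleP]
  have hqq : ∀ j, q (j + 1) - q j
      = MvPolynomial.C (θ ^ (j + 1)) * scaleP ((θ ^ (j + 1))⁻¹) (p (j + 1) - pScale θ (p j)) := by
    intro j
    refine MvPolynomial.funext fun y => ?_
    simp only [map_sub, map_mul, eval_C, eval_scaleP, hev, pScale, mul_sub]
    rw [smul_smul, show θ * (θ ^ (j + 1))⁻¹ = (θ ^ j)⁻¹ by rw [pow_succ]; field_simp, ← mul_assoc]
    congr 2
    rw [pow_succ, mul_assoc, mul_inv_cancel₀ hθ0.ne', mul_one]
  have hdd : ∀ j, (p (j + 1) - pScale θ (p j)).totalDegree ≤ 4 := fun j =>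
    totalDegree_of_deg ((deg_of_totalDegree (hp (j + 1)).degp).sub
      ((deg_scaleP (deg_of_totalDegree (hp j).degp)).C_mul _))
  have hinc : ∀ j, nrm (q (j + 1) - q j) ≤ C * ε₀ * θ⁻¹ ^ 3 * t ^ j := by
    intro j
    rw [hqq]
    refine (nrm_C_mul _ _).trans ?_
    rw [abs_of_nonneg (pow_nonneg hθ0.le _)]
    have hsc : nrm (scaleP ((θ ^ (j + 1))⁻¹) (p (j + 1) - pScale θ (p j)))
        ≤ ((θ ^ (j + 1))⁻¹) ^ 4 * (C * (ε₀ * g ^ j)) := by
      conv_lhs => rw [as_sum (p (j + 1) - pScale θ (p j)), map_sum]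
      refine (nrm_sum _ _).trans ?_
      refine le_trans (sum_le_sum fun m hm => ?_) (le_trans (le_of_eq (mul_sum _ _ _).symm)
        (mul_le_mul_of_nonneg_left (hdiff j) (by positivity)))
      rw [scaleP_monomial]
      refine (nrm_monomial_le _ _).trans ?_
      have h1 : 1 ≤ (θ ^ (j + 1))⁻¹ := (one_le_inv₀ (pow_pos hθ0 _)).2 (pow_le_one₀ hθ0.le hθ1)
      rw [abs_mul, abs_of_nonneg (pow_nonneg (zero_le_one.trans h1) _), mul_comm]
      exact mul_le_mul_of_nonneg_right (pow_le_pow_right₀ h1 (degree_le_of_mem (hdd j) hm)) (abs_nonneg _)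
    refine (mul_le_mul_of_nonneg_left hsc (by positivity)).trans (le_of_eq ?_)
    rw [hg, mul_pow, ← pow_mul, inv_pow, inv_pow, ← pow_mul]
    field_simp
    rw [show (j + 1) * 4 = (j + 1) + (3 * j + 3) by ring, pow_add]
    ring
  obtain ⟨Q, hQd, hQv, hQg, hQl, hQn⟩ := exists_poly_limit (K := C * ε₀ * θ⁻¹ ^ 3) ht1 hq hinc
  have hQ0 : eval 0 Q = 0 := tendsto_nhds_unique (hQv 0)
    ((tendsto_const_nhds (x := (0 : ℝ))).congr fun j => by rw [hev, smul_zero, (hp j).zero, mul_zero])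
  have h1t : 0 < 1 - t := by linarith
  have hQlap : lapP Q = 0 := hQl fun j => by
    have h := (hp j).lap
    rw [lapP_apply] at h ⊢
    simp only [q, pderiv_C_mul, pderiv_scaleP, ← mul_sum]
    rw [← map_sum, h, map_zero, mul_zero, mul_zero, mul_zero]
  refine ⟨Q, hQd, hQ0, hQlap, ?_, ?_, fun y hy => ?_⟩
  · refine hQn.trans ?_
    have hq0 : q 0 = 0 := by simp [q, hp0]
    rw [hq0, nrm_zero, zero_add]
    calc C * ε₀ * θ⁻¹ ^ 3 / (1 - t) = C / (1 - t) * (ε₀ * θ⁻¹ ^ 3) := by ring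
      _ ≤ Kf := mul_le_mul (le_add_of_nonneg_right zero_le_one)
          (mul_le_mul_of_nonneg_left (pow_le_pow_right₀ ((one_le_inv₀ hθ0).2 hθ1) (by norm_num)) hε₀.le)
          (by positivity) (by positivity)
  · have hgr : ∀ j i, eval 0 (pderiv i (q j)) = eval 0 (pderiv i (p j)) := fun j i => by
      simp only [q, pderiv_C_mul, pderiv_scaleP, map_mul, eval_C, eval_scaleP, smul_zero]
      rw [← mul_assoc, mul_inv_cancel₀ (pow_ne_zero _ hθ0.ne'), one_mul]
    have hgrad : ∀ (r : Poly (d + 1)) i, pd (apx r) i 0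
        = eval 0 (pderiv i (X (Fin.last d) : Poly (d + 1))) + eval 0 (pderiv i r) := fun r i => by
      rw [show apx r = fun z => eval z (X (Fin.last d) + r) from rfl, pd_eval, map_add, map_add]
    have hlim : Tendsto (fun j => dot (grad (apx (p j)) 0) (grad (apx (p j)) 0)) atTop
        (𝓝 (dot (grad (apx Q) 0) (grad (apx Q) 0))) := by
      simp only [dot, grad, hgrad]
      refine tendsto_finsetSum _ fun i _ => ?_
      have : Tendsto (fun j => eval 0 (pderiv i (X (Fin.last d) : Poly (d + 1))) + eval 0 (pderiv i (p j)))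
          atTop (𝓝 (eval 0 (pderiv i (X (Fin.last d) : Poly (d + 1))) + eval 0 (pderiv i Q))) :=
        ((hQg i 0).congr fun j => hgr j i).const_add _
      exact this.mul this
    refine tendsto_nhds_unique hlim ?_
    refine tendsto_iff_dist_tendsto_zero.2 (squeeze_zero (fun j => dist_nonneg) (fun j => ?_)
      (by simpa using (tendsto_pow_atTop_nhds_zero_of_lt_one hg0.le hg1).const_mul (δ * ε₀)))
    rw [Real.dist_eq, eval_resP (p j) (G j).1.2,
      show apx (p j) 0 = 0 by rw [apx, map_add, (hp j).zero, eval_X, Pi.zero_apply, add_zero], mul_zero, add_zero]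
    refine ((abs_eval_le _ (by simp)).trans (hp j).res).trans (le_of_eq ?_)
    ring
  rcases eq_or_ne y 0 with rfl | hy0
  · have hu0 : u 0 = 0 := u_eq_zero_of_fb hu.min hu.zero
    simp only [apx, hu0, map_add, hQ0, eval_X, Pi.zero_apply, norm_zero, Real.sqrt_zero, mul_zero, add_zero, sub_zero]
    exact ⟨le_rfl, fun _ => le_rfl⟩
  · obtain ⟨j, hj1, hj2⟩ := exists_nat_pow_near_of_lt_one (norm_pos_iff.2 hy0) hy hθ0 (hθ8.trans_lt (by norm_num))
    have hθj : 0 < θ ^ j := pow_pos hθ0 j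
    set E : ℝ := θ ^ j * (ε₀ * g ^ j)
    have hEk : ∀ m, |eval y (q (m + j)) - eval y (q j)| ≤ C * E * θ⁻¹ ^ 3 * ∑ i ∈ range m, t ^ i := by
      intro m
      induction m with
      | zero => simp
      | succ m ih =>
        have h1 : |eval y (q (m + j + 1)) - eval y (q (m + j))| ≤ C * E * θ⁻¹ ^ 3 * t ^ m := by
          rw [← map_sub, hqq, map_mul, eval_C, eval_scaleP, abs_mul, abs_of_pos (pow_pos hθ0 _)]
          have hR : (1 : ℝ) ≤ θ⁻¹ ^ (m + 1) := one_le_pow₀ ((one_le_inv₀ hθ0).2 hθ1)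
          have hy' : ‖(θ ^ (m + j + 1))⁻¹ • y‖ ≤ θ⁻¹ ^ (m + 1) := by
            rw [norm_smul, Real.norm_of_nonneg (by positivity), inv_mul_le_iff₀ (by positivity)]
            refine hj2.trans (le_of_eq ?_)
            rw [show m + j + 1 = j + (m + 1) by ring, pow_add, inv_pow, mul_assoc,
              mul_inv_cancel₀ (pow_ne_zero _ hθ0.ne'), mul_one]
          refine (mul_le_mul_of_nonneg_left ((abs_eval_le_of_deg (hdd (m + j)) hR hy').trans
            (mul_le_mul_of_nonneg_left (hdiff (m + j)) (by positivity))) (by positivity)).trans (le_of_eq ?_)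
          simp only [E, hg, mul_pow, ← pow_mul, inv_pow]
          field_simp
          ring
        calc |eval y (q (m + 1 + j)) - eval y (q j)|
            = |(eval y (q (m + j + 1)) - eval y (q (m + j))) + (eval y (q (m + j)) - eval y (q j))| := by
              rw [sub_add_sub_cancel, add_right_comm m 1 j]
          _ ≤ C * E * θ⁻¹ ^ 3 * t ^ m + C * E * θ⁻¹ ^ 3 * ∑ i ∈ range m, t ^ i :=
              (abs_add_le _ _).trans (add_le_add h1 ih)
          _ = _ := by rw [sum_range_succ]; ring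
    have hE0 : 0 ≤ E := by positivity
    have hQj : |eval y Q - eval y (q j)| ≤ C * E * θ⁻¹ ^ 3 * (1 - t)⁻¹ :=
      le_of_tendsto' ((((hQv y).comp (tendsto_add_atTop_nat j)).sub_const _).abs) fun m => (hEk m).trans
        (mul_le_mul_of_nonneg_left (geomSum_le ht0.le ht1 _) (by positivity))
    set z := (θ ^ j)⁻¹ • y
    have hz : z ∈ closedBall (0 : Fin (d + 1) → ℝ) 1 := by
      rw [mem_closedBall_zero_iff, norm_smul, Real.norm_of_nonneg (by positivity),
        inv_mul_le_iff₀ hθj, mul_one]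
      exact hj2
    have hzy : θ ^ j • z = y := by simp only [z, smul_smul, mul_inv_cancel₀ hθj.ne', one_smul]
    have happ : apx Q y - θ ^ j * apx (p j) z = eval y Q - eval y (q j) := by
      simp only [apx, map_add, eval_X, hev, z, Pi.smul_apply, smul_eq_mul, mul_add]
      field_simp
      ring
    have hvz : θ ^ j * v j z = u y := by
      simp only [v, rescale, zero_add, hzy]; field_simp
    have hEy : E ≤ ε₀ * θ⁻¹ ^ 5 * (‖y‖ ^ 4 * Real.sqrt ‖y‖) := by
      have htj : t ^ j = Real.sqrt (θ ^ j) := ((Real.sqrt_eq_iff_mul_self_eq hθj.le (by positivity)).2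
        (by rw [← mul_pow, Real.mul_self_sqrt hθ0.le])).symm
      have h2 : θ ^ j ≤ θ⁻¹ * ‖y‖ := by
        rw [← div_eq_inv_mul, le_div_iff₀ hθ0, mul_comm, ← pow_succ']; exact hj1.le
      have h3 : t ^ j ≤ θ⁻¹ * Real.sqrt ‖y‖ := by
        rw [htj]
        refine (Real.sqrt_le_sqrt h2).trans ?_
        rw [Real.sqrt_mul (by positivity)]
        refine mul_le_mul_of_nonneg_right (Real.sqrt_le_iff.2 ⟨by positivity, ?_⟩) (Real.sqrt_nonneg _)
        exact le_self_pow₀ ((one_le_inv₀ hθ0).2 hθ1) (by norm_num)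
      calc E = ε₀ * ((θ ^ j) ^ 4 * t ^ j) := by simp only [E, hg, mul_pow]; ring
        _ ≤ ε₀ * ((θ⁻¹ * ‖y‖) ^ 4 * (θ⁻¹ * Real.sqrt ‖y‖)) := mul_le_mul_of_nonneg_left
            (mul_le_mul (pow_le_pow_left₀ hθj.le h2 4) h3 (by positivity) (by positivity)) hε₀.le
        _ = _ := by ring
    have hfin : C * E * θ⁻¹ ^ 3 * (1 - t)⁻¹ + E ≤ Kf * (‖y‖ ^ 4 * Real.sqrt ‖y‖) := by
      have : E ≤ E * θ⁻¹ ^ 3 := le_mul_of_one_le_right hE0 (one_le_pow₀ ((one_le_inv₀ hθ0).2 hθ1))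
      have h5 := mul_le_mul_of_nonneg_left hEy (by positivity : (0 : ℝ) ≤ (C / (1 - t) + 1) * θ⁻¹ ^ 3)
      refine le_trans ?_ (h5.trans (le_of_eq (by simp only [Kf]; ring)))
      rw [div_eq_mul_inv, add_mul, add_mul]
      linarith
    have hQa := abs_le.1 hQj
    refine ⟨?_, fun hyc => ?_⟩
    · have := mul_le_mul_of_nonneg_left ((hp j).close.1 z hz) hθj.le
      rw [mul_sub] at this
      linarith
    · have := mul_le_mul_of_nonneg_left ((hp j).close.2 z hz ((mem_closure_rescale hθj).2 (by simpa [hzy] using hyc))) hθj.le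
      rw [mul_sub] at this
      linarith

end

end Vale.Agent.P098.Reg
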