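import Vale.Agent.P098.Reg.Defs

/-!
# P098: the statements of compactness of minimisers
-/

namespace Vale.Agent.P098.Reg

open MeasureTheory Set Filter Topology
open Vale.Agent.P098.Cone
open scoped NNReal

noncomputable section

/-- Lipschitz functions vanishing at the origin have a pointwise convergent subsequence. -/
def SubseqSpec : Prop :=
  ∀ (d : ℕ) (L : ℝ≥0) (u : ℕ → (Fin d → ℝ) → ℝ), (∀ n, LipschitzWith L (u n)) → (∀ n, u n 0 = 0) →
    ∃ (φ : ℕ → ℕ) (u0 : (Fin d → ℝ) → ℝ), StrictMono φ ∧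
      ∀ y, Tendsto (fun n => u (φ n) y) atTop (𝓝 (u0 y))

/-- A pointwise limit of minimisers is a minimiser, and the energy densities converge almost
everywhere. -/
def LimitSpec : Prop :=
  ∀ (d : ℕ) (L : ℝ≥0) (u : ℕ → (Fin d → ℝ) → ℝ) (u0 : (Fin d → ℝ) → ℝ), (∀ n, LipMin L (u n)) →
    (∀ y, Tendsto (fun n => u n y) atTop (𝓝 (u0 y))) →
      LipMin L u0 ∧ ∀ᵐ x, Tendsto (fun n => dens (u n) x) atTop (𝓝 (dens u0 x))

end

end Vale.Agent.P098.Reg
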