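import Vale.Agent.P098.Reg.LinLimit

/-!
# P098, linearisation: uniformity up to the free boundary by barriers
-/

namespace Vale.Agent.P098.Reg.Lin

open MeasureTheory Set Filter Topology Metric
open Vale.Agent.P098.Cone
open scoped NNReal ContDiff

noncomputable section

section compare

variable {N : ℕ} {u w : (Fin N → ℝ) → ℝ} {K O : Set (Fin N → ℝ)}

theorem hess_sub {f g : (Fin N → ℝ) → ℝ} {x : Fin N → ℝ} (hf : ContDiffAt ℝ 2 f x)
    (hg : ContDiffAt ℝ 2 g x) (i : Fin N) :
    hess (fun y => f y + (-1) * g y) i i x = hess f i i x - hess g i i x := by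
  rw [hess_add hf (contDiffAt_const.mul hg), hess_const_mul hg]
  ring

/-- A strict subsolution below a minimiser on the boundary stays below it. -/
theorem compare_lower (hu : Continuous u) (hn : ∀ y, 0 ≤ u y) (hh : Harm u (pos u))
    (hb : BlowUnit u O) (hK : IsCompact K) (hO : IsOpen O) (hOK : O ⊆ K) (hc : ContinuousOn w K)
    (hbd : ∀ x ∈ K, x ∉ O → w x ≤ u x) (hd : ∀ x ∈ O, ContDiffAt ℝ 2 w x)
    (hlap : ∀ x ∈ O, 0 < ∑ i, hess w i i x)
    (hgrad : ∀ x ∈ O, x ∈ fb u → 1 < dot (grad w x) (grad w x)) :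
    ∀ x ∈ K, w x ≤ u x := by
  by_contra hcon
  push Not at hcon
  obtain ⟨x, hx, hlt⟩ := hcon
  obtain ⟨z, hz, hmax⟩ := hK.exists_isMaxOn ⟨x, hx⟩ (hc.sub hu.continuousOn)
  have hm : 0 < w z - u z := lt_of_lt_of_le (sub_pos.2 hlt) (hmax hx)
  have hzO : z ∈ O := by_contra fun h => by linarith [hbd z hz h]
  have hloc : ∀ᶠ y in 𝓝 z, w y - u y ≤ w z - u z := by
    filter_upwards [hO.mem_nhds hzO] with y hy using hmax (hOK hy)
  by_cases hp : 0 < u z
  · have hu2 : ContDiffAt ℝ 2 u z := harm_contDiffAt hh (isOpen_lt continuous_const hu) hp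
    have hle := laplacian_nonpos ((hd z hzO).add (contDiffAt_const.mul hu2))
      (show IsLocalMax (fun y => w y + (-1) * u y) z by
        filter_upwards [hloc] with y hy using by linarith)
    simp only [hess_sub (hd z hzO) hu2, Finset.sum_sub_distrib, hh.2 z hp, sub_zero] at hle
    exact absurd hle (not_le.2 (hlap z hzO))
  · have hz0 : u z = 0 := le_antisymm (not_lt.1 hp) (hn z)
    by_cases hfb : z ∈ fb u
    · obtain ⟨e, r, he, hr, hr0, hlim⟩ := hb z ⟨hzO, hfb⟩
      refine absurd (touch_lower he hr hr0 hlim ((hd z hzO).differentiableAt (by norm_num)) ?_)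
        (not_le.2 (hgrad z hzO hfb))
      filter_upwards [hloc] with y hy using by linarith
    · refine absurd (laplacian_nonpos (hd z hzO) ?_) (not_le.2 (hlap z hzO))
      filter_upwards [hloc, eventually_zero hn hp hfb] with y hy hy0 using by linarith

/-- A strict supersolution above a minimiser on the boundary stays above it on the closure of the
positivity set. -/
theorem compare_upper (hu : Continuous u) (hn : ∀ y, 0 ≤ u y) (hh : Harm u (pos u))
    (hb : BlowUnit u O) (hK : IsCompact K) (hO : IsOpen O) (hOK : O ⊆ K) (hc : ContinuousOn w K)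
    (hbd : ∀ x ∈ K, x ∈ closure (pos u) → x ∉ O → u x ≤ w x) (hd : ∀ x ∈ O, ContDiffAt ℝ 2 w x)
    (hlap : ∀ x ∈ O, ∑ i, hess w i i x < 0)
    (hgrad : ∀ x ∈ O, x ∈ fb u → dot (grad w x) (grad w x) < 1) :
    ∀ x ∈ K, x ∈ closure (pos u) → u x ≤ w x := by
  by_contra hcon
  push Not at hcon
  obtain ⟨x, hx, hxc, hlt⟩ := hcon
  obtain ⟨z, hz, hmax⟩ := (hK.inter_right isClosed_closure).exists_isMaxOn ⟨x, hx, hxc⟩
    ((hu.continuousOn.sub hc).mono inter_subset_left)
  have hm : 0 < u z - w z := lt_of_lt_of_le (sub_pos.2 hlt) (hmax ⟨hx, hxc⟩)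
  have hzO : z ∈ O := by_contra fun h => by linarith [hbd z hz.1 hz.2 h]
  have hloc : ∀ᶠ y in 𝓝 z, 0 < u y → u y - w y ≤ u z - w z := by
    filter_upwards [hO.mem_nhds hzO] with y hy hyp using hmax ⟨hOK hy, subset_closure hyp⟩
  by_cases hp : 0 < u z
  · have hu2 : ContDiffAt ℝ 2 u z := harm_contDiffAt hh (isOpen_lt continuous_const hu) hp
    have hle := laplacian_nonpos (hu2.add (contDiffAt_const.mul (hd z hzO)))
      (show IsLocalMax (fun y => u y + (-1) * w y) z by
        filter_upwards [hloc, pos_mem_nhds hu hp] with y hy hyp using by linarith [hy hyp])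
    simp only [hess_sub hu2 (hd z hzO), Finset.sum_sub_distrib, hh.2 z hp, zero_sub] at hle
    linarith [hlap z hzO]
  · have hz0 : u z = 0 := le_antisymm (not_lt.1 hp) (hn z)
    have hfb : z ∈ fb u := ⟨hz.2, fun hi => hp (interior_subset hi : z ∈ pos u)⟩
    obtain ⟨e, r, he, hr, hr0, hlim⟩ := hb z ⟨hzO, hfb⟩
    refine absurd (touch_upper he hr hr0 hlim ((hd z hzO).differentiableAt (by norm_num)) ?_)
      (not_le.2 (hgrad z hzO hfb))
    filter_upwards [hloc] with y hy hyp using by linarith [hy hyp]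

end compare

variable {d : ℕ}

/-- The quadratic part of the barrier centred at `a`. -/
def bar (γ : ℝ) (a x : Fin (d + 1) → ℝ) : ℝ :=
  -γ + ∑ i, (if i = Fin.last d then 400 * (d : ℝ) else -200) * (x i - a i) ^ 2 + x (Fin.last d)

theorem contDiff_bar (γ : ℝ) (a : Fin (d + 1) → ℝ) : ContDiff ℝ ∞ (bar γ a) := by
  unfold bar
  fun_prop

theorem pd_bar (γ : ℝ) (a x : Fin (d + 1) → ℝ) (i : Fin (d + 1)) :
    pd (bar γ a) i x = 2 * (if i = Fin.last d then 400 * (d : ℝ) else -200) * (x i - a i)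
      + if i = Fin.last d then 1 else 0 := by
  have hd1 : ∀ j, DifferentiableAt ℝ (fun y : Fin (d + 1) → ℝ => y j - a j) x := fun j => by fun_prop
  have hd2 : ∀ j, DifferentiableAt ℝ
      (fun y : Fin (d + 1) → ℝ => (if j = Fin.last d then 400 * (d : ℝ) else -200) * (y j - a j) ^ 2) x :=
    fun j => ((hd1 j).pow 2).const_mul _
  have e : ∀ j, pd (fun y : Fin (d + 1) → ℝ =>
      (if j = Fin.last d then 400 * (d : ℝ) else -200) * (y j - a j) ^ 2) i x
      = if j = i then 2 * (if i = Fin.last d then 400 * (d : ℝ) else -200) * (x i - a i) else 0 := by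
    intro j
    simp only [sq]
    rw [pd_const_mul ((hd1 j).fun_mul (hd1 j)), pd_mul (hd1 j) (hd1 j),
      pd_sub (differentiableAt_apply j x) (differentiableAt_const _), pd_const, pd_coord]
    rcases eq_or_ne j i with rfl | h
    · simp; ring
    · simp [h, Ne.symm h]
  have hds : DifferentiableAt ℝ
      (fun y => -γ + ∑ j, (if j = Fin.last d then 400 * (d : ℝ) else -200) * (y j - a j) ^ 2) x :=
    (differentiableAt_const _).add (DifferentiableAt.fun_sum fun j _ => hd2 j)
  rw [show bar γ a = fun y => (-γ + ∑ j, (if j = Fin.last d then 400 * (d : ℝ) else -200) * (y j - a j) ^ 2)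
      + y (Fin.last d) from rfl,
    pd_add hds (differentiableAt_apply _ x),
    pd_add (differentiableAt_const _) (DifferentiableAt.fun_sum fun j _ => hd2 j), pd_const,
    pd_sum _ (fun j _ => hd2 j), Finset.sum_congr rfl fun j _ => e j, pd_coord]
  simp

theorem lap_bar (γ : ℝ) (a x : Fin (d + 1) → ℝ) : ∑ i, hess (bar γ a) i i x = 400 * (d : ℝ) := by
  have e : ∀ i, hess (bar γ a) i i x = 2 * (if i = Fin.last d then 400 * (d : ℝ) else -200) := by
    intro i
    show pd (fun y => pd (bar γ a) i y) i x = _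
    simp only [pd_bar]
    rw [pd_add ((DifferentiableAt.const_mul (by fun_prop) _)) (differentiableAt_const _), pd_const,
      pd_const_mul (by fun_prop), pd_sub (differentiableAt_apply i x) (differentiableAt_const _),
      pd_const, pd_coord]
    simp
  rw [Finset.sum_congr rfl fun i _ => e i, Fin.sum_univ_castSucc]
  simp only [Fin.castSucc_ne_last, if_false, if_true, Finset.sum_const, Finset.card_univ, Fintype.card_fin,
    nsmul_eq_mul]
  ring

/-- The cylinder of radius `1 / 8` and half height `δ` centred at `a` on the plane. -/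
def cyl (δ : ℝ) (a : Fin (d + 1) → ℝ) : Set (Fin (d + 1) → ℝ) :=
  univ.pi fun i => if i = Fin.last d then Icc (-δ) δ else Icc (a i - 1 / 8) (a i + 1 / 8)

/-- Its interior. -/
def cylO (δ : ℝ) (a : Fin (d + 1) → ℝ) : Set (Fin (d + 1) → ℝ) :=
  univ.pi fun i => if i = Fin.last d then Ioo (-δ) δ else Ioo (a i - 1 / 8) (a i + 1 / 8)

theorem isCompact_cyl (δ : ℝ) (a : Fin (d + 1) → ℝ) : IsCompact (cyl δ a) :=
  isCompact_univ_pi fun i => by by_cases h : i = Fin.last d <;> simp only [h, if_true, if_false] <;>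
    exact isCompact_Icc

theorem isOpen_cylO (δ : ℝ) (a : Fin (d + 1) → ℝ) : IsOpen (cylO δ a) :=
  isOpen_set_pi finite_univ fun i _ => by by_cases h : i = Fin.last d <;>
    simp only [h, if_true, if_false] <;> exact isOpen_Ioo

theorem cylO_subset (δ : ℝ) (a : Fin (d + 1) → ℝ) : cylO δ a ⊆ cyl δ a :=
  pi_mono fun i _ => by by_cases h : i = Fin.last d <;> simp only [h, if_true, if_false] <;>
    exact Ioo_subset_Icc_self

theorem cyl_subset {δ : ℝ} (hδ : δ ≤ 3 / 8) {a : Fin (d + 1) → ℝ} (ha : ‖a‖ ≤ 1 / 4) :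
    cyl δ a ⊆ closedBall 0 (3 / 8) := by
  intro x hx
  rw [mem_closedBall_zero_iff, pi_norm_le_iff_of_nonneg (by norm_num)]
  intro i
  have h1 := hx i (mem_univ i)
  have h2 := abs_le.1 (le_trans (by simpa using norm_le_pi_norm a i : |a i| ≤ ‖a‖) ha)
  rw [Real.norm_eq_abs, abs_le]
  by_cases h : i = Fin.last d
  · simp only [h, if_true] at h1 ⊢
    exact ⟨by linarith [h1.1], by linarith [h1.2]⟩
  · simp only [h, if_false] at h1
    exact ⟨by linarith [h1.1], by linarith [h1.2]⟩

/-- The barrier on the boundary of the cylinder. -/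
theorem bar_boundary {γ δ : ℝ} (hγ : 0 ≤ γ) (hδ1 : 400 * (d : ℝ) * δ ≤ 1 / 8) (hδ2 : δ ≤ γ / 8)
    (hδ0 : 0 < δ) {a x : Fin (d + 1) → ℝ} (ha : a (Fin.last d) = 0) (hx : x ∈ cyl δ a) :
    bar γ a x ≤ -γ + 9 / 8 * δ ∧
      (x ∉ cylO δ a → x (Fin.last d) = δ ∨ x (Fin.last d) = -δ ∨ bar γ a x ≤ -(25 / 8) + 9 / 8 * δ) := by
  have hl := hx (Fin.last d) (mem_univ _)
  simp only [if_true] at hl
  have hq : 400 * (d : ℝ) * (x (Fin.last d)) ^ 2 ≤ 1 / 8 * δ := by
    have h1 : x (Fin.last d) ^ 2 ≤ δ ^ 2 := sq_le_sq' (by linarith [hl.1]) hl.2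
    have := mul_le_mul_of_nonneg_left h1 (show (0 : ℝ) ≤ 400 * d by positivity)
    nlinarith
  have e : bar γ a x = -γ + 400 * (d : ℝ) * x (Fin.last d) ^ 2 + x (Fin.last d)
      - 200 * ∑ i : Fin d, (x i.castSucc - a i.castSucc) ^ 2 := by
    rw [bar, Fin.sum_univ_castSucc]
    simp only [Fin.castSucc_ne_last, if_false, if_true, ha, sub_zero, ← Finset.mul_sum]
    ring
  have hs : 0 ≤ ∑ i : Fin d, (x i.castSucc - a i.castSucc) ^ 2 := Finset.sum_nonneg fun i _ => sq_nonneg _
  refine ⟨by rw [e]; linarith [hl.2], fun hn => ?_⟩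
  simp only [cylO, mem_univ_pi, not_forall] at hn
  obtain ⟨i, hi⟩ := hn
  by_cases h : i = Fin.last d
  · subst h
    simp only [if_true, mem_Ioo, not_and_or, not_lt] at hi
    rcases hi with hi | hi
    · exact .inr (.inl (le_antisymm hi hl.1))
    · exact .inl (le_antisymm hl.2 hi)
  · obtain ⟨j, rfl⟩ : ∃ j : Fin d, j.castSucc = i := Fin.exists_castSucc_eq.2 h
    have hj := hx j.castSucc (mem_univ _)
    simp only [Fin.castSucc_ne_last, if_false] at hj hi
    simp only [mem_Ioo, not_and_or, not_lt] at hi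
    have h8 : (1 / 8 : ℝ) ^ 2 ≤ (x j.castSucc - a j.castSucc) ^ 2 := by
      rcases hi with hi | hi <;> nlinarith [hj.1, hj.2]
    have := le_trans h8 (Finset.single_le_sum (f := fun i : Fin d => (x i.castSucc - a i.castSucc) ^ 2)
      (fun i _ => sq_nonneg _) (Finset.mem_univ j))
    refine .inr (.inr ?_)
    rw [e]
    nlinarith [hl.2]

theorem grad_pert {N : ℕ} {P g : (Fin N → ℝ) → ℝ} {x : Fin N → ℝ} (hP : DifferentiableAt ℝ P x)
    (hg : DifferentiableAt ℝ g x) (ε : ℝ) :
    dot (grad (fun y => P y + ε * g y) x) (grad (fun y => P y + ε * g y) x)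
      = dot (grad P x) (grad P x) + 2 * ε * dot (grad P x) (grad g x) + ε ^ 2 * dot (grad g x) (grad g x) := by
  simp only [dot, grad, pd_add hP (hg.const_mul ε), pd_const_mul hg, Finset.mul_sum, ← Finset.sum_add_distrib]
  exact Finset.sum_congr rfl fun i _ => by ring

theorem lap_pert {N : ℕ} {P g : (Fin N → ℝ) → ℝ} {x : Fin N → ℝ} (hP : ContDiffAt ℝ 2 P x)
    (hg : ContDiffAt ℝ 2 g x) (ε : ℝ) :
    ∑ i, hess (fun y => P y + ε * g y) i i x = (∑ i, hess P i i x) + ε * ∑ i, hess g i i x := by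
  rw [Finset.mul_sum, ← Finset.sum_add_distrib]
  exact Finset.sum_congr rfl fun i _ => by rw [hess_add hP (contDiffAt_const.mul hg), hess_const_mul hg]

/-- The vertical derivative of an even harmonic function is small near the plane. -/
theorem vertical_small {h : (Fin (d + 1) → ℝ) → ℝ} (hH : Harm h (ball 0 (7 / 10)))
    (heven : ∀ x ∈ ball (0 : Fin (d + 1) → ℝ) (7 / 10), h (refl x) = h x) :
    ∃ δ : ℝ, 0 < δ ∧ ∀ x ∈ closedBall (0 : Fin (d + 1) → ℝ) (3 / 8), |x (Fin.last d)| < δ →
      |pd h (Fin.last d) x| ≤ 1 / 8 := by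
  set e := Fin.last d with he
  set B0 := closedBall (0 : Fin (d + 1) → ℝ) (3 / 8) with hB0
  have hB0s : B0 ⊆ ball 0 (7 / 10) := closedBall_subset_ball (by norm_num)
  obtain ⟨δ1, hδ1, hδ1'⟩ := Metric.uniformContinuousOn_iff.1
    ((isCompact_closedBall 0 (3 / 8)).uniformContinuousOn_of_continuous
      ((contDiffOn_pd hH.1 isOpen_ball e).continuousOn.mono hB0s)) (1 / 8) (by norm_num)
  refine ⟨δ1, hδ1, fun x hx hxe => ?_⟩
  set p := Function.update x e 0 with hp
  have hpB : p ∈ B0 := by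
    rw [hB0, mem_closedBall_zero_iff, pi_norm_le_iff_of_nonneg (by norm_num)]
    intro i
    rcases eq_or_ne i e with rfl | hi
    · simp [hp]; norm_num
    · rw [hp, Function.update_of_ne hi]
      exact (norm_le_pi_norm x i).trans (mem_closedBall_zero_iff.1 hx)
  have hz : pd h e p = 0 := by
    have h1 := pd_comp_refl (f := h) (x := p) (by
      rw [refl_eq_self (by simp [hp, he])]
      exact differentiableAt_of_smooth hH.1 isOpen_ball (hB0s hpB)) e
    rw [pd_congr (g := h) (by
      filter_upwards [isOpen_ball.mem_nhds (hB0s hpB)] with y hy using heven y hy) e,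
      refl_eq_self (by simp [hp, he])] at h1
    simp only [sgn, he, if_true, neg_one_mul] at h1
    rw [he]; linarith
  have hdist : dist x p < δ1 := by
    refine lt_of_le_of_lt ((dist_pi_le_iff (abs_nonneg (x e))).2 fun i => ?_) hxe
    rcases eq_or_ne i e with rfl | hi
    · simp [hp]
    · simp [hp, Function.update_of_ne hi]
  have := hδ1' x hx p hpB hdist
  rw [Real.dist_eq, hz, sub_zero] at this
  exact this.le

/-- The gradient of the perturbation in the cylinder. -/
theorem pert_grad {h : (Fin (d + 1) → ℝ) → ℝ} {γ δ η H : ℝ} {a x G : Fin (d + 1) → ℝ} {s : ℝ}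
    (hs : |s| = 1) (hh : DifferentiableAt ℝ h x) (hHb : ∀ i, |pd h i x| ≤ H)
    (he : |pd h (Fin.last d) x| ≤ 1 / 8) (hδ : δ ≤ 1 / 4) (hδ' : 800 * (d : ℝ) * δ ≤ 1 / 8)
    (ha : a (Fin.last d) = 0) (hx : x ∈ cyl δ a)
    (hG : ∀ i, |G i - if i = Fin.last d then 1 else 0| ≤ η)
    (hη : ((d : ℝ) + 1) * (η * (H + (800 * (d : ℝ) + 400) + 1)) ≤ 1 / 4) :
    |dot G (grad (fun y => h y + s * bar γ a y) x) - s| ≤ 1 / 2 ∧
      dot (grad (fun y => h y + s * bar γ a y) x) (grad (fun y => h y + s * bar γ a y) x)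
        ≤ ((d : ℝ) + 1) * (H + (800 * (d : ℝ) + 400) + 1) ^ 2 := by
  set B := H + (800 * (d : ℝ) + 400) + 1 with hB
  set D := grad (fun y => h y + s * bar γ a y) x with hDdef
  have hd' : (0 : ℝ) ≤ d := Nat.cast_nonneg d
  have hη0 : 0 ≤ η := (abs_nonneg _).trans (hG (Fin.last d))
  have hD : ∀ i, D i = pd h i x + s * pd (bar γ a) i x := fun i => by
    have := (contDiff_bar γ a).differentiable (by simp) x
    show pd (fun y => h y + s * bar γ a y) i x = _
    rw [pd_add hh (this.const_mul s), pd_const_mul this]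
  have hxa : ∀ i, |x i - a i| ≤ 1 / 4 := by
    intro i
    have h1 := hx i (mem_univ i)
    by_cases hi : i = Fin.last d
    · subst hi
      simp only [if_true] at h1
      rw [ha, sub_zero, abs_le]
      exact ⟨by linarith [h1.1], by linarith [h1.2]⟩
    · simp only [hi, if_false] at h1
      rw [abs_le]
      exact ⟨by linarith [h1.1], by linarith [h1.2]⟩
  have hbar : ∀ i, |pd (bar γ a) i x| ≤ 800 * (d : ℝ) + 400 + 1 := by
    intro i
    rw [pd_bar]
    have h3 := abs_le.1 (hxa i)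
    have m1 := mul_le_mul_of_nonneg_left h3.1 hd'
    have m2 := mul_le_mul_of_nonneg_left h3.2 hd'
    by_cases hi : i = Fin.last d <;> simp only [hi, if_true, if_false] <;> rw [abs_le]
    · subst hi
      constructor <;> linarith
    · constructor <;> linarith
  have hDB : ∀ i, |D i| ≤ B := fun i => by
    rw [hD i]
    refine (abs_add_le _ _).trans ?_
    rw [abs_mul, hs, one_mul, hB]
    linarith [hHb i, hbar i]
  constructor
  · have e1 : dot G D - s = (∑ i, (G i - if i = Fin.last d then 1 else 0) * D i) + (D (Fin.last d) - s) := by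
      simp only [sub_mul, Finset.sum_sub_distrib, ite_mul, one_mul, zero_mul, Finset.sum_ite_eq',
        Finset.mem_univ, if_true, dot]
      ring
    rw [e1]
    refine (abs_add_le _ _).trans ?_
    have h1 : |∑ i, (G i - if i = Fin.last d then 1 else 0) * D i| ≤ 1 / 4 := by
      refine (Finset.abs_sum_le_sum_abs _ _).trans (le_trans ?_ hη)
      calc ∑ i, |(G i - if i = Fin.last d then 1 else 0) * D i| ≤ ∑ _i : Fin (d + 1), η * B :=
            Finset.sum_le_sum fun i _ => by
              rw [abs_mul]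
              exact mul_le_mul (hG i) (hDB i) (abs_nonneg _) hη0
        _ = _ := by simp
    have h2 : |D (Fin.last d) - s| ≤ 1 / 4 := by
      rw [hD, pd_bar, if_pos rfl, if_pos rfl, ha, sub_zero,
        show pd h (Fin.last d) x + s * (2 * (400 * (d : ℝ)) * x (Fin.last d) + 1) - s
          = pd h (Fin.last d) x + s * (800 * d * x (Fin.last d)) by ring]
      refine (abs_add_le _ _).trans ?_
      have h1 := hx (Fin.last d) (mem_univ _)
      simp only [if_true] at h1
      rw [abs_mul, hs, one_mul, abs_mul, abs_of_nonneg (show (0 : ℝ) ≤ 800 * d by positivity)]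
      have := mul_le_mul_of_nonneg_left (abs_le.2 h1) (show (0 : ℝ) ≤ 800 * d by positivity)
      linarith
    linarith
  · have hB0 : 0 ≤ B := (abs_nonneg _).trans (hDB (Fin.last d))
    refine (Finset.sum_le_sum fun i _ => show D i * D i ≤ B * B from ?_).trans (le_of_eq ?_)
    · rw [← abs_mul_abs_self]; exact mul_le_mul (hDB i) (hDB i) (abs_nonneg _) hB0
    · rw [Finset.sum_const, Finset.card_univ, Fintype.card_fin, nsmul_eq_mul]
      push_cast
      ring

/-- What is used of one minimiser and of the limit near the plane. -/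
structure Slab (L : ℝ≥0) (u P h : (Fin (d + 1) → ℝ) → ℝ) (ε σ γ δ B : ℝ) : Prop where
  near : Near L u P ε σ
  harm : Harm u (pos u)
  blow : BlowUnit u box
  lim_harm : Harm h (ball 0 (7 / 10))
  lim_le : ∀ x ∈ ball (0 : Fin (d + 1) → ℝ) (7 / 10), |h x| ≤ 1
  dim : 1 ≤ d
  gam : 0 < γ
  del : 0 < δ
  del_le : δ ≤ γ / 8
  del_le' : δ ≤ 1 / 100
  del_d : 400 * (d : ℝ) * δ ≤ 1 / 8
  sig : σ ≤ ε / 4
  corr_le : ∀ x ∈ closedBall (0 : Fin (d + 1) → ℝ) (3 / 8), δ ≤ x (Fin.last d) →
    |(u x - P x) - ε * h x| ≤ γ / 4 * ε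
  low : ∀ x ∈ closedBall (0 : Fin (d + 1) → ℝ) (3 / 8), x (Fin.last d) ≤ -δ → P x + ε * 4 ≤ 0
  below : ∀ x ∈ box, x ∈ closure (pos u) → -δ < x (Fin.last d)
  grads : ∀ s : ℝ, |s| = 1 → ∀ (a x : Fin (d + 1) → ℝ), a (Fin.last d) = 0 →
    x ∈ closedBall (0 : Fin (d + 1) → ℝ) (3 / 8) → x ∈ cyl δ a →
    |dot (grad P x) (grad (fun y => h y + s * bar γ a y) x) - s| ≤ 1 / 2 ∧
      dot (grad (fun y => h y + s * bar γ a y) x) (grad (fun y => h y + s * bar γ a y) x) ≤ B
  small : ε * B ≤ 1 / 4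

variable {L : ℝ≥0}

theorem Slab.smooth {u P h : (Fin (d + 1) → ℝ) → ℝ} {ε σ γ δ B : ℝ} (S : Slab L u P h ε σ γ δ B)
    (s : ℝ) (a : Fin (d + 1) → ℝ) {x : Fin (d + 1) → ℝ} (hx : x ∈ closedBall 0 (3 / 8)) :
    ContDiffAt ℝ 2 P x ∧ ContDiffAt ℝ 2 (fun y => h y + s * bar γ a y) x ∧
      ContDiffAt ℝ 2 (fun y => P y + ε * (h y + s * bar γ a y)) x ∧
      ∑ i, hess (fun y => P y + ε * (h y + s * bar γ a y)) i i x = ε * (s * (400 * d)) := by
  have hxs := closedBall_subset_ball (show (3 / 8 : ℝ) < 7 / 10 by norm_num) hx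
  have hP : ContDiffAt ℝ 2 P x := S.near.contDiff.contDiffAt.of_le (WithTop.coe_le_coe.2 le_top)
  have hhc : ContDiffAt ℝ 2 h x := harm_contDiffAt S.lim_harm isOpen_ball hxs
  have hbc : ContDiffAt ℝ 2 (bar γ a) x :=
    (contDiff_bar γ a).contDiffAt.of_le (WithTop.coe_le_coe.2 le_top)
  have hg : ContDiffAt ℝ 2 (fun y => h y + s * bar γ a y) x := hhc.add (contDiffAt_const.mul hbc)
  refine ⟨hP, hg, hP.add (contDiffAt_const.mul hg), ?_⟩
  rw [lap_pert hP hg, show ∑ i, hess P i i x = 0 from S.near.harm.2 x (mem_univ x),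
    lap_pert hhc hbc, S.lim_harm.2 x hxs, lap_bar]
  ring

theorem Slab.bdry {u P h : (Fin (d + 1) → ℝ) → ℝ} {ε σ γ δ B : ℝ} (S : Slab L u P h ε σ γ δ B)
    {a x : Fin (d + 1) → ℝ} (ha0 : a (Fin.last d) = 0) (hx : x ∈ cyl δ a) (hn : x ∉ cylO δ a) :
    (x (Fin.last d) = δ ∧ bar γ a x ≤ -(3 / 4 * γ)) ∨ x (Fin.last d) = -δ ∨ bar γ a x ≤ -2 := by
  obtain ⟨b1, b2⟩ := bar_boundary S.gam.le S.del_d S.del_le S.del ha0 hx
  rcases b2 hn with c | c | c
  · exact .inl ⟨c, by linarith [S.del_le, S.gam]⟩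
  · exact .inr (.inl c)
  · exact .inr (.inr (by linarith [S.del_le']))

theorem Slab.lower {u P h : (Fin (d + 1) → ℝ) → ℝ} {ε σ γ δ B : ℝ} (S : Slab L u P h ε σ γ δ B)
    {a : Fin (d + 1) → ℝ} (ha : ‖a‖ ≤ 1 / 4) (ha0 : a (Fin.last d) = 0) :
    ∀ x ∈ cyl δ a, P x + ε * (h x + bar γ a x) ≤ u x := by
  have hcs := cyl_subset (show δ ≤ 3 / 8 by linarith [S.del_le']) ha
  have hob : cylO δ a ⊆ closedBall 0 (3 / 8) := (cylO_subset δ a).trans hcs
  have hB0b : closedBall (0 : Fin (d + 1) → ℝ) (3 / 8) ⊆ box := closedBall_subset_closedBall (by norm_num)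
  have hεp := S.near.eps_pos
  have key := compare_lower (w := fun y => P y + ε * (h y + 1 * bar γ a y)) S.near.continuous
    S.near.min.nonneg S.harm (fun x hx => S.blow x ⟨hB0b (hob hx.1), hx.2⟩) (isCompact_cyl δ a)
    (isOpen_cylO δ a) (cylO_subset δ a)
    (fun x hx => (S.smooth 1 a (hcs hx)).2.2.1.continuousAt.continuousWithinAt)
    (fun x hx hn => by
      have hxB := hcs hx
      have hhx := abs_le.1 (S.lim_le x (closedBall_subset_ball (by norm_num) hxB))
      rw [one_mul]
      rcases S.bdry ha0 hx hn with ⟨c, hb2⟩ | c | c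
      · have hc := (abs_le.1 (S.corr_le x hxB c.ge)).1
        nlinarith [mul_le_mul_of_nonneg_left hb2 hεp.le, S.gam]
      · have := S.low x hxB c.le
        have b1 := (bar_boundary S.gam.le S.del_d S.del_le S.del ha0 hx).1
        have := S.near.min.nonneg x
        have := mul_le_mul_of_nonneg_left
          (show h x + bar γ a x ≤ 4 by linarith [S.del_le', S.gam]) hεp.le
        linarith
      · have := S.near.close.1 x (hB0b hxB)
        have := mul_le_mul_of_nonneg_left (show h x + bar γ a x ≤ -1 by linarith) hεp.le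
        linarith)
    (fun x hx => (S.smooth 1 a (hob hx)).2.2.1)
    (fun x hx => by
      rw [(S.smooth 1 a (hob hx)).2.2.2]
      have : (1 : ℝ) ≤ d := by exact_mod_cast S.dim
      positivity)
    (fun x hx hfb => by
      obtain ⟨g1, -⟩ := S.grads 1 abs_one a x ha0 (hob hx) (cylO_subset δ a hx)
      obtain ⟨hP, hg, -, -⟩ := S.smooth 1 a (hob hx)
      rw [grad_pert (hP.differentiableAt (by norm_num)) (hg.differentiableAt (by norm_num))]
      have r1 := (abs_le.1 (S.near.res x (hB0b (hob hx)) hfb)).1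
      have r2 := mul_le_mul_of_nonneg_left (abs_le.1 g1).1 hεp.le
      have r3 := mul_nonneg (sq_nonneg ε) (dot_self_nonneg (grad (fun y => h y + 1 * bar γ a y) x))
      linarith [S.sig])
  intro x hx
  have := key x hx
  rwa [one_mul] at this

theorem Slab.upper {u P h : (Fin (d + 1) → ℝ) → ℝ} {ε σ γ δ B : ℝ} (S : Slab L u P h ε σ γ δ B)
    {a : Fin (d + 1) → ℝ} (ha : ‖a‖ ≤ 1 / 4) (ha0 : a (Fin.last d) = 0) :
    ∀ x ∈ cyl δ a, x ∈ closure (pos u) → u x ≤ P x + ε * (h x + (-1) * bar γ a x) := by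
  have hcs := cyl_subset (show δ ≤ 3 / 8 by linarith [S.del_le']) ha
  have hob : cylO δ a ⊆ closedBall 0 (3 / 8) := (cylO_subset δ a).trans hcs
  have hB0b : closedBall (0 : Fin (d + 1) → ℝ) (3 / 8) ⊆ box := closedBall_subset_closedBall (by norm_num)
  have hεp := S.near.eps_pos
  have hm1 : |(-1 : ℝ)| = 1 := by norm_num
  exact compare_upper (w := fun y => P y + ε * (h y + (-1) * bar γ a y)) S.near.continuous
    S.near.min.nonneg S.harm (fun x hx => S.blow x ⟨hB0b (hob hx.1), hx.2⟩) (isCompact_cyl δ a)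
    (isOpen_cylO δ a) (cylO_subset δ a)
    (fun x hx => (S.smooth (-1) a (hcs hx)).2.2.1.continuousAt.continuousWithinAt)
    (fun x hx hxc hn => by
      have hxB := hcs hx
      have hhx := abs_le.1 (S.lim_le x (closedBall_subset_ball (by norm_num) hxB))
      rcases S.bdry ha0 hx hn with ⟨c, hb2⟩ | c | c
      · have hc := (abs_le.1 (S.corr_le x hxB c.ge)).2
        nlinarith [mul_le_mul_of_nonneg_left hb2 hεp.le, S.gam]
      · exact absurd c (ne_of_gt (S.below x (hB0b hxB) hxc))
      · have := S.near.close.2 x (hB0b hxB) hxc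
        have := mul_le_mul_of_nonneg_left (show (1 : ℝ) ≤ h x + (-1) * bar γ a x by linarith) hεp.le
        linarith)
    (fun x hx => (S.smooth (-1) a (hob hx)).2.2.1)
    (fun x hx => by
      rw [(S.smooth (-1) a (hob hx)).2.2.2]
      have : (1 : ℝ) ≤ d := by exact_mod_cast S.dim
      linarith [mul_pos hεp (show (0 : ℝ) < 400 * d by positivity)])
    (fun x hx hfb => by
      obtain ⟨g1, g2⟩ := S.grads (-1) hm1 a x ha0 (hob hx) (cylO_subset δ a hx)
      obtain ⟨hP, hg, -, -⟩ := S.smooth (-1) a (hob hx)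
      rw [grad_pert (hP.differentiableAt (by norm_num)) (hg.differentiableAt (by norm_num))]
      have r1 := (abs_le.1 (S.near.res x (hB0b (hob hx)) hfb)).2
      have r2 := mul_le_mul_of_nonneg_left (abs_le.1 g1).2 hεp.le
      have r3 := mul_le_mul_of_nonneg_left g2 (sq_nonneg ε)
      have r4 := mul_le_mul_of_nonneg_left S.small hεp.le
      nlinarith [S.sig])

theorem Slab.close {u P h : (Fin (d + 1) → ℝ) → ℝ} {ε σ γ δ B : ℝ} (S : Slab L u P h ε σ γ δ B) :
    Close u (fun x => P x + ε * h x) (2 * γ * ε) (closedBall 0 (1 / 4)) := by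
  set e := Fin.last d with he
  have hεp := S.near.eps_pos
  have hbx : ∀ x ∈ closedBall (0 : Fin (d + 1) → ℝ) (1 / 4), |x e| ≤ δ →
      ‖Function.update x e 0‖ ≤ 1 / 4 ∧ Function.update x e 0 e = 0 ∧
        x ∈ cyl δ (Function.update x e 0) ∧ -γ - δ ≤ bar γ (Function.update x e 0) x := by
    intro x hx hxe
    have hxn := mem_closedBall_zero_iff.1 hx
    refine ⟨(pi_norm_le_iff_of_nonneg (by norm_num)).2 fun i => ?_, Function.update_self _ _ _,
      fun i _ => ?_, ?_⟩
    · rcases eq_or_ne i e with rfl | hi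
      · simp
      · rw [Function.update_of_ne hi]; exact (norm_le_pi_norm x i).trans hxn
    · by_cases hi : i = Fin.last d
      · subst hi; simp only [if_true]; exact abs_le.1 hxe
      · simp only [hi, if_false, Function.update_of_ne (he ▸ hi : i ≠ e)]
        exact ⟨by linarith, by linarith⟩
    · have hs : ∑ i, (if i = Fin.last d then 400 * (d : ℝ) else -200)
          * (x i - Function.update x e 0 i) ^ 2 = 400 * d * x e ^ 2 := by
        rw [Finset.sum_eq_single e]
        · simp [he]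
        · intro i _ hi; simp [Function.update_of_ne hi]
        · simp
      rw [bar, hs]
      have := (abs_le.1 hxe).1
      have : (0 : ℝ) ≤ 400 * d * x e ^ 2 := by positivity
      linarith
  have hsub : closedBall (0 : Fin (d + 1) → ℝ) (1 / 4) ⊆ closedBall 0 (3 / 8) :=
    closedBall_subset_closedBall (by norm_num)
  have hg : δ * ε ≤ γ / 8 * ε := mul_le_mul_of_nonneg_right S.del_le hεp.le
  have hγε := mul_pos S.gam hεp
  refine ⟨fun x hx => ?_, fun x hx hxc => ?_⟩
  · show P x + ε * h x - u x ≤ 2 * γ * ε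
    have hhx := abs_le.1 (S.lim_le x (closedBall_subset_ball (by norm_num) hx))
    rcases lt_or_ge (x e) (-δ) with hl | hl
    · have := S.low x (hsub hx) hl.le
      have := S.near.min.nonneg x
      have := mul_le_mul_of_nonneg_left hhx.2 hεp.le
      linarith
    · rcases le_or_gt (x e) δ with hl2 | hl2
      · obtain ⟨hn, h0, hc, hb⟩ := hbx x hx (abs_le.2 ⟨hl, hl2⟩)
        have := S.lower hn h0 x hc
        have := mul_le_mul_of_nonneg_left hb hεp.le
        linarith
      · have := (abs_le.1 (S.corr_le x (hsub hx) hl2.le)).1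
        linarith
  · show u x - (P x + ε * h x) ≤ 2 * γ * ε
    rcases le_or_gt (x e) δ with hl2 | hl2
    · obtain ⟨hn, h0, hc, hb⟩ := hbx x hx
        (abs_le.2 ⟨(S.below x (closedBall_subset_closedBall (by norm_num) hx) hxc).le, hl2⟩)
      have := S.upper hn h0 x hc hxc
      have := mul_le_mul_of_nonneg_left hb hεp.le
      linarith
    · have := (abs_le.1 (S.corr_le x (hsub hx) hl2.le)).2
      linarith

variable {u P : ℕ → (Fin (d + 1) → ℝ) → ℝ} {ε σ κ : ℕ → ℝ}

/-- The first order approximation holds up to the free boundary. -/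
theorem barrier (hd : 1 ≤ d) (hh : MinHarmSpec) (S : Approach L u P ε σ κ)
    (hblow : ∀ n, BlowUnit (u n) box)
    (hgr : ∀ η : ℝ, 0 < η → ∀ᶠ n in atTop, ∀ x ∈ box, ∀ i,
      |pd (P n) i x - if i = Fin.last d then 1 else 0| ≤ η)
    {h : (Fin (d + 1) → ℝ) → ℝ} (hH : Harm h (ball 0 (7 / 10)))
    (hhb : ∀ x ∈ ball (0 : Fin (d + 1) → ℝ) (7 / 10), |h x| ≤ 1)
    (heven : ∀ x ∈ ball (0 : Fin (d + 1) → ℝ) (7 / 10), h (refl x) = h x)
    (hconv : ∀ K, IsCompact K → K ⊆ upper d ∩ ball 0 (7 / 10) →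
      TendstoUniformlyOn (corr u P ε) h atTop K)
    {γ : ℝ} (hγ : 0 < γ) :
    ∀ᶠ n in atTop, Close (u n) (fun x => P n x + ε n * h x) (γ * ε n) (closedBall 0 (1 / 4)) := by
  set B0 := closedBall (0 : Fin (d + 1) → ℝ) (3 / 8) with hB0
  have hB0s : B0 ⊆ ball 0 (7 / 10) := closedBall_subset_ball (by norm_num)
  obtain ⟨H, hHb⟩ : ∃ H, ∀ x ∈ B0, ∀ i, |pd h i x| ≤ H := by
    choose c hc using fun i => (isCompact_closedBall 0 (3 / 8)).exists_bound_of_continuousOn
      ((contDiffOn_pd hH.1 isOpen_ball i).continuousOn.mono hB0s)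
    exact ⟨∑ i, |c i|, fun x hx i => ((by simpa using hc i x hx : |pd h i x| ≤ c i)).trans
      ((le_abs_self _).trans (Finset.single_le_sum (fun j _ => abs_nonneg (c j)) (Finset.mem_univ i)))⟩
  have hH0 : 0 ≤ H := (abs_nonneg _).trans (hHb 0 (by simp [hB0]; norm_num) (Fin.last d))
  obtain ⟨δ1, hδ1, hδ1'⟩ := vertical_small hH heven
  set γ' := γ / 2 with hγ'
  set δ := min (min (δ1 / 2) (γ' / 8)) (1 / (6400 * ((d : ℝ) + 1))) with hδ
  have hd0 : (0 : ℝ) < 6400 * ((d : ℝ) + 1) := by positivity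
  have hγ0 : 0 < γ' := by positivity
  have hδ0 : 0 < δ := by positivity
  have hδa : δ ≤ γ' / 8 := (min_le_left _ _).trans (min_le_right _ _)
  have hδb : δ < δ1 := lt_of_le_of_lt ((min_le_left _ _).trans (min_le_left _ _)) (by linarith)
  have hδc : δ * (6400 * ((d : ℝ) + 1)) ≤ 1 := (le_div_iff₀ hd0).1 (min_le_right _ _)
  have hδd : δ * (d : ℝ) ≥ 0 := by positivity
  set B := H + (800 * (d : ℝ) + 400) + 1 with hB
  have hB1 : 1 ≤ B := by rw [hB]; linarith [(Nat.cast_nonneg d : (0 : ℝ) ≤ d)]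
  set T : Set (Fin (d + 1) → ℝ) := B0 ∩ {x | δ ≤ x (Fin.last d)} with hT
  have hTc : IsCompact T :=
    (isCompact_closedBall 0 _).inter_right (isClosed_le continuous_const (continuous_apply _))
  have hTU : T ⊆ upper d ∩ ball 0 (7 / 10) := fun x hx =>
    ⟨⟨closedBall_subset_ball (by norm_num) hx.1,
      show (0 : ℝ) < x (Fin.last d) from lt_of_lt_of_le hδ0 hx.2⟩, hB0s hx.1⟩
  filter_upwards [Metric.tendstoUniformlyOn_iff.1 (hconv T hTc hTU) (γ' / 4) (by positivity),
    S.below hδ0, S.coord (δ / 4) (by positivity), hgr (1 / (4 * ((d : ℝ) + 1) * B)) (by positivity),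
    S.eps_tendsto.eventually (eventually_lt_nhds (show (0 : ℝ) < δ / 100 by positivity)),
    S.eps_tendsto.eventually
      (eventually_lt_nhds (show (0 : ℝ) < 1 / (4 * (((d : ℝ) + 1) * B ^ 2)) by positivity)),
    S.sig_tendsto.eventually (eventually_lt_nhds (show (0 : ℝ) < 1 / 4 by norm_num))]
    with n hTn hbelow hcoord hG hε1 hε2 hσ
  have hεp := (S.near n).eps_pos
  rw [div_lt_iff₀ hεp] at hσ
  have hSlab : Slab L (u n) (P n) h (ε n) (σ n) γ' δ (((d : ℝ) + 1) * B ^ 2) :=
    { near := S.near n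
      harm := (hh _ _ _ (S.near n).min).1
      blow := hblow n
      lim_harm := hH
      lim_le := hhb
      dim := hd
      gam := hγ0
      del := hδ0
      del_le := hδa
      del_le' := by linarith
      del_d := by linarith
      sig := by linarith
      corr_le := fun x hx hxe => by
        have := (hTn x ⟨hx, hxe⟩).le
        rw [dist_comm, Real.dist_eq, corr] at this
        have e1 : (u n x - P n x) - ε n * h x = ε n * ((ε n)⁻¹ * (u n x - P n x) - h x) := by
          field_simp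
        rw [e1, abs_mul, abs_of_pos hεp, mul_comm]
        exact mul_le_mul_of_nonneg_right this hεp.le
      low := fun x hx hxe => by
        have := (abs_le.1 (hcoord x (closedBall_subset_closedBall (by norm_num) hx))).2
        linarith
      below := hbelow
      grads := fun s hs a x ha hx hxc => by
        have h1 := hxc (Fin.last d) (mem_univ _)
        simp only [if_true] at h1
        refine pert_grad hs (differentiableAt_of_smooth hH.1 isOpen_ball (hB0s hx)) (hHb x hx)
          (hδ1' x hx (lt_of_le_of_lt (abs_le.2 h1) hδb)) (by linarith) (by linarith) ha hxc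
          (hG x (closedBall_subset_closedBall (by norm_num) hx)) (le_of_eq ?_)
        rw [← hB]
        field_simp
      small := by
        rw [lt_div_iff₀ (by positivity)] at hε2
        linarith }
  have := hSlab.close
  rwa [show 2 * γ' = γ by rw [hγ']; ring] at this

end

end Vale.Agent.P098.Reg.Lin
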