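import Vale.Agent.P098.Reg.Specs

/-!
# P098, linearisation: calculus at a point
-/

namespace Vale.Agent.P098.Reg.Lin

open MeasureTheory Set Filter Topology
open Vale.Agent.P098.Cone
open scoped NNReal

noncomputable section

variable {N : ℕ} {f g u w : (Fin N → ℝ) → ℝ} {x z : Fin N → ℝ} {U : Set (Fin N → ℝ)}

theorem pd_zero_of_not_pos (hn : ∀ y, 0 ≤ u y) (hx : ¬ 0 < u x) (i : Fin N) : pd u i x = 0 := by
  have hmin : IsLocalMin u x := Eventually.of_forall fun y => (not_lt.1 hx).trans (hn y)
  simp [pd, hmin.fderiv_eq_zero]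

theorem pos_mem_nhds (hu : Continuous u) (hx : 0 < u x) : pos u ∈ 𝓝 x :=
  (isOpen_lt continuous_const hu).mem_nhds hx

theorem fb_eq_zero (hu : Continuous u) (hn : ∀ y, 0 ≤ u y) (hx : x ∈ fb u) : u x = 0 := by
  have ho : IsOpen (pos u) := isOpen_lt continuous_const hu
  rw [fb, ho.frontier_eq] at hx
  exact le_antisymm (not_lt.1 hx.2) (hn x)

theorem fb_subset_closure (hx : x ∈ fb u) : x ∈ closure (pos u) := frontier_subset_closure hx

/-- A point with `u = 0` that is no free boundary point has a neighbourhood where `u = 0`. -/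
theorem eventually_zero (hn : ∀ y, 0 ≤ u y) (hx : ¬ 0 < u x) (hfb : x ∉ fb u) :
    ∀ᶠ y in 𝓝 x, u y = 0 := by
  have hcl : x ∉ closure (pos u) := by
    intro hc
    exact hfb ⟨hc, fun hi => hx (interior_subset hi : x ∈ pos u)⟩
  filter_upwards [isClosed_closure.isOpen_compl.mem_nhds hcl] with y hy
  exact le_antisymm (not_lt.1 fun hp => hy (subset_closure hp)) (hn y)

theorem harm_contDiffAt {v : (Fin N → ℝ) → ℝ} (h : Harm v U) (hU : IsOpen U) (hx : x ∈ U)
    {n : ℕ} : ContDiffAt ℝ n v x :=
  (h.1.contDiffAt (hU.mem_nhds hx)).of_le (WithTop.coe_le_coe.2 le_top)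

theorem dot_grad_eq (f : (Fin N → ℝ) → ℝ) (x y : Fin N → ℝ) :
    dot (grad f x) y = fderiv ℝ f x y := by
  rw [fderiv_eq_sum]
  simp [dot, grad, mul_comm]

theorem contDiffAt_pd (hf : ContDiffAt ℝ 2 f x) (i : Fin N) : ContDiffAt ℝ 1 (pd f i) x :=
  (hf.fderiv_right (m := 1) le_rfl).clm_apply contDiffAt_const

theorem eventually_differentiable (hf : ContDiffAt ℝ 2 f x) :
    ∀ᶠ y in 𝓝 x, DifferentiableAt ℝ f y := by
  filter_upwards [hf.eventually (by simp)] with y hy
  exact hy.differentiableAt (by norm_num)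

theorem hess_add (hf : ContDiffAt ℝ 2 f x) (hg : ContDiffAt ℝ 2 g x) (i j : Fin N) :
    hess (fun y => f y + g y) i j x = hess f i j x + hess g i j x := by
  have e : (fun y => pd (fun y => f y + g y) i y) =ᶠ[𝓝 x] fun y => pd f i y + pd g i y := by
    filter_upwards [eventually_differentiable hf, eventually_differentiable hg] with y h1 h2
      using pd_add h1 h2 i
  show pd (fun y => pd (fun y => f y + g y) i y) j x = _
  rw [pd_congr e j, pd_add ((contDiffAt_pd hf i).differentiableAt one_ne_zero)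
    ((contDiffAt_pd hg i).differentiableAt one_ne_zero)]
  rfl

theorem pd_const_mul (hf : DifferentiableAt ℝ f x) (c : ℝ) (i : Fin N) :
    pd (fun y => c * f y) i x = c * pd f i x := by
  rw [pd_mul (differentiableAt_const c) hf, pd_const, mul_zero, add_zero]

theorem hess_const_mul (hf : ContDiffAt ℝ 2 f x) (c : ℝ) (i j : Fin N) :
    hess (fun y => c * f y) i j x = c * hess f i j x := by
  have e : (fun y => pd (fun y => c * f y) i y) =ᶠ[𝓝 x] fun y => c * pd f i y := by
    filter_upwards [eventually_differentiable hf] with y h1 using pd_const_mul h1 c i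
  show pd (fun y => pd (fun y => c * f y) i y) j x = _
  rw [pd_congr e j, pd_const_mul ((contDiffAt_pd hf i).differentiableAt one_ne_zero)]
  rfl

/-- The pure second derivatives are nonpositive at a local maximum. -/
theorem hess_nonpos_of_localMax (hf : ContDiffAt ℝ 2 f x) (hmax : IsLocalMax f x) (i : Fin N) :
    hess f i i x ≤ 0 := by
  by_contra hpos
  rw [not_le] at hpos
  set v : Fin N → ℝ := Pi.single i 1 with hv
  set γ : ℝ → (Fin N → ℝ) := fun t => x + t • v with hγ
  have hγd : ∀ t, HasDerivAt γ v t := fun t => by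
    simpa [hγ] using ((hasDerivAt_id t).smul_const v).const_add x
  have hγ0 : γ 0 = x := by simp [hγ]
  have hγc : Tendsto γ (𝓝 0) (𝓝 x) := by
    have := (hγd 0).continuousAt.tendsto
    rwa [hγ0] at this
  have hd : deriv (fun t => f (γ t)) =ᶠ[𝓝 0] fun t => pd f i (γ t) := by
    filter_upwards [hγc.eventually (eventually_differentiable hf)] with t ht
    exact (ht.hasFDerivAt.comp_hasDerivAt t (hγd t)).deriv
  have hdd : HasDerivAt (fun t => pd f i (γ t)) (hess f i i x) 0 := by
    have h1 : DifferentiableAt ℝ (pd f i) (γ 0) := by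
      rw [hγ0]; exact (contDiffAt_pd hf i).differentiableAt one_ne_zero
    have := h1.hasFDerivAt.comp_hasDerivAt (0 : ℝ) (hγd 0)
    rw [hγ0] at this
    exact this
  have h2 : deriv (deriv fun t => f (γ t)) 0 = hess f i i x := by
    rw [hd.deriv_eq, hdd.deriv]
  have hmax' : IsLocalMax (fun t => f (γ t)) 0 := by
    have := hγc.eventually hmax
    simpa [IsLocalMax, IsMaxFilter, hγ0] using this
  have hc : ContinuousAt (fun t => f (γ t)) 0 := by
    refine ContinuousAt.comp ?_ (hγd 0).continuousAt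
    rw [hγ0]; exact hf.continuousAt
  have hmin : IsLocalMin (fun t => f (γ t)) 0 :=
    isLocalMin_of_deriv_deriv_pos (h2 ▸ hpos) hmax'.deriv_eq_zero hc
  have hconst : (fun t => f (γ t)) =ᶠ[𝓝 0] fun _ => f (γ 0) := by
    filter_upwards [hmax', hmin] with t ht1 ht2 using le_antisymm ht1 ht2
  have h3 : deriv (deriv fun t => f (γ t)) 0 = 0 := by
    rw [hconst.deriv.deriv_eq]; simp
  linarith

theorem laplacian_nonpos (hf : ContDiffAt ℝ 2 f x) (hmax : IsLocalMax f x) :
    ∑ i, hess f i i x ≤ 0 :=
  Finset.sum_nonpos fun i _ => hess_nonpos_of_localMax hf hmax i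

theorem tendsto_quot (hw : DifferentiableAt ℝ w z) {r : ℕ → ℝ} (hr : ∀ n, 0 < r n)
    (hr0 : Tendsto r atTop (𝓝 0)) (y : Fin N → ℝ) :
    Tendsto (fun n => (w (z + r n • y) - w z) / r n) atTop (𝓝 (dot (grad w z) y)) := by
  rw [dot_grad_eq]
  have h : HasDerivAt (fun t : ℝ => w (z + t • y)) (fderiv ℝ w z y) 0 := by
    have h0 : HasDerivAt (fun t : ℝ => z + t • y) y 0 := by
      simpa using ((hasDerivAt_id (0 : ℝ)).smul_const y).const_add z
    have hw' : DifferentiableAt ℝ w (z + (0 : ℝ) • y) := by simpa using hw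
    simpa [Function.comp_def] using hw'.hasFDerivAt.comp_hasDerivAt (0 : ℝ) h0
  have hr1 : Tendsto r atTop (𝓝[≠] 0) :=
    tendsto_nhdsWithin_iff.2 ⟨hr0, .of_forall fun n => (hr n).ne'⟩
  refine (h.tendsto_slope_zero.comp hr1).congr fun n => ?_
  simp [smul_eq_mul, div_eq_inv_mul]

theorem tendsto_line {r : ℕ → ℝ} (hr0 : Tendsto r atTop (𝓝 0)) (y : Fin N → ℝ) :
    Tendsto (fun n => z + r n • y) atTop (𝓝 z) := by
  simpa using (hr0.smul_const y).const_add z

/-- A differentiable function touching `u` from below at a point with a unit blow-up has gradient of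
length at most one. -/
theorem touch_lower {e : Fin N → ℝ} {r : ℕ → ℝ} (he : dot e e = 1)
    (hr : ∀ n, 0 < r n) (hr0 : Tendsto r atTop (𝓝 0))
    (hlim : ∀ y, Tendsto (fun n => rescale u z (r n) y) atTop (𝓝 (halfPlane e y)))
    (hw : DifferentiableAt ℝ w z) (hle : ∀ᶠ y in 𝓝 z, w y - w z ≤ u y) :
    dot (grad w z) (grad w z) ≤ 1 := by
  set G := grad w z with hG
  have h1 : dot G G ≤ halfPlane e G := by
    refine le_of_tendsto_of_tendsto (tendsto_quot hw hr hr0 G) (hlim G) ?_
    filter_upwards [(tendsto_line (z := z) hr0 G).eventually hle] with n hn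
    exact div_le_div_of_nonneg_right hn (hr n).le
  have hp := dot_sq_le e G
  rw [he, one_mul] at hp
  have hl : lin e G = dot e G := rfl
  have h0 := dot_self_nonneg G
  have h2 : halfPlane e G ^ 2 ≤ dot G G := by
    simp only [halfPlane, hl]
    rcases le_total (dot e G) 0 with h | h
    · rw [max_eq_right h]; simpa using h0
    · rw [max_eq_left h]; exact hp
  nlinarith [pow_le_pow_left₀ h0 h1 2]

/-- A differentiable function touching `u` from above on the closure of the positivity set has
gradient of length at least one. -/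
theorem touch_upper {e : Fin N → ℝ} {r : ℕ → ℝ} (he : dot e e = 1)
    (hr : ∀ n, 0 < r n) (hr0 : Tendsto r atTop (𝓝 0))
    (hlim : ∀ y, Tendsto (fun n => rescale u z (r n) y) atTop (𝓝 (halfPlane e y)))
    (hw : DifferentiableAt ℝ w z)
    (hle : ∀ᶠ y in 𝓝 z, 0 < u y → u y ≤ w y - w z) :
    1 ≤ dot (grad w z) (grad w z) := by
  set G := grad w z with hG
  have he' : halfPlane e e = 1 := by
    have : lin e e = 1 := he
    simp [halfPlane, this]
  have h1 : (1 : ℝ) ≤ dot G e := by
    have hl := hlim e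
    rw [he'] at hl
    refine le_of_tendsto_of_tendsto hl (tendsto_quot hw hr hr0 e) ?_
    filter_upwards [(tendsto_line (z := z) hr0 e).eventually hle,
      hl.eventually (eventually_gt_nhds (show (0 : ℝ) < 1 by norm_num))] with n hn hp
    have hp' : 0 < u (z + r n • e) := by
      have := mul_pos hp (hr n)
      rwa [rescale, div_mul_cancel₀ _ (hr n).ne'] at this
    exact div_le_div_of_nonneg_right (hn hp') (hr n).le
  have hp := dot_sq_le G e
  rw [he, mul_one] at hp
  nlinarith

end

end Vale.Agent.P098.Reg.Lin
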