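import Vale.Agent.P098.Reg.LinBase
import Vale.Agent.P098.Cone.Competitor

/-!
# P098, linearisation: the energy of the correction
-/

namespace Vale.Agent.P098.Reg.Lin

open MeasureTheory Set Filter Topology Metric
open Vale.Agent.P098.Cone
open scoped NNReal ContDiff

noncomputable section

variable {N : ℕ} {L : ℝ≥0} {u P f g : (Fin N → ℝ) → ℝ} {ε σ : ℝ}

/-- The unit box. -/
abbrev box : Set (Fin N → ℝ) := closedBall 0 1

/-- Measurable and bounded on the unit box. -/
def Bdd (f : (Fin N → ℝ) → ℝ) : Prop := Measurable f ∧ ∃ C, ∀ x ∈ box, |f x| ≤ C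

theorem Bdd.of_continuous (h : Continuous f) : Bdd f := by
  obtain ⟨C, hC⟩ := (isCompact_closedBall (0 : Fin N → ℝ) 1).exists_bound_of_continuousOn h.continuousOn
  exact ⟨h.measurable, C, fun x hx => by simpa using hC x hx⟩

theorem Bdd.add (hf : Bdd f) (hg : Bdd g) : Bdd fun x => f x + g x := by
  obtain ⟨hf, A, hA⟩ := hf
  obtain ⟨hg, B, hB⟩ := hg
  exact ⟨hf.add hg, A + B, fun x hx => (abs_add_le _ _).trans (add_le_add (hA x hx) (hB x hx))⟩

theorem Bdd.sub (hf : Bdd f) (hg : Bdd g) : Bdd fun x => f x - g x := by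
  obtain ⟨hf, A, hA⟩ := hf
  obtain ⟨hg, B, hB⟩ := hg
  exact ⟨hf.sub hg, A + B, fun x hx => (abs_sub _ _).trans (add_le_add (hA x hx) (hB x hx))⟩

theorem Bdd.mul (hf : Bdd f) (hg : Bdd g) : Bdd fun x => f x * g x := by
  obtain ⟨hf, A, hA⟩ := hf
  obtain ⟨hg, B, hB⟩ := hg
  refine ⟨hf.mul hg, A * B, fun x hx => ?_⟩
  rw [abs_mul]
  exact mul_le_mul (hA x hx) (hB x hx) (abs_nonneg _) ((abs_nonneg _).trans (hA x hx))

theorem Bdd.const_mul (c : ℝ) (hf : Bdd f) : Bdd fun x => c * f x :=
  (Bdd.of_continuous continuous_const).mul hf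

theorem Bdd.sum {ι : Type*} (s : Finset ι) {F : ι → (Fin N → ℝ) → ℝ} (h : ∀ i ∈ s, Bdd (F i)) :
    Bdd fun x => ∑ i ∈ s, F i x := by
  classical
  induction s using Finset.induction_on with
  | empty => simpa using Bdd.of_continuous (continuous_const : Continuous fun _ : Fin N → ℝ => (0 : ℝ))
  | insert a s ha ih =>
    simp only [Finset.sum_insert ha]
    exact (h a (Finset.mem_insert_self a s)).add (ih fun i hi => h i (Finset.mem_insert_of_mem hi))

theorem Bdd.dot {p q : (Fin N → ℝ) → Fin N → ℝ} (hp : ∀ i, Bdd fun x => p x i)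
    (hq : ∀ i, Bdd fun x => q x i) : Bdd fun x => dot (p x) (q x) :=
  Bdd.sum _ fun i _ => (hp i).mul (hq i)

theorem Bdd.pd_lipschitz {M : ℝ≥0} (h : LipschitzWith M f) (i : Fin N) : Bdd (pd f i) :=
  ⟨measurable_fderiv_apply_const ℝ f _, M, fun x _ => abs_pd_le h i x⟩

theorem Bdd.integrable (hf : Bdd f) (h0 : ∀ x ∉ box, f x = 0) : Integrable f := by
  obtain ⟨hm, C, hC⟩ := hf
  refine IntegrableOn.integrable_of_forall_notMem_eq_zero (s := box) ?_ h0
  exact Measure.integrableOn_of_bounded measure_closedBall_lt_top.ne hm.aestronglyMeasurable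
    ((ae_restrict_mem measurableSet_closedBall).mono fun x hx => by simpa using hC x hx)

theorem measurableSet_pos (hu : Continuous u) : MeasurableSet (pos u) :=
  (isOpen_lt continuous_const hu).measurableSet

theorem pd_zero_of_notMem_tsupport {x : Fin N → ℝ} (h : x ∉ tsupport f) (i : Fin N) :
    pd f i x = 0 :=
  image_eq_zero_of_notMem_tsupport (f := pd f i) fun hx => h (tsupport_pd f i hx)

theorem lapT_eq (hn : ∀ y, 0 ≤ u y) (φ : (Fin N → ℝ) → ℝ) :
    lapT u φ = -∫ x in pos u, dot (grad u x) (grad φ x) := by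
  rw [lapT, setIntegral_eq_integral_of_forall_compl_eq_zero]
  intro x hx
  exact Finset.sum_eq_zero fun i _ => by simp [grad, pd_zero_of_not_pos hn hx]

theorem lipschitz_mul {f g : (Fin N → ℝ) → ℝ} {A B : ℝ≥0} {M K : ℝ≥0} (hf : LipschitzWith M f)
    (hg : LipschitzWith K g) (hA : ∀ x, |f x| ≤ A) (hB : ∀ x, |g x| ≤ B) :
    LipschitzWith (M * B + A * K) fun x => f x * g x := by
  refine LipschitzWith.of_dist_le_mul fun x y => ?_
  have h1 := hf.dist_le_mul x y
  have h2 := hg.dist_le_mul x y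
  rw [Real.dist_eq] at h1 h2 ⊢
  have e : f x * g x - f y * g y = (f x - f y) * g x + f y * (g x - g y) := by ring
  rw [e]
  refine (abs_add_le _ _).trans ?_
  rw [abs_mul, abs_mul]
  push_cast
  rw [add_mul]
  refine add_le_add ?_ ?_
  · calc |f x - f y| * |g x| ≤ (M * dist x y) * B :=
          mul_le_mul h1 (hB x) (abs_nonneg _) (by positivity)
      _ = M * B * dist x y := by ring
  · calc |f y| * |g x - g y| ≤ A * (K * dist x y) :=
          mul_le_mul (hA y) h2 (abs_nonneg _) A.coe_nonneg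
      _ = A * K * dist x y := by ring

/-- A minimiser close to a harmonic function on the unit box. -/
structure Near (L : ℝ≥0) (u P : (Fin N → ℝ) → ℝ) (ε σ : ℝ) : Prop where
  min : LipMin L u
  harm : Harm P univ
  eps_pos : 0 < ε
  sig_nonneg : 0 ≤ σ
  close : Close u P ε box
  res : ∀ x ∈ box, x ∈ fb u → |dot (grad P x) (grad P x) - 1| ≤ σ

theorem Near.continuous (h : Near L u P ε σ) : Continuous u := h.min.lipschitz.continuous

theorem Near.contDiff (h : Near L u P ε σ) : ContDiff ℝ ∞ P := contDiffOn_univ.1 h.harm.1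

theorem Near.abs_sub_le_eps (h : Near L u P ε σ) {x : Fin N → ℝ} (hx : x ∈ box) (hp : 0 < u x) :
    |u x - P x| ≤ ε :=
  abs_sub_le_iff.2 ⟨h.close.2 x hx (subset_closure hp), h.close.1 x hx⟩

theorem Near.diff_u (hh : MinHarmSpec) (h : Near L u P ε σ) {x : Fin N → ℝ} (hp : 0 < u x) :
    DifferentiableAt ℝ u x :=
  differentiableAt_of_smooth (hh N L u h.min).1.1 (isOpen_lt continuous_const h.continuous) hp

/-- The flux inequality applied to the gradient of `P`. -/
theorem Near.flux (hF : FluxSpec) (h : Near L u P ε σ) {φ : (Fin N → ℝ) → ℝ} {M : ℝ≥0}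
    (hl : LipschitzWith M φ) (hc : HasCompactSupport φ) (hs : tsupport φ ⊆ box) (hn : ∀ x, 0 ≤ φ x)
    (hd : ∀ x ∈ pos u, DifferentiableAt ℝ φ x) :
    ∫ x in pos u, dot (fun i => pd u i x - pd P i x) (grad φ x) ≤ σ * lapT u φ := by
  have hP := h.contDiff
  have hb := hF N L u φ (fun i => pd P i) (1 + σ) h.min ⟨M, hl⟩ hc hn
    (fun i => (contDiff_pd hP i).of_le (WithTop.coe_le_coe.2 le_top)) (by linarith [h.sig_nonneg])
    (fun x hx => by
      have h1 := h.res x (hs hx.2) hx.1
      have h2 : ∑ i, pd P i x ^ 2 = dot (grad P x) (grad P x) := by simp [dot, grad, sq]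
      rw [h2]
      have := (abs_le.1 h1).2
      nlinarith [h.sig_nonneg])
  have hdiv : ∀ x ∈ pos u, dvg (fun i y => φ y * pd P i y) x = dot (grad φ x) (grad P x) := by
    intro x hx
    have hz : ∑ i, hess P i i x = 0 := h.harm.2 x (mem_univ x)
    simp only [dvg, pd_mul (hd x hx) ((contDiff_pd hP _).differentiable (by simp) x), Finset.sum_add_distrib]
    rw [← Finset.mul_sum]
    simp only [hess] at hz
    rw [hz, mul_zero, zero_add]
    simp [dot, grad, mul_comm]
  rw [setIntegral_congr_fun (measurableSet_pos h.continuous) hdiv] at hb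
  have hzero : ∀ x ∉ box, ∀ i, pd φ i x = 0 := fun x hx =>
    pd_zero_of_notMem_tsupport fun ht => hx (hs ht)
  have i1 : Integrable (fun x => dot (grad u x) (grad φ x)) :=
    (Bdd.dot (fun i => Bdd.pd_lipschitz h.min.lipschitz i) fun i => Bdd.pd_lipschitz hl i).integrable
      fun x hx => by simp [dot, hzero x hx]
  have i2 : Integrable (fun x => dot (grad φ x) (grad P x)) :=
    (Bdd.dot (fun i => Bdd.pd_lipschitz hl i)
      fun i => Bdd.of_continuous (contDiff_pd hP i).continuous).integrable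
      fun x hx => by simp [dot, hzero x hx]
  have e : ∫ x in pos u, dot (fun i => pd u i x - pd P i x) (grad φ x)
      = (∫ x in pos u, dot (grad u x) (grad φ x)) - ∫ x in pos u, dot (grad φ x) (grad P x) := by
    rw [← integral_sub i1.integrableOn i2.integrableOn]
    refine setIntegral_congr_fun (measurableSet_pos h.continuous) fun x _ => ?_
    simp only [dot, grad, ← Finset.sum_sub_distrib]
    exact Finset.sum_congr rfl fun i _ => by ring
  have hT := lapT_eq h.min.nonneg φ
  rw [e]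
  have := (abs_le.1 hb).1
  linarith

/-- The Laplacian functional is bounded by the gradient of the test function. -/
theorem lapT_le (hu : LipMin L u) {φ : (Fin N → ℝ) → ℝ} {M : ℝ≥0} (hl : LipschitzWith M φ)
    (hs : tsupport φ ⊆ box) : lapT u φ ≤ L * ∫ x, ∑ i, |pd φ i x| := by
  have hzero : ∀ x ∉ box, ∀ i, pd φ i x = 0 := fun x hx =>
    pd_zero_of_notMem_tsupport fun ht => hx (hs ht)
  rw [lapT, ← integral_const_mul, ← integral_neg]
  have hb : Bdd fun x => ∑ i, |pd φ i x| := Bdd.sum _ fun i _ =>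
    ⟨(measurable_fderiv_apply_const ℝ φ _).abs, M, fun x _ => by
      simpa using abs_pd_le hl i x⟩
  have hz : ∀ x ∉ box, (∑ i, |pd φ i x|) = 0 := fun x hx =>
    Finset.sum_eq_zero fun i _ => by rw [show pd φ i x = 0 from hzero x hx i, abs_zero]
  refine integral_mono ?_ ((hb.integrable hz).const_mul (L : ℝ)) fun x => ?_
  · exact ((Bdd.dot (fun i => Bdd.pd_lipschitz hu.lipschitz i)
      fun i => Bdd.pd_lipschitz hl i).integrable fun x hx => by simp [dot, hzero x hx]).neg
  · simp only [dot, grad, ← Finset.sum_neg_distrib, Finset.mul_sum]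
    refine Finset.sum_le_sum fun i _ => ?_
    refine (neg_le_abs _).trans ?_
    rw [abs_mul]
    exact mul_le_mul_of_nonneg_right (abs_pd_le hu.lipschitz i x) (abs_nonneg _)

/-- The square of the length of the correction gradient. -/
def corr2 (u P : (Fin N → ℝ) → ℝ) (x : Fin N → ℝ) : ℝ :=
  dot (fun i => pd u i x - pd P i x) (fun i => pd u i x - pd P i x)

theorem corr2_nonneg (x : Fin N → ℝ) : 0 ≤ corr2 u P x := dot_self_nonneg _

theorem Bdd.corr2 (hu : LipMin L u) (hP : ContDiff ℝ ∞ P) : Bdd (corr2 u P) := by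
  refine Bdd.dot (fun i => ?_) fun i => ?_ <;>
  exact (Bdd.pd_lipschitz hu.lipschitz i).sub (Bdd.of_continuous (contDiff_pd hP i).continuous)

/-- The weighted energy of the correction is of the order `ε ^ 2`. -/
theorem caccioppoli (hh : MinHarmSpec) (hL : LapSpec) (hF : FluxSpec) {η : (Fin N → ℝ) → ℝ}
    (hη : ContDiff ℝ ∞ η) (hsη : tsupport η ⊆ ball 0 1) :
    ∃ C : ℝ, 0 ≤ C ∧ ∀ (u P : (Fin N → ℝ) → ℝ) (ε σ : ℝ), Near L u P ε σ →
      ∫ x in pos u, η x ^ 2 * corr2 u P x ≤ C * (ε ^ 2 + σ * ε) := by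
  have hsb : tsupport η ⊆ box := hsη.trans ball_subset_closedBall
  have hηc : HasCompactSupport η := (isCompact_closedBall 0 1).of_isClosed_subset
    (isClosed_tsupport η) hsb
  set ζ : (Fin N → ℝ) → ℝ := fun x => η x * η x with hζ
  have hζd : ContDiff ℝ ∞ ζ := hη.mul hη
  have hζc : HasCompactSupport ζ := hηc.mul_left
  have hζs : tsupport ζ ⊆ box := (tsupport_mul_subset_left).trans hsb
  obtain ⟨Mζ, hMζ⟩ := hζd.lipschitzWith_of_hasCompactSupport hζc (by simp)
  obtain ⟨Cζ, hCζ⟩ := hζd.continuous.bounded_above_of_compact_support hζc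
  set C₁ := ∫ x, dot (grad η x) (grad η x) with hC₁
  set C₂ := (L : ℝ) * ∫ x, ∑ i, |pd ζ i x| with hC₂
  have hC₁0 : 0 ≤ C₁ := integral_nonneg fun x => dot_self_nonneg _
  have hC₂0 : 0 ≤ C₂ := mul_nonneg L.coe_nonneg
    (integral_nonneg fun x => Finset.sum_nonneg fun i _ => abs_nonneg _)
  refine ⟨16 * C₁ + 4 * C₂, by positivity, fun u P ε σ h => ?_⟩
  have hP := h.contDiff
  obtain ⟨χ, hχd, hχc, -, hχ01, hχ1⟩ :=
    exists_cutoff (isCompact_closedBall (0 : Fin N → ℝ) 1) isOpen_univ (subset_univ _)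
  obtain ⟨Mχ, hMχ⟩ := (hχd.mul hP).lipschitzWith_of_hasCompactSupport hχc.mul_right (by simp)
  set c : (Fin N → ℝ) → ℝ := fun x => max (min (u x - χ x * P x) ε) (-ε) with hc
  have hcl : LipschitzWith (L + Mχ) c := ((h.min.lipschitz.sub hMχ).min_const ε).max_const (-ε)
  have hcb : ∀ x, |c x| ≤ ε := fun x => abs_le.2
    ⟨le_max_right _ _, max_le (min_le_right _ _) (by linarith [h.eps_pos])⟩
  have hζ0 : ∀ x, 0 ≤ ζ x := fun x => mul_self_nonneg _
  have hζε : ∀ x, |ζ x| ≤ (Cζ.toNNReal : ℝ) := fun x => le_trans (by simpa using hCζ x) (Real.le_coe_toNNReal _)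
  set φp : (Fin N → ℝ) → ℝ := fun x => ζ x * (ε + c x) with hφp
  set φm : (Fin N → ℝ) → ℝ := fun x => ζ x * (ε - c x) with hφm
  have hlp := lipschitz_mul hMζ ((LipschitzWith.const ε).add hcl) hζε
    (B := (2 * ε).toNNReal) (fun x => by
      rw [Real.coe_toNNReal _ (by linarith [h.eps_pos])]
      have := abs_le.1 (hcb x)
      exact abs_le.2 ⟨by linarith [h.eps_pos], by linarith⟩)
  have hlm := lipschitz_mul hMζ ((LipschitzWith.const ε).sub hcl) hζε
    (B := (2 * ε).toNNReal) (fun x => by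
      rw [Real.coe_toNNReal _ (by linarith [h.eps_pos])]
      have := abs_le.1 (hcb x)
      exact abs_le.2 ⟨by linarith [h.eps_pos], by linarith⟩)
  have hsp : tsupport φp ⊆ box := tsupport_mul_subset_left.trans hζs
  have hsm : tsupport φm ⊆ box := tsupport_mul_subset_left.trans hζs
  have hnp : ∀ x, 0 ≤ φp x := fun x => mul_nonneg (hζ0 x) (by linarith [(abs_le.1 (hcb x)).1])
  have hnm : ∀ x, 0 ≤ φm x := fun x => mul_nonneg (hζ0 x) (by linarith [(abs_le.1 (hcb x)).2])
  have hev : ∀ x ∈ pos u, ∀ s : ℝ,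
      (fun y => ζ y * (ε + s * c y)) =ᶠ[𝓝 x] fun y => ζ y * (ε + s * (u y - P y)) := by
    intro x hx s
    by_cases ht : x ∈ tsupport η
    · filter_upwards [pos_mem_nhds h.continuous hx, isOpen_ball.mem_nhds (hsη ht)] with y hy hyb
      have hyB : y ∈ box := ball_subset_closedBall hyb
      have := abs_le.1 (h.abs_sub_le_eps hyB hy)
      simp only [hc]
      rw [(hχ1.self_of_nhdsSet) y hyB, one_mul, min_eq_left this.2, max_eq_left this.1]
    · filter_upwards [(isClosed_tsupport η).isOpen_compl.mem_nhds ht] with y hy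
      simp [hζ, image_eq_zero_of_notMem_tsupport hy]
  have hgrad : ∀ x ∈ pos u, ∀ s : ℝ, DifferentiableAt ℝ (fun y => ζ y * (ε + s * c y)) x ∧
      ∀ i, pd (fun y => ζ y * (ε + s * c y)) i x
        = ζ x * (s * (pd u i x - pd P i x)) + (ε + s * (u x - P x)) * (2 * η x * pd η i x) := by
    intro x hx s
    have hu := h.diff_u hh hx
    have hPx := (hP.differentiable (by simp)) x
    have hηx := (hη.differentiable (by simp)) x
    have hsub : DifferentiableAt ℝ (fun y => u y - P y) x := hu.sub hPx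
    have hd : DifferentiableAt ℝ (fun y => ε + s * (u y - P y)) x :=
      (differentiableAt_const ε).add (hsub.const_mul s)
    have hζx : DifferentiableAt ℝ ζ x := hηx.mul hηx
    refine ⟨(hζx.mul hd).congr_of_eventuallyEq (hev x hx s), fun i => ?_⟩
    rw [pd_congr (hev x hx s) i, pd_mul hζx hd,
      pd_add (differentiableAt_const ε) (hsub.const_mul s), pd_const,
      pd_const_mul hsub s i, pd_sub hu hPx, show pd ζ i x = _ from pd_mul hηx hηx i]
    ring
  have hgp : ∀ x ∈ pos u, DifferentiableAt ℝ (fun y => ζ y * (ε + c y)) x ∧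
      ∀ i, pd (fun y => ζ y * (ε + c y)) i x
        = ζ x * (pd u i x - pd P i x) + (ε + (u x - P x)) * (2 * η x * pd η i x) := by
    intro x hx
    have := hgrad x hx 1
    simp only [one_mul] at this
    exact this
  have hgm : ∀ x ∈ pos u, ∀ i, pd (fun y => ζ y * (ε - c y)) i x
        = -ζ x * (pd u i x - pd P i x) + (ε - (u x - P x)) * (2 * η x * pd η i x) := by
    intro x hx i
    have := (hgrad x hx (-1)).2 i
    simp only [neg_one_mul, ← sub_eq_add_neg] at this
    rw [this]; ring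
  have hfl := h.flux hF hlp (hζc.mul_right) hsp hnp fun x hx => (hgp x hx).1
  have hTm : 0 ≤ lapT u φm := (hL N L u φm h.min ⟨_, hlm⟩ hζc.mul_right).2 hnm
  have hzp : ∀ x ∉ box, ∀ i, pd φp i x = 0 := fun x hx => pd_zero_of_notMem_tsupport fun t => hx (hsp t)
  have hzm : ∀ x ∉ box, ∀ i, pd φm i x = 0 := fun x hx => pd_zero_of_notMem_tsupport fun t => hx (hsm t)
  have iT : ∀ {φ : (Fin N → ℝ) → ℝ} {M : ℝ≥0}, LipschitzWith M φ → (∀ x ∉ box, ∀ i, pd φ i x = 0) →
      Integrable fun x => dot (grad u x) (grad φ x) := fun hl hz =>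
    (Bdd.dot (fun i => Bdd.pd_lipschitz h.min.lipschitz i) fun i => Bdd.pd_lipschitz hl i).integrable
      fun x hx => by simp [dot, hz x hx]
  have hTsum : lapT u φp + lapT u φm = 2 * ε * lapT u ζ := by
    rw [lapT_eq h.min.nonneg, lapT_eq h.min.nonneg, lapT_eq h.min.nonneg, ← neg_add,
      ← integral_add (iT hlp hzp).integrableOn (iT hlm hzm).integrableOn, mul_neg,
      ← integral_const_mul]
    refine congrArg Neg.neg (setIntegral_congr_fun (measurableSet_pos h.continuous) fun x hx => ?_)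
    simp only [dot, grad, Finset.mul_sum, ← Finset.sum_add_distrib]
    refine Finset.sum_congr rfl fun i _ => ?_
    rw [(hgp x hx).2 i, hgm x hx i,
      show pd ζ i x = _ from pd_mul ((hη.differentiable (by simp)) x) ((hη.differentiable (by simp)) x) i]
    ring
  have hζT : lapT u ζ ≤ C₂ := lapT_le h.min hMζ hζs
  have hlow : ∀ x ∈ pos u, η x ^ 2 * corr2 u P x / 2 - 8 * ε ^ 2 * dot (grad η x) (grad η x)
      ≤ dot (fun i => pd u i x - pd P i x) (grad φp x) := by
    intro x hx
    by_cases hb : x ∈ box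
    · have hab := abs_le.1 (h.abs_sub_le_eps hb hx)
      simp only [corr2, dot, grad, Finset.mul_sum, Finset.sum_div, ← Finset.sum_sub_distrib]
      refine Finset.sum_le_sum fun i _ => ?_
      rw [(hgp x hx).2 i]
      simp only [hζ]
      set a := pd u i x - pd P i x
      set b := pd η i x
      set t := ε + (u x - P x) with ht
      have ht2 : t ^ 2 ≤ 4 * ε ^ 2 := by nlinarith
      nlinarith [sq_nonneg (η x * a + 2 * t * b), mul_le_mul_of_nonneg_right ht2 (sq_nonneg b)]
    · have hn : x ∉ tsupport η := fun t => hb (hsb t)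
      simp [image_eq_zero_of_notMem_tsupport hn, pd_zero_of_notMem_tsupport hn, hzp x hb, dot, grad]
  have iq : Bdd fun x => η x ^ 2 * corr2 u P x :=
    (Bdd.of_continuous (hη.continuous.pow 2)).mul (Bdd.corr2 h.min hP)
  have hq0 : ∀ x ∉ box, η x ^ 2 * corr2 u P x = 0 := fun x hx => by
    simp [image_eq_zero_of_notMem_tsupport fun t => hx (hsb t)]
  have iη : Integrable fun x => dot (grad η x) (grad η x) :=
    (Bdd.dot (fun i => Bdd.of_continuous (contDiff_pd hη i).continuous)
      fun i => Bdd.of_continuous (contDiff_pd hη i).continuous).integrable fun x hx => by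
      simp [dot, pd_zero_of_notMem_tsupport fun t => hx (hsb t)]
  have iR : Integrable fun x => dot (fun i => pd u i x - pd P i x) (grad φp x) :=
    (Bdd.dot (fun i => (Bdd.pd_lipschitz h.min.lipschitz i).sub
      (Bdd.of_continuous (contDiff_pd hP i).continuous)) fun i => Bdd.pd_lipschitz hlp i).integrable
      fun x hx => Finset.sum_eq_zero fun i _ => mul_eq_zero_of_right _ (hzp x hx i)
  have hint := setIntegral_mono_on (((iq.integrable hq0).div_const 2).sub (iη.const_mul (8 * ε ^ 2))).integrableOn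
    iR.integrableOn (measurableSet_pos h.continuous) hlow
  rw [integral_sub' ((iq.integrable hq0).div_const 2).integrableOn (iη.const_mul _).integrableOn,
    integral_div, integral_const_mul] at hint
  have h1 : ∫ x in pos u, dot (grad η x) (grad η x) ≤ C₁ :=
    setIntegral_le_integral iη (.of_forall fun x => dot_self_nonneg _)
  have h2 : σ * lapT u φp ≤ σ * (2 * ε * C₂) := by
    refine mul_le_mul_of_nonneg_left ?_ h.sig_nonneg
    nlinarith [h.eps_pos]
  nlinarith [hint, hfl, h1, h2, sq_nonneg ε, mul_nonneg h.sig_nonneg h.eps_pos.le]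

end

end Vale.Agent.P098.Reg.Lin
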