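import Vale.Agent.P098.Reg.LinBase

/-!
# P098, linearisation: the even reflection of the limit
-/

namespace Vale.Agent.P098.Reg.Lin

open MeasureTheory Set Filter Topology Metric Convolution
open Vale.Agent.P098.Cone
open scoped ContDiff

noncomputable section

variable {d : ℕ}

/-- The reflection in the last coordinate. -/
def refl (x : Fin (d + 1) → ℝ) : Fin (d + 1) → ℝ :=
  fun i => if i = Fin.last d then -x i else x i

theorem refl_eq_update (x : Fin (d + 1) → ℝ) :
    refl x = Function.update x (Fin.last d) (-x (Fin.last d)) := by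
  funext i
  rcases eq_or_ne i (Fin.last d) with rfl | h <;> simp [refl, *]

theorem refl_refl (x : Fin (d + 1) → ℝ) : refl (refl x) = x := by
  funext i
  by_cases h : i = Fin.last d <;> simp [refl, h]

theorem refl_last (x : Fin (d + 1) → ℝ) : refl x (Fin.last d) = -x (Fin.last d) := by simp [refl]

theorem norm_refl (x : Fin (d + 1) → ℝ) : ‖refl x‖ = ‖x‖ := by
  have h : ∀ y : Fin (d + 1) → ℝ, ‖refl y‖ ≤ ‖y‖ := fun y =>
    (pi_norm_le_iff_of_nonneg (norm_nonneg _)).2 fun i => by
      refine le_trans (le_of_eq ?_) (norm_le_pi_norm y i)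
      by_cases hi : i = Fin.last d <;> simp [refl, hi]
  refine le_antisymm (h x) ?_
  simpa [refl_refl] using h (refl x)

theorem measurePreserving_refl : MeasurePreserving (refl (d := d)) volume volume := by
  have h : ∀ i : Fin (d + 1), MeasurePreserving (fun t : ℝ => if i = Fin.last d then -t else t)
      volume volume := fun i => by
    by_cases hi : i = Fin.last d
    · simp only [hi, if_true]; exact Measure.measurePreserving_neg volume
    · simp only [hi, if_false]; exact MeasurePreserving.id volume
  exact measurePreserving_pi (fun _ => volume) (fun _ => volume) h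

theorem integral_refl (f : (Fin (d + 1) → ℝ) → ℝ) : ∫ x, f (refl x) = ∫ x, f x :=
  measurePreserving_refl.integral_comp (MeasurableEquiv.measurableEmbedding
    ⟨⟨refl, refl, refl_refl, refl_refl⟩, measurePreserving_refl.measurable,
      measurePreserving_refl.measurable⟩) f

theorem continuous_refl : Continuous (refl (d := d)) :=
  continuous_pi fun i => by
    by_cases hi : i = Fin.last d <;> simp only [refl, hi, if_true, if_false] <;> fun_prop

theorem refl_eq_self {x : Fin (d + 1) → ℝ} (h : x (Fin.last d) = 0) : refl x = x := by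
  funext i
  by_cases hi : i = Fin.last d <;> simp [refl, hi, h]

/-- The sign of a coordinate under the reflection. -/
def sgn (i : Fin (d + 1)) : ℝ := if i = Fin.last d then -1 else 1

theorem pd_comp_refl {f : (Fin (d + 1) → ℝ) → ℝ} {x : Fin (d + 1) → ℝ}
    (hf : DifferentiableAt ℝ f (refl x)) (i : Fin (d + 1)) :
    pd (fun y => f (refl y)) i x = sgn i * pd f i (refl x) := by
  let R : (Fin (d + 1) → ℝ) →L[ℝ] Fin (d + 1) → ℝ :=
    ContinuousLinearMap.pi fun j => sgn j • ContinuousLinearMap.proj j
  have hR : ∀ y, R y = refl y := fun y => by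
    funext j
    by_cases hj : j = Fin.last d <;> simp [R, refl, sgn, hj]
  have h2 : HasFDerivAt refl R x := by
    rw [show (refl : (Fin (d + 1) → ℝ) → _) = R from funext fun y => (hR y).symm]
    exact R.hasFDerivAt
  have h3 : HasFDerivAt (fun y => f (refl y)) ((fderiv ℝ f (refl x)).comp R) x := hf.hasFDerivAt.comp x h2
  rw [pd, h3.fderiv, ContinuousLinearMap.comp_apply, hR]
  have : refl (Pi.single i (1 : ℝ)) = sgn i • (Pi.single i (1 : ℝ)) := by
    funext j
    rcases eq_or_ne j i with rfl | hji
    · by_cases hj : j = Fin.last d <;> simp [refl, sgn, hj]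
    · by_cases hj : j = Fin.last d <;> simp [refl, hj, hji]
      all_goals simp [hj ▸ hji]
  rw [this, map_smul, smul_eq_mul]
  rfl

theorem hess_comp_refl {f : (Fin (d + 1) → ℝ) → ℝ} (hf : ContDiff ℝ ∞ f) (i : Fin (d + 1))
    (x : Fin (d + 1) → ℝ) : hess (fun y => f (refl y)) i i x = hess f i i (refl x) := by
  have e : (fun y => pd (fun z => f (refl z)) i y) = fun y => sgn i * pd f i (refl y) :=
    funext fun y => pd_comp_refl ((hf.differentiable (by simp)) _) i
  have hd : DifferentiableAt ℝ (fun y => pd f i (refl y)) x := by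
    have hR : Differentiable ℝ (refl (d := d)) := differentiable_pi.2 fun j => by
      by_cases hj : j = Fin.last d <;> simp only [refl, hj, if_true, if_false] <;> fun_prop
    exact ((contDiff_pd hf i).differentiable (by simp) _).comp x (hR x)
  show pd (fun y => pd (fun z => f (refl z)) i y) i x = _
  rw [e, pd_const_mul hd, pd_comp_refl ((contDiff_pd hf i).differentiable (by simp) _) i, ← mul_assoc]
  have : sgn i * sgn i = 1 := by by_cases hi : i = Fin.last d <;> simp [sgn, hi]
  rw [this, one_mul]
  rfl

theorem pd_convolution {N : ℕ} {f g : (Fin N → ℝ) → ℝ} (hf : ContDiff ℝ ∞ f) (hc : HasCompactSupport f)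
    (hg : LocallyIntegrable g volume) (i : Fin N) :
    pd (f ⋆[ContinuousLinearMap.lsmul ℝ ℝ] g) i = pd f i ⋆[ContinuousLinearMap.lsmul ℝ ℝ] g := by
  funext x
  have hf1 : ContDiff ℝ 1 f := hf.of_le (WithTop.coe_le_coe.2 le_top)
  have h := hc.hasFDerivAt_convolution_left (ContinuousLinearMap.lsmul ℝ ℝ) hf1 hg x
  rw [pd, h.fderiv, convolution_def,
    ContinuousLinearMap.integral_apply]
  · rfl
  · exact (hc.fderiv ℝ).convolutionExists_left _ (hf1.continuous_fderiv one_ne_zero) hg x

theorem aux_measurable {N : ℕ} {w : (Fin N → ℝ) → ℝ} {U : Set (Fin N → ℝ)} (hw : ContinuousOn w U)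
    (hU : IsOpen U) : Measurable (U.indicator w) := by
  classical
  have := hw.measurable_piecewise (continuousOn_const (c := (0 : ℝ))) hU.measurableSet
  rwa [show (fun _ : Fin N → ℝ => (0 : ℝ)) = 0 from rfl, piecewise_eq_indicator] at this

/-- A bounded weakly harmonic function with compact support has a harmonic representative. -/
theorem weak_harm_rep (hC : CompactSpec) {N : ℕ} {V : (Fin N → ℝ) → ℝ} {R r : ℝ} (hr : r < R)
    (hm : Measurable V) (hb : ∀ x, |V x| ≤ 1) (hw : WeakHarm V (ball 0 R)) :
    ∃ h : (Fin N → ℝ) → ℝ, Harm h (ball 0 r) ∧ (∀ x ∈ ball (0 : Fin N → ℝ) r, |h x| ≤ 1) ∧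
      ∀ x ∈ ball (0 : Fin N → ℝ) r, ContinuousAt V x → h x = V x := by
  have hloc : LocallyIntegrable V volume := by
    refine (locallyIntegrable_iff).2 fun K hK => ?_
    exact Measure.integrableOn_of_bounded hK.measure_lt_top.ne hm.aestronglyMeasurable
      (.of_forall fun x => by simpa using hb x)
  set φ : ℕ → ContDiffBump (0 : Fin N → ℝ) := fun k =>
    ⟨(R - r) / (4 * (k + 1)), (R - r) / (2 * (k + 1)), by have := sub_pos.2 hr; positivity, by
      have := sub_pos.2 hr
      refine div_lt_div_of_pos_left this (by positivity) ?_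
      have : (0 : ℝ) < k + 1 := by positivity
      linarith⟩ with hφ
  have hφ0 : Tendsto (fun k => (φ k).rOut) atTop (𝓝 0) := by
    have := (tendsto_one_div_add_atTop_nhds_zero_nat (𝕜 := ℝ)).const_mul ((R - r) / 2)
    rw [mul_zero] at this
    refine this.congr fun k => ?_
    show _ = (R - r) / (2 * (k + 1))
    field_simp
  have hφR : ∀ k, (φ k).rOut < R - r := fun k => by
    show (R - r) / (2 * (k + 1)) < R - r
    rw [div_lt_iff₀ (by positivity)]
    have := sub_pos.2 hr
    have : (1 : ℝ) < 2 * (k + 1) := by linarith [k.cast_nonneg (α := ℝ)]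
    nlinarith
  set W : ℕ → (Fin N → ℝ) → ℝ := fun k =>
    (φ k).normed volume ⋆[ContinuousLinearMap.lsmul ℝ ℝ] V with hW
  have hWs : ∀ k, ContDiff ℝ ∞ (W k) := fun k =>
    (φ k).hasCompactSupport_normed.contDiff_convolution_left _ (φ k).contDiff_normed hloc
  have hWb : ∀ k x, |W k x| ≤ 1 := fun k x => by
    simp only [hW, convolution_def]
    refine abs_integral_le_integral_abs.trans ?_
    calc ∫ t, |(ContinuousLinearMap.lsmul ℝ ℝ) ((φ k).normed volume t) (V (x - t))|
        ≤ ∫ t, (φ k).normed volume t := by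
          refine integral_mono_of_nonneg (.of_forall fun t => abs_nonneg _) (φ k).integrable_normed
            (.of_forall fun t => ?_)
          simp only [ContinuousLinearMap.lsmul_apply, smul_eq_mul, abs_mul]
          rw [abs_of_nonneg ((φ k).nonneg_normed t)]
          exact mul_le_of_le_one_right ((φ k).nonneg_normed t) (hb _)
      _ = 1 := (φ k).integral_normed
  have hWh : ∀ k, Harm (W k) (ball 0 r) := fun k => by
    refine ⟨(hWs k).contDiffOn, fun x hx => ?_⟩
    set f := (φ k).normed (volume : Measure (Fin N → ℝ)) with hf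
    have hfs : ContDiff ℝ ∞ f := (φ k).contDiff_normed
    have hfc : HasCompactSupport f := (φ k).hasCompactSupport_normed
    have hfi : ∀ i, ContDiff ℝ ∞ (pd f i) := fun i => contDiff_pd hfs i
    have e : ∀ i, hess (W k) i i x = ∫ t, hess f i i t * V (x - t) := fun i => by
      show pd (pd (W k) i) i x = _
      rw [hW, pd_convolution hfs hfc hloc i,
        pd_convolution (hfi i) (hasCompactSupport_pd hfc i) hloc i]
      rfl
    have hint : ∀ i, Integrable fun t => hess f i i t * V (x - t) := fun i =>
      (hasCompactSupport_pd (hasCompactSupport_pd hfc i) i).convolutionExists_left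
        (ContinuousLinearMap.lsmul ℝ ℝ) (contDiff_pd (hfi i) i).continuous hloc x
    rw [Finset.sum_congr rfl fun i _ => e i, ← integral_finsetSum _ fun i _ => hint i]
    have hΨ : ContDiff ℝ ∞ fun y => f (x - y) := hfs.comp (contDiff_const.sub contDiff_id)
    have hsupp : tsupport (fun y => f (x - y)) ⊆ closedBall x (φ k).rOut := by
      refine closure_minimal (fun y hy => ?_) isClosed_closedBall
      have h1 : x - y ∈ Function.support f := hy
      rw [(φ k).support_normed_eq, mem_ball_zero_iff] at h1
      rw [mem_closedBall, dist_eq_norm, ← norm_neg, neg_sub]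
      exact h1.le
    have h0 := hw (fun y => f (x - y)) hΨ ((isCompact_closedBall _ _).of_isClosed_subset
      (isClosed_tsupport _) hsupp) (hsupp.trans fun y hy => by
        rw [mem_ball_zero_iff]
        rw [mem_ball_zero_iff] at hx
        rw [mem_closedBall, dist_eq_norm] at hy
        have h3 := norm_add_le x (y - x)
        rw [add_sub_cancel] at h3
        linarith [hφR k])
    rw [← integral_sub_left_eq_self _ volume x, ← h0]
    refine integral_congr_ae (.of_forall fun y => ?_)
    simp only [sub_sub_cancel, Finset.mul_sum]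
    refine Finset.sum_congr rfl fun i _ => ?_
    rw [mul_comm]
    congr 1
    have hc : ∀ (g : (Fin N → ℝ) → ℝ) (y : Fin N → ℝ), DifferentiableAt ℝ g (x - y) →
        pd (fun y => g (x - y)) i y = -pd g i (x - y) := fun g y hg => by
      have h1 : HasFDerivAt (fun z => x - z) (-ContinuousLinearMap.id ℝ (Fin N → ℝ)) y :=
        (hasFDerivAt_id y).const_sub x
      have h2 : HasFDerivAt (fun z => g (x - z))
          ((fderiv ℝ g (x - y)).comp (-ContinuousLinearMap.id ℝ (Fin N → ℝ))) y :=
        hg.hasFDerivAt.comp y h1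
      rw [pd, h2.fderiv]
      simp [pd]
    show hess f i i (x - y) = pd (fun z => pd (fun y => f (x - y)) i z) i y
    have e2 : (fun z => pd (fun y => f (x - y)) i z) = fun z => (-1) * pd f i (x - z) :=
      funext fun z => by rw [hc f z ((hfs.differentiable (by simp)) _)]; ring
    have hdd := ((hfi i).differentiable (by simp)) (x - y)
    have hd2 : DifferentiableAt ℝ (fun z => pd f i (x - z)) y :=
      hdd.comp y ((differentiableAt_const x).sub differentiableAt_id)
    rw [e2, pd_const_mul hd2, hc _ y hdd]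
    show pd (pd f i) i (x - y) = _
    ring
  obtain ⟨ψ, h, hψ, hh, hconv⟩ := hC N (ball 0 r) W 1 isOpen_ball fun K _ hKU =>
    .of_forall fun k => ⟨fun x _ => hWb k x, ball 0 r, isOpen_ball, hKU, hWh k⟩
  have hlim : ∀ x ∈ ball (0 : Fin N → ℝ) r, Tendsto (fun n => W (ψ n) x) atTop (𝓝 (h x)) := fun x hx =>
    ((hconv {x} isCompact_singleton (singleton_subset_iff.2 hx)).1).tendsto_at (mem_singleton x)
  refine ⟨h, hh, fun x hx => le_of_tendsto (hlim x hx).abs (.of_forall fun n => hWb _ x),
    fun x hx hcont => tendsto_nhds_unique (hlim x hx) ?_⟩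
  refine ((ContDiffBump.convolution_tendsto_right (φ := φ) (g := fun _ => V) hφ0
    (.of_forall fun _ => hm.aestronglyMeasurable) (hcont.tendsto.comp tendsto_snd)
    tendsto_const_nhds).comp hψ.tendsto_atTop)

/-- A half-space solution of the Neumann problem extends to an even harmonic function. -/
theorem reflect (hC : CompactSpec) {w : (Fin (d + 1) → ℝ) → ℝ} {R r : ℝ} (hr : r < R)
    (hw : ContinuousOn w (ball 0 R ∩ {x | 0 < x (Fin.last d)}))
    (hb : ∀ x ∈ ball (0 : Fin (d + 1) → ℝ) R ∩ {x | 0 < x (Fin.last d)}, |w x| ≤ 1)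
    (heq : ∀ ψ : (Fin (d + 1) → ℝ) → ℝ, ContDiff ℝ ∞ ψ → HasCompactSupport ψ → tsupport ψ ⊆ ball 0 R →
      (∀ x, ψ (refl x) = ψ x) →
      ∫ x in ball 0 R ∩ {x | 0 < x (Fin.last d)}, w x * ∑ i, hess ψ i i x = 0) :
    ∃ h : (Fin (d + 1) → ℝ) → ℝ, Harm h (ball 0 r) ∧ (∀ x ∈ ball (0 : Fin (d + 1) → ℝ) r, |h x| ≤ 1) ∧
      (∀ x ∈ ball (0 : Fin (d + 1) → ℝ) r, h (refl x) = h x) ∧
      ∀ x ∈ ball (0 : Fin (d + 1) → ℝ) r, 0 < x (Fin.last d) → h x = w x := by
  set U := ball (0 : Fin (d + 1) → ℝ) R ∩ {x | 0 < x (Fin.last d)} with hU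
  have hUo : IsOpen U := isOpen_ball.inter (isOpen_lt continuous_const (continuous_apply _))
  have hUm : MeasurableSet U := hUo.measurableSet
  set W : (Fin (d + 1) → ℝ) → ℝ := U.indicator w with hW
  have hWm : Measurable W := by
    rw [hW]
    exact (aux_measurable hw hUo)
  set V : (Fin (d + 1) → ℝ) → ℝ := fun x => W x + W (refl x) with hV
  have hdisj : ∀ x, x ∈ U → refl x ∉ U := fun x hx h => by
    have h1 : 0 < refl x (Fin.last d) := h.2
    rw [refl_last] at h1
    have h2 : 0 < x (Fin.last d) := hx.2
    linarith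
  have hWb : ∀ x, |W x| ≤ 1 := fun x => by
    by_cases hx : x ∈ U
    · rw [hW, indicator_of_mem hx]; exact hb x hx
    · simp [hW, hx]
  have hVb : ∀ x, |V x| ≤ 1 := fun x => by
    by_cases hx : x ∈ U
    · simp only [hV, hW, indicator_of_notMem (hdisj x hx), add_zero]; exact hWb x
    · simp only [hV, hW, indicator_of_notMem hx, zero_add]; exact hWb (refl x)
  have hVm : Measurable V := hWm.add (hWm.comp measurePreserving_refl.measurable)
  have hVw : WeakHarm V (ball 0 R) := by
    intro φ hφ hφc hφs
    set Δ : (Fin (d + 1) → ℝ) → ℝ := fun x => ∑ i, hess φ i i x with hΔ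
    have hΔc : Continuous Δ :=
      continuous_finsetSum _ fun i _ => (contDiff_pd (contDiff_pd hφ i) i).continuous
    have hΔs : HasCompactSupport Δ := by
      refine hφc.mono' fun x hx => ?_
      by_contra hn
      exact hx (Finset.sum_eq_zero fun i _ =>
        image_eq_zero_of_notMem_tsupport fun t => hn (tsupport_pd φ i (tsupport_pd _ i t)))
    have hΔi : Integrable Δ := hΔc.integrable_of_hasCompactSupport hΔs
    have i1 : Integrable fun x => W x * Δ x :=
      hΔi.bdd_mul hWm.aestronglyMeasurable (.of_forall fun x => by simpa using hWb x)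
    have i2 : Integrable fun x => W (refl x) * Δ x :=
      hΔi.bdd_mul (hWm.comp measurePreserving_refl.measurable).aestronglyMeasurable
        (.of_forall fun x => by simpa using hWb (refl x))
    have i3 : Integrable fun x => W x * Δ (refl x) := by
      refine Integrable.bdd_mul ?_ hWm.aestronglyMeasurable (.of_forall fun x => by simpa using hWb x)
      exact measurePreserving_refl.integrable_comp_of_integrable hΔi
    have e2 : ∫ x, W (refl x) * Δ x = ∫ x, W x * Δ (refl x) := by
      rw [← integral_refl (fun x => W x * Δ (refl x))]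
      simp [refl_refl]
    show ∫ x, (W x + W (refl x)) * Δ x = 0
    simp only [add_mul]
    rw [integral_add i1 i2, e2, ← integral_add i1 i3]
    set ψ : (Fin (d + 1) → ℝ) → ℝ := fun x => φ x + φ (refl x) with hψ
    have hRd : ContDiff ℝ ∞ (refl (d := d)) := contDiff_pi.2 fun j => by
      by_cases hj : j = Fin.last d <;> simp only [refl, hj, if_true, if_false] <;> fun_prop
    have hφR : ContDiff ℝ ∞ fun x => φ (refl x) := hφ.comp hRd
    have hts : tsupport ψ ⊆ tsupport φ ∪ refl ⁻¹' tsupport φ := by
      refine closure_minimal (fun x hx => ?_)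
        ((isClosed_tsupport φ).union ((isClosed_tsupport φ).preimage continuous_refl))
      by_contra hn
      simp only [mem_union, mem_preimage, not_or] at hn
      exact hx (by simp [hψ, image_eq_zero_of_notMem_tsupport hn.1, image_eq_zero_of_notMem_tsupport hn.2])
    have hk : IsCompact (tsupport φ ∪ refl ⁻¹' tsupport φ) := by
      refine hφc.isCompact.union ?_
      rw [show refl ⁻¹' tsupport φ = refl '' tsupport φ from
        Set.ext fun x => ⟨fun hx => ⟨refl x, hx, refl_refl x⟩, fun ⟨y, hy, he⟩ => by
          rw [mem_preimage, ← he, refl_refl]; exact hy⟩]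
      exact hφc.isCompact.image continuous_refl
    have h0 := heq ψ (hφ.add hφR) (hk.of_isClosed_subset (isClosed_tsupport _) hts)
      (hts.trans (union_subset hφs fun x hx => by
        have := hφs hx
        rwa [mem_ball_zero_iff, norm_refl, ← mem_ball_zero_iff] at this))
      fun x => by simp [hψ, refl_refl, add_comm]
    rw [← h0, ← integral_indicator hUm]
    refine integral_congr_ae (.of_forall fun x => ?_)
    by_cases hx : x ∈ U
    · simp only [hW, indicator_of_mem hx, hΔ]
      rw [← mul_add, ← Finset.sum_add_distrib]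
      refine congrArg (w x * ·) (Finset.sum_congr rfl fun i _ => ?_)
      rw [hψ, hess_add (hφ.contDiffAt.of_le (WithTop.coe_le_coe.2 le_top))
        (hφR.contDiffAt.of_le (WithTop.coe_le_coe.2 le_top)), hess_comp_refl hφ]
    · simp [hW, hx]
  obtain ⟨h, hh, hhb, hheq⟩ := weak_harm_rep hC hr hVm hVb hVw
  have hval : ∀ x ∈ ball (0 : Fin (d + 1) → ℝ) r, 0 < x (Fin.last d) →
      h x = w x ∧ h (refl x) = w x := by
    intro x hx hpos
    have hxU : x ∈ U := ⟨ball_subset_ball hr.le hx, hpos⟩
    have h1 : V =ᶠ[𝓝 x] w := by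
      filter_upwards [hUo.mem_nhds hxU] with y hy
      simp [hV, hW, hy, hdisj y hy]
    have h2 : V =ᶠ[𝓝 (refl x)] fun y => w (refl y) := by
      have hxU' : refl (refl x) ∈ U := by rwa [refl_refl]
      filter_upwards [continuous_refl.continuousAt.preimage_mem_nhds (hUo.mem_nhds hxU')] with y hy
      have hyn : y ∉ U := fun h => hdisj y h hy
      simp [hV, hW, hyn, (mem_preimage.1 hy : refl y ∈ U)]
    have hrx : refl x ∈ ball (0 : Fin (d + 1) → ℝ) r := by
      rw [mem_ball_zero_iff, norm_refl]; exact mem_ball_zero_iff.1 hx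
    have hcw : ContinuousAt w x := hw.continuousAt (hUo.mem_nhds hxU)
    constructor
    · rw [hheq x hx (hcw.congr h1.symm), h1.self_of_nhds]
    · have hc2 : ContinuousAt (fun y => w (refl y)) (refl x) := by
        refine ContinuousAt.comp ?_ continuous_refl.continuousAt
        rwa [refl_refl]
      rw [hheq _ hrx (hc2.congr h2.symm), h2.self_of_nhds]
      simp [refl_refl]
  refine ⟨h, hh, hhb, fun x hx => ?_, fun x hx hp => (hval x hx hp).1⟩
  rcases lt_trichotomy (x (Fin.last d)) 0 with hn | hz | hp
  · have hrx : refl x ∈ ball (0 : Fin (d + 1) → ℝ) r := by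
      rw [mem_ball_zero_iff, norm_refl]; exact mem_ball_zero_iff.1 hx
    obtain ⟨a, b⟩ := hval (refl x) hrx (by rw [refl_last]; linarith)
    rw [refl_refl] at b
    rw [a, b]
  · rw [refl_eq_self hz]
  · obtain ⟨a, b⟩ := hval x hx hp
    rw [a, b]

end

end Vale.Agent.P098.Reg.Lin
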