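import Vale.Agent.P098.Reg.LinWeak
import Vale.Agent.P098.Reg.LinReflect

/-!
# P098, linearisation: the equation of the limit of the corrections
-/

namespace Vale.Agent.P098.Reg.Lin

open MeasureTheory Set Filter Topology Metric
open Vale.Agent.P098.Cone
open scoped NNReal ContDiff

noncomputable section

variable {d : ℕ} {L : ℝ≥0}

/-- A sequence of minimisers close to harmonic functions tending to the last coordinate. -/
structure Approach (L : ℝ≥0) (u P : ℕ → (Fin (d + 1) → ℝ) → ℝ) (ε σ κ : ℕ → ℝ) : Prop where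
  near : ∀ n, Near L (u n) (P n) (ε n) (σ n)
  sig_le : ∀ n, σ n ≤ ε n
  kap_nonneg : ∀ n, 0 ≤ κ n
  kap_le : ∀ n, κ n ≤ 1
  grad_le : ∀ n, ∀ x ∈ box, |dot (grad (P n) x) (grad (P n) x) - 1| ≤ κ n
  hess_le : ∀ n, ∀ x ∈ box, ∀ i j, |hess (P n) i j x| ≤ κ n
  eps_tendsto : Tendsto ε atTop (𝓝 0)
  sig_tendsto : Tendsto (fun n => σ n / ε n) atTop (𝓝 0)
  kap_tendsto : Tendsto κ atTop (𝓝 0)
  coord : ∀ η : ℝ, 0 < η → ∀ᶠ n in atTop, ∀ x ∈ box, |P n x - x (Fin.last d)| ≤ η

/-- The rescaled correction. -/
def corr (u P : ℕ → (Fin (d + 1) → ℝ) → ℝ) (ε : ℕ → ℝ) (n : ℕ) (x : Fin (d + 1) → ℝ) : ℝ :=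
  (ε n)⁻¹ * (u n x - P n x)

/-- The part of the box of size `3 / 4` above the plane. -/
def upper (d : ℕ) : Set (Fin (d + 1) → ℝ) := ball 0 (3 / 4) ∩ {x | 0 < x (Fin.last d)}

theorem isOpen_upper : IsOpen (upper d) :=
  isOpen_ball.inter (isOpen_lt continuous_const (continuous_apply _))

variable {u P : ℕ → (Fin (d + 1) → ℝ) → ℝ} {ε σ κ : ℕ → ℝ}

theorem Approach.compact_pos (S : Approach L u P ε σ κ) {K : Set (Fin (d + 1) → ℝ)} (hK : IsCompact K)
    (hb : K ⊆ box) (hp : ∀ x ∈ K, 0 < x (Fin.last d)) : ∀ᶠ n in atTop, K ⊆ pos (u n) := by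
  rcases K.eq_empty_or_nonempty with rfl | hne
  · exact .of_forall fun n => empty_subset _
  · obtain ⟨x0, hx0, hmin⟩ := hK.exists_isMinOn hne (continuous_apply (Fin.last d)).continuousOn
    have h0 : 0 < x0 (Fin.last d) := hp x0 hx0
    filter_upwards [S.coord (x0 (Fin.last d) / 4) (by linarith),
      S.eps_tendsto.eventually (eventually_lt_nhds (show (0 : ℝ) < x0 (Fin.last d) / 4 by linarith))]
      with n h1 h2 x hx
    have h3 := (abs_le.1 (h1 x (hb hx))).1
    have h4 := (S.near n).close.1 x (hb hx)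
    have h5 : x0 (Fin.last d) ≤ x (Fin.last d) := hmin hx
    show 0 < u n x
    linarith

theorem Approach.below (S : Approach L u P ε σ κ) {δ : ℝ} (hδ : 0 < δ) :
    ∀ᶠ n in atTop, ∀ x ∈ box, x ∈ closure (pos (u n)) → -δ < x (Fin.last d) := by
  filter_upwards [S.coord (δ / 4) (by linarith),
    S.eps_tendsto.eventually (eventually_lt_nhds (show (0 : ℝ) < δ / 4 by linarith))] with n h1 h2 x hx hc
  have h3 := (abs_le.1 (h1 x hx)).2
  have h4 := (S.near n).close.2 x hx hc
  have h5 := (S.near n).min.nonneg x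
  linarith

theorem continuous_mul_tsupport {N : ℕ} {f g : (Fin N → ℝ) → ℝ} {U : Set (Fin N → ℝ)} (hU : IsOpen U)
    (hf : Continuous f) (hs : tsupport f ⊆ U) (hg : ContinuousOn g U) :
    Continuous fun x => f x * g x := by
  refine continuous_iff_continuousAt.2 fun y => ?_
  by_cases hy : y ∈ tsupport f
  · exact hf.continuousAt.mul (hg.continuousAt (hU.mem_nhds (hs hy)))
  · refine (continuousAt_const (y := (0 : ℝ))).congr ?_
    filter_upwards [(isClosed_tsupport f).isOpen_compl.mem_nhds hy] with z hz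
    simp [image_eq_zero_of_notMem_tsupport hz]

theorem absSum_le_young {N : ℕ} (q : Fin N → ℝ) {s e : ℝ} (hs : 0 < s) (he : 0 < e) :
    absSum q ≤ s / e * dot q q + N * (e / (4 * s)) := by
  have e1 : s / e * dot q q + N * (e / (4 * s)) = ∑ i, (s / e * (q i * q i) + e / (4 * s)) := by
    simp [Finset.sum_add_distrib, dot, Finset.mul_sum]
  rw [e1]
  refine Finset.sum_le_sum fun i _ => ?_
  rw [← sub_nonneg, show s / e * (q i * q i) + e / (4 * s) - |q i|
    = (2 * s * |q i| - e) ^ 2 / (4 * s * e) by
      rw [← abs_mul_abs_self (q i)]; field_simp; ring]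
  positivity

theorem tendsto_strip {η : (Fin (d + 1) → ℝ) → ℝ} (hη : Integrable η) :
    Tendsto (fun δ : ℝ => ∫ x, {x : Fin (d + 1) → ℝ | |x (Fin.last d)| ≤ δ}.indicator η x)
      (𝓝[>] 0) (𝓝 0) := by
  have hplane : ∀ᵐ x : Fin (d + 1) → ℝ, x (Fin.last d) ≠ 0 := by
    rw [ae_iff]
    simpa [volume_pi] using Measure.pi_hyperplane (fun _ : Fin (d + 1) => (volume : Measure ℝ))
      (Fin.last d) (0 : ℝ)
  have h := tendsto_integral_filter_of_dominated_convergence (μ := (volume : Measure (Fin (d + 1) → ℝ)))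
    (l := 𝓝[>] (0 : ℝ))
    (F := fun δ x => {x : Fin (d + 1) → ℝ | |x (Fin.last d)| ≤ δ}.indicator η x) (f := fun _ => 0)
    (fun x => |η x|)
    (.of_forall fun δ => hη.aestronglyMeasurable.indicator
      ((isClosed_le (continuous_apply _).abs continuous_const).measurableSet))
    (.of_forall fun δ => .of_forall fun x => norm_indicator_le_norm_self _ _)
    hη.abs ?_
  · simpa using h
  · filter_upwards [hplane] with x hx
    refine tendsto_const_nhds.congr' ?_
    filter_upwards [Ioo_mem_nhdsGT (abs_pos.2 hx)] with δ hδ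
    rw [indicator_of_notMem]
    simp only [mem_ofPred_eq, not_le]
    exact hδ.2

/-- The transition cut-off at height `δ`. -/
def cut (δ : ℝ) (x : Fin (d + 1) → ℝ) : ℝ := Real.smoothTransition (δ⁻¹ * x (Fin.last d) - 1)

theorem contDiff_cut (δ : ℝ) : ContDiff ℝ ∞ (cut (d := d) δ) :=
  Real.smoothTransition.contDiff.comp ((contDiff_const.mul (contDiff_apply ℝ ℝ _)).sub contDiff_const)

theorem cut_eq_zero {δ : ℝ} (hδ : 0 < δ) {x : Fin (d + 1) → ℝ} (hx : x (Fin.last d) ≤ δ) : cut δ x = 0 := by
  refine Real.smoothTransition.zero_of_nonpos ?_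
  rw [sub_nonpos, inv_mul_le_iff₀ hδ, mul_one]
  exact hx

theorem cut_eq_one {δ : ℝ} (hδ : 0 < δ) {x : Fin (d + 1) → ℝ} (hx : 2 * δ ≤ x (Fin.last d)) :
    cut δ x = 1 := by
  refine Real.smoothTransition.one_of_one_le ?_
  rw [le_sub_iff_add_le, le_inv_mul_iff₀ hδ]
  linarith

theorem cut_mem (δ : ℝ) (x : Fin (d + 1) → ℝ) : cut δ x ∈ Icc (0 : ℝ) 1 :=
  ⟨Real.smoothTransition.nonneg _, Real.smoothTransition.le_one _⟩

theorem tsupport_cut {δ : ℝ} (hδ : 0 < δ) :
    tsupport (cut (d := d) δ) ⊆ {x | δ ≤ x (Fin.last d)} :=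
  closure_minimal (fun x hx => le_of_not_ge fun h => hx (cut_eq_zero hδ h))
    (isClosed_le continuous_const (continuous_apply _))

theorem pd_cut : ∃ M : ℝ, 0 ≤ M ∧ ∀ (δ : ℝ) (x : Fin (d + 1) → ℝ) (i : Fin (d + 1)), 0 < δ →
    (i ≠ Fin.last d → pd (cut δ) i x = 0) ∧ |pd (cut δ) i x| ≤ M * δ⁻¹ ∧
      (2 * δ < |x (Fin.last d)| → pd (cut δ) i x = 0) := by
  have hd : Differentiable ℝ Real.smoothTransition :=
    Real.smoothTransition.contDiff.differentiable (n := 1) one_ne_zero
  have hc : Continuous (deriv Real.smoothTransition) :=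
    Real.smoothTransition.contDiff.continuous_deriv (n := 1) le_rfl
  obtain ⟨M, hM⟩ := (isCompact_Icc (a := (0 : ℝ)) (b := 1)).exists_bound_of_continuousOn hc.continuousOn
  have hM0 : 0 ≤ M := le_trans (norm_nonneg _) (hM 0 (left_mem_Icc.2 zero_le_one))
  have hall : ∀ t : ℝ, |deriv Real.smoothTransition t| ≤ M := fun t => by
    rcases lt_or_ge t 0 with h | h
    · have : Real.smoothTransition =ᶠ[𝓝 t] fun _ => 0 := by
        filter_upwards [Iio_mem_nhds h] with y hy using Real.smoothTransition.zero_of_nonpos hy.le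
      rw [this.deriv_eq]; simpa using hM0
    · rcases le_or_gt t 1 with h1 | h1
      · simpa using hM t ⟨h, h1⟩
      · have : Real.smoothTransition =ᶠ[𝓝 t] fun _ => 1 := by
          filter_upwards [Ioi_mem_nhds h1] with y hy using Real.smoothTransition.one_of_one_le hy.le
        rw [this.deriv_eq]; simpa using hM0
  refine ⟨M, hM0, fun δ x i hδ => ?_⟩
  have hg : DifferentiableAt ℝ (fun y : Fin (d + 1) → ℝ => δ⁻¹ * y (Fin.last d) - 1) x := by fun_prop
  have e : pd (cut δ) i x = deriv Real.smoothTransition (δ⁻¹ * x (Fin.last d) - 1)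
      * (δ⁻¹ * if i = Fin.last d then 1 else 0) := by
    rw [show cut δ = fun y => Real.smoothTransition (δ⁻¹ * y (Fin.last d) - 1) from rfl,
      pd_comp (hd _).hasDerivAt hg, pd_sub ((differentiableAt_apply _ x).const_mul _)
        (differentiableAt_const _), pd_const, pd_const_mul (differentiableAt_apply _ x), pd_coord, sub_zero]
  refine ⟨fun hi => by simp [e, hi], ?_, fun hx => ?_⟩
  · rw [e, abs_mul]
    refine mul_le_mul (hall _) ?_ (abs_nonneg _) hM0
    by_cases hi : i = Fin.last d <;> simp [hi, abs_of_pos hδ, hδ.le]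
  · rcases lt_abs.1 hx with h | h
    · rw [pd_congr (g := fun _ => (1 : ℝ)) _ i, pd_const]
      filter_upwards [(isOpen_lt continuous_const (continuous_apply (Fin.last d))).mem_nhds h] with y hy
        using cut_eq_one hδ (le_of_lt hy)
    · have h' : x (Fin.last d) < δ := by linarith
      rw [pd_congr (g := fun _ => (0 : ℝ)) _ i, pd_const]
      filter_upwards [(isOpen_lt (continuous_apply (Fin.last d)) continuous_const).mem_nhds h'] with y hy
        using cut_eq_zero hδ (le_of_lt hy)

/-- The energy bound of the truncated correction. -/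
theorem cut_bound (hh : MinHarmSpec) (hL : LapSpec) (hF : FluxSpec) (hS : StationarySpec)
    (S : Approach L u P ε σ κ) {ψ : (Fin (d + 1) → ℝ) → ℝ} (hψ : ContDiff ℝ ∞ ψ)
    (hsψ : tsupport ψ ⊆ closedBall 0 (3 / 4)) :
    ∃ C : ℝ, 0 ≤ C ∧ ∃ g : (Fin (d + 1) → ℝ) → ℝ, Integrable g ∧ ∀ δ : ℝ, 0 < δ → ∀ s : ℝ, 0 < s →
      ∀ᶠ n in atTop,
      |∫ x in pos (u n), cut δ x * ((ε n)⁻¹ * dot (fun i => pd (u n) i x - pd (P n) i x) (grad ψ x))|
        ≤ C * (σ n / ε n + κ n + ε n) + C * s
          + C / s * ∫ x, {x : Fin (d + 1) → ℝ | |x (Fin.last d)| ≤ 2 * δ}.indicator g x := by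
  obtain ⟨Cw, hCw0, hCw⟩ := weak_equation (L := L) hh hL hF hS hψ hsψ
  obtain ⟨η, hηd, hηc, hηs, hη01, hη1⟩ := exists_cutoff
    (isCompact_closedBall (0 : Fin (d + 1) → ℝ) (3 / 4)) isOpen_ball
    (closedBall_subset_ball (by norm_num : (3 / 4 : ℝ) < 1))
  obtain ⟨Cc, hCc0, hCc⟩ := caccioppoli (L := L) hh hL hF hηd hηs
  have hsb : tsupport η ⊆ box := hηs.trans ball_subset_closedBall
  have hψc : HasCompactSupport ψ :=
    (isCompact_closedBall 0 (3 / 4)).of_isClosed_subset (isClosed_tsupport ψ) hsψ
  have hψb : tsupport ψ ⊆ box := hsψ.trans (closedBall_subset_closedBall (by norm_num))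
  obtain ⟨A, hA⟩ := hψ.lipschitzWith_of_hasCompactSupport hψc (by simp)
  have iη : Integrable fun x => η x ^ 2 :=
    (Bdd.of_continuous (hηd.continuous.pow 2)).integrable fun x hx => by
      simp [image_eq_zero_of_notMem_tsupport fun t => hx (hsb t)]
  set a := (A : ℝ) with ha
  set N := ((d + 1 : ℕ) : ℝ) with hN
  refine ⟨Cw + a * (2 * Cc) + a * N, by positivity, fun x => η x ^ 2, iη, fun δ hδ s hs => ?_⟩
  filter_upwards [S.below (show 0 < 2 * δ by linarith)] with n hbelow
  have h := S.near n
  have he := h.eps_pos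
  set q : (Fin (d + 1) → ℝ) → Fin (d + 1) → ℝ := fun x i => pd (u n) i x - pd (P n) i x with hq
  have hms := measurableSet_pos h.continuous
  set str : Set (Fin (d + 1) → ℝ) := {x | |x (Fin.last d)| ≤ 2 * δ} with hstr
  have hstrm : MeasurableSet str := (isClosed_le (continuous_apply _).abs continuous_const).measurableSet
  have bq : Bdd fun x => (ε n)⁻¹ * dot (q x) (grad ψ x) :=
    Bdd.const_mul _ (Bdd.dot (fun i => (Bdd.pd_lipschitz h.min.lipschitz i).sub
      (Bdd.of_continuous (contDiff_pd h.contDiff i).continuous))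
      fun i => Bdd.of_continuous (contDiff_pd hψ i).continuous)
  have hq0 : ∀ x ∉ box, (ε n)⁻¹ * dot (q x) (grad ψ x) = 0 := fun x hx =>
    mul_eq_zero_of_right _ (Finset.sum_eq_zero fun i _ =>
      mul_eq_zero_of_right _ (pd_zero_of_notMem_tsupport (fun t => hx (hψb t)) i))
  have i0 := bq.integrable hq0
  have i1 : Integrable fun x => cut δ x * ((ε n)⁻¹ * dot (q x) (grad ψ x)) :=
    ((Bdd.of_continuous (contDiff_cut δ).continuous).mul bq).integrable fun x hx =>
      mul_eq_zero_of_right _ (hq0 x hx)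
  have i2 : Integrable fun x => η x ^ 2 * corr2 (u n) (P n) x :=
    ((Bdd.of_continuous (hηd.continuous.pow 2)).mul (Bdd.corr2 h.min h.contDiff)).integrable fun x hx => by
      simp [image_eq_zero_of_notMem_tsupport fun t => hx (hsb t)]
  have hdiff : ∀ x ∈ pos (u n),
      |cut δ x * ((ε n)⁻¹ * dot (q x) (grad ψ x)) - (ε n)⁻¹ * dot (q x) (grad ψ x)|
        ≤ a * s / ε n ^ 2 * (η x ^ 2 * corr2 (u n) (P n) x)
          + a * N / (4 * s) * str.indicator (fun x => η x ^ 2) x := by
    intro x hx
    have hr1 : 0 ≤ str.indicator (fun x => η x ^ 2) x := indicator_nonneg (fun y _ => sq_nonneg _) x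
    have hr0 : 0 ≤ η x ^ 2 * corr2 (u n) (P n) x := mul_nonneg (sq_nonneg _) (corr2_nonneg x)
    by_cases hxs : x ∈ tsupport ψ
    · by_cases hxd : 2 * δ ≤ x (Fin.last d)
      · rw [cut_eq_one hδ hxd, one_mul, sub_self, abs_zero]
        positivity
      · have hstrip : x ∈ str := abs_le.2
          ⟨(hbelow x (hψb hxs) (subset_closure hx)).le, (not_le.1 hxd).le⟩
        rw [indicator_of_mem hstrip, hη1.self_of_nhdsSet x (hsψ hxs), one_pow, one_mul, mul_one,
          show cut δ x * ((ε n)⁻¹ * dot (q x) (grad ψ x)) - (ε n)⁻¹ * dot (q x) (grad ψ x)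
            = (cut δ x - 1) * ((ε n)⁻¹ * dot (q x) (grad ψ x)) by ring, abs_mul]
        have hc : |cut δ x - 1| ≤ 1 := abs_le.2 ⟨by linarith [(cut_mem δ x).1], by linarith [(cut_mem δ x).2]⟩
        refine (mul_le_of_le_one_left (abs_nonneg _) hc).trans ?_
        rw [abs_mul, abs_inv, abs_of_pos he]
        refine (mul_le_mul_of_nonneg_left ((abs_dot_le_absSum (q x) _ fun i => abs_pd_le hA i x).trans
          (mul_le_mul_of_nonneg_right (absSum_le_young (q x) hs he) A.coe_nonneg))
          (inv_nonneg.2 he.le)).trans (le_of_eq ?_)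
        show (ε n)⁻¹ * ((s / ε n * corr2 (u n) (P n) x + _) * a) = _
        rw [hN]
        field_simp
    · rw [show dot (q x) (grad ψ x) = 0 from Finset.sum_eq_zero fun i _ =>
        mul_eq_zero_of_right _ (pd_zero_of_notMem_tsupport hxs i), mul_zero, mul_zero, sub_zero, abs_zero]
      positivity
  have hbase : |∫ x in pos (u n), (ε n)⁻¹ * dot (q x) (grad ψ x)|
      ≤ Cw * (σ n / ε n + κ n + ε n) := by
    rw [integral_const_mul, abs_mul, abs_inv, abs_of_pos he]
    refine (mul_le_mul_of_nonneg_left (hCw _ _ _ _ _ h (S.sig_le n) (S.kap_nonneg n) (S.kap_le n)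
      (S.grad_le n) (S.hess_le n)) (inv_nonneg.2 he.le)).trans (le_of_eq ?_)
    field_simp
  have iind : Integrable fun x => str.indicator (fun x => η x ^ 2) x := iη.indicator hstrm
  have hsub : |(∫ x in pos (u n), cut δ x * ((ε n)⁻¹ * dot (q x) (grad ψ x)))
      - ∫ x in pos (u n), (ε n)⁻¹ * dot (q x) (grad ψ x)|
      ≤ a * s * (2 * Cc) + a * N / (4 * s) * ∫ x, str.indicator (fun x => η x ^ 2) x := by
    rw [← integral_sub i1.integrableOn i0.integrableOn]
    refine abs_integral_le_integral_abs.trans ((setIntegral_mono_on (i1.sub i0).abs.integrableOn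
      ((i2.const_mul _).add (iind.const_mul _)).integrableOn hms hdiff).trans ?_)
    rw [integral_add' (i2.const_mul _).integrableOn (iind.const_mul _).integrableOn, integral_const_mul,
      integral_const_mul]
    refine add_le_add ?_ (mul_le_mul_of_nonneg_left (setIntegral_le_integral iind
      (.of_forall fun x => indicator_nonneg (fun y _ => sq_nonneg _) x)) (by positivity))
    refine (mul_le_mul_of_nonneg_left (hCc _ _ _ _ h) (by positivity)).trans ?_
    rw [show a * s * (2 * Cc) = a * s / ε n ^ 2 * (Cc * (2 * ε n ^ 2)) by field_simp]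
    refine mul_le_mul_of_nonneg_left (mul_le_mul_of_nonneg_left ?_ hCc0) (by positivity)
    nlinarith [S.sig_le n, h.sig_nonneg]
  set J := ∫ x, str.indicator (fun x => η x ^ 2) x with hJ
  have hJ0 : 0 ≤ J := integral_nonneg fun x => indicator_nonneg (fun y _ => sq_nonneg _) x
  have hD0 : 0 ≤ σ n / ε n + κ n + ε n := by
    have := h.sig_nonneg; have := S.kap_nonneg n; positivity
  have hkey : a * N / (4 * s) * J ≤ (Cw + a * (2 * Cc) + a * N) / s * J := by
    refine mul_le_mul_of_nonneg_right ?_ hJ0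
    rw [div_le_div_iff₀ (by positivity) hs]
    have h1 : 0 ≤ (Cw + a * (2 * Cc)) * s := by positivity
    have h2 : 0 ≤ a * N * s := by positivity
    nlinarith
  have k1 : Cw * (σ n / ε n + κ n + ε n) ≤ (Cw + a * (2 * Cc) + a * N) * (σ n / ε n + κ n + ε n) :=
    mul_le_mul_of_nonneg_right (le_add_of_le_of_nonneg (le_add_of_nonneg_right (by positivity))
      (by positivity)) hD0
  have k2 : a * s * (2 * Cc) ≤ (Cw + a * (2 * Cc) + a * N) * s := by
    rw [show a * s * (2 * Cc) = a * (2 * Cc) * s by ring]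
    refine mul_le_mul_of_nonneg_right ?_ hs.le
    have : 0 ≤ a * N := by positivity
    linarith
  have := abs_le.1 hbase
  have := abs_le.1 hsub
  rw [abs_le]
  constructor <;> linarith

/-- The limit of the corrections solves the Neumann problem in the upper half. -/
theorem half_equation (hh : MinHarmSpec) (hL : LapSpec) (hF : FluxSpec) (hS : StationarySpec)
    (S : Approach L u P ε σ κ) {w : (Fin (d + 1) → ℝ) → ℝ} (hw : Harm w (upper d))
    (hwb : ∀ x ∈ upper d, |w x| ≤ 1)
    (hconv : ∀ K, IsCompact K → K ⊆ upper d →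
      TendstoUniformlyOn (fun n => grad (corr u P ε n)) (grad w) atTop K)
    {ψ : (Fin (d + 1) → ℝ) → ℝ} (hψ : ContDiff ℝ ∞ ψ) (hψc : HasCompactSupport ψ)
    (hsψ : tsupport ψ ⊆ ball 0 (3 / 4)) (heven : ∀ x, ψ (refl x) = ψ x) :
    ∫ x in upper d, w x * ∑ i, hess ψ i i x = 0 := by
  obtain ⟨C, hC0, g, hg, hbound⟩ := cut_bound hh hL hF hS S hψ (hsψ.trans ball_subset_closedBall)
  obtain ⟨M, hM0, hcut⟩ := pd_cut (d := d)
  have hψb : tsupport ψ ⊆ box :=
    hsψ.trans ((ball_subset_ball (by norm_num)).trans ball_subset_closedBall)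
  set e := Fin.last d with he
  obtain ⟨M2, hM2⟩ := (contDiff_pd hψ e).lipschitzWith_of_hasCompactSupport
    (hasCompactSupport_pd hψc e) (by simp)
  set Δ : (Fin (d + 1) → ℝ) → ℝ := fun x => ∑ i, hess ψ i i x with hΔ
  have hΔc : Continuous Δ :=
    continuous_finsetSum _ fun i _ => (contDiff_pd (contDiff_pd hψ i) i).continuous
  have hΔs : ∀ x ∉ tsupport ψ, Δ x = 0 := fun x hx => Finset.sum_eq_zero fun i _ =>
    pd_zero_of_notMem_tsupport (fun t => hx (tsupport_pd ψ i t)) i
  have iΔ : Integrable Δ := hΔc.integrable_of_hasCompactSupport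
    (hψc.mono' fun x hx => by_contra fun hn => hx (hΔs x hn))
  set pe : (Fin (d + 1) → ℝ) → ℝ := (tsupport ψ).indicator fun _ => 1 with hpe
  have ipe : Integrable pe := (integrable_indicator_iff (isClosed_tsupport ψ).measurableSet).2
    (integrableOn_const hψc.isCompact.measure_lt_top.ne)
  set I : ℝ → ((Fin (d + 1) → ℝ) → ℝ) → ℝ :=
    fun δ f => ∫ x, {x : Fin (d + 1) → ℝ | |x e| ≤ δ}.indicator f x with hI
  have hodd : ∀ x : Fin (d + 1) → ℝ, |pd ψ e x| ≤ M2 * |x e| := by
    intro x
    have hz : pd ψ e (Function.update x e 0) = 0 := by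
      have h1 := pd_comp_refl (f := ψ) (x := Function.update x e 0) ((hψ.differentiable (by simp)) _) e
      rw [show (fun y => ψ (refl y)) = ψ from funext heven,
        refl_eq_self (by simp [he])] at h1
      simp only [sgn, he, if_true, neg_one_mul] at h1
      rw [he]; linarith
    have h2 := hM2.dist_le_mul x (Function.update x e 0)
    rw [Real.dist_eq, hz, sub_zero] at h2
    refine h2.trans (mul_le_mul_of_nonneg_left ?_ M2.coe_nonneg)
    rw [dist_pi_le_iff (abs_nonneg _)]
    intro i
    rcases eq_or_ne i e with rfl | hi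
    · simp
    · simp [Function.update_of_ne hi]
  have hkey : ∀ δ : ℝ, 0 < δ → ∀ s : ℝ, 0 < s →
      |∫ x, cut δ x * Δ x * w x| ≤ C * s + C / s * I (2 * δ) g + 2 * M2 * M * I (2 * δ) pe := by
    intro δ hδ s hs
    have hU := isOpen_upper (d := d)
    have hsupp : ∀ {f : (Fin (d + 1) → ℝ) → ℝ}, (∀ x ∉ tsupport ψ, f x = 0) →
        tsupport (fun x => cut δ x * f x) ⊆ upper d := by
      intro f hf x hx
      refine ⟨hsψ (closure_minimal (fun y hy => by_contra fun hn => Function.mem_support.1 hy (by simp [hf y hn]))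
        (isClosed_tsupport ψ) hx), ?_⟩
      have := tsupport_cut hδ (tsupport_mul_subset_left (g := f) hx)
      exact lt_of_lt_of_le hδ this
    have hcs : ∀ {f : (Fin (d + 1) → ℝ) → ℝ}, (∀ x ∉ tsupport ψ, f x = 0) →
        HasCompactSupport (fun x => cut δ x * f x) := fun hf =>
      hψc.mono' fun x hx => by_contra fun hn => hx (by simp [hf x hn])
    have hint : ∀ {f g : (Fin (d + 1) → ℝ) → ℝ}, Continuous f → (∀ x ∉ tsupport ψ, f x = 0) →
        ContinuousOn g (upper d) → Integrable fun x => cut δ x * f x * g x := fun hf hf0 hg' =>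
      (continuous_mul_tsupport hU ((contDiff_cut δ).continuous.mul hf) (hsupp hf0) hg').integrable_of_hasCompactSupport
        (hcs hf0).mul_right
    have hψ0 : ∀ i, ∀ x ∉ tsupport ψ, pd ψ i x = 0 := fun i x hx => pd_zero_of_notMem_tsupport hx i
    have hf : ∀ i, ContDiff ℝ ∞ fun x => cut δ x * pd ψ i x * w x := fun i =>
      contDiff_mul_of_tsupport ((contDiff_cut δ).mul (contDiff_pd hψ i)) hU (hsupp (hψ0 i)) hw.1
    have hfc : ∀ i, HasCompactSupport fun x => cut δ x * pd ψ i x * w x := fun i =>
      (hcs (hψ0 i)).mul_right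
    have hwc : ∀ i, ContinuousOn (pd w i) (upper d) := fun i =>
      (contDiffOn_pd hw.1 hU i).continuousOn
    set F1 := fun x => cut δ x * Δ x * w x with hF1
    set F2 := fun x => ∑ i, cut δ x * pd ψ i x * pd w i x with hF2
    set F3 := fun x => ∑ i, pd (cut δ) i x * pd ψ i x * w x with hF3
    have hpt : ∀ x, ∑ i, pd (fun x => cut δ x * pd ψ i x * w x) i x = F1 x + F2 x + F3 x := by
      intro x
      have hc := ((contDiff_cut (d := d) δ).differentiable (by simp)) x
      by_cases hx : x ∈ upper d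
      · have hwd := differentiableAt_of_smooth hw.1 hU hx
        have hψd : ∀ i, DifferentiableAt ℝ (pd ψ i) x := fun i =>
          (contDiff_pd hψ i).differentiable (by simp) x
        simp only [pd_mul (hc.fun_mul (hψd _)) hwd, pd_mul hc (hψd _), hF1, hF2, hF3, hΔ, hess,
          Finset.mul_sum, Finset.sum_mul, ← Finset.sum_add_distrib]
        exact Finset.sum_congr rfl fun i _ => by show _ = _; ring
      · have e0 : ∀ {f : (Fin (d + 1) → ℝ) → ℝ}, (∀ x ∉ tsupport ψ, f x = 0) →
            (fun y => cut δ y * f y) =ᶠ[𝓝 x] fun _ => 0 := fun hf0 => by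
          filter_upwards [(isClosed_tsupport _).isOpen_compl.mem_nhds fun t => hx (hsupp hf0 t)] with y hy
          exact image_eq_zero_of_notMem_tsupport (f := fun y => cut δ y * _) hy
        have z1 : F1 x = 0 := by simp [hF1, (e0 hΔs).self_of_nhds]
        have z2 : F2 x = 0 := Finset.sum_eq_zero fun i _ => by
          rw [show cut δ x * pd ψ i x = 0 from (e0 (hψ0 i)).self_of_nhds, zero_mul]
        have z0 : ∀ i, pd (fun y => cut δ y * pd ψ i y * w y) i x = 0 := fun i => by
          rw [pd_congr (g := fun _ => (0 : ℝ)) ((e0 (hψ0 i)).mono fun y hy => by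
            show cut δ y * pd ψ i y * w y = 0
            simp only at hy
            rw [hy, zero_mul]) i, pd_const]
        have z3 : F3 x = 0 := Finset.sum_eq_zero fun i _ => by
          have h1 := pd_congr (e0 (hψ0 i)) i
          rw [pd_const, pd_mul hc ((contDiff_pd hψ i).differentiable (by simp) x)] at h1
          have h2 : cut δ x * pd (pd ψ i) i x = 0 := (e0 (f := pd (pd ψ i) i) fun y hy =>
            pd_zero_of_notMem_tsupport (fun t => hy (tsupport_pd ψ i t)) i).self_of_nhds
          rw [h2, zero_add] at h1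
          rw [mul_comm (pd (cut δ) i x), h1, zero_mul]
        rw [z1, z2, z3, Finset.sum_eq_zero fun i _ => z0 i]
        simp
    have i1 : Integrable F1 := hint hΔc hΔs hw.1.continuousOn
    have i2 : Integrable F2 :=
      integrable_finsetSum _ fun i _ => hint (contDiff_pd hψ i).continuous (hψ0 i) (hwc i)
    have itot : Integrable fun x => ∑ i, pd (fun x => cut δ x * pd ψ i x * w x) i x :=
      integrable_finsetSum _ fun i _ => (contDiff_pd (hf i) i).continuous.integrable_of_hasCompactSupport
        (hasCompactSupport_pd (hfc i) i)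
    have i3 : Integrable F3 := by
      have : F3 = fun x => (∑ i, pd (fun x => cut δ x * pd ψ i x * w x) i x) - F1 x - F2 x :=
        funext fun x => by rw [hpt]; ring
      rw [this]
      exact (itot.sub i1).sub i2
    have hzero : (∫ x, F1 x) + (∫ x, F2 x) + ∫ x, F3 x = 0 := by
      rw [← integral_add i1 i2, ← integral_add (f := fun x => F1 x + F2 x) (i1.add i2) i3]
      show ∫ x, (F1 x + F2 x + F3 x) = 0
      simp only [← hpt]
      rw [integral_finsetSum _ fun i _ => (contDiff_pd (hf i) i).continuous.integrable_of_hasCompactSupport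
        (hasCompactSupport_pd (hfc i) i)]
      exact Finset.sum_eq_zero fun i _ =>
        integral_pd_zero ((hf i).of_le (WithTop.coe_le_coe.2 le_top)) (hfc i) i
    have b3 : |∫ x, F3 x| ≤ 2 * M2 * M * I (2 * δ) pe := by
      rw [hI, ← integral_const_mul]
      refine abs_integral_le_integral_abs.trans (integral_mono i3.abs
        ((ipe.indicator ((isClosed_le (continuous_apply _).abs continuous_const).measurableSet)).const_mul _)
        fun x => ?_)
      have hrhs : 0 ≤ 2 * (M2 : ℝ) * M * {x : Fin (d + 1) → ℝ | |x e| ≤ 2 * δ}.indicator pe x := by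
        refine mul_nonneg (by positivity) (indicator_nonneg (fun y _ => ?_) x)
        exact indicator_nonneg (fun _ _ => zero_le_one) y
      have hsum : F3 x = pd (cut δ) e x * pd ψ e x * w x := by
        refine Finset.sum_eq_single e (fun i _ hi => ?_) fun h => absurd (Finset.mem_univ e) h
        rw [((hcut δ x i hδ).1 hi), zero_mul, zero_mul]
      simp only [hsum]
      by_cases hs2 : x ∈ tsupport ψ ∧ |x e| ≤ 2 * δ ∧ pd (cut δ) e x ≠ 0
      · obtain ⟨h1, h2, h3⟩ := hs2
        have hxU : x ∈ upper d := ⟨hsψ h1, lt_of_lt_of_le hδ (tsupport_cut hδ (tsupport_pd _ e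
          (subset_tsupport _ h3)))⟩
        rw [indicator_of_mem (show x ∈ {x : Fin (d + 1) → ℝ | |x e| ≤ 2 * δ} from h2),
          hpe, indicator_of_mem h1, mul_one, abs_mul, abs_mul]
        calc |pd (cut δ) e x| * |pd ψ e x| * |w x| ≤ M * δ⁻¹ * (M2 * (2 * δ)) * 1 := by
              refine mul_le_mul (mul_le_mul (hcut δ x e hδ).2.1 ((hodd x).trans
                (mul_le_mul_of_nonneg_left h2 M2.coe_nonneg)) (abs_nonneg _) (by positivity))
                (hwb x hxU) (abs_nonneg _) (by positivity)
          _ = 2 * M2 * M := by field_simp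
      · have h0 : pd (cut δ) e x * pd ψ e x * w x = 0 := by
          by_cases h1 : x ∈ tsupport ψ
          · by_cases h2 : |x e| ≤ 2 * δ
            · rw [not_and, not_and, not_not] at hs2
              rw [hs2 h1 h2, zero_mul, zero_mul]
            · rw [(hcut δ x e hδ).2.2 (not_le.1 h2), zero_mul, zero_mul]
          · rw [hψ0 e x h1, mul_zero, zero_mul]
        rw [h0, abs_zero]
        exact hrhs
    have b2 : |∫ x, F2 x| ≤ C * s + C / s * I (2 * δ) g := by
      set K := tsupport ψ ∩ {x | δ ≤ x e} with hK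
      have hKc : IsCompact K :=
        hψc.isCompact.inter_right (isClosed_le continuous_const (continuous_apply _))
      have hKU : K ⊆ upper d := fun x hx => ⟨hsψ hx.1, lt_of_lt_of_le hδ hx.2⟩
      set G : ℕ → (Fin (d + 1) → ℝ) → ℝ :=
        fun n x => ∑ i, cut δ x * pd ψ i x * pd (corr u P ε n) i x with hG
      have hGK : ∀ x, x ∉ K → ∀ i, cut δ x * pd ψ i x = 0 := fun x hx i => by
        by_cases h1 : x ∈ tsupport ψ
        · have : x e ≤ δ := le_of_not_ge fun h => hx ⟨h1, h⟩
          rw [cut_eq_zero hδ this, zero_mul]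
        · rw [hψ0 i x h1, mul_zero]
      have hpt' : ∀ x, Tendsto (fun n => G n x) atTop (𝓝 (F2 x)) := fun x => by
        by_cases hx : x ∈ K
        · exact tendsto_finsetSum _ fun i _ => (tendsto_pi_nhds.1
            ((hconv K hKc hKU).tendsto_at hx) i).const_mul _
        · simp only [hG, hF2, hGK x hx, zero_mul, Finset.sum_const_zero]
          exact tendsto_const_nhds
      have hdom : Tendsto (fun n => ∫ x, G n x) atTop (𝓝 (∫ x, F2 x)) := by
        refine tendsto_integral_filter_of_dominated_convergence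
          (fun x => ∑ i, |cut δ x * pd ψ i x * pd w i x| + ∑ i, |cut δ x * pd ψ i x|)
          (.of_forall fun n => ?_) ?_ ?_ (.of_forall hpt')
        · exact (Finset.measurable_sum _ fun i _ => ((contDiff_cut δ).continuous.measurable.mul
            (contDiff_pd hψ i).continuous.measurable).mul
            (measurable_fderiv_apply_const ℝ _ _)).aestronglyMeasurable
        · filter_upwards [Metric.tendstoUniformlyOn_iff.1 (hconv K hKc hKU) 1 one_pos] with n hn
          refine .of_forall fun x => ?_
          rw [← Finset.sum_add_distrib]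
          refine (Finset.abs_sum_le_sum_abs _ _).trans (Finset.sum_le_sum fun i _ => ?_)
          by_cases hx : x ∈ K
          · have h1 : |pd (corr u P ε n) i x - pd w i x| ≤ 1 := by
              have := (dist_le_pi_dist (grad w x) (grad (corr u P ε n) x) i).trans (hn x hx).le
              rwa [dist_comm, Real.dist_eq] at this
            calc |cut δ x * pd ψ i x * pd (corr u P ε n) i x|
                = |cut δ x * pd ψ i x * pd w i x
                    + cut δ x * pd ψ i x * (pd (corr u P ε n) i x - pd w i x)| := by ring_nf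
              _ ≤ _ := (abs_add_le _ _).trans (add_le_add le_rfl (by
                  rw [abs_mul]; exact mul_le_of_le_one_right (abs_nonneg _) h1))
          · simp [hGK x hx i]
        · exact (integrable_finsetSum _ fun i _ =>
            (hint (contDiff_pd hψ i).continuous (hψ0 i) (hwc i)).abs).add
            (integrable_finsetSum _ fun i _ => ((((contDiff_cut δ).continuous.mul
              (contDiff_pd hψ i).continuous)).integrable_of_hasCompactSupport (hcs (hψ0 i))).abs)
      have hev : ∀ᶠ n in atTop,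
          |∫ x, G n x| ≤ C * (σ n / ε n + κ n + ε n) + C * s + C / s * I (2 * δ) g := by
        filter_upwards [hbound δ hδ s hs,
          S.compact_pos hKc (fun x hx => hψb hx.1) fun x hx => lt_of_lt_of_le hδ hx.2] with n hn hK'
        refine le_trans (le_of_eq ?_) hn
        rw [← integral_indicator (measurableSet_pos (S.near n).continuous)]
        refine congrArg abs (integral_congr_ae (.of_forall fun x => ?_))
        by_cases hx : x ∈ K
        · rw [indicator_of_mem (hK' hx)]
          have hu := (S.near n).diff_u hh (hK' hx)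
          have hP := ((S.near n).contDiff.differentiable (by simp)) x
          have e1 : ∀ i, pd (corr u P ε n) i x = (ε n)⁻¹ * (pd (u n) i x - pd (P n) i x) := fun i => by
            rw [show corr u P ε n = fun y => (ε n)⁻¹ * (u n y - P n y) from rfl,
              pd_const_mul (f := fun y => u n y - P n y) (hu.sub hP), pd_sub hu hP]
          simp only [hG, e1, dot, grad, Finset.mul_sum]
          exact Finset.sum_congr rfl fun i _ => by ring
        · have z : G n x = 0 := Finset.sum_eq_zero fun i _ => by rw [hGK x hx i, zero_mul]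
          rw [z]
          by_cases hp : x ∈ pos (u n)
          · rw [indicator_of_mem hp]
            simp only [dot, grad, Finset.mul_sum]
            refine (Finset.sum_eq_zero fun i _ => ?_).symm
            have := hGK x hx i
            linear_combination (ε n)⁻¹ * (pd (u n) i x - pd (P n) i x) * this
          · rw [indicator_of_notMem hp]
      have hlim : Tendsto (fun n => C * (σ n / ε n + κ n + ε n) + C * s + C / s * I (2 * δ) g) atTop
          (𝓝 (C * (0 + 0 + 0) + C * s + C / s * I (2 * δ) g)) :=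
        ((((S.sig_tendsto.add S.kap_tendsto).add S.eps_tendsto).const_mul C).add_const _).add_const _
      have := le_of_tendsto_of_tendsto hdom.abs hlim hev
      simpa using this
    calc |∫ x, F1 x| = |(∫ x, F2 x) + ∫ x, F3 x| := by
          rw [← abs_neg]; congr 1; linarith
      _ ≤ _ := (abs_add_le _ _).trans (add_le_add b2 b3)
  have hlimJ : Tendsto (fun δ : ℝ => ∫ x, cut δ x * Δ x * w x) (𝓝[>] 0)
      (𝓝 (∫ x in upper d, w x * Δ x)) := by
    rw [← integral_indicator (isOpen_upper (d := d)).measurableSet]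
    refine tendsto_integral_filter_of_dominated_convergence (fun x => |Δ x|) ?_ ?_ iΔ.abs
      (.of_forall fun x => ?_)
    · filter_upwards [self_mem_nhdsWithin] with δ hδ
      have hs' : tsupport (fun x => cut δ x * Δ x) ⊆ upper d := fun x hx =>
        ⟨hsψ (closure_minimal (fun y hy => by_contra fun hn => Function.mem_support.1 hy (by simp [hΔs y hn]))
          (isClosed_tsupport ψ) hx),
          show (0 : ℝ) < x e from lt_of_lt_of_le hδ (tsupport_cut hδ (tsupport_mul_subset_left hx))⟩
      exact (continuous_mul_tsupport isOpen_upper ((contDiff_cut δ).continuous.mul hΔc) hs'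
        hw.1.continuousOn).aestronglyMeasurable
    · filter_upwards [self_mem_nhdsWithin] with δ hδ
      refine .of_forall fun x => ?_
      by_cases h0 : cut δ x * Δ x = 0
      · simp [h0]
      · have hxU : x ∈ upper d := ⟨hsψ (by_contra fun hn => h0 (by simp [hΔs x hn])),
          show (0 : ℝ) < x e from lt_of_lt_of_le hδ (tsupport_cut hδ (subset_tsupport _ (left_ne_zero_of_mul h0)))⟩
        rw [Real.norm_eq_abs, abs_mul, abs_mul]
        refine (mul_le_of_le_one_right (by positivity) (hwb x hxU)).trans ?_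
        refine mul_le_of_le_one_left (abs_nonneg _) ?_
        rw [abs_of_nonneg (cut_mem δ x).1]
        exact (cut_mem δ x).2
    · by_cases hxs : x ∈ tsupport ψ
      · rcases lt_or_ge 0 (x e) with hp | hn
        · rw [indicator_of_mem (show x ∈ upper d from ⟨hsψ hxs, hp⟩)]
          refine tendsto_const_nhds.congr' ?_
          filter_upwards [Ioo_mem_nhdsGT (half_pos hp)] with δ hδ
          rw [cut_eq_one hδ.1 (by show 2 * δ ≤ x e; linarith [hδ.2]), one_mul, mul_comm]
        · rw [indicator_of_notMem fun h : x ∈ upper d => absurd h.2 (not_lt.2 hn)]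
          refine tendsto_const_nhds.congr' ?_
          filter_upwards [self_mem_nhdsWithin] with δ hδ
          rw [cut_eq_zero hδ (hn.trans (le_of_lt hδ)), zero_mul, zero_mul]
      · have : (upper d).indicator (fun x => w x * Δ x) x = 0 := by simp [indicator, hΔs x hxs]
        rw [this]
        exact tendsto_const_nhds.congr fun δ => by simp [hΔs x hxs]
  refine abs_eq_zero.1 (le_antisymm (le_of_forall_pos_le_add fun r hr => ?_) (abs_nonneg _))
  rw [zero_add]
  set s := r / (C + 1) with hs
  have hs0 : 0 < s := by positivity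
  have hI2 : ∀ {f : (Fin (d + 1) → ℝ) → ℝ}, Integrable f → Tendsto (fun δ => I (2 * δ) f) (𝓝[>] 0) (𝓝 0) := by
    intro f hf
    refine (tendsto_strip hf).comp (tendsto_nhdsWithin_iff.2 ⟨?_, ?_⟩)
    · have : Tendsto (fun δ : ℝ => 2 * δ) (𝓝 0) (𝓝 0) := by
        simpa using (tendsto_id (x := 𝓝 (0 : ℝ))).const_mul 2
      exact this.mono_left nhdsWithin_le_nhds
    · filter_upwards [self_mem_nhdsWithin] with δ (hδ : 0 < δ)
      exact (by linarith : 0 < 2 * δ)
  have hlim : Tendsto (fun δ => C * s + C / s * I (2 * δ) g + 2 * M2 * M * I (2 * δ) pe) (𝓝[>] 0)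
      (𝓝 (C * s + C / s * 0 + 2 * M2 * M * 0)) :=
    (((hI2 hg).const_mul _).const_add _).add ((hI2 ipe).const_mul _)
  have := le_of_tendsto_of_tendsto hlimJ.abs hlim
    (eventually_nhdsWithin_of_forall fun δ hδ => hkey δ hδ s hs0)
  have e2 : C * s ≤ r := by
    rw [hs, ← mul_div_assoc, div_le_iff₀ (by positivity)]
    nlinarith
  simp only [mul_zero, add_zero] at this
  exact this.trans e2

end

end Vale.Agent.P098.Reg.Lin
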