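import Vale.Agent.P098.Reg.LinEnergy

/-!
# P098, linearisation: the equation of the correction
-/

namespace Vale.Agent.P098.Reg.Lin

open MeasureTheory Set Filter Topology Metric
open Vale.Agent.P098.Cone
open scoped NNReal ContDiff

noncomputable section

variable {N : ℕ} {L : ℝ≥0} {u P : (Fin N → ℝ) → ℝ} {ε σ : ℝ}

/-- The sum of the absolute values of the coordinates. -/
def absSum (q : Fin N → ℝ) : ℝ := ∑ i, |q i|

theorem absSum_nonneg (q : Fin N → ℝ) : 0 ≤ absSum q := Finset.sum_nonneg fun _ _ => abs_nonneg _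

theorem absSum_sq_le (q : Fin N → ℝ) : absSum q ^ 2 ≤ N * dot q q := by
  have h := Finset.sum_mul_sq_le_sq_mul_sq Finset.univ (fun _ => (1 : ℝ)) fun i => |q i|
  simp only [one_mul, one_pow, Finset.sum_const, Finset.card_univ, Fintype.card_fin, nsmul_eq_mul,
    mul_one, sq_abs] at h
  simpa [absSum, dot, sq] using h

theorem dot_self_le_absSum_sq (q : Fin N → ℝ) : dot q q ≤ absSum q ^ 2 := by
  rw [absSum, sq, Finset.sum_mul]
  refine Finset.sum_le_sum fun i _ => ?_
  rw [← abs_mul_abs_self (q i)]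
  exact mul_le_mul_of_nonneg_left (Finset.single_le_sum (fun j _ => abs_nonneg (q j)) (Finset.mem_univ i))
    (abs_nonneg _)

theorem abs_dot_le_absSum (q D : Fin N → ℝ) {A : ℝ} (hD : ∀ i, |D i| ≤ A) :
    |dot q D| ≤ absSum q * A := by
  rw [absSum, Finset.sum_mul]
  refine (Finset.abs_sum_le_sum_abs _ _).trans (Finset.sum_le_sum fun i _ => ?_)
  rw [abs_mul]
  exact mul_le_mul_of_nonneg_left (hD i) (abs_nonneg _)

/-- The remainder of the linearised stationarity. -/
def rest (q G D : Fin N → ℝ) (H : Fin N → Fin N → ℝ) (ψ : ℝ) : ℝ :=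
  2 * (1 - dot G G) * dot q D - 2 * ψ * (dot q (app H G) + dot G (app H q)) + dot q q * dot D G
    - 2 * dot q G * dot q D - 2 * ψ * dot q (app H q)

theorem inner_split (q G D : Fin N → ℝ) (H : Fin N → Fin N → ℝ) (ψ : ℝ) (hH : ∑ i, H i i = 0) :
    (dot (fun i => G i + q i) (fun i => G i + q i) + 1) * (∑ i, (ψ * H i i + G i * D i))
        - 2 * ∑ i, ∑ j, (G i + q i) * (G j + q j) * (ψ * H i j + G i * D j)
      = ((1 - dot G G) * dot D G - 2 * ψ * dot G (app H G)) - 2 * dot q D + rest q G D H ψ := by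
  have e1 : dot (fun i => G i + q i) (fun i => G i + q i) = dot G G + 2 * dot q G + dot q q := by
    simp only [dot, Finset.mul_sum, ← Finset.sum_add_distrib]
    exact Finset.sum_congr rfl fun i _ => by ring
  have e2 : ∑ i, (ψ * H i i + G i * D i) = dot D G := by
    rw [Finset.sum_add_distrib, ← Finset.mul_sum, hH, mul_zero, zero_add]
    exact Finset.sum_congr rfl fun i _ => by ring
  have e3 : ∑ i, ∑ j, (G i + q i) * (G j + q j) * (ψ * H i j + G i * D j)
      = ψ * (dot G (app H G) + dot G (app H q) + dot q (app H G) + dot q (app H q))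
        + (dot G G + dot q G) * (dot D G + dot q D) := by
    have a1 : dot G G + dot q G = ∑ i, (G i + q i) * G i := by
      simp only [dot, ← Finset.sum_add_distrib]
      exact Finset.sum_congr rfl fun i _ => by ring
    have a2 : dot D G + dot q D = ∑ j, (G j + q j) * D j := by
      simp only [dot, ← Finset.sum_add_distrib]
      exact Finset.sum_congr rfl fun i _ => by ring
    rw [a1, a2, Finset.sum_mul_sum]
    simp only [dot, app, Finset.mul_sum, ← Finset.sum_add_distrib]
    exact Finset.sum_congr rfl fun i _ => Finset.sum_congr rfl fun j _ => by ring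
  rw [e1, e2, e3, rest]
  ring

theorem abs_rest_le {q G D : Fin N → ℝ} {H : Fin N → Fin N → ℝ} {ψ A κ : ℝ} (hκ : 0 ≤ κ)
    (hκ1 : κ ≤ 1) (hG : |dot G G - 1| ≤ κ) (hH : ∀ i j, |H i j| ≤ κ) (hD : ∀ i, |D i| ≤ A)
    (hψ : |ψ| ≤ A) (hA : 0 ≤ A) :
    |rest q G D H ψ| ≤ (2 + 8 * N) * A * (κ * absSum q) + (2 * N + 4 + 2) * A * (N * dot q q) := by
  have hQ := absSum_nonneg q
  have hQ2 := absSum_sq_le q
  have hG2 : ∀ i, |G i| ≤ 2 := fun i => by
    have h1 : G i * G i ≤ dot G G :=
      Finset.single_le_sum (f := fun j => G j * G j) (fun j _ => mul_self_nonneg _) (Finset.mem_univ i)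
    have h2 := (abs_le.1 hG).2
    exact abs_le.2 ⟨by nlinarith, by nlinarith⟩
  have hHG : ∀ i, |app H G i| ≤ 2 * N * κ := fun i => by
    refine (Finset.abs_sum_le_sum_abs _ _).trans ?_
    calc ∑ j, |H i j * G j| ≤ ∑ _j : Fin N, κ * 2 := Finset.sum_le_sum fun j _ => by
          rw [abs_mul]; exact mul_le_mul (hH i j) (hG2 j) (abs_nonneg _) hκ
      _ = 2 * N * κ := by simp; ring
  have hHq : ∀ i, |app H q i| ≤ κ * absSum q := fun i => by
    refine (Finset.abs_sum_le_sum_abs _ _).trans ?_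
    rw [absSum, Finset.mul_sum]
    exact Finset.sum_le_sum fun j _ => by
      rw [abs_mul]; exact mul_le_mul_of_nonneg_right (hH i j) (abs_nonneg _)
  have b1 : |2 * (1 - dot G G) * dot q D| ≤ 2 * A * (κ * absSum q) := by
    rw [abs_mul, abs_mul, abs_sub_comm, show |(2 : ℝ)| = 2 by norm_num]
    have := mul_le_mul hG (abs_dot_le_absSum q D hD) (abs_nonneg _) hκ
    linarith
  have b2 : |2 * ψ * (dot q (app H G) + dot G (app H q))| ≤ 8 * N * A * (κ * absSum q) := by
    rw [abs_mul, abs_mul, show |(2 : ℝ)| = 2 by norm_num]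
    have h1 := abs_dot_le_absSum q _ hHG
    have h2 : |dot G (app H q)| ≤ N * (2 * (κ * absSum q)) := by
      refine (Finset.abs_sum_le_sum_abs _ _).trans ?_
      calc ∑ j, |G j * app H q j| ≤ ∑ _j : Fin N, 2 * (κ * absSum q) :=
            Finset.sum_le_sum fun j _ => by
              rw [abs_mul]; exact mul_le_mul (hG2 j) (hHq j) (abs_nonneg _) zero_le_two
        _ = _ := by simp
    calc 2 * |ψ| * |dot q (app H G) + dot G (app H q)|
        ≤ 2 * A * (absSum q * (2 * N * κ) + N * (2 * (κ * absSum q))) :=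
          mul_le_mul (by linarith) ((abs_add_le _ _).trans (add_le_add h1 h2)) (abs_nonneg _) (by linarith)
      _ = 8 * N * A * (κ * absSum q) := by ring
  have b3 : |dot q q * dot D G| ≤ 2 * N * A * (N * dot q q) := by
    rw [abs_mul, abs_of_nonneg (dot_self_nonneg q)]
    have h1 : |dot D G| ≤ 2 * N * A := by
      refine (abs_dot_le_absSum D G hG2).trans ?_
      have : absSum D ≤ ∑ _j : Fin N, A := Finset.sum_le_sum fun j _ => hD j
      simp at this
      nlinarith
    calc dot q q * |dot D G| ≤ dot q q * (2 * N * A) :=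
          mul_le_mul_of_nonneg_left h1 (dot_self_nonneg q)
      _ ≤ (N * dot q q) * (2 * N * A) := by
          rcases Nat.eq_zero_or_pos N with hN | hN
          · subst hN; simp
          · refine mul_le_mul_of_nonneg_right ?_ (by positivity)
            exact le_mul_of_one_le_left (dot_self_nonneg q) (by exact_mod_cast hN)
      _ = _ := by ring
  have b4 : |2 * dot q G * dot q D| ≤ 4 * A * (N * dot q q) := by
    rw [abs_mul, abs_mul, show |(2 : ℝ)| = 2 by norm_num]
    calc 2 * |dot q G| * |dot q D| ≤ 2 * (absSum q * 2) * (absSum q * A) :=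
          mul_le_mul (by linarith [abs_dot_le_absSum q G hG2]) (abs_dot_le_absSum q D hD) (abs_nonneg _)
            (by positivity)
      _ = 4 * A * absSum q ^ 2 := by ring
      _ ≤ _ := mul_le_mul_of_nonneg_left hQ2 (by positivity)
  have b5 : |2 * ψ * dot q (app H q)| ≤ 2 * A * (N * dot q q) := by
    rw [abs_mul, abs_mul, show |(2 : ℝ)| = 2 by norm_num]
    calc 2 * |ψ| * |dot q (app H q)| ≤ 2 * A * (absSum q * (κ * absSum q)) :=
          mul_le_mul (by linarith) (abs_dot_le_absSum q _ hHq) (abs_nonneg _) (by linarith)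
      _ ≤ 2 * A * (1 * absSum q ^ 2) := mul_le_mul_of_nonneg_left
          (by nlinarith [mul_le_mul_of_nonneg_right hκ1 (sq_nonneg (absSum q))]) (by linarith)
      _ ≤ _ := by rw [one_mul]; exact mul_le_mul_of_nonneg_left hQ2 (by positivity)
  have := abs_le.1 b1; have := abs_le.1 b2; have := abs_le.1 b3; have := abs_le.1 b4; have := abs_le.1 b5
  rw [rest, abs_le]
  constructor <;> linarith

/-- The field whose divergence is the zero order term. -/
def zField (P ψ : (Fin N → ℝ) → ℝ) (i : Fin N) (y : Fin N → ℝ) : ℝ :=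
  ψ y * (1 - dot (grad P y) (grad P y)) * pd P i y

theorem inner_pointwise (h : Harm P univ) {ψ : (Fin N → ℝ) → ℝ} (hψ : ContDiff ℝ ∞ ψ)
    (u : (Fin N → ℝ) → ℝ) (x : Fin N → ℝ) :
    innerInt u (fun i y => ψ y * pd P i y) x
      = dvg (zField P ψ) x - 2 * dot (fun i => pd u i x - pd P i x) (grad ψ x)
        + rest (fun i => pd u i x - pd P i x) (grad P x) (grad ψ x) (hessMat P x) (ψ x) := by
  have hP : ContDiff ℝ ∞ P := contDiffOn_univ.1 h.1
  have hdP : ∀ i, Differentiable ℝ (pd P i) := fun i => (contDiff_pd hP i).differentiable (by simp)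
  have hdψ : Differentiable ℝ ψ := hψ.differentiable (by simp)
  have hz : ∑ i, hess P i i x = 0 := h.2 x (mem_univ x)
  have eX : ∀ i j, pd (fun y => ψ y * pd P i y) j x = ψ x * hess P i j x + pd P i x * pd ψ j x :=
    fun i j => pd_mul (hdψ x) (hdP i x) j
  have hdd : DifferentiableAt ℝ (fun y => dot (grad P y) (grad P y)) x :=
    DifferentiableAt.fun_sum fun k _ => (hdP k x).mul (hdP k x)
  have hsd : DifferentiableAt ℝ (fun y => 1 - dot (grad P y) (grad P y)) x :=
    (differentiableAt_const 1).sub hdd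
  have eZ : dvg (zField P ψ) x = (1 - dot (grad P x) (grad P x)) * dot (grad ψ x) (grad P x)
      - 2 * ψ x * dot (grad P x) (app (hessMat P x) (grad P x)) := by
    have e : ∀ i, pd (zField P ψ i) i x = ψ x * (1 - dot (grad P x) (grad P x)) * hess P i i x
        + pd P i x * ((1 - dot (grad P x) (grad P x)) * pd ψ i x
          - ψ x * ∑ k, (2 * (pd P k x * hess P k i x))) := by
      intro i
      rw [show zField P ψ i = fun y => ψ y * (1 - dot (grad P y) (grad P y)) * pd P i y from rfl,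
      pd_mul (f := fun y => ψ y * (1 - dot (grad P y) (grad P y))) ((hdψ x).mul hsd) (hdP i x),
        pd_mul (hdψ x) hsd, pd_sub (differentiableAt_const 1) hdd,
        pd_const, show pd (fun y => dot (grad P y) (grad P y)) i x
          = ∑ k, pd (fun y => pd P k y * pd P k y) i x from pd_sum _ (fun k _ => (hdP k x).mul (hdP k x)) i]
      simp only [pd_mul (hdP _ x) (hdP _ x)]
      rw [Finset.sum_congr rfl fun k _ => show pd P k x * pd (pd P k) i x + pd P k x * pd (pd P k) i x
        = 2 * (pd P k x * hess P k i x) by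
          show _ = 2 * (pd P k x * pd (pd P k) i x)
          ring]
      simp only [hess]; ring
    simp only [dvg, e, Finset.sum_add_distrib, ← Finset.mul_sum]
    rw [hz, mul_zero, zero_add]
    simp only [dot, app, grad, hessMat, Finset.mul_sum, mul_sub, Finset.sum_sub_distrib]
    congr 1
    · exact Finset.sum_congr rfl fun i _ => by ring
    · rw [Finset.sum_comm]
      exact Finset.sum_congr rfl fun i _ => Finset.sum_congr rfl fun j _ => by ring
  rw [eZ, ← inner_split _ (grad P x) (grad ψ x) (hessMat P x) (ψ x) hz]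
  simp only [innerInt, dvg, eX, dot, grad, hessMat, add_sub_cancel]

theorem measurable_rest (u : (Fin N → ℝ) → ℝ) {ψ : (Fin N → ℝ) → ℝ} (hP : ContDiff ℝ ∞ P)
    (hψ : ContDiff ℝ ∞ ψ) : Measurable fun x =>
      rest (fun i => pd u i x - pd P i x) (grad P x) (grad ψ x) (hessMat P x) (ψ x) := by
  have hq : ∀ i, Measurable fun x => pd u i x - pd P i x := fun i =>
    (measurable_fderiv_apply_const ℝ u _).sub (contDiff_pd hP i).continuous.measurable
  have hp : ∀ i, Measurable (pd P i) := fun i => (contDiff_pd hP i).continuous.measurable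
  have hψm : ∀ i, Measurable (pd ψ i) := fun i => (contDiff_pd hψ i).continuous.measurable
  have hh' : ∀ i j, Measurable (hess P i j) := fun i j =>
    (contDiff_pd (contDiff_pd hP i) j).continuous.measurable
  have hd' : ∀ {p r : (Fin N → ℝ) → Fin N → ℝ}, (∀ i, Measurable fun x => p x i) →
      (∀ i, Measurable fun x => r x i) → Measurable fun x => dot (p x) (r x) :=
    fun h1 h2 => Finset.measurable_sum _ fun i _ => (h1 i).mul (h2 i)
  have happ : ∀ {r : (Fin N → ℝ) → Fin N → ℝ}, (∀ i, Measurable fun x => r x i) →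
      ∀ i, Measurable fun x => app (hessMat P x) (r x) i :=
    fun h2 i => Finset.measurable_sum _ fun j _ => (hh' i j).mul (h2 j)
  exact (((((measurable_const.mul (measurable_const.sub (hd' hp hp))).mul (hd' hq hψm)).sub
    ((measurable_const.mul hψ.continuous.measurable).mul ((hd' hq (happ hp)).add (hd' hp (happ hq))))).add
    ((hd' hq hq).mul (hd' hψm hp))).sub ((measurable_const.mul (hd' hq hp)).mul (hd' hq hψm))).sub
    ((measurable_const.mul hψ.continuous.measurable).mul (hd' hq (happ hq)))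

theorem rest_bound {η ψ : (Fin N → ℝ) → ℝ} {A κ : ℝ} (hκ : 0 ≤ κ) (hκ1 : κ ≤ 1) (hε : 0 < ε)
    (hA0 : 0 ≤ A) (x : Fin N → ℝ) (hη1 : ∀ x ∈ tsupport ψ, η x = 1)
    (hG : x ∈ tsupport ψ → |dot (grad P x) (grad P x) - 1| ≤ κ)
    (hH : x ∈ tsupport ψ → ∀ i j, |hess P i j x| ≤ κ) (hA : |ψ x| ≤ A ∧ ∀ i, |pd ψ i x| ≤ A) :
    |rest (fun i => pd u i x - pd P i x) (grad P x) (grad ψ x) (hessMat P x) (ψ x)|
      ≤ η x ^ 2 * ((2 + 8 * (N : ℝ)) * A * κ * (N * ε))
        + ((2 + 8 * (N : ℝ)) * A * κ / ε + (2 * (N : ℝ) + 4 + 2) * A * N)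
          * (η x ^ 2 * corr2 u P x) := by
  by_cases hx : x ∈ tsupport ψ
  · rw [hη1 x hx, one_pow, one_mul, one_mul]
    refine (abs_rest_le hκ hκ1 (hG hx) (hH hx) hA.2 hA.1 hA0).trans ?_
    have hQ : absSum (fun i => pd u i x - pd P i x) ≤ N * ε + corr2 u P x / ε := by
      have e : (N : ℝ) * ε + corr2 u P x / ε
          = ∑ i, (ε + (pd u i x - pd P i x) * (pd u i x - pd P i x) / ε) := by
        simp [Finset.sum_add_distrib, corr2, dot, Finset.sum_div]
      rw [e]
      refine Finset.sum_le_sum fun i _ => ?_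
      set t := pd u i x - pd P i x
      rw [← sub_nonneg, show ε + t * t / ε - |t| = ((|t| - ε / 2) ^ 2 + 3 / 4 * ε ^ 2) / ε by
        rw [sub_sq, sq_abs]; field_simp; ring]
      positivity
    have hcorr : dot (fun i => pd u i x - pd P i x) (fun i => pd u i x - pd P i x) = corr2 u P x := rfl
    rw [hcorr]
    have := mul_le_mul_of_nonneg_left hQ (mul_nonneg (by positivity : 0 ≤ ((2 + 8 * (N : ℝ)) * A)) hκ)
    have e2 : (((2 + 8 * (N : ℝ)) * A) * κ / ε + ((2 * (N : ℝ) + 4 + 2) * A * N)) * corr2 u P x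
        = ((2 + 8 * (N : ℝ)) * A) * κ * (corr2 u P x / ε) + (2 * N + 4 + 2) * A * (N * corr2 u P x) := by
      ring
    rw [e2]
    linarith
  · have h1 : grad ψ x = 0 := funext fun i => pd_zero_of_notMem_tsupport hx i
    rw [rest, h1, image_eq_zero_of_notMem_tsupport hx]
    have := corr2_nonneg (u := u) (P := P) x
    simp only [dot, Pi.zero_apply, mul_zero, zero_mul, Finset.sum_const_zero, sub_zero, add_zero, abs_zero]
    exact add_nonneg (by positivity) (mul_nonneg (by positivity) (mul_nonneg (sq_nonneg _) this))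

theorem sum_bound {a b c S K E : ℝ} (ha : 0 ≤ a) (hb : 0 ≤ b) (hc : 0 ≤ c) (hS : 0 ≤ S)
    (hK : 0 ≤ K) (hE : 0 ≤ E) : a * S + b * K + c * E ≤ (a + b + c) * (S + K + E) := by
  nlinarith [mul_nonneg ha (add_nonneg hK hE), mul_nonneg hb (add_nonneg hS hE),
    mul_nonneg hc (add_nonneg hS hK)]

/-- The correction solves the Neumann problem weakly, up to higher order. -/
theorem weak_equation (hh : MinHarmSpec) (hL : LapSpec) (hF : FluxSpec) (hS : StationarySpec)
    {ψ : (Fin N → ℝ) → ℝ} (hψ : ContDiff ℝ ∞ ψ) (hsψ : tsupport ψ ⊆ closedBall 0 (3 / 4)) :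
    ∃ C : ℝ, 0 ≤ C ∧ ∀ (u P : (Fin N → ℝ) → ℝ) (ε σ κ : ℝ), Near L u P ε σ → σ ≤ ε → 0 ≤ κ → κ ≤ 1 →
      (∀ x ∈ box, |dot (grad P x) (grad P x) - 1| ≤ κ) →
      (∀ x ∈ box, ∀ i j, |hess P i j x| ≤ κ) →
      |∫ x in pos u, dot (fun i => pd u i x - pd P i x) (grad ψ x)| ≤ C * (σ + κ * ε + ε ^ 2) := by
  obtain ⟨η, hηd, hηc, hηs, hη01, hη1⟩ := exists_cutoff (isCompact_closedBall (0 : Fin N → ℝ) (3 / 4))
    isOpen_ball (closedBall_subset_ball (by norm_num : (3 / 4 : ℝ) < 1))
  obtain ⟨Cc, hCc0, hCc⟩ := caccioppoli (L := L) hh hL hF hηd hηs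
  have hsb : tsupport η ⊆ box := hηs.trans ball_subset_closedBall
  have hψc : HasCompactSupport ψ :=
    (isCompact_closedBall 0 (3 / 4)).of_isClosed_subset (isClosed_tsupport ψ) hsψ
  have hψb : tsupport ψ ⊆ box := hsψ.trans (closedBall_subset_closedBall (by norm_num))
  have hη1' : ∀ x ∈ tsupport ψ, η x = 1 := fun x hx => hη1.self_of_nhdsSet x (hsψ hx)
  obtain ⟨A, hA0, hA⟩ : ∃ A, 0 ≤ A ∧ ∀ x, |ψ x| ≤ A ∧ ∀ i, |pd ψ i x| ≤ A := by
    obtain ⟨a, ha⟩ := hψ.continuous.bounded_above_of_compact_support hψc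
    obtain ⟨M, hM⟩ := hψ.lipschitzWith_of_hasCompactSupport hψc (by simp)
    exact ⟨max a M, le_max_of_le_right M.coe_nonneg, fun x => ⟨(by simpa using ha x : |ψ x| ≤ a).trans
      (le_max_left _ _), fun i => (abs_pd_le hM i x).trans (le_max_right _ _)⟩⟩
  obtain ⟨Mη, hMη⟩ := hηd.lipschitzWith_of_hasCompactSupport hηc (by simp)
  set T₀ := (L : ℝ) * ∫ x, ∑ i, |pd η i x| with hT₀
  have hT0 : 0 ≤ T₀ := mul_nonneg L.coe_nonneg
    (integral_nonneg fun x => Finset.sum_nonneg fun i _ => abs_nonneg _)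
  set V := ∫ x, η x ^ 2 with hV
  have hV0 : 0 ≤ V := integral_nonneg fun x => sq_nonneg _
  set c1 := (2 + 8 * (N : ℝ)) * A with hc1
  set c2 := (2 * (N : ℝ) + 4 + 2) * A * N with hc2
  refine ⟨2 * A * T₀ + c1 * (N * V + Cc) + 2 * c2 * Cc, by positivity,
    fun u P ε σ κ h hσε hκ hκ1 hG hH => ?_⟩
  have hP := h.contDiff
  have hε := h.eps_pos
  have hdP : ∀ i, Differentiable ℝ (pd P i) := fun i => (contDiff_pd hP i).differentiable (by simp)
  have hdψ : Differentiable ℝ ψ := hψ.differentiable (by simp)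
  have hC1P : ∀ i, ContDiff ℝ 1 (pd P i) := fun i =>
    (contDiff_pd hP i).of_le (WithTop.coe_le_coe.2 le_top)
  have hψ1 : ContDiff ℝ 1 ψ := hψ.of_le (WithTop.coe_le_coe.2 le_top)
  have hst := hS N L u (fun i y => ψ y * pd P i y) h.min (fun i => hψ1.mul (hC1P i))
    fun i => hψc.mul_right
  set Z : Fin N → (Fin N → ℝ) → ℝ := zField P ψ with hZ
  have hZd : ∀ i, ContDiff ℝ 1 (Z i) := fun i =>
    (hψ1.mul (contDiff_const.sub (ContDiff.sum fun k _ => (hC1P k).mul (hC1P k)))).mul (hC1P i)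
  have hR : ∀ x, |rest (fun i => pd u i x - pd P i x) (grad P x) (grad ψ x) (hessMat P x) (ψ x)|
      ≤ η x ^ 2 * (c1 * κ * (N * ε)) + (c1 * κ / ε + c2) * (η x ^ 2 * corr2 u P x) := fun x =>
    rest_bound hκ hκ1 hε hA0 x hη1' (fun hx => hG x (hψb hx)) (fun hx => hH x (hψb hx)) (hA x)
  have hms := measurableSet_pos h.continuous
  have iZ : Integrable fun x => dvg Z x :=
    (Bdd.sum _ fun i _ => Bdd.of_continuous
      (((hZd i).continuous_fderiv one_ne_zero).clm_apply continuous_const)).integrable fun x hx =>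
      Finset.sum_eq_zero fun i _ => pd_zero_of_notMem_tsupport
        (fun t => hx (hψb (tsupport_mul_subset_left (tsupport_mul_subset_left t)))) i
  have iq : Integrable fun x => dot (fun i => pd u i x - pd P i x) (grad ψ x) :=
    (Bdd.dot (fun i => (Bdd.pd_lipschitz h.min.lipschitz i).sub
      (Bdd.of_continuous (contDiff_pd hP i).continuous))
      fun i => Bdd.of_continuous (contDiff_pd hψ i).continuous).integrable fun x hx =>
      Finset.sum_eq_zero fun i _ =>
        mul_eq_zero_of_right _ (pd_zero_of_notMem_tsupport (fun t => hx (hψb t)) i)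
  have iE : Integrable fun x => η x ^ 2 * corr2 u P x :=
    ((Bdd.of_continuous (hηd.continuous.pow 2)).mul (Bdd.corr2 h.min hP)).integrable fun x hx => by
      simp [image_eq_zero_of_notMem_tsupport fun t => hx (hsb t)]
  have iη : Integrable fun x => η x ^ 2 :=
    (Bdd.of_continuous (hηd.continuous.pow 2)).integrable fun x hx => by
      simp [image_eq_zero_of_notMem_tsupport fun t => hx (hsb t)]
  have iR : IntegrableOn (fun x => rest (fun i => pd u i x - pd P i x) (grad P x) (grad ψ x)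
      (hessMat P x) (ψ x)) (pos u) := by
    refine Integrable.mono' ((iη.mul_const _).add (iE.const_mul _)).integrableOn ?_
      (.of_forall fun x => by simpa using hR x)
    exact (measurable_rest u hP hψ).aestronglyMeasurable
  rw [setIntegral_congr_fun hms fun x _ => inner_pointwise h.harm hψ u x,
    integral_add (iZ.integrableOn.sub' (iq.const_mul 2).integrableOn) iR,
    integral_sub iZ.integrableOn (iq.const_mul 2).integrableOn, integral_const_mul] at hst
  have hflux := hF N L u η Z (2 * A * σ) h.min ⟨Mη, hMη⟩ hηc (fun x => (hη01 x).1) hZd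
    (by have := h.sig_nonneg; positivity) fun x hx => by
      by_cases hxs : x ∈ tsupport ψ
      · have hr := h.res x (hψb hxs) hx.1
        have e : ∑ i, Z i x ^ 2
            = (ψ x * (1 - dot (grad P x) (grad P x))) ^ 2 * dot (grad P x) (grad P x) := by
          simp only [hZ, zField, dot, Finset.mul_sum]
          exact Finset.sum_congr rfl fun i _ => by simp [grad]; ring
        rw [e, mul_pow]
        have hs1 : (1 - dot (grad P x) (grad P x)) ^ 2 ≤ σ ^ 2 := by
          rw [sq_le_sq, abs_sub_comm, abs_of_nonneg h.sig_nonneg]; exact hr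
        have hs2 : ψ x ^ 2 ≤ A ^ 2 := by
          rw [sq_le_sq, abs_of_nonneg hA0]; exact (hA x).1
        have hs3 : dot (grad P x) (grad P x) ≤ 4 := by
          have := (abs_le.1 (hG x (hψb hxs))).2
          linarith
        calc _ ≤ A ^ 2 * σ ^ 2 * 4 := mul_le_mul (mul_le_mul hs2 hs1 (sq_nonneg _) (sq_nonneg _)) hs3
              (dot_self_nonneg _) (by positivity)
          _ = _ := by ring
      · simp [hZ, zField, image_eq_zero_of_notMem_tsupport hxs]
        positivity
  have eηZ : (fun i y => η y * Z i y) = Z := by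
    funext i y
    by_cases hy : y ∈ tsupport ψ
    · simp [hη1' y hy]
    · simp [hZ, zField, image_eq_zero_of_notMem_tsupport hy]
  rw [eηZ] at hflux
  have hT : lapT u η ≤ T₀ := lapT_le h.min hMη hsb
  have hRint : |∫ x in pos u, rest (fun i => pd u i x - pd P i x) (grad P x) (grad ψ x)
      (hessMat P x) (ψ x)| ≤ c1 * κ * (N * ε) * V + (c1 * κ / ε + c2) * (Cc * (ε ^ 2 + σ * ε)) := by
    refine (abs_integral_le_integral_abs).trans ((setIntegral_mono_on iR.abs
      ((iη.mul_const _).add (iE.const_mul _)).integrableOn hms fun x _ => hR x).trans ?_)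
    rw [integral_add' (iη.mul_const _).integrableOn (iE.const_mul _).integrableOn, integral_mul_const,
      integral_const_mul]
    refine add_le_add ?_ (mul_le_mul_of_nonneg_left (hCc u P ε σ h) (by positivity))
    rw [mul_comm]
    exact mul_le_mul_of_nonneg_left (setIntegral_le_integral iη (.of_forall fun x => sq_nonneg _))
      (by positivity)
  have e3 : (c1 * κ / ε + c2) * (Cc * (ε ^ 2 + σ * ε))
      = c1 * Cc * (κ * (ε + σ)) + c2 * Cc * (ε ^ 2 + σ * ε) := by field_simp
  have hfl' : |∫ x in pos u, dvg Z x| ≤ 2 * A * σ * T₀ :=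
    hflux.trans (mul_le_mul_of_nonneg_left hT (by have := h.sig_nonneg; positivity))
  have h4 : c1 * Cc * (κ * (ε + σ)) ≤ c1 * Cc * (2 * (κ * ε)) :=
    mul_le_mul_of_nonneg_left (by nlinarith) (by positivity)
  have h5 : c2 * Cc * (ε ^ 2 + σ * ε) ≤ c2 * Cc * (2 * ε ^ 2) :=
    mul_le_mul_of_nonneg_left (by nlinarith) (by positivity)
  have h6 := sum_bound (a := 2 * A * T₀) (b := c1 * (N * V + Cc)) (c := 2 * c2 * Cc) (S := σ)
    (K := κ * ε) (E := ε ^ 2) (by positivity) (by positivity) (by positivity) h.sig_nonneg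
    (by positivity) (sq_nonneg ε)
  have h7 : 0 ≤ c1 * N * V * (κ * ε) := by positivity
  have a1 := abs_le.1 hfl'
  have a2 := abs_le.1 hRint
  have e4 : 2 * A * σ * T₀ = 2 * A * T₀ * σ := by ring
  have e5 : c1 * κ * (N * ε) * V = c1 * N * V * (κ * ε) := by ring
  have e6 : c1 * (N * V + Cc) * (κ * ε) = c1 * N * V * (κ * ε) + c1 * Cc * (κ * ε) := by ring
  have e7 : c1 * Cc * (2 * (κ * ε)) = 2 * (c1 * Cc * (κ * ε)) := by ring
  have e8 : c2 * Cc * (2 * ε ^ 2) = 2 * c2 * Cc * ε ^ 2 := by ring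
  have h8 : 0 ≤ 2 * c2 * Cc * ε ^ 2 := by positivity
  have h9 : 0 ≤ 2 * A * T₀ * σ := mul_nonneg (by positivity) h.sig_nonneg
  rw [abs_le]
  constructor <;> linarith

end

end Vale.Agent.P098.Reg.Lin
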