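import Vale.Agent.P098.Reg.LipRep

/-!
# P098: a one-homogeneous Sobolev minimiser is Lipschitz
-/

namespace Vale.Agent.P098.Reg

open MeasureTheory Set Filter Topology Metric
open Vale.Agent.P098.Cone
open scoped ContDiff NNReal

noncomputable section

variable {d : ℕ} {u v : (Fin d → ℝ) → ℝ} {G : (Fin d → ℝ) → Fin d → ℝ}

theorem SobData.rep_harm (hu : SobData u G) : Harm (rep0 u) (pos (rep0 u)) := by
  have hc := hu.rep_continuous
  refine weyl d _ _ (isOpen_pos hc) hc.continuousOn fun φ hφ hφc hs => ?_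
  obtain ⟨c, hc0, hcu⟩ : ∃ c, 0 < c ∧ ∀ x ∈ tsupport φ, c ≤ rep0 u x := by
    rcases (tsupport φ).eq_empty_or_nonempty with he | hne
    · exact ⟨1, one_pos, fun x hx => absurd hx (he ▸ notMem_empty x)⟩
    · obtain ⟨x, hx, hmin⟩ := hφc.isCompact.exists_isMinOn hne hc.continuousOn
      exact ⟨rep0 u x, hs hx, fun y hy => hmin hy⟩
  rw [← hu.lap_zero hφ hφc hc0 (hu.rep_ae.mono fun x hx hxs => by rw [hx]; exact hcu x hxs)]
  refine integral_congr_ae (hu.rep_ae.mono fun x hx => ?_)
  show rep0 u x * _ = u x * _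
  rw [← hx]

theorem SobData.rep_lipschitz (hu : SobData u G) (h0 : rep0 u 0 = 0) :
    ∃ L, LipschitzWith L (rep0 u) := by
  obtain ⟨C, hC0, hC⟩ := hu.growth
  obtain ⟨C₁, hC₁, hest⟩ := estimate d 1
  set w := rep0 u
  have hw : Continuous w := hu.rep_continuous
  have hH : Harm w (pos w) := hu.rep_harm
  have hgrad : ∀ y ∈ pos w, ‖fderiv ℝ w y‖ ≤ 2 * C₁ * C := by
    intro y hy
    have hZ : IsClosed {z | w z = 0} := isClosed_eq hw continuous_const
    obtain ⟨z, hz, hzd⟩ := hZ.exists_infDist_eq_dist ⟨0, h0⟩ y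
    set ρ := infDist y {z | w z = 0}
    have hρ : 0 < ρ := by
      rw [hzd, dist_pos]
      rintro rfl
      exact (show ¬ 0 < w y from fun h => h.ne' hz) hy
    have hball : ball y ρ ⊆ pos w := fun p hp => by
      refine (hu.rep_nonneg p).lt_of_ne fun he => ?_
      have := infDist_le_dist_of_mem (x := y) (show p ∈ {z | w z = 0} from he.symm)
      rw [mem_ball, dist_comm] at hp
      linarith
    have hb : ∀ p ∈ ball y ρ, |w p| ≤ C * (2 * ρ) := fun p hp => by
      rw [abs_of_nonneg (hu.rep_nonneg p)]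
      refine (hC z hz p).trans (mul_le_mul_of_nonneg_left ?_ hC0)
      rw [← dist_eq_norm]
      rw [mem_ball] at hp
      linarith [dist_triangle p y z]
    have h := hest w y ρ _ hρ (hH.mono hball) hb
    rw [norm_iteratedFDeriv_one, pow_one] at h
    exact h.trans_eq (by field_simp)
  set L := max C (2 * C₁ * C)
  have hL : C ≤ L := le_max_left _ _
  refine ⟨L.toNNReal, LipschitzWith.of_dist_le_mul fun x y => ?_⟩
  rw [Real.coe_toNNReal _ (hC0.trans hL), Real.dist_eq, dist_eq_norm]
  by_cases hz : ∃ z ∈ segment ℝ x y, w z = 0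
  · obtain ⟨z, hz, hz0⟩ := hz
    have hd := dist_add_dist_of_mem_segment hz
    simp only [dist_eq_norm] at hd
    have h1 := hC z hz0 x
    have h2 := hC z hz0 y
    rw [norm_sub_rev z y] at hd
    have h3 : C * ‖x - z‖ ≤ L * ‖x - y‖ :=
      mul_le_mul hL (by linarith [norm_nonneg (y - z)]) (norm_nonneg _) (hC0.trans hL)
    have h4 : C * ‖y - z‖ ≤ L * ‖x - y‖ :=
      mul_le_mul hL (by linarith [norm_nonneg (x - z)]) (norm_nonneg _) (hC0.trans hL)
    rw [abs_le]
    constructor <;> linarith [hu.rep_nonneg x, hu.rep_nonneg y]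
  · push Not at hz
    have hseg : ∀ p ∈ segment ℝ x y, p ∈ pos w := fun p hp =>
      (hu.rep_nonneg p).lt_of_ne fun he => hz p hp he.symm
    rw [abs_sub_comm, norm_sub_rev]
    exact (convex_segment x y).norm_image_sub_le_of_norm_fderiv_le
      (fun p hp => differentiableAt_of_smooth hH.1 (isOpen_pos hw) (hseg p hp))
      (fun p hp => (hgrad p (hseg p hp)).trans (le_max_right _ _))
      (left_mem_segment ℝ x y) (right_mem_segment ℝ x y)

theorem H1loc_lipschitz {L : ℝ≥0} (hv : LipschitzWith L v) : H1loc v (grad v) where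
  l2 := L2loc_of_continuous hv.continuous
  gl2 := fun i => by
    show L2loc fun x => pd v i x
    simpa using (L2loc_of_continuous (d := d) (f := fun _ => (1 : ℝ)) continuous_const).bdd_mul
      (measurable_pd v i).aestronglyMeasurable (.of_forall fun x => abs_pd_le hv i x)
  weak := fun i φ hφ hc => by
    obtain ⟨P, hP⟩ := hφ.lipschitzWith_of_hasCompactSupport hc (by simp)
    obtain ⟨N, hN⟩ := exists_lipschitz_mul hv hP hc
    have h := integral_pd_lipschitz hN hc.mul_left i
    have hl : LocallyIntegrable fun x => pd v i x := by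
      simpa using ((L2loc_of_continuous (d := d) (f := fun _ => (1 : ℝ)) continuous_const).bdd_mul
        (measurable_pd v i).aestronglyMeasurable (.of_forall fun x => abs_pd_le hv i x)).1
    rw [integral_congr_ae (g := fun x => v x * pd φ i x + pd v i x * φ x) (by
        filter_upwards [hv.ae_differentiableAt] with x hx
        rw [pd_mul hx (hφ.differentiable (by simp) x)]; ring),
      integral_add (integrable_test_mul hv.continuous.locallyIntegrable (contDiff_pd hφ i).continuous
        (hasCompactSupport_pd hc i)) (integrable_test_mul hl hφ.continuous hc)] at h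
    simp only [grad]
    linarith

/-- A one-homogeneous Sobolev minimiser agrees almost everywhere with a Lipschitz one-homogeneous
minimiser. -/
theorem lipMin_of_sobMin (hu : SobMin u) (hh : HomogAE u) :
    ∃ (L : ℝ≥0) (w : (Fin d → ℝ) → ℝ), LipMin L w ∧ Homog w ∧ u =ᵐ[volume] w := by
  obtain ⟨hnn, G, hG, hmin⟩ := hu
  have hD : SobData u G := ⟨hG, hnn, hmin⟩
  set w := rep0 u
  have hw : Continuous w := hD.rep_continuous
  have hae : u =ᵐ[volume] w := hD.rep_ae
  have hhom : Homog w := fun r x hr => by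
    have h1 : ∀ᵐ y : Fin d → ℝ, u (r • y) = w (r • y) :=
      (Measure.quasiMeasurePreserving_smul (μ := volume) hr.ne').ae hae
    have h2 : (fun y => w (r • y)) =ᵐ[volume] fun y => r * w y := by
      filter_upwards [h1, hh r hr, hae] with y a b c
      rw [← a, b, c]
    exact congrFun ((Continuous.ae_eq_iff_eq volume (hw.comp (continuous_const_smul r))
      (continuous_const.mul hw)).1 h2) x
  have hw0 : w 0 = 0 := by
    have := hhom 2 0 two_pos
    rw [smul_zero] at this
    linarith
  obtain ⟨L, hL⟩ := hD.rep_lipschitz hw0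
  have hGw : ∀ i, ∀ᵐ x, G x i = pd w i x := fun i =>
    ae_eq_of_integral_contDiff_smul_eq (hG.gl2 i).1 ((H1loc_lipschitz hL).gl2 i).1 fun φ hφ hc => by
      have h1 := hG.weak i φ hφ hc
      have h2 := (H1loc_lipschitz hL).weak i φ hφ hc
      have h3 : ∫ x, u x * pd φ i x = ∫ x, w x * pd φ i x :=
        integral_congr_ae (hae.mono fun x hx => by
          show u x * _ = w x * _
          rw [hx])
      rw [h3, h2, neg_inj] at h1
      simp only [smul_eq_mul, mul_comm (φ _)]
      exact h1.symm
  refine ⟨L, w, ⟨hL, hD.rep_nonneg, ?_⟩, hhom, hae⟩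
  intro c R hR v ⟨Lv, hv⟩ hv0 ⟨K, hK, hKB, hvK⟩
  have hle := hmin c R hR v (grad v) (H1loc_lipschitz hv) (.of_forall hv0)
    ⟨K, hK, hKB, hae.mono fun x hx hxK => (hvK x hxK).trans hx.symm⟩
  have e : energy w (Cone.eball c R) = senergy u G (Cone.eball c R) := by
    rw [energy_eq]
    refine setIntegral_congr_ae₀ ((isOpen_lt (by fun_prop) continuous_const).measurableSet.nullMeasurableSet) ?_
    filter_upwards [hae, ae_all_iff.2 hGw] with x hx hg _
    have hgr : grad w x = G x := funext fun i => (hg i).symm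
    show dens w x = _
    rw [dens, hgr]
    congr 1
    by_cases hp : 0 < w x
    · rw [indicator_of_mem (show x ∈ pos w from hp),
        indicator_of_mem (show x ∈ pos u from show 0 < u x by rw [hx]; exact hp)]
    · rw [indicator_of_notMem (show x ∉ pos w from hp),
        indicator_of_notMem (show x ∉ pos u from fun h => hp (by rwa [← hx]))]
  rw [e, energy_eq]
  exact hle

end

end Vale.Agent.P098.Reg
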