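import Vale.Agent.P098.Reg.LipVar

/-!
# P098: the continuous representative of a Sobolev minimiser

The means of a minimiser are monotone and Lipschitz in the size, uniformly in the centre, so they
converge uniformly to a continuous representative with linear growth at its zeros.
-/

namespace Vale.Agent.P098.Reg

open MeasureTheory Set Filter Topology Metric
open Vale.Agent.P098.Cone
open Vale.Agent.P100 (sqr lap)
open scoped ContDiff

noncomputable section

variable {d : ℕ} {u : (Fin d → ℝ) → ℝ} {G : (Fin d → ℝ) → Fin d → ℝ}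

/-- The bound of the derivative of the means in the size. -/
def meanLip (d : ℕ) : ℝ := 2 ^ d * (1 + d) / 2

theorem meanLip_nonneg (d : ℕ) : 0 ≤ meanLip d := by unfold meanLip; positivity

theorem pd_neg_testFn (x y : Fin d → ℝ) (e : ℝ) (i : Fin d) :
    pd (fun z => -testFn x e z) i y = -(bump (sqr (y - x) / e ^ 2) * ((y - x) i / e ^ 2)) := by
  have h1 : HasDerivAt (fun s => pot (s / e ^ 2)) (bump (sqr (y - x) / e ^ 2) / 2 / e ^ 2)
      (sqr (y - x)) := by
    refine ((hasDerivAt_pot (sqr (y - x) / e ^ 2)).comp (sqr (y - x))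
      ((hasDerivAt_id' (sqr (y - x))).div_const _)).congr_deriv ?_
    ring
  have hd : DifferentiableAt ℝ (fun z => sqr (z - x)) y :=
    (P100.contDiff_sqr.comp (contDiff_id.sub contDiff_const)).differentiable (by simp) y
  have e2 : pd (fun z => sqr (z - x)) i y = 2 * (y - x) i := by
    rw [← P100.pd_sqr (y - x) i]
    simp only [pd, fderiv_comp_sub]
  have h3 := pd_comp (f := fun z => sqr (z - x)) (φ := fun s => pot (s / e ^ 2)) h1 hd i
  rw [e2] at h3
  show fderiv ℝ (fun z => -testFn x e z) y (Pi.single i 1) = _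
  rw [fderiv_fun_neg, _root_.neg_apply]
  show -(pd (testFn x e) i y) = _
  rw [show pd (testFn x e) i y = pd (fun z => pot (sqr (z - x) / e ^ 2)) i y from rfl, h3]
  ring

/-- The Laplacian tested with the potential. -/
theorem SobData.lap_test (hu : SobData u G) (x : Fin d → ℝ) {e : ℝ} (he : 0 < e) :
    0 ≤ -∫ y, u y * lap (testFn x e) y ∧
      (-∫ y, u y * lap (testFn x e) y) * (e ^ 2 / e ^ (d + 1)) ≤ meanLip d := by
  set φ : (Fin d → ℝ) → ℝ := fun z => -testFn x e z
  have hφ : ContDiff ℝ (⊤ : ℕ∞) φ := (testFn_contDiff x e).neg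
  have hts : tsupport φ ⊆ closedBall x e := by
    refine closure_minimal (fun y hy => ?_) isClosed_closedBall
    by_contra h
    refine hy ?_
    show -testFn x e y = 0
    rw [image_eq_zero_of_notMem_tsupport fun h' => h (tsupport_testFn x he h'), neg_zero]
  have hc : HasCompactSupport φ := (isCompact_closedBall x e).of_isClosed_subset (isClosed_tsupport _) hts
  have h0 : ∀ y, 0 ≤ φ y := fun y => neg_nonneg.2 (pot_nonpos _)
  have e1 : ∫ y, u y * ∑ i, hess φ i i y = -∫ y, u y * lap (testFn x e) y := by
    rw [← MeasureTheory.integral_neg]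
    refine integral_congr_ae (.of_forall fun y => ?_)
    have e1 : ∀ i, hess φ i i y = -hess (testFn x e) i i y := fun i => by
      simp only [φ, hess, pd, fderiv_fun_neg, _root_.neg_apply]
    simp only [e1, Finset.sum_neg_distrib, mul_neg, lap_eq_hess]
  have hB : ∫ y, dot (grad φ y) (grad φ y) ≤ (2 * e) ^ d * (d / e ^ 2) := by
    have hz : ∀ y, y ∉ closedBall x e → dot (grad φ y) (grad φ y) = 0 := fun y hy => by
      simp [dot, grad_eq_zero_of_notMem_tsupport fun h => hy (hts h)]
    rw [← setIntegral_eq_integral_of_forall_compl_eq_zero hz]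
    refine (Real.le_norm_self _).trans ((norm_setIntegral_le_of_norm_le_const
      (C := (d : ℝ) / e ^ 2) (isCompact_closedBall x e).measure_lt_top fun y hy => ?_).trans_eq ?_)
    · have hi : ∀ i, grad φ y i * grad φ y i ≤ 1 / e ^ 2 := fun i => by
        have hy' : |(y - x) i| ≤ e :=
          (norm_le_pi_norm (y - x) i).trans (by rwa [mem_closedBall, dist_eq_norm] at hy)
        have : |grad φ y i| ≤ 1 / e := by
          show |pd φ i y| ≤ _
          rw [pd_neg_testFn, abs_neg, abs_mul, abs_div, abs_of_nonneg (bump_nonneg _),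
            abs_of_pos (pow_pos he 2)]
          calc bump (sqr (y - x) / e ^ 2) * (|(y - x) i| / e ^ 2) ≤ 1 * (e / e ^ 2) :=
                mul_le_mul (bump_le_one _) (div_le_div_of_nonneg_right hy' (by positivity))
                  (by positivity) zero_le_one
            _ = 1 / e := by field_simp
        rw [← abs_mul_self (grad φ y i), abs_mul]
        calc |grad φ y i| * |grad φ y i| ≤ 1 / e * (1 / e) :=
              mul_le_mul this this (abs_nonneg _) (by positivity)
          _ = 1 / e ^ 2 := by ring
      rw [Real.norm_eq_abs, abs_of_nonneg (dot_self_nonneg _)]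
      exact (Finset.sum_le_sum fun i _ => hi i).trans_eq (by
        rw [Finset.sum_const, Finset.card_univ, Fintype.card_fin, nsmul_eq_mul, mul_one_div])
    · rw [measureReal_def, Real.volume_pi_closedBall x he.le, ENNReal.toReal_ofReal (by positivity),
        Fintype.card_fin, mul_comm]
  have hS : volume.real (tsupport φ) ≤ (2 * e) ^ d := by
    refine (measureReal_mono hts (isCompact_closedBall x e).measure_lt_top.ne).trans_eq ?_
    rw [measureReal_def, Real.volume_pi_closedBall x he.le, ENNReal.toReal_ofReal (by positivity),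
      Fintype.card_fin]
  refine ⟨e1 ▸ hu.lap_nonneg hφ hc h0, ?_⟩
  rw [← e1]
  calc (∫ y, u y * ∑ i, hess φ i i y) * (e ^ 2 / e ^ (d + 1))
      ≤ ((2 * e) ^ d / (2 * e) + e / 2 * ((2 * e) ^ d * (d / e ^ 2))) * (e ^ 2 / e ^ (d + 1)) :=
        mul_le_mul_of_nonneg_right ((hu.lap_le hφ hc h0 he).trans (add_le_add
          (div_le_div_of_nonneg_right hS (by positivity))
          (mul_le_mul_of_nonneg_left hB (by positivity)))) (by positivity)
    _ = meanLip d := by
        unfold meanLip
        rw [mul_pow]
        field_simp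
        ring

theorem SobData.hasDerivAt_mean (hu : SobData u G) (x : Fin d → ℝ) {e : ℝ} (he : 0 < e) :
    ∃ D, 0 ≤ D ∧ D ≤ meanLip d ∧ HasDerivAt (avg u x) D e := by
  obtain ⟨h1, h2⟩ := hu.lap_test x he
  refine ⟨(-∫ y, u y * lap (testFn x e) y) * (e ^ 2 / e ^ (d + 1)), mul_nonneg h1 (by positivity), h2, ?_⟩
  have h := hasDerivAt_avg (integrable_cut_loc hu.h1.l2.1 x (e + 1)) x he
  rw [integral_cut_lap he (by linarith)] at h
  refine (h.congr_of_eventuallyEq ?_).congr_deriv (by ring)
  filter_upwards [Ioo_mem_nhds (show (0 : ℝ) < e from he) (lt_add_one e)] with t ht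
  exact (avg_cut ht.1 (closedBall_subset_closedBall ht.2.le)).symm

theorem SobData.mean_mono (hu : SobData u G) (x : Fin d → ℝ) {a b : ℝ} (ha : 0 < a) (hab : a ≤ b) :
    avg u x a ≤ avg u x b ∧ avg u x b ≤ avg u x a + meanLip d * (b - a) := by
  choose D hD0 hDC hD using fun e (he : 0 < e) => hu.hasDerivAt_mean x he
  have hder : ∀ t ∈ Ioi (0 : ℝ), deriv (avg u x) t ∈ Icc 0 (meanLip d) := fun t ht => by
    rw [(hD t ht).deriv]; exact ⟨hD0 t ht, hDC t ht⟩
  have hdiff : DifferentiableOn ℝ (avg u x) (Ioi 0) := fun t ht =>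
    (hD t ht).differentiableAt.differentiableWithinAt
  refine ⟨?_, ?_⟩
  · refine monotoneOn_of_deriv_nonneg (convex_Ioi 0) hdiff.continuousOn
      (by rwa [interior_Ioi]) (fun t ht => ?_) ha (ha.trans_le hab) hab
    rw [interior_Ioi] at ht
    exact (hder t ht).1
  · have h := (convex_Ioi (0 : ℝ)).image_sub_le_mul_sub_of_deriv_le hdiff.continuousOn
      (by rwa [interior_Ioi]) (fun t ht => (hder t (by rwa [interior_Ioi] at ht)).2)
      a ha b (ha.trans_le hab) hab
    linarith

/-- The representative. -/
def rep0 (u : (Fin d → ℝ) → ℝ) (x : Fin d → ℝ) : ℝ :=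
  limUnder atTop (fun n : ℕ => avg u x (1 / (n + 1))) / mass d

theorem SobData.mean_close (hu : SobData u G) (x : Fin d → ℝ) {e : ℝ} (he : 0 < e) :
    mass d * rep0 u x ≤ avg u x e ∧ avg u x e ≤ mass d * rep0 u x + meanLip d * e := by
  set s : ℕ → ℝ := fun n => 1 / (n + 1)
  have hs : ∀ n, 0 < s n := fun n => by positivity
  have ht : Tendsto s atTop (𝓝 0) := tendsto_one_div_add_atTop_nhds_zero_nat
  have hC := meanLip_nonneg d
  have hcau : CauchySeq fun n => avg u x (s n) := by
    rw [Metric.cauchySeq_iff]
    intro η hη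
    obtain ⟨N, hN⟩ := (Metric.tendsto_atTop.1 ht) (η / (meanLip d + 1)) (by positivity)
    refine ⟨N, fun m hm n hn => ?_⟩
    have hsm : ∀ k, N ≤ k → s k < η / (meanLip d + 1) := fun k hk => by
      have := hN k hk
      rwa [Real.dist_eq, sub_zero, abs_of_pos (hs k)] at this
    have key : ∀ a b : ℝ, 0 < a → a ≤ b → b < η / (meanLip d + 1) →
        |avg u x b - avg u x a| < η := fun a b ha hab hb => by
      obtain ⟨h1, h2⟩ := hu.mean_mono x ha hab
      rw [abs_of_nonneg (sub_nonneg.2 h1)]
      have h3 : meanLip d * (b - a) ≤ (meanLip d + 1) * b :=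
        mul_le_mul (by linarith) (by linarith) (by linarith) (by linarith)
      rw [lt_div_iff₀ (by positivity)] at hb
      linarith
    rw [Real.dist_eq]
    rcases le_total (s m) (s n) with h | h
    · rw [abs_sub_comm]; exact key _ _ (hs m) h (hsm n hn)
    · exact key _ _ (hs n) h (hsm m hm)
  have hlim : Tendsto (fun n => avg u x (s n)) atTop (𝓝 (mass d * rep0 u x)) := by
    rw [rep0, mul_div_cancel₀ _ (mass_pos d).ne']
    exact hcau.tendsto_limUnder
  have hev : ∀ᶠ n in atTop, s n ≤ e :=
    (ht.eventually (gt_mem_nhds he)).mono fun n hn => hn.le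
  refine ⟨le_of_tendsto hlim (hev.mono fun n hn => (hu.mean_mono x (hs n) hn).1), ?_⟩
  refine ge_of_tendsto (hlim.add_const (meanLip d * e)) (hev.mono fun n hn => ?_)
  have := (hu.mean_mono x (hs n) hn).2
  linarith [mul_nonneg hC (hs n).le]

theorem SobData.rep_nonneg (hu : SobData u G) (x : Fin d → ℝ) : 0 ≤ rep0 u x := by
  by_contra hneg
  have hm := mass_pos d
  have hC := meanLip_nonneg d
  set e := mass d * -rep0 u x / (meanLip d + 1)
  have he : 0 < e := div_pos (mul_pos hm (neg_pos.2 (not_le.1 hneg))) (by positivity)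
  have h0 : 0 ≤ avg u x e := integral_nonneg_of_ae (by
    filter_upwards [hu.nonneg] with y hy using mul_nonneg hy (ker_nonneg he _))
  have h2 := (hu.mean_close x he).2
  have h3 : (meanLip d + 1) * e = mass d * -rep0 u x := by simp only [e]; field_simp
  linarith

theorem SobData.rep_continuous (hu : SobData u G) : Continuous (rep0 u) := by
  have hm := mass_pos d
  have hC := meanLip_nonneg d
  have hU : TendstoUniformly (fun (n : ℕ) x => avg u x (1 / (n + 1)) / mass d) (rep0 u) atTop := by
    rw [Metric.tendstoUniformly_iff]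
    intro η hη
    filter_upwards [(tendsto_one_div_add_atTop_nhds_zero_nat (𝕜 := ℝ)).eventually
      (gt_mem_nhds (show 0 < η * mass d / (meanLip d + 1) by positivity))] with n hn x
    obtain ⟨h1, h2⟩ := hu.mean_close x (show (0 : ℝ) < 1 / (n + 1) by positivity)
    rw [lt_div_iff₀ (by positivity)] at hn
    have hpos : (0 : ℝ) < 1 / (n + 1) := by positivity
    rw [Real.dist_eq, abs_sub_lt_iff]
    constructor
    · rw [sub_lt_iff_lt_add, ← sub_lt_iff_lt_add', lt_div_iff₀ hm, sub_mul, mul_comm (rep0 u x)]
      linarith [mul_pos hη hm]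
    · rw [sub_lt_iff_lt_add, div_lt_iff₀ hm, add_mul, mul_comm (rep0 u x)]
      linarith
  exact hU.continuous (Eventually.frequently (.of_forall fun n =>
    ((contDiff_avg_loc hu.h1.l2.1 (by positivity)).continuous.div_const _)))

theorem SobData.rep_ae (hu : SobData u G) : ∀ᵐ x, u x = rep0 u x := by
  have hall : ∀ n : ℕ, ∀ᵐ x, x ∈ closedBall (0 : Fin d → ℝ) n → u x = rep0 u x := fun n => by
    obtain ⟨e, he, hte, hae, -, -⟩ := hu.h1.approx n
    filter_upwards [hae] with x hx hxn
    refine tendsto_nhds_unique (hx hxn) ?_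
    have hm := mass_pos d
    have h0 : Tendsto (fun n => avg u x (e n)) atTop (𝓝 (mass d * rep0 u x)) := by
      refine tendsto_of_tendsto_of_tendsto_of_le_of_le tendsto_const_nhds
        (by simpa using (hte.const_mul (meanLip d)).const_add (mass d * rep0 u x))
        (fun n => (hu.mean_close x (he n)).1) (fun n => (hu.mean_close x (he n)).2)
    simpa [mul_div_cancel_left₀ _ hm.ne'] using h0.div_const (mass d)
  filter_upwards [ae_all_iff.2 hall] with x hx
  obtain ⟨n, hn⟩ := exists_nat_ge ‖x‖
  exact hx n (by simpa [mem_closedBall_zero_iff] using hn)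

theorem avg_rep (hu : SobData u G) (x : Fin d → ℝ) (e : ℝ) : avg (rep0 u) x e = avg u x e :=
  integral_congr_ae (hu.rep_ae.mono fun y hy => by
    show rep0 u y * _ = u y * _
    rw [← hy])

/-- Linear growth at the zeros. -/
theorem SobData.growth (hu : SobData u G) :
    ∃ C, 0 ≤ C ∧ ∀ x, rep0 u x = 0 → ∀ y, rep0 u y ≤ C * ‖y - x‖ := by
  have hm := mass_pos d
  have hC := meanLip_nonneg d
  set b := bump (1 / 4)
  have hb : 0 < b := Real.smoothTransition.pos_of_pos (by norm_num)
  set K : ℝ := 4 * (d + 1)
  have hK : 0 < K := by positivity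
  refine ⟨K ^ d * (meanLip d * K) / b / mass d, by positivity, fun x hx y => ?_⟩
  rcases eq_or_ne y x with rfl | hne
  · rw [hx]; simp
  set r := ‖y - x‖
  have hr : 0 < r := norm_pos_iff.2 (sub_ne_zero.2 hne)
  set w := rep0 u
  have hw := hu.rep_continuous
  have hint : IntegrableOn w (closedBall x (2 * r)) :=
    hw.continuousOn.integrableOn_compact (isCompact_closedBall _ _)
  -- the integral on a ball by the mean at the zero
  have h1 : b / (K * r) ^ d * ∫ z in closedBall x (2 * r), w z ≤ avg w x (K * r) := by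
    rw [avg, ← integral_indicator measurableSet_closedBall, ← MeasureTheory.integral_const_mul]
    refine integral_mono (((integrable_indicator_iff measurableSet_closedBall).2 hint).const_mul _)
      ((hw.mul ((contDiff_ker (K * r)).continuous.comp (continuous_const.sub continuous_id))
        ).integrable_of_hasCompactSupport (HasCompactSupport.intro (isCompact_closedBall x (K * r))
          fun z hz => by
            show w z * ker (K * r) (x - z) = 0
            rw [ker_eq_zero (mul_pos hK hr)
              (by simpa [mem_closedBall, dist_eq_norm, norm_sub_rev] using hz), mul_zero]))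
      fun z => ?_
    have hwz := hu.rep_nonneg z
    have hk := ker_nonneg (mul_pos hK hr) (x - z)
    by_cases hz : z ∈ closedBall x (2 * r)
    · show b / (K * r) ^ d * (closedBall x (2 * r)).indicator w z ≤ w z * ker (K * r) (x - z)
      rw [indicator_of_mem hz, mul_comm (w z)]
      refine mul_le_mul_of_nonneg_right (div_le_div_of_nonneg_right ?_ (by positivity)) hwz
      rw [mem_closedBall, dist_eq_norm, norm_sub_rev] at hz
      have hsq : sqr (x - z) ≤ d * (2 * r) ^ 2 := by
        calc sqr (x - z) ≤ ∑ _i : Fin d, (2 * r) ^ 2 := Finset.sum_le_sum fun i _ =>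
              (sq_abs ((x - z) i)) ▸ pow_le_pow_left₀ (abs_nonneg _)
                ((norm_le_pi_norm (x - z) i).trans hz) 2
          _ = _ := by simp
      have hle : sqr (x - z) / (K * r) ^ 2 ≤ 1 / 4 := by
        rw [div_le_iff₀ (by positivity)]
        refine hsq.trans ?_
        have hd : (0 : ℝ) ≤ d := Nat.cast_nonneg d
        have : (d : ℝ) * 4 ≤ 1 / 4 * K ^ 2 := by simp only [K]; nlinarith
        calc (d : ℝ) * (2 * r) ^ 2 = d * 4 * r ^ 2 := by ring
          _ ≤ 1 / 4 * K ^ 2 * r ^ 2 := mul_le_mul_of_nonneg_right this (sq_nonneg r)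
          _ = _ := by ring
      exact Real.smoothTransition.monotone (by linarith)
    · show b / (K * r) ^ d * (closedBall x (2 * r)).indicator w z ≤ w z * ker (K * r) (x - z)
      rw [indicator_of_notMem hz, mul_zero]
      exact mul_nonneg hwz hk
  have h2 : avg w x (K * r) ≤ meanLip d * (K * r) := by
    rw [avg_rep hu]
    have := (hu.mean_close x (mul_pos hK hr)).2
    rwa [show rep0 u x = 0 from hx, mul_zero, zero_add] at this
  -- the mean at the point by the integral
  have h3 : mass d * w y ≤ 1 / r ^ d * ∫ z in closedBall x (2 * r), w z := by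
    refine ((hu.mean_close y hr).1.trans_eq (avg_rep hu y r).symm).trans ?_
    rw [avg, ← integral_indicator measurableSet_closedBall, ← MeasureTheory.integral_const_mul]
    refine integral_mono_of_nonneg (.of_forall fun z => mul_nonneg (hu.rep_nonneg z) (ker_nonneg hr _))
      (((integrable_indicator_iff measurableSet_closedBall).2 hint).const_mul _) (.of_forall fun z => ?_)
    show w z * ker r (y - z) ≤ 1 / r ^ d * (closedBall x (2 * r)).indicator w z
    by_cases hz : z ∈ closedBall x (2 * r)
    · rw [indicator_of_mem hz, mul_comm (1 / r ^ d)]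
      exact mul_le_mul_of_nonneg_left (ker_le hr _) (hu.rep_nonneg z)
    · rw [indicator_of_notMem hz, mul_zero, ker_eq_zero hr, mul_zero]
      rw [mem_closedBall, dist_eq_norm] at hz
      calc r = 2 * r - ‖y - x‖ := by simp only [r]; ring
        _ < ‖z - x‖ - ‖y - x‖ := by linarith [not_le.1 hz]
        _ ≤ ‖(z - x) - (y - x)‖ := norm_sub_norm_le _ _
        _ = ‖y - z‖ := by rw [sub_sub_sub_cancel_right, norm_sub_rev]
  have h4 : ∫ z in closedBall x (2 * r), w z ≤ meanLip d * (K * r) * ((K * r) ^ d / b) := by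
    have := h1.trans h2
    rwa [div_mul_eq_mul_div, div_le_iff₀ (by positivity), mul_comm b, ← le_div_iff₀ hb,
      mul_div_assoc] at this
  have h5 := h3.trans (mul_le_mul_of_nonneg_left h4 (by positivity))
  calc w y = mass d * w y / mass d := by field_simp
    _ ≤ 1 / r ^ d * (meanLip d * (K * r) * ((K * r) ^ d / b)) / mass d :=
        div_le_div_of_nonneg_right h5 hm.le
    _ = K ^ d * (meanLip d * K) / b / mass d * r := by rw [mul_pow]; field_simp

end

end Vale.Agent.P098.Reg
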