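import Vale.Agent.P098.Reg.Harm
import Vale.Agent.P098.Reg.VarBase

/-!
# P098: Sobolev minimisers, mollification and the chain rule

Functions in `H¹_loc` are given with a weak gradient. A Sobolev minimiser has least energy against
every nonnegative `H¹_loc` function equal to it outside a compact subset of the ball; these are fewer
competitors than the `H¹₀` perturbations.
-/

namespace Vale.Agent.P098.Reg

open MeasureTheory Set Filter Topology Metric
open Vale.Agent.P098.Cone
open Vale.Agent.P100 (sqr lap)
open scoped ContDiff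

noncomputable section

variable {d : ℕ} {u v f g : (Fin d → ℝ) → ℝ} {G H : (Fin d → ℝ) → Fin d → ℝ}

/-- Locally square integrable. -/
def L2loc (f : (Fin d → ℝ) → ℝ) : Prop :=
  LocallyIntegrable f ∧ LocallyIntegrable fun x => f x ^ 2

/-- `G` is the weak gradient of `v`. -/
def WeakGrad (v : (Fin d → ℝ) → ℝ) (G : (Fin d → ℝ) → Fin d → ℝ) : Prop :=
  ∀ (i : Fin d) (φ : (Fin d → ℝ) → ℝ), ContDiff ℝ (⊤ : ℕ∞) φ → HasCompactSupport φ →
    ∫ x, v x * pd φ i x = -∫ x, G x i * φ x

/-- A function in `H¹_loc` with weak gradient `G`. -/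
structure H1loc (v : (Fin d → ℝ) → ℝ) (G : (Fin d → ℝ) → Fin d → ℝ) : Prop where
  l2 : L2loc v
  gl2 : ∀ i, L2loc fun x => G x i
  weak : WeakGrad v G

/-- The energy of a function with a weak gradient. -/
def senergy (v : (Fin d → ℝ) → ℝ) (G : (Fin d → ℝ) → Fin d → ℝ) (B : Set (Fin d → ℝ)) : ℝ :=
  ∫ x in B, (dot (G x) (G x) + (pos v).indicator (fun _ => 1) x)

/-- A nonnegative global minimiser in `H¹_loc`. -/
def SobMin (u : (Fin d → ℝ) → ℝ) : Prop :=
  (∀ᵐ x, 0 ≤ u x) ∧ ∃ G, H1loc u G ∧ ∀ (c : Fin d → ℝ) (R : ℝ), 0 < R →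
    ∀ (v : (Fin d → ℝ) → ℝ) (H : (Fin d → ℝ) → Fin d → ℝ), H1loc v H → (∀ᵐ x, 0 ≤ v x) →
      (∃ K : Set (Fin d → ℝ), IsCompact K ∧ K ⊆ eball c R ∧ ∀ᵐ x, x ∉ K → v x = u x) →
      senergy u G (eball c R) ≤ senergy v H (eball c R)

/-- One-homogeneous almost everywhere. -/
def HomogAE (u : (Fin d → ℝ) → ℝ) : Prop := ∀ r : ℝ, 0 < r → ∀ᵐ x, u (r • x) = r * u x

theorem L2loc.mul (hf : L2loc f) (hg : L2loc g) : LocallyIntegrable fun x => f x * g x := by
  refine locallyIntegrable_iff.2 fun K hK => ?_
  refine Integrable.mono' ((hf.2.integrableOn_isCompact hK).add (hg.2.integrableOn_isCompact hK))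
    ((hf.1.integrableOn_isCompact hK).aestronglyMeasurable.mul
      (hg.1.integrableOn_isCompact hK).aestronglyMeasurable) (.of_forall fun x => ?_)
  simp only [Real.norm_eq_abs, Pi.add_apply, abs_le]
  constructor <;> nlinarith [sq_nonneg (f x + g x), sq_nonneg (f x - g x)]

theorem L2loc.add (hf : L2loc f) (hg : L2loc g) : L2loc fun x => f x + g x := by
  refine ⟨hf.1.add hg.1, locallyIntegrable_iff.2 fun K hK => ?_⟩
  have h := ((hf.2.integrableOn_isCompact hK).add
    ((hf.mul hg).integrableOn_isCompact hK |>.const_mul 2)).add (hg.2.integrableOn_isCompact hK)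
  exact h.congr (.of_forall fun x => by simp only [Pi.add_apply]; ring)

theorem L2loc.const_mul (hf : L2loc f) (c : ℝ) : L2loc fun x => c * f x :=
  ⟨hf.1.smul c, by
    simpa only [mul_pow, Pi.smul_def, smul_eq_mul] using hf.2.smul (c ^ 2)⟩

theorem L2loc.bdd_mul (hf : L2loc f) {b : (Fin d → ℝ) → ℝ} (hb : AEStronglyMeasurable b volume) {C : ℝ}
    (hC : ∀ᵐ x, |b x| ≤ C) : L2loc fun x => b x * f x := by
  have hb' : ∀ K : Set (Fin d → ℝ), ∀ᵐ x ∂(volume.restrict K), |b x| ≤ C := fun K =>
    ae_restrict_of_ae hC
  refine ⟨locallyIntegrable_iff.2 fun K hK => (hf.1.integrableOn_isCompact hK).bdd_mul hb.restrict (hb' K),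
    locallyIntegrable_iff.2 fun K hK => ?_⟩
  have h := (hf.2.integrableOn_isCompact hK).bdd_mul (c := C ^ 2) (hb.pow 2).restrict
    ((hb' K).mono fun x hx => by
      rw [Pi.pow_apply, Real.norm_eq_abs, abs_pow]
      exact pow_le_pow_left₀ (abs_nonneg _) hx 2)
  exact h.congr (.of_forall fun x => by simp only [Pi.pow_apply]; ring)

theorem L2loc_of_continuous (hf : Continuous f) : L2loc f :=
  ⟨hf.locallyIntegrable, (hf.pow 2).locallyIntegrable⟩

theorem integrable_test_mul (hf : LocallyIntegrable f) {φ : (Fin d → ℝ) → ℝ} (hφ : Continuous φ)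
    (hc : HasCompactSupport φ) : Integrable fun x => f x * φ x := by
  simpa only [smul_eq_mul, mul_comm] using hf.integrable_smul_left_of_hasCompactSupport hφ hc

theorem H1loc_test {φ : (Fin d → ℝ) → ℝ} (hφ : ContDiff ℝ (⊤ : ℕ∞) φ) : H1loc φ (grad φ) where
  l2 := L2loc_of_continuous hφ.continuous
  gl2 := fun i => L2loc_of_continuous (contDiff_pd hφ i).continuous
  weak := fun i χ hχ hc => by
    have h := integral_pd_zero (f := fun x => φ x * χ x) ((hφ.mul hχ).of_le (by simp)) hc.mul_left i
    have e : ∀ x, pd (fun x => φ x * χ x) i x = φ x * pd χ i x + pd φ i x * χ x := fun x => by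
      rw [pd_mul (hφ.differentiable (by simp) x) (hχ.differentiable (by simp) x)]; ring
    simp only [e] at h
    have i1 : Integrable fun x => φ x * pd χ i x :=
      (hφ.continuous.mul (contDiff_pd hχ i).continuous).integrable_of_hasCompactSupport
        (hasCompactSupport_pd hc i).mul_left
    have i2 : Integrable fun x => pd φ i x * χ x :=
      ((contDiff_pd hφ i).continuous.mul hχ.continuous).integrable_of_hasCompactSupport hc.mul_left
    rw [integral_add i1 i2] at h
    simp only [grad]
    linarith

theorem H1loc.add (h1 : H1loc u G) (h2 : H1loc v H) :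
    H1loc (fun x => u x + v x) fun x i => G x i + H x i where
  l2 := h1.l2.add h2.l2
  gl2 := fun i => (h1.gl2 i).add (h2.gl2 i)
  weak := fun i φ hφ hc => by
    have c1 := (contDiff_pd hφ i).continuous
    have c2 := hasCompactSupport_pd hc i
    simp only [add_mul]
    rw [integral_add (integrable_test_mul h1.l2.1 c1 c2) (integrable_test_mul h2.l2.1 c1 c2),
      integral_add (integrable_test_mul (h1.gl2 i).1 hφ.continuous hc)
        (integrable_test_mul (h2.gl2 i).1 hφ.continuous hc), h1.weak i φ hφ hc, h2.weak i φ hφ hc]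
    ring

theorem H1loc.const_mul (h : H1loc u G) (c : ℝ) : H1loc (fun x => c * u x) fun x i => c * G x i where
  l2 := h.l2.const_mul c
  gl2 := fun i => (h.gl2 i).const_mul c
  weak := fun i φ hφ hc => by
    simp only [mul_assoc, MeasureTheory.integral_const_mul, h.weak i φ hφ hc, mul_neg]

theorem H1loc.mul_test (h : H1loc u G) {φ : (Fin d → ℝ) → ℝ} (hφ : ContDiff ℝ (⊤ : ℕ∞) φ)
    (hc : HasCompactSupport φ) :
    H1loc (fun x => φ x * u x) fun x i => φ x * G x i + pd φ i x * u x where
  l2 := by
    obtain ⟨C, hC⟩ := hφ.continuous.bounded_above_of_compact_support hc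
    exact h.l2.bdd_mul hφ.continuous.aestronglyMeasurable (.of_forall hC)
  gl2 := fun i => by
    obtain ⟨C, hC⟩ := hφ.continuous.bounded_above_of_compact_support hc
    obtain ⟨C', hC'⟩ := (contDiff_pd hφ i).continuous.bounded_above_of_compact_support
      (hasCompactSupport_pd hc i)
    exact ((h.gl2 i).bdd_mul hφ.continuous.aestronglyMeasurable (.of_forall hC)).add
      (h.l2.bdd_mul (contDiff_pd hφ i).continuous.aestronglyMeasurable (.of_forall hC'))
  weak := fun i χ hχ hχc => by
    have hp : ∀ x, pd (fun x => φ x * χ x) i x = φ x * pd χ i x + χ x * pd φ i x := fun x =>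
      pd_mul (hφ.differentiable (by simp) x) (hχ.differentiable (by simp) x) i
    have h0 := h.weak i (fun x => φ x * χ x) (hφ.mul hχ) hc.mul_right
    have i1 : Integrable fun x => φ x * u x * pd χ i x :=
      (integrable_test_mul h.l2.1 (hφ.continuous.mul (contDiff_pd hχ i).continuous) hc.mul_right).congr
        (.of_forall fun x => by simp only [Pi.mul_apply]; ring)
    have i2 : Integrable fun x => pd φ i x * u x * χ x :=
      (integrable_test_mul h.l2.1 ((contDiff_pd hφ i).continuous.mul hχ.continuous) hχc.mul_left).congr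
        (.of_forall fun x => by simp only [Pi.mul_apply]; ring)
    have i3 : Integrable fun x => φ x * G x i * χ x :=
      (integrable_test_mul (h.gl2 i).1 (hφ.continuous.mul hχ.continuous) hc.mul_right).congr
        (.of_forall fun x => by simp only [Pi.mul_apply]; ring)
    have e1 : ∫ x, u x * pd (fun x => φ x * χ x) i x
        = (∫ x, φ x * u x * pd χ i x) + ∫ x, pd φ i x * u x * χ x := by
      rw [← integral_add i1 i2]
      refine integral_congr_ae (.of_forall fun x => ?_)
      simp only [hp]; ring
    have e2 : ∫ x, G x i * (φ x * χ x) = ∫ x, φ x * G x i * χ x :=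
      integral_congr_ae (.of_forall fun x => by ring)
    rw [e1, e2] at h0
    simp only [add_mul]
    rw [integral_add i3 i2]
    linarith

/-- Mollification converges in the mean. -/
theorem tendsto_avg_L1 (hf : Integrable f) :
    Tendsto (fun e => ∫ x, |avg f x e / mass d - f x|) (𝓝[>] 0) (𝓝 0) := by
  have hm := mass_pos d
  rw [Metric.tendsto_nhds]
  intro ε hε
  obtain ⟨h, hhc, hfh, hh, hhi⟩ :=
    hf.exists_hasCompactSupport_integral_sub_le (ε := ε / 4) (by positivity)
  obtain ⟨B, hB⟩ := hh.bounded_above_of_compact_support hhc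
  obtain ⟨R, hR⟩ := hhc.isCompact.isBounded.subset_closedBall (0 : Fin d → ℝ)
  have hB0 : 0 ≤ B := (norm_nonneg _).trans (hB 0)
  -- the continuous part
  have h2 : Tendsto (fun e => ∫ x, |avg h x e / mass d - h x|) (𝓝[>] 0) (𝓝 0) := by
    have h0 := tendsto_integral_filter_of_dominated_convergence (μ := (volume : Measure (Fin d → ℝ)))
      (l := 𝓝[>] (0 : ℝ)) (F := fun e x => |avg h x e / mass d - h x|) (f := fun _ => (0 : ℝ))
      ((closedBall (0 : Fin d → ℝ) (R + 1)).indicator fun _ => 2 * B) ?_ ?_ ?_ ?_
    · simpa using h0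
    · filter_upwards [self_mem_nhdsWithin] with e (he : 0 < e)
      exact (((contDiff_avg hhi he).continuous.div_const _).sub hh).abs.aestronglyMeasurable
    · filter_upwards [Ioc_mem_nhdsGT one_pos] with e he
      refine .of_forall fun x => ?_
      rw [Real.norm_eq_abs, abs_abs]
      by_cases hx : x ∈ closedBall (0 : Fin d → ℝ) (R + 1)
      · rw [indicator_of_mem hx]
        refine (abs_sub _ _).trans ?_
        have h1 : |avg h x e| ≤ B * mass d := by
          rw [avg, ← Real.norm_eq_abs, ← integral_ker he.1 x, ← MeasureTheory.integral_const_mul]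
          refine norm_integral_le_of_norm_le
            ((((contDiff_ker e).continuous.comp (continuous_const.sub continuous_id)
              ).integrable_of_hasCompactSupport (HasCompactSupport.intro (isCompact_closedBall x e)
                fun y hy => ker_eq_zero he.1 (by
                  simpa [mem_closedBall, dist_eq_norm, norm_sub_rev] using hy))).const_mul B)
            (.of_forall fun y => ?_)
          rw [norm_mul, Real.norm_eq_abs (ker e _), abs_of_nonneg (ker_nonneg he.1 _)]
          exact mul_le_mul_of_nonneg_right (hB y) (ker_nonneg he.1 _)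
        rw [abs_div, abs_of_pos hm]
        have h3 : |avg h x e| / mass d ≤ B := by rwa [div_le_iff₀ hm]
        have h4 : |h x| ≤ B := hB x
        linarith
      · rw [indicator_of_notMem hx]
        have hx' : R + 1 < ‖x‖ := by simpa [mem_closedBall_zero_iff] using hx
        have hz : ∀ y, y ∈ tsupport h → e < ‖x - y‖ := fun y hy => by
          have := norm_le_insert y x
          have hy' := hR hy
          rw [mem_closedBall_zero_iff] at hy'
          linarith [norm_sub_norm_le x y, he.2]
        have hx0 : h x = 0 := image_eq_zero_of_notMem_tsupport fun hxs => by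
          have := hR hxs
          rw [mem_closedBall_zero_iff] at this
          linarith
        have ha : avg h x e = 0 := integral_eq_zero_of_ae (.of_forall fun y => by
          by_cases hy : y ∈ tsupport h
          · simp [ker_eq_zero he.1 (hz y hy)]
          · simp [image_eq_zero_of_notMem_tsupport hy])
        simp [ha, hx0]
    · exact (integrable_indicator_iff measurableSet_closedBall).2
        (continuousOn_const.integrableOn_compact (isCompact_closedBall _ _))
    · refine .of_forall fun x => ?_
      simpa [mul_div_cancel_left₀ _ hm.ne'] using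
        (((tendsto_avg hhi (x := x) hh.continuousAt).div_const (mass d)).sub_const (h x)).abs
  filter_upwards [self_mem_nhdsWithin, Metric.tendsto_nhds.1 h2 (ε / 4) (by positivity)]
    with e (he : 0 < e) he2
  rw [Real.dist_eq, sub_zero, abs_of_nonneg (integral_nonneg fun x => abs_nonneg _)] at he2 ⊢
  set k : (Fin d → ℝ) → ℝ := fun y => |f y - h y|
  have hk : Integrable k := (hf.sub hhi).abs
  have hkc : Integrable fun x => avg k x e :=
    hk.integrable_convolution (ContinuousLinearMap.mul ℝ ℝ)
      ((contDiff_ker e).continuous.integrable_of_hasCompactSupport (hasCompactSupport_ker he))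
  have hkI : ∫ x, avg k x e = mass d * ∫ x, k x := by
    have h5 := integral_convolution (L := ContinuousLinearMap.mul ℝ ℝ) (μ := volume) (ν := volume) hk
      ((contDiff_ker e).continuous.integrable_of_hasCompactSupport
        (hasCompactSupport_ker (d := d) he))
    refine h5.trans ?_
    rw [ContinuousLinearMap.mul_apply', mul_comm]
    congr 1
    rw [← integral_sub_left_eq_self (fun z => ker e z) volume (0 : Fin d → ℝ)]
    exact integral_ker he 0
  have hpt : ∀ x, |avg f x e / mass d - f x|
      ≤ avg k x e / mass d + |avg h x e / mass d - h x| + k x := fun x => by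
    have hint : ∀ {F : (Fin d → ℝ) → ℝ}, Integrable F → Integrable fun y => F y * ker e (x - y) :=
      fun hF => hF.mul_bdd (c := 1 / e ^ d)
        ((contDiff_ker e).continuous.comp (continuous_const.sub continuous_id)).aestronglyMeasurable
        (.of_forall fun y => by
          rw [Real.norm_eq_abs, abs_of_nonneg (ker_nonneg he _)]; exact ker_le he _)
    have h6 : |avg f x e - avg h x e| ≤ avg k x e := by
      rw [avg, avg, ← integral_sub (hint hf) (hint hhi), avg, ← Real.norm_eq_abs]
      refine norm_integral_le_of_norm_le (hint hk) (.of_forall fun y => ?_)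
      rw [← sub_mul, norm_mul, Real.norm_eq_abs (ker e _), abs_of_nonneg (ker_nonneg he _)]
      exact le_rfl
    have h7 : |avg f x e / mass d - avg h x e / mass d| ≤ avg k x e / mass d := by
      rw [← sub_div, abs_div, abs_of_pos hm]
      exact div_le_div_of_nonneg_right h6 hm.le
    have h8 : |h x - f x| = k x := abs_sub_comm _ _
    linarith [abs_sub_le (avg f x e / mass d) (avg h x e / mass d) (f x),
      abs_sub_le (avg h x e / mass d) (h x) (f x)]
  have hi2 : Integrable fun x => |avg h x e / mass d - h x| :=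
    ((((hhi.integrable_convolution (ContinuousLinearMap.mul ℝ ℝ)
      ((contDiff_ker e).continuous.integrable_of_hasCompactSupport (hasCompactSupport_ker he))) :
        Integrable (fun x => avg h x e) volume).div_const _).sub hhi).abs
  calc ∫ x, |avg f x e / mass d - f x|
      ≤ ∫ x, avg k x e / mass d + |avg h x e / mass d - h x| + k x :=
        integral_mono_of_nonneg (.of_forall fun x => abs_nonneg _)
          (((hkc.div_const _).add hi2).add hk) (.of_forall hpt)
    _ = (∫ x, k x) + (∫ x, |avg h x e / mass d - h x|) + ∫ x, k x := by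
        rw [integral_add ?_ hk, integral_add (hkc.div_const _) hi2, integral_div, hkI,
          mul_div_cancel_left₀ _ hm.ne']
        exact (hkc.div_const _).add hi2
    _ < ε := by
        have : ∫ x, k x ≤ ε / 4 := by simpa [k, Real.norm_eq_abs] using hfh
        linarith

theorem contDiff_avg_loc (hu : LocallyIntegrable u) {e : ℝ} (he : 0 < e) :
    ContDiff ℝ (⊤ : ℕ∞) fun x => avg u x e :=
  (hasCompactSupport_ker he).contDiff_convolution_right (ContinuousLinearMap.mul ℝ ℝ)
    hu (contDiff_ker e)

theorem avg_cut {x : Fin d → ℝ} {e R : ℝ} {y₀ : Fin d → ℝ} (he : 0 < e)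
    (hs : closedBall x e ⊆ closedBall y₀ R) :
    avg (cutBall u y₀ R) x e = avg u x e := by
  refine integral_congr_ae (.of_forall fun y => ?_)
  show cutBall u y₀ R y * _ = u y * _
  by_cases hy : y ∈ closedBall x e
  · rw [cutBall, indicator_of_mem (hs hy)]
  · rw [ker_eq_zero he (by simpa [mem_closedBall, dist_eq_norm, norm_sub_rev] using hy),
      mul_zero, mul_zero]

theorem integrable_cut_loc (hu : LocallyIntegrable u) (x : Fin d → ℝ) (R : ℝ) :
    Integrable (cutBall u x R) :=
  (integrable_indicator_iff measurableSet_closedBall).2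
    (hu.integrableOn_isCompact (isCompact_closedBall x R))

/-- The derivative of a mollification is the mollification of the weak gradient. -/
theorem H1loc.pd_avg (h : H1loc u G) {e : ℝ} (he : 0 < e) (i : Fin d) (x : Fin d → ℝ) :
    pd (fun x => avg u x e) i x = avg (fun y => G y i) x e := by
  have hK : ContDiff ℝ (⊤ : ℕ∞) (ker e : (Fin d → ℝ) → ℝ) := contDiff_ker e
  have hd := (hasCompactSupport_ker he).hasFDerivAt_convolution_right
    (ContinuousLinearMap.mul ℝ ℝ) (h.l2.1 : LocallyIntegrable u) (hK.of_le (by simp)) x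
  have hs : ∀ y, pd (fun y => ker e (x - y)) i y = -pd (ker e) i (x - y) := fun y => by
    have h2 : HasFDerivAt (fun y => ker e (x - y))
        ((fderiv ℝ (ker e) (x - y)).comp (-ContinuousLinearMap.id ℝ _)) y :=
      ((hK.differentiable (by simp) _).hasFDerivAt).comp y ((hasFDerivAt_id y).const_sub x)
    simp [pd, h2.fderiv]
  have hφ : ContDiff ℝ (⊤ : ℕ∞) fun y => ker e (x - y) := hK.comp (contDiff_const.sub contDiff_id)
  have hφc : HasCompactSupport fun y => ker e (x - y) :=
    HasCompactSupport.intro (isCompact_closedBall x e) fun y hy =>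
      ker_eq_zero he (by simpa [mem_closedBall, dist_eq_norm, norm_sub_rev] using hy)
  have hw := h.weak i _ hφ hφc
  simp only [hs, mul_neg, MeasureTheory.integral_neg, neg_inj] at hw
  show fderiv ℝ _ x (Pi.single i 1) = _
  rw [show (fun x => avg u x e) = convolution u (ker e) (ContinuousLinearMap.mul ℝ ℝ) volume from rfl,
    hd.fderiv, convolution_def]
  rw [ContinuousLinearMap.integral_apply]
  · exact hw
  · exact (hasCompactSupport_ker he).fderiv ℝ |>.convolutionExists_right _ h.l2.1
      (hK.continuous_fderiv (by simp)) x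

/-- Smooth approximations in `H¹` on a ball, converging almost everywhere. -/
theorem H1loc.approx (h : H1loc u G) (R : ℝ) :
    ∃ e : ℕ → ℝ, (∀ n, 0 < e n) ∧ Tendsto e atTop (𝓝 0) ∧
      (∀ᵐ x, x ∈ closedBall (0 : Fin d → ℝ) R →
        Tendsto (fun n => avg u x (e n) / mass d) atTop (𝓝 (u x))) ∧
      Tendsto (fun n => ∫ x in closedBall 0 R, |avg u x (e n) / mass d - u x|) atTop (𝓝 0) ∧
      ∀ i, Tendsto (fun n => ∫ x in closedBall 0 R, |avg (fun y => G y i) x (e n) / mass d - G x i|)
        atTop (𝓝 0) := by
  set e₀ : ℕ → ℝ := fun n => 1 / (n + 1)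
  have he₀ : ∀ n, 0 < e₀ n := fun n => by positivity
  have he₀1 : ∀ n, e₀ n ≤ 1 := fun n => by
    rw [div_le_one (by positivity)]; linarith [Nat.cast_nonneg (α := ℝ) n]
  have ht : Tendsto e₀ atTop (𝓝[>] 0) :=
    tendsto_nhdsWithin_iff.2 ⟨tendsto_one_div_add_atTop_nhds_zero_nat, .of_forall he₀⟩
  have hloc : ∀ {F : (Fin d → ℝ) → ℝ}, LocallyIntegrable F →
      Tendsto (fun n => ∫ x in closedBall 0 R, |avg F x (e₀ n) / mass d - F x|) atTop (𝓝 0) ∧
      Tendsto (fun n => ∫ x, |avg (cutBall F 0 (R + 1)) x (e₀ n) / mass d - cutBall F 0 (R + 1) x|)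
        atTop (𝓝 0) := fun {F} hF => by
    have hc := integrable_cut_loc hF (0 : Fin d → ℝ) (R + 1)
    have h1 := (tendsto_avg_L1 hc).comp ht
    refine ⟨squeeze_zero (fun n => integral_nonneg fun x => abs_nonneg _) (fun n => ?_) h1, h1⟩
    have hi : Integrable fun x =>
        |avg (cutBall F 0 (R + 1)) x (e₀ n) / mass d - cutBall F 0 (R + 1) x| :=
      ((((hc.integrable_convolution (ContinuousLinearMap.mul ℝ ℝ)
        ((contDiff_ker (e₀ n)).continuous.integrable_of_hasCompactSupport
          (hasCompactSupport_ker (he₀ n)))) :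
        Integrable (fun x => avg (cutBall F 0 (R + 1)) x (e₀ n)) volume).div_const _).sub hc).abs
    refine (setIntegral_congr_fun measurableSet_closedBall fun x hx => ?_).trans_le
      (setIntegral_le_integral hi (.of_forall fun x => abs_nonneg _))
    have hx1 : x ∈ closedBall (0 : Fin d → ℝ) (R + 1) := closedBall_subset_closedBall (by linarith) hx
    rw [mem_closedBall] at hx
    rw [avg_cut (he₀ n) (closedBall_subset_closedBall' (by linarith [he₀1 n])), cutBall,
      indicator_of_mem hx1]
  obtain ⟨hu1, hu2⟩ := hloc h.l2.1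
  set c := cutBall u 0 (R + 1)
  have hc : Integrable c := integrable_cut_loc h.l2.1 _ _
  have hD : ∀ n, Integrable fun x => avg c x (e₀ n) / mass d - c x := fun n =>
    (((hc.integrable_convolution (ContinuousLinearMap.mul ℝ ℝ)
      ((contDiff_ker (e₀ n)).continuous.integrable_of_hasCompactSupport
        (hasCompactSupport_ker (he₀ n)))) : Integrable (fun x => avg c x (e₀ n)) volume).div_const _).sub hc
  have hmeas : TendstoInMeasure volume (fun n x => avg c x (e₀ n) / mass d) atTop c := by
    refine tendstoInMeasure_of_tendsto_eLpNorm one_ne_zero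
      (fun n => ((contDiff_avg hc (he₀ n)).continuous.div_const _).aestronglyMeasurable)
      hc.aestronglyMeasurable ?_
    have h9 := (ENNReal.continuous_ofReal.tendsto 0).comp hu2
    rw [ENNReal.ofReal_zero] at h9
    refine h9.congr fun n => ?_
    rw [eLpNorm_one_eq_lintegral_enorm, ← ofReal_integral_norm_eq_lintegral_enorm]
    · rfl
    · exact hD n
  obtain ⟨ns, hns, hae⟩ := hmeas.exists_seq_tendsto_ae
  refine ⟨fun n => e₀ (ns n), fun n => he₀ _,
    (ht.mono_right nhdsWithin_le_nhds).comp hns.tendsto_atTop, ?_, hu1.comp hns.tendsto_atTop,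
    fun i => (hloc (h.gl2 i).1).1.comp hns.tendsto_atTop⟩
  filter_upwards [hae] with x hx hxR
  have hx1 : x ∈ closedBall (0 : Fin d → ℝ) (R + 1) := closedBall_subset_closedBall (by linarith) hxR
  have hcx : c x = u x := indicator_of_mem hx1 u
  rw [hcx] at hx
  refine hx.congr fun n => ?_
  rw [mem_closedBall] at hxR
  rw [avg_cut (he₀ _) (closedBall_subset_closedBall' (by linarith [he₀1 (ns n)]))]

/-- The chain rule. -/
theorem H1loc.comp (h : H1loc u G) {θ : ℝ → ℝ} (hθ : ContDiff ℝ (⊤ : ℕ∞) θ) (h0 : θ 0 = 0) {C : ℝ}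
    (hC : ∀ s, |deriv θ s| ≤ C) :
    H1loc (fun x => θ (u x)) fun x i => deriv θ (u x) * G x i := by
  have hm : AEStronglyMeasurable u volume := h.l2.1.aestronglyMeasurable
  have hdc : Continuous (deriv θ) := (contDiff_infty_iff_deriv.1 hθ).2.continuous
  have hdm : AEStronglyMeasurable (fun x => deriv θ (u x)) volume :=
    hdc.comp_aestronglyMeasurable hm
  have hlip : ∀ a b, |θ a - θ b| ≤ C * |a - b| := fun a b =>
    Convex.norm_image_sub_le_of_norm_deriv_le (fun s _ => hθ.differentiable (by simp) s)
      (fun s _ => hC s) convex_univ (mem_univ b) (mem_univ a)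
  have hC0 : 0 ≤ C := (abs_nonneg _).trans (hC 0)
  have hθm : AEStronglyMeasurable (fun x => θ (u x)) volume :=
    hθ.continuous.comp_aestronglyMeasurable hm
  have hθb : ∀ x, |θ (u x)| ≤ C * |u x| := fun x => by simpa [h0] using hlip (u x) 0
  refine ⟨⟨locallyIntegrable_iff.2 fun K hK => ?_, locallyIntegrable_iff.2 fun K hK => ?_⟩,
    fun i => (h.gl2 i).bdd_mul hdm (.of_forall fun x => hC _), fun i φ hφ hc => ?_⟩
  · exact Integrable.mono' ((h.l2.1.integrableOn_isCompact hK).abs.const_mul C) hθm.restrict
      (.of_forall fun x => hθb x)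
  · refine Integrable.mono' ((h.l2.2.integrableOn_isCompact hK).const_mul (C ^ 2)) (hθm.pow 2).restrict
      (.of_forall fun x => ?_)
    show |θ (u x) ^ 2| ≤ C ^ 2 * u x ^ 2
    rw [abs_pow, ← sq_abs (u x), ← mul_pow]
    exact pow_le_pow_left₀ (abs_nonneg _) (hθb x) 2
  obtain ⟨R, hR⟩ := hc.isCompact.isBounded.subset_closedBall (0 : Fin d → ℝ)
  obtain ⟨e, he, -, hae, hu1, hG1⟩ := h.approx R
  set w : ℕ → (Fin d → ℝ) → ℝ := fun n x => avg u x (e n) / mass d
  have hw : ∀ n, ContDiff ℝ (⊤ : ℕ∞) (w n) := fun n => (contDiff_avg_loc h.l2.1 (he n)).div_const _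
  have hpw : ∀ n x, pd (w n) i x = avg (fun y => G y i) x (e n) / mass d := fun n x => by
    rw [← h.pd_avg (he n) i x]
    simp [w, pd, div_eq_mul_inv, fderiv_mul_const
      ((contDiff_avg_loc h.l2.1 (he n)).differentiable (by simp) x), mul_comm]
  have hout : ∀ x, x ∉ closedBall (0 : Fin d → ℝ) R → φ x = 0 ∧ pd φ i x = 0 := fun x hx =>
    ⟨image_eq_zero_of_notMem_tsupport fun h' => hx (hR h'), pd_eq_zero_of_notMem (fun h' => hx (hR h')) i⟩
  obtain ⟨A, hA⟩ := hφ.continuous.bounded_above_of_compact_support hc
  obtain ⟨A', hA'⟩ := (contDiff_pd hφ i).continuous.bounded_above_of_compact_support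
    (hasCompactSupport_pd hc i)
  have hA0 : 0 ≤ A := (norm_nonneg _).trans (hA 0)
  have hA'0 : 0 ≤ A' := (norm_nonneg _).trans (hA' 0)
  -- the classical identity
  have hcl : ∀ n, ∫ x, θ (w n x) * pd φ i x = -∫ x, deriv θ (w n x) * pd (w n) i x * φ x := fun n => by
    have hh := (H1loc_test (hθ.comp (hw n))).weak i φ hφ hc
    refine hh.trans (congrArg Neg.neg (integral_congr_ae (.of_forall fun x => ?_)))
    show pd (fun y => θ (w n y)) i x * φ x = _
    rw [pd_comp ((hθ.differentiable (by simp) _).hasDerivAt) ((hw n).differentiable (by simp) x)]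
  have hIK : ∀ {F : (Fin d → ℝ) → ℝ}, (∀ x, x ∉ closedBall (0 : Fin d → ℝ) R → F x = 0) →
      ∫ x, F x = ∫ x in closedBall 0 R, F x := fun hF =>
    (setIntegral_eq_integral_of_forall_compl_eq_zero hF).symm
  have hKc := isCompact_closedBall (0 : Fin d → ℝ) R
  -- the left side
  have L1 : Tendsto (fun n => ∫ x, θ (w n x) * pd φ i x) atTop (𝓝 (∫ x, θ (u x) * pd φ i x)) := by
    rw [tendsto_iff_norm_sub_tendsto_zero]
    refine squeeze_zero (fun n => norm_nonneg _) (fun n => ?_)
      (by simpa using hu1.const_mul (C * A'))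
    have i1 : Integrable fun x => θ (w n x) * pd φ i x :=
      ((hθ.continuous.comp (hw n).continuous).mul (contDiff_pd hφ i).continuous
        ).integrable_of_hasCompactSupport (hasCompactSupport_pd hc i).mul_left
    have hθl : LocallyIntegrable fun x => θ (u x) := locallyIntegrable_iff.2 fun K hK =>
      Integrable.mono' ((h.l2.1.integrableOn_isCompact hK).abs.const_mul C) hθm.restrict
        (.of_forall fun x => hθb x)
    rw [← integral_sub i1 (integrable_test_mul hθl (contDiff_pd hφ i).continuous (hasCompactSupport_pd hc i)),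
      hIK fun x hx => by simp [(hout x hx).2], ← MeasureTheory.integral_const_mul]
    refine norm_integral_le_of_norm_le
      ((((hw n).continuous.continuousOn.integrableOn_compact hKc).sub
        (h.l2.1.integrableOn_isCompact hKc)).abs.const_mul _) (.of_forall fun x => ?_)
    rw [← sub_mul, norm_mul, Real.norm_eq_abs]
    calc |θ (w n x) - θ (u x)| * ‖pd φ i x‖ ≤ C * |w n x - u x| * A' :=
          mul_le_mul (hlip _ _) (hA' x) (norm_nonneg _) (by positivity)
      _ = _ := by simp only [w]; ring
  -- the right side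
  have hGl : Integrable fun x => |G x i * φ x| :=
    (integrable_test_mul (h.gl2 i).1 hφ.continuous hc).abs
  have R1 : Tendsto (fun n => ∫ x, deriv θ (w n x) * pd (w n) i x * φ x) atTop
      (𝓝 (∫ x, deriv θ (u x) * G x i * φ x)) := by
    have hdct : Tendsto (fun n => ∫ x, deriv θ (w n x) * (G x i * φ x)) atTop
        (𝓝 (∫ x, deriv θ (u x) * (G x i * φ x))) := by
      refine tendsto_integral_of_dominated_convergence (fun x => C * |G x i * φ x|) (fun n => ?_)
        (hGl.const_mul C) (fun n => .of_forall fun x => ?_) ?_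
      · exact (hdc.comp (hw n).continuous).aestronglyMeasurable.mul
          ((h.gl2 i).1.aestronglyMeasurable.mul hφ.continuous.aestronglyMeasurable)
      · rw [norm_mul, Real.norm_eq_abs, Real.norm_eq_abs]
        exact mul_le_mul_of_nonneg_right (hC _) (abs_nonneg _)
      · filter_upwards [hae] with x hx
        by_cases hxR : x ∈ closedBall (0 : Fin d → ℝ) R
        · exact ((hdc.tendsto _).comp (hx hxR)).mul_const _
        · simp [(hout x hxR).1]
    have i1 : ∀ n, Integrable fun x => deriv θ (w n x) * pd (w n) i x * φ x := fun n =>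
      (((hdc.comp (hw n).continuous).mul (contDiff_pd (hw n) i).continuous).mul hφ.continuous
        ).integrable_of_hasCompactSupport hc.mul_left
    have i2 : ∀ n, Integrable fun x => deriv θ (w n x) * (G x i * φ x) := fun n =>
      (integrable_test_mul (h.gl2 i).1 hφ.continuous hc).bdd_mul
        (hdc.comp (hw n).continuous).aestronglyMeasurable (.of_forall fun x => hC _)
    have hdiff : Tendsto (fun n => (∫ x, deriv θ (w n x) * pd (w n) i x * φ x)
        - ∫ x, deriv θ (w n x) * (G x i * φ x)) atTop (𝓝 0) := by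
      refine squeeze_zero_norm (fun n => ?_) (by simpa using (hG1 i).const_mul (C * A))
      rw [← integral_sub (i1 n) (i2 n), hIK fun x hx => by simp [(hout x hx).1],
        ← MeasureTheory.integral_const_mul]
      refine norm_integral_le_of_norm_le ((((contDiff_avg_loc (h.gl2 i).1 (he n)).continuous.div_const
        _).continuousOn.integrableOn_compact hKc).sub
          ((h.gl2 i).1.integrableOn_isCompact hKc) |>.abs.const_mul _) (.of_forall fun x => ?_)
      rw [show deriv θ (w n x) * pd (w n) i x * φ x - deriv θ (w n x) * (G x i * φ x)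
          = deriv θ (w n x) * (pd (w n) i x - G x i) * φ x by ring, norm_mul, norm_mul,
        Real.norm_eq_abs, Real.norm_eq_abs (pd (w n) i x - G x i), hpw]
      calc _ ≤ C * |avg (fun y => G y i) x (e n) / mass d - G x i| * A :=
            mul_le_mul (mul_le_mul_of_nonneg_right (hC _) (abs_nonneg _)) (hA x) (norm_nonneg _)
              (by positivity)
        _ = _ := by ring
    have := hdiff.add hdct
    rw [zero_add] at this
    simpa only [sub_add_cancel, mul_assoc] using this
  exact tendsto_nhds_unique L1 ((tendsto_congr fun n => hcl n).2 R1.neg)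

end

end Vale.Agent.P098.Reg
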