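import Vale.Agent.P098.Reg.LipSob

/-!
# P098: the Laplacian of a Sobolev minimiser

It is nonnegative, at most a multiple of `r ^ (d - 1)` on balls of size `r`, and zero where the
minimiser is positive.
-/

namespace Vale.Agent.P098.Reg

open MeasureTheory Set Filter Topology Metric
open Vale.Agent.P098.Cone
open scoped ContDiff

noncomputable section

variable {d : ℕ}

/-- A minimiser with its weak gradient. -/
structure SobData (u : (Fin d → ℝ) → ℝ) (G : (Fin d → ℝ) → Fin d → ℝ) : Prop where
  h1 : H1loc u G
  nonneg : ∀ᵐ x, 0 ≤ u x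
  min : ∀ (c : Fin d → ℝ) (R : ℝ), 0 < R →
    ∀ (v : (Fin d → ℝ) → ℝ) (H : (Fin d → ℝ) → Fin d → ℝ), H1loc v H → (∀ᵐ x, 0 ≤ v x) →
      (∃ K : Set (Fin d → ℝ), IsCompact K ∧ K ⊆ eball c R ∧ ∀ᵐ x, x ∉ K → v x = u x) →
      senergy u G (eball c R) ≤ senergy v H (eball c R)

variable {u v : (Fin d → ℝ) → ℝ} {G H : (Fin d → ℝ) → Fin d → ℝ}

theorem locallyIntegrable_dot {P Q : (Fin d → ℝ) → Fin d → ℝ} (hP : ∀ i, L2loc fun x => P x i)
    (hQ : ∀ i, L2loc fun x => Q x i) : LocallyIntegrable fun x => dot (P x) (Q x) :=
  locallyIntegrable_iff.2 fun _ hK =>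
    integrable_finsetSum _ fun i _ => ((hP i).mul (hQ i)).integrableOn_isCompact hK

theorem nullMeasurableSet_pos (hv : AEStronglyMeasurable v volume) : NullMeasurableSet (pos v) :=
  nullMeasurableSet_lt aemeasurable_const hv.aemeasurable

theorem H1loc.integrableOn_energy (h : H1loc v H) {B : Set (Fin d → ℝ)} (hB : Bornology.IsBounded B) :
    IntegrableOn (fun x => dot (H x) (H x) + (pos v).indicator (fun _ => 1) x) B := by
  refine IntegrableOn.mono_set ?_ subset_closure
  refine ((locallyIntegrable_dot h.gl2 h.gl2).integrableOn_isCompact hB.isCompact_closure).add ?_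
  have : IsFiniteMeasure (volume.restrict (closure B)) :=
    isFiniteMeasure_restrict.2 hB.isCompact_closure.measure_lt_top.ne
  exact (integrable_const (1 : ℝ)).indicator₀
    ((nullMeasurableSet_pos h.l2.1.aestronglyMeasurable).mono_ac Measure.restrict_le_self.absolutelyContinuous)

/-- The first two terms of a variation. -/
theorem SobData.variation (hu : SobData u G) {ψ : (Fin d → ℝ) → ℝ} {P : (Fin d → ℝ) → Fin d → ℝ}
    (hψ : H1loc ψ P) {K : Set (Fin d → ℝ)} (hK : IsCompact K) (hψK : ∀ x ∉ K, ψ x = 0)
    (hPK : ∀ x ∉ K, P x = 0) (t : ℝ) (hv0 : ∀ᵐ x, 0 ≤ u x + t * ψ x)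
    {S : Set (Fin d → ℝ)} (hS : IsCompact S) (hind : ∀ᵐ x, 0 < u x + t * ψ x → 0 < u x ∨ x ∈ S) :
    0 ≤ 2 * t * (∫ x, dot (G x) (P x)) + t ^ 2 * (∫ x, dot (P x) (P x)) + volume.real S := by
  obtain ⟨R, hR, hKR⟩ := exists_eball hK
  set B := eball (0 : Fin d → ℝ) R
  have hBb : Bornology.IsBounded B := isBounded_eball R
  have hH := hu.h1.add (hψ.const_mul t)
  have h := hu.min 0 R hR _ _ hH hv0
    ⟨K, hK, hKR, .of_forall fun x hx => by simp [hψK x hx]⟩
  have hGP : LocallyIntegrable fun x => dot (G x) (P x) := locallyIntegrable_dot hu.h1.gl2 hψ.gl2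
  have hPP : LocallyIntegrable fun x => dot (P x) (P x) := locallyIntegrable_dot hψ.gl2 hψ.gl2
  have z1 : ∀ x, x ∉ K → dot (G x) (P x) = 0 := fun x hx => by simp [dot, hPK x hx]
  have z2 : ∀ x, x ∉ K → dot (P x) (P x) = 0 := fun x hx => by simp [dot, hPK x hx]
  have e1 : ∫ x in B, dot (G x) (P x) = ∫ x, dot (G x) (P x) :=
    setIntegral_eq_integral_of_forall_compl_eq_zero fun x hx => z1 x fun hh => hx (hKR hh)
  have e2 : ∫ x in B, dot (P x) (P x) = ∫ x, dot (P x) (P x) :=
    setIntegral_eq_integral_of_forall_compl_eq_zero fun x hx => z2 x fun hh => hx (hKR hh)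
  have i1 := ((hGP.integrableOn_isCompact hBb.isCompact_closure).mono_set subset_closure).const_mul (2 * t)
  have i2 := ((hPP.integrableOn_isCompact hBb.isCompact_closure).mono_set subset_closure).const_mul (t ^ 2)
  have i3 : IntegrableOn (S.indicator fun _ => (1 : ℝ)) B :=
    ((integrable_indicator_iff hS.measurableSet).2
      (continuousOn_const.integrableOn_compact hS)).integrableOn
  have key : senergy (fun x => u x + t * ψ x) (fun x i => G x i + t * P x i) B - senergy u G B
      ≤ ∫ x in B, (2 * t * dot (G x) (P x) + t ^ 2 * dot (P x) (P x) + S.indicator (fun _ => 1) x) := by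
    have j1 := hH.integrableOn_energy hBb
    have j2 := hu.h1.integrableOn_energy hBb
    rw [senergy, senergy, ← integral_sub j1 j2]
    refine integral_mono_ae (j1.sub j2) ((i1.add i2).add i3) ?_
    filter_upwards [ae_restrict_of_ae hind] with x hx
    have e : dot (fun i => G x i + t * P x i) (fun i => G x i + t * P x i)
        = dot (G x) (G x) + 2 * t * dot (G x) (P x) + t ^ 2 * dot (P x) (P x) := by
      simp only [dot, Finset.mul_sum, ← Finset.sum_add_distrib]
      exact Finset.sum_congr rfl fun i _ => by ring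
    have hi : (pos fun x => u x + t * ψ x).indicator (fun _ => (1 : ℝ)) x
        ≤ (pos u).indicator (fun _ => 1) x + S.indicator (fun _ => 1) x := by
      have n1 : 0 ≤ (pos u).indicator (fun _ => (1 : ℝ)) x := indicator_nonneg (fun _ _ => zero_le_one) x
      have n2 : 0 ≤ S.indicator (fun _ => (1 : ℝ)) x := indicator_nonneg (fun _ _ => zero_le_one) x
      by_cases hp : 0 < u x + t * ψ x
      · rw [indicator_of_mem (show x ∈ pos fun x => u x + t * ψ x from hp)]
        rcases hx hp with h' | h'
        · rw [indicator_of_mem (show x ∈ pos u from h')]; linarith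
        · rw [indicator_of_mem h']; linarith
      · rw [indicator_of_notMem (show x ∉ pos fun x => u x + t * ψ x from hp)]
        linarith
    show _ - _ ≤ _
    rw [e]
    linarith
  rw [integral_add (i1.fun_add i2) i3, integral_add i1 i2, MeasureTheory.integral_const_mul,
    MeasureTheory.integral_const_mul, e1, e2] at key
  have hSle : ∫ x in B, S.indicator (fun _ => (1 : ℝ)) x ≤ volume.real S := by
    refine (setIntegral_le_integral ((integrable_indicator_iff hS.measurableSet).2
      (continuousOn_const.integrableOn_compact hS))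
      (.of_forall fun x => indicator_nonneg (fun _ _ => zero_le_one) x)).trans_eq ?_
    rw [integral_indicator hS.measurableSet, setIntegral_const, smul_eq_mul, mul_one]
  linarith

theorem eq_zero_of_small {A B δ : ℝ} (hδ : 0 < δ)
    (h : ∀ t, |t| < δ → 0 ≤ 2 * t * A + t ^ 2 * B) : A = 0 := by
  have key : ∀ η, 0 < η → |A| ≤ η := fun η hη => by
    set t := min (δ / 2) (η / (|B| + 1))
    have ht : 0 < t := lt_min (by positivity) (by positivity)
    have ht2 : |t| < δ := by
      rw [abs_of_pos ht]; exact (min_le_left _ _).trans_lt (by linarith)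
    have ht3 : t * |B| ≤ η := by
      calc t * |B| ≤ η / (|B| + 1) * (|B| + 1) :=
            mul_le_mul (min_le_right _ _) (by linarith) (abs_nonneg _) (by positivity)
        _ = η := by field_simp
    have h1 : 0 ≤ t * (2 * A + t * B) := by linarith [h t ht2]
    have h2 : 0 ≤ t * (-2 * A + t * B) := by linarith [h (-t) (by rwa [abs_neg])]
    have h3 := nonneg_of_mul_nonneg_right h1 ht
    have h4 := nonneg_of_mul_nonneg_right h2 ht
    have h5 : t * B ≤ t * |B| := mul_le_mul_of_nonneg_left (le_abs_self B) ht.le
    rw [abs_le]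
    constructor <;> linarith
  exact abs_eq_zero.1 (le_antisymm (le_of_forall_pos_le_add fun η hη => by linarith [key η hη]) (abs_nonneg _))

theorem exists_transition_bound : ∃ C, 0 ≤ C ∧ ∀ s, |deriv Real.smoothTransition s| ≤ C ∧
    |Real.smoothTransition s| ≤ C * |s| ∧ |s * deriv Real.smoothTransition s| ≤ C := by
  have hd : Continuous (deriv Real.smoothTransition) :=
    Real.smoothTransition.contDiff.continuous_deriv (n := (1 : ℕ∞)) le_rfl
  obtain ⟨C, hC⟩ := (isCompact_Icc (a := (0 : ℝ)) (b := 1)).exists_bound_of_continuousOn hd.continuousOn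
  have hC0 : 0 ≤ C := (norm_nonneg _).trans (hC 0 (by simp))
  have hout : ∀ s, s ∉ Icc (0 : ℝ) 1 → deriv Real.smoothTransition s = 0 := fun s hs => by
    rcases not_and_or.1 hs with h | h
    · exact HasDerivAt.deriv ((hasDerivAt_const s (0 : ℝ)).congr_of_eventuallyEq
        (by filter_upwards [gt_mem_nhds (not_le.1 h)] with t ht using
          Real.smoothTransition.zero_of_nonpos ht.le))
    · exact HasDerivAt.deriv ((hasDerivAt_const s (1 : ℝ)).congr_of_eventuallyEq
        (by filter_upwards [lt_mem_nhds (not_le.1 h)] with t ht using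
          Real.smoothTransition.one_of_one_le ht.le))
  have hb : ∀ s, |deriv Real.smoothTransition s| ≤ C := fun s => by
    by_cases hs : s ∈ Icc (0 : ℝ) 1
    · exact hC s hs
    · simp [hout s hs, hC0]
  refine ⟨C, hC0, fun s => ⟨hb s, ?_, ?_⟩⟩
  · simpa [Real.smoothTransition.zero] using
      Convex.norm_image_sub_le_of_norm_deriv_le (f := Real.smoothTransition)
        (fun t _ => (Real.smoothTransition.contDiff (n := (1 : ℕ∞))).differentiable one_ne_zero t)
        (fun t _ => hb t) convex_univ (mem_univ (0 : ℝ)) (mem_univ s)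
  · by_cases hs : s ∈ Icc (0 : ℝ) 1
    · rw [abs_mul, abs_of_nonneg hs.1]
      exact (mul_le_mul hs.2 (hb s) (abs_nonneg _) zero_le_one).trans_eq (one_mul C)
    · simp [hout s hs, hC0]

theorem transition_tendsto (s : ℝ) :
    Tendsto (fun n : ℕ => Real.smoothTransition (s * (n + 1))) atTop
      (𝓝 (if 0 < s then 1 else 0)) := by
  split_ifs with hs
  · refine tendsto_const_nhds.congr' ?_
    filter_upwards [eventually_ge_atTop ⌈1 / s⌉₊] with n hn
    refine (Real.smoothTransition.one_of_one_le ?_).symm
    have h1 : 1 / s ≤ n + 1 := by linarith [Nat.le_ceil (1 / s), (Nat.cast_le (α := ℝ)).2 hn]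
    rw [div_le_iff₀ hs] at h1
    linarith
  · exact tendsto_const_nhds.congr' (.of_forall fun n =>
      (Real.smoothTransition.zero_of_nonpos (mul_nonpos_of_nonpos_of_nonneg (not_lt.1 hs) (by positivity))).symm)

theorem contDiff_scaled (n : ℕ) : ContDiff ℝ (⊤ : ℕ∞) fun s : ℝ => Real.smoothTransition (s * (n + 1)) :=
  Real.smoothTransition.contDiff.comp (contDiff_id.mul contDiff_const)

theorem deriv_scaled (n : ℕ) (s : ℝ) : deriv (fun s : ℝ => Real.smoothTransition (s * (n + 1))) s
    = deriv Real.smoothTransition (s * (n + 1)) * (n + 1) := by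
  refine (((Real.smoothTransition.contDiff (n := (1 : ℕ∞))).differentiable one_ne_zero _).hasDerivAt.comp s
    ((hasDerivAt_id' s).mul_const _)).deriv.trans ?_
  simp

/-- The weak gradient vanishes almost everywhere off the positivity set. -/
theorem H1loc.grad_zero (h1 : H1loc u G) (hnn : ∀ᵐ x, 0 ≤ u x) (i : Fin d) :
    ∀ᵐ x, ¬ 0 < u x → G x i = 0 := by
  obtain ⟨C, hC0, hC⟩ := exists_transition_bound
  have hm : AEStronglyMeasurable u volume := h1.l2.1.aestronglyMeasurable
  set θ : ℕ → ℝ → ℝ := fun n s => s * Real.smoothTransition (s * (n + 1))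
  have hθ : ∀ n, ContDiff ℝ (⊤ : ℕ∞) (θ n) := fun n => contDiff_id.mul (contDiff_scaled n)
  have hθd : ∀ n s, deriv (θ n) s = Real.smoothTransition (s * (n + 1))
      + (s * (n + 1)) * deriv Real.smoothTransition (s * (n + 1)) := fun n s => by
    refine ((hasDerivAt_id' s).mul
      (((contDiff_scaled n).differentiable (by simp)) s).hasDerivAt).deriv.trans ?_
    rw [deriv_scaled]; ring
  have hθb : ∀ n s, |deriv (θ n) s| ≤ 1 + C := fun n s => by
    rw [hθd]
    exact (abs_add_le _ _).trans (add_le_add
      (by rw [abs_of_nonneg (Real.smoothTransition.nonneg _)]; exact Real.smoothTransition.le_one _)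
      (hC _).2.2)
  have hm' : NullMeasurableSet (pos u) := nullMeasurableSet_pos hm
  have hweak : ∀ φ : (Fin d → ℝ) → ℝ, ContDiff ℝ (⊤ : ℕ∞) φ → HasCompactSupport φ →
      ∫ x, φ x • G x i = ∫ x, φ x • (pos u).indicator (fun y => G y i) x := by
    intro φ hφ hc
    have hn : ∀ n, ∫ x, θ n (u x) * pd φ i x = -∫ x, deriv (θ n) (u x) * G x i * φ x := fun n =>
      (h1.comp (hθ n) (by simp [θ]) (hθb n)).weak i φ hφ hc
    have t1 : Tendsto (fun n => ∫ x, θ n (u x) * pd φ i x) atTop (𝓝 (∫ x, u x * pd φ i x)) := by
      refine tendsto_integral_of_dominated_convergence (fun x => |u x * pd φ i x|)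
        (fun n => ((hθ n).continuous.comp_aestronglyMeasurable hm).mul
          (contDiff_pd hφ i).continuous.aestronglyMeasurable)
        (integrable_test_mul h1.l2.1 (contDiff_pd hφ i).continuous (hasCompactSupport_pd hc i)).abs
        (fun n => .of_forall fun x => ?_) ?_
      · simp only [θ, Real.norm_eq_abs, abs_mul, abs_of_nonneg (Real.smoothTransition.nonneg _)]
        exact mul_le_mul_of_nonneg_right
          (mul_le_of_le_one_right (abs_nonneg _) (Real.smoothTransition.le_one _)) (abs_nonneg _)
      · filter_upwards [hnn] with x hx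
        have h := ((transition_tendsto (u x)).const_mul (u x)).mul_const (pd φ i x)
        rcases hx.eq_or_lt with h0 | h0
        · simp [θ, ← h0]
        · simpa [θ, h0] using h
    have t2 : Tendsto (fun n => ∫ x, deriv (θ n) (u x) * G x i * φ x) atTop
        (𝓝 (∫ x, φ x • (pos u).indicator (fun y => G y i) x)) := by
      refine tendsto_integral_of_dominated_convergence (fun x => (1 + C) * |G x i * φ x|)
        (fun n => (((contDiff_infty_iff_deriv.1 (hθ n)).2.continuous.comp_aestronglyMeasurable hm).mul
          (h1.gl2 i).1.aestronglyMeasurable).mul hφ.continuous.aestronglyMeasurable)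
        ((integrable_test_mul (h1.gl2 i).1 hφ.continuous hc).abs.const_mul _)
        (fun n => .of_forall fun x => ?_) (.of_forall fun x => ?_)
      · rw [mul_assoc, norm_mul, Real.norm_eq_abs, Real.norm_eq_abs]
        exact mul_le_mul_of_nonneg_right (hθb n _) (abs_nonneg _)
      · simp only [hθd]
        by_cases hp : 0 < u x
        · rw [indicator_of_mem (show x ∈ pos u from hp), smul_eq_mul]
          have h2 : Tendsto (fun n : ℕ => u x * (n + 1) * deriv Real.smoothTransition (u x * (n + 1)))
              atTop (𝓝 0) := by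
            refine tendsto_const_nhds.congr' ?_
            filter_upwards [eventually_gt_atTop ⌈1 / u x⌉₊] with n hn
            have h5 : 1 / u x < n + 1 := by
              linarith [Nat.le_ceil (1 / u x), (Nat.cast_lt (α := ℝ)).2 hn]
            rw [div_lt_iff₀ hp] at h5
            have h0 : deriv Real.smoothTransition (u x * (n + 1)) = 0 :=
              HasDerivAt.deriv ((hasDerivAt_const _ (1 : ℝ)).congr_of_eventuallyEq
                (by filter_upwards [lt_mem_nhds (show 1 < u x * (n + 1) by linarith)] with t ht using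
                  Real.smoothTransition.one_of_one_le ht.le))
            simp [h0]
          have h3 := (((transition_tendsto (u x)).add h2).mul_const (G x i)).mul_const (φ x)
          rw [if_pos hp] at h3
          simpa [mul_comm (φ x)] using h3
        · rw [indicator_of_notMem (show x ∉ pos u from hp), smul_zero]
          refine tendsto_const_nhds.congr' (.of_forall fun n => ?_)
          have hz : u x * ((n : ℝ) + 1) ≤ 0 :=
            mul_nonpos_of_nonpos_of_nonneg (not_lt.1 hp) (by positivity)
          have h0 : deriv Real.smoothTransition (u x * (n + 1)) * (u x * (n + 1)) = 0 := by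
            rcases hz.eq_or_lt with hz0 | hz0
            · rw [hz0, mul_zero]
            · rw [HasDerivAt.deriv ((hasDerivAt_const _ (0 : ℝ)).congr_of_eventuallyEq
                (by filter_upwards [gt_mem_nhds hz0] with t ht using
                  Real.smoothTransition.zero_of_nonpos ht.le)), zero_mul]
          beta_reduce
          rw [Real.smoothTransition.zero_of_nonpos hz, mul_comm (u x * ((n : ℝ) + 1)) _, h0]
          simp
    have := tendsto_nhds_unique t1 ((tendsto_congr fun n => hn n).2 t2.neg)
    rw [h1.weak i φ hφ hc, neg_inj] at this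
    rw [← this]
    exact integral_congr_ae (.of_forall fun x => by simp [mul_comm])
  have hloc : LocallyIntegrable ((pos u).indicator fun y => G y i) := locallyIntegrable_iff.2 fun K hK =>
    ((h1.gl2 i).1.integrableOn_isCompact hK).indicator₀
      (hm'.mono_ac Measure.restrict_le_self.absolutelyContinuous)
  filter_upwards [ae_eq_of_integral_contDiff_smul_eq (h1.gl2 i).1 hloc hweak] with x hx hp
  rwa [indicator_of_notMem (show x ∉ pos u from hp)] at hx

theorem SobData.grad_zero (hu : SobData u G) (i : Fin d) : ∀ᵐ x, ¬ 0 < u x → G x i = 0 :=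
  hu.h1.grad_zero hu.nonneg i

/-- The Laplacian as a functional, by the weak gradient. -/
theorem SobData.lap_eq (hu : SobData u G) {φ : (Fin d → ℝ) → ℝ} (hφ : ContDiff ℝ (⊤ : ℕ∞) φ)
    (hc : HasCompactSupport φ) :
    ∫ x, u x * ∑ i, hess φ i i x = -∫ x, dot (G x) (grad φ x) := by
  have i1 : ∀ i, Integrable fun x => u x * hess φ i i x := fun i =>
    integrable_test_mul hu.h1.l2.1 (contDiff_pd (contDiff_pd hφ i) i).continuous
      (hasCompactSupport_pd (hasCompactSupport_pd hc i) i)
  have i2 : ∀ i, Integrable fun x => G x i * grad φ x i := fun i =>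
    integrable_test_mul (hu.h1.gl2 i).1 (contDiff_pd hφ i).continuous (hasCompactSupport_pd hc i)
  simp only [Finset.mul_sum, dot]
  rw [integral_finsetSum _ fun i _ => i1 i, integral_finsetSum _ fun i _ => i2 i,
    ← Finset.sum_neg_distrib]
  exact Finset.sum_congr rfl fun i _ =>
    hu.h1.weak i (pd φ i) (contDiff_pd hφ i) (hasCompactSupport_pd hc i)

theorem grad_eq_zero_of_notMem_tsupport {φ : (Fin d → ℝ) → ℝ} {x : Fin d → ℝ} (hx : x ∉ tsupport φ) :
    grad φ x = 0 := funext fun i => pd_eq_zero_of_notMem hx i

/-- The Laplacian is nonnegative. -/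
theorem SobData.lap_nonneg (hu : SobData u G) {φ : (Fin d → ℝ) → ℝ} (hφ : ContDiff ℝ (⊤ : ℕ∞) φ)
    (hc : HasCompactSupport φ) (h0 : ∀ x, 0 ≤ φ x) : 0 ≤ ∫ x, u x * ∑ i, hess φ i i x := by
  obtain ⟨C, hC0, hC⟩ := exists_transition_bound
  obtain ⟨A, hA⟩ := hφ.continuous.bounded_above_of_compact_support hc
  have hA0 : 0 ≤ A := (norm_nonneg _).trans (hA 0)
  have hm : AEStronglyMeasurable u volume := hu.h1.l2.1.aestronglyMeasurable
  set θ : ℕ → ℝ → ℝ := fun n s => Real.smoothTransition (s * (n + 1))
  set Q : (Fin d → ℝ) → ℝ := fun x => dot (G x) (grad φ x)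
  have hQ : Integrable Q :=
    integrable_finsetSum _ fun i _ => integrable_test_mul (hu.h1.gl2 i).1 (contDiff_pd hφ i).continuous
      (hasCompactSupport_pd hc i)
  have hmain : ∀ n : ℕ, ∫ x, θ n (u x) * Q x ≤ 0 := by
    intro n
    have hb : ∀ s, |deriv (θ n) s| ≤ C * (n + 1) := fun s => by
      rw [show deriv (θ n) s = _ from deriv_scaled n s, abs_mul,
        abs_of_nonneg (by positivity : (0 : ℝ) ≤ n + 1)]
      exact mul_le_mul_of_nonneg_right (hC _).1 (by positivity)
    have hη := hu.h1.comp (θ := θ n) (contDiff_scaled n) (by simp [θ, Real.smoothTransition.zero]) hb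
    have hψ := hη.mul_test hφ hc
    set P : (Fin d → ℝ) → Fin d → ℝ :=
      fun x i => φ x * (deriv (θ n) (u x) * G x i) + pd φ i x * θ n (u x)
    set D := A * (C * (n + 1)) + 1
    have hD : 0 < D := by positivity
    have hval : ∀ t, |t| < 1 / D → 0 ≤ 2 * t * (∫ x, dot (G x) (P x)) + t ^ 2 * ∫ x, dot (P x) (P x) := by
      intro t ht
      have htD : |t| * D ≤ 1 := by rw [lt_div_iff₀ hD] at ht; exact ht.le
      have hsmall : ∀ x, 0 ≤ u x → |t * (φ x * θ n (u x))| ≤ (1 - |t|) * u x := fun x hx => by
        have h1 : |θ n (u x)| ≤ C * (u x * (n + 1)) := by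
          refine (hC _).2.1.trans_eq ?_
          rw [abs_of_nonneg (mul_nonneg hx (by positivity))]
        calc |t * (φ x * θ n (u x))| ≤ |t| * (A * (C * (u x * (n + 1)))) := by
              rw [abs_mul, abs_mul]
              exact mul_le_mul_of_nonneg_left (mul_le_mul (hA x) h1 (abs_nonneg _) hA0) (abs_nonneg _)
          _ = (|t| * D - |t|) * u x := by simp only [D]; ring
          _ ≤ _ := mul_le_mul_of_nonneg_right (by linarith) hx
      have h := hu.variation hψ hc (fun x hx => by simp [image_eq_zero_of_notMem_tsupport hx])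
        (fun x hx => funext fun i => by
          simp [P, image_eq_zero_of_notMem_tsupport hx, pd_eq_zero_of_notMem hx]) t ?_
        (S := ∅) isCompact_empty ?_
      · simpa using h
      · filter_upwards [hu.nonneg] with x hx
        have := hsmall x hx
        rw [abs_le] at this
        linarith [mul_nonneg (abs_nonneg t) hx]
      · filter_upwards [hu.nonneg] with x hx hp
        refine .inl (hx.lt_of_ne fun hne => ?_)
        have := hsmall x hx
        rw [← hne, mul_zero, abs_le] at this
        rw [← hne] at hp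
        linarith
    have hz := eq_zero_of_small (by positivity) hval
    have e : ∀ x, dot (G x) (P x) = φ x * deriv (θ n) (u x) * dot (G x) (G x) + θ n (u x) * Q x :=
      fun x => by
        simp only [P, Q, dot, grad, Finset.mul_sum, ← Finset.sum_add_distrib]
        exact Finset.sum_congr rfl fun i _ => by ring
    have hθd : Continuous (deriv (θ n)) := (contDiff_infty_iff_deriv.1 (contDiff_scaled n)).2.continuous
    have j1 : Integrable fun x => φ x * deriv (θ n) (u x) * dot (G x) (G x) := by
      refine ((integrable_test_mul (locallyIntegrable_dot hu.h1.gl2 hu.h1.gl2) hφ.continuous hc).bdd_mul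
        (hθd.comp_aestronglyMeasurable hm) (.of_forall fun x => hb _)).congr (.of_forall fun x => ?_)
      ring
    have j2 : Integrable fun x => θ n (u x) * Q x :=
      hQ.bdd_mul (c := 1) ((contDiff_scaled n).continuous.comp_aestronglyMeasurable hm)
        (.of_forall fun x => by
          rw [Real.norm_eq_abs, abs_of_nonneg (Real.smoothTransition.nonneg _)]
          exact Real.smoothTransition.le_one _)
    rw [integral_congr_ae (.of_forall e), integral_add j1 j2] at hz
    have hpos : 0 ≤ ∫ x, φ x * deriv (θ n) (u x) * dot (G x) (G x) := integral_nonneg fun x => by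
      refine mul_nonneg (mul_nonneg (h0 x) ?_) (dot_self_nonneg _)
      rw [show deriv (θ n) (u x) = _ from deriv_scaled n (u x)]
      exact mul_nonneg (Real.smoothTransition.monotone.deriv_nonneg) (by positivity)
    linarith
  have hlim : Tendsto (fun n => ∫ x, θ n (u x) * Q x) atTop (𝓝 (∫ x, Q x)) := by
    refine tendsto_integral_of_dominated_convergence (fun x => |Q x|)
      (fun n => ((contDiff_scaled n).continuous.comp_aestronglyMeasurable hm).mul hQ.1) hQ.abs
      (fun n => .of_forall fun x => ?_) ?_
    · rw [norm_mul, Real.norm_eq_abs, Real.norm_eq_abs, abs_of_nonneg (Real.smoothTransition.nonneg _)]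
      exact mul_le_of_le_one_left (abs_nonneg _) (Real.smoothTransition.le_one _)
    · filter_upwards [eventually_all.2 fun i => hu.grad_zero i] with x hx
      by_cases hp : 0 < u x
      · simpa [θ, hp] using (transition_tendsto (u x)).mul_const (Q x)
      · have hQ0 : Q x = 0 := Finset.sum_eq_zero fun i _ => by simp [hx i hp]
        simp [hQ0]
  have := le_of_tendsto hlim (.of_forall hmain)
  rw [hu.lap_eq hφ hc]
  linarith

/-- The Laplacian is at most the cost of a positive perturbation. -/
theorem SobData.lap_le (hu : SobData u G) {φ : (Fin d → ℝ) → ℝ} (hφ : ContDiff ℝ (⊤ : ℕ∞) φ)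
    (hc : HasCompactSupport φ) (h0 : ∀ x, 0 ≤ φ x) {t : ℝ} (ht : 0 < t) :
    ∫ x, u x * ∑ i, hess φ i i x
      ≤ volume.real (tsupport φ) / (2 * t) + t / 2 * ∫ x, dot (grad φ x) (grad φ x) := by
  have h := hu.variation (H1loc_test hφ) hc (fun x hx => image_eq_zero_of_notMem_tsupport hx)
    (fun x hx => grad_eq_zero_of_notMem_tsupport hx) t
    (by filter_upwards [hu.nonneg] with x hx; linarith [mul_nonneg ht.le (h0 x)])
    hc (.of_forall fun x hp => by
      by_cases hx : x ∈ tsupport φ
      · exact .inr hx
      · rw [image_eq_zero_of_notMem_tsupport hx, mul_zero, add_zero] at hp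
        exact .inl hp)
  rw [hu.lap_eq hφ hc]
  have key : -(∫ x, dot (G x) (grad φ x)) * (2 * t)
      ≤ t ^ 2 * (∫ x, dot (grad φ x) (grad φ x)) + volume.real (tsupport φ) := by linarith
  rw [← le_div_iff₀ (by positivity)] at key
  refine key.trans_eq ?_
  field_simp
  ring

/-- The Laplacian vanishes where the minimiser has a positive lower bound. -/
theorem SobData.lap_zero (hu : SobData u G) {φ : (Fin d → ℝ) → ℝ} (hφ : ContDiff ℝ (⊤ : ℕ∞) φ)
    (hc : HasCompactSupport φ) {c : ℝ} (hc0 : 0 < c) (hlow : ∀ᵐ x, x ∈ tsupport φ → c ≤ u x) :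
    ∫ x, u x * ∑ i, hess φ i i x = 0 := by
  obtain ⟨A, hA⟩ := hφ.continuous.bounded_above_of_compact_support hc
  have hA0 : 0 ≤ A := (norm_nonneg _).trans (hA 0)
  have hval : ∀ t, |t| < c / (A + 1) →
      0 ≤ 2 * t * (∫ x, dot (G x) (grad φ x)) + t ^ 2 * ∫ x, dot (grad φ x) (grad φ x) := by
    intro t ht
    have htc : |t| * (A + 1) < c := by rwa [lt_div_iff₀ (by positivity)] at ht
    have hb : ∀ x, |t * φ x| < c := fun x => by
      rw [abs_mul]
      have := mul_le_mul_of_nonneg_left (hA x) (abs_nonneg t)
      rw [Real.norm_eq_abs] at this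
      linarith [abs_nonneg t]
    have h := hu.variation (H1loc_test hφ) hc (fun x hx => image_eq_zero_of_notMem_tsupport hx)
      (fun x hx => grad_eq_zero_of_notMem_tsupport hx) t
      (by
        filter_upwards [hu.nonneg, hlow] with x hx hl
        by_cases hxs : x ∈ tsupport φ
        · linarith [hl hxs, (abs_lt.1 (hb x)).1]
        · simp [image_eq_zero_of_notMem_tsupport hxs, hx])
      (S := ∅) isCompact_empty (by
        filter_upwards [hlow] with x hl hp
        by_cases hxs : x ∈ tsupport φ
        · exact .inl (hc0.trans_le (hl hxs))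
        · rw [image_eq_zero_of_notMem_tsupport hxs, mul_zero, add_zero] at hp
          exact .inl hp)
    simpa using h
  rw [hu.lap_eq hφ hc, eq_zero_of_small (by positivity) hval, neg_zero]

end

end Vale.Agent.P098.Reg
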