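import Vale.Agent.P098.Reg.Specs

/-!
# P098: polynomials with the sum of the absolute values of the coefficients as norm
-/

namespace Vale.Agent.P098.Reg

open Finset MvPolynomial

noncomputable section

variable {n k : ℕ}

/-- Real polynomials in `n` variables. -/
abbrev Poly (n : ℕ) := MvPolynomial (Fin n) ℝ

/-- The sum of the absolute values of the coefficients. -/
def nrm (p : Poly n) : ℝ := ∑ m ∈ p.support, |p.coeff m|

theorem nrm_eq_sum {p : Poly n} {s : Finset (Fin n →₀ ℕ)} (h : p.support ⊆ s) :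
    nrm p = ∑ m ∈ s, |p.coeff m| :=
  sum_subset h fun m _ hm => by rw [notMem_support_iff.1 hm, abs_zero]

theorem nrm_nonneg (p : Poly n) : 0 ≤ nrm p := sum_nonneg fun _ _ => abs_nonneg _

@[simp] theorem nrm_zero : nrm (0 : Poly n) = 0 := by simp [nrm]

theorem abs_coeff_le_nrm (p : Poly n) (m : Fin n →₀ ℕ) : |p.coeff m| ≤ nrm p := by
  by_cases h : m ∈ p.support
  · exact single_le_sum (f := fun m => |p.coeff m|) (fun _ _ => abs_nonneg _) h
  · rw [notMem_support_iff.1 h, abs_zero]; exact nrm_nonneg p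

theorem eq_zero_of_nrm {p : Poly n} (h : nrm p ≤ 0) : p = 0 :=
  MvPolynomial.ext _ _ fun m => abs_nonpos_iff.1 ((abs_coeff_le_nrm p m).trans h)

theorem nrm_monomial_le (m : Fin n →₀ ℕ) (c : ℝ) : nrm (monomial m c) ≤ |c| := by
  classical
  rw [nrm_eq_sum (s := {m}) support_monomial_subset, sum_singleton, coeff_monomial, if_pos rfl]

theorem nrm_C (c : ℝ) : nrm (C c : Poly n) ≤ |c| := by
  rw [C_apply]; exact nrm_monomial_le _ _

theorem nrm_X (i : Fin n) : nrm (X i : Poly n) ≤ 1 :=
  (nrm_monomial_le _ _).trans (le_of_eq abs_one)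

theorem nrm_add (p q : Poly n) : nrm (p + q) ≤ nrm p + nrm q := by
  classical
  rw [nrm_eq_sum (s := p.support ∪ q.support) support_add,
    nrm_eq_sum (p := p) (s := p.support ∪ q.support) subset_union_left,
    nrm_eq_sum (p := q) (s := p.support ∪ q.support) subset_union_right, ← sum_add_distrib]
  exact sum_le_sum fun m _ => by rw [coeff_add]; exact abs_add_le _ _

@[simp] theorem nrm_neg (p : Poly n) : nrm (-p) = nrm p := by simp [nrm, support_neg]

theorem nrm_sub (p q : Poly n) : nrm (p - q) ≤ nrm p + nrm q := by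
  rw [sub_eq_add_neg]; exact (nrm_add _ _).trans (by rw [nrm_neg])

theorem nrm_sum {ι : Type*} (s : Finset ι) (f : ι → Poly n) :
    nrm (∑ i ∈ s, f i) ≤ ∑ i ∈ s, nrm (f i) := by
  classical
  induction s using Finset.induction_on with
  | empty => simp
  | insert i s hi ih => rw [sum_insert hi, sum_insert hi]; exact (nrm_add _ _).trans (by linarith)

theorem nrm_C_mul (c : ℝ) (p : Poly n) : nrm (C c * p) ≤ |c| * nrm p := by
  classical
  rw [nrm_eq_sum (s := p.support) (fun m hm => by
    rw [mem_support_iff, coeff_C_mul] at hm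
    exact mem_support_iff.2 fun h => hm (by rw [h, mul_zero])), nrm, mul_sum]
  exact sum_le_sum fun m _ => by rw [coeff_C_mul, abs_mul]

theorem nrm_mul (p q : Poly n) : nrm (p * q) ≤ nrm p * nrm q := by
  conv_lhs => rw [as_sum p, as_sum q, Finset.sum_mul_sum]
  conv_rhs => rw [nrm, nrm, Finset.sum_mul_sum]
  refine (nrm_sum _ _).trans (sum_le_sum fun a _ => (nrm_sum _ _).trans (sum_le_sum fun b _ => ?_))
  rw [monomial_mul]
  exact (nrm_monomial_le _ _).trans (le_of_eq (abs_mul _ _))

theorem nrm_pow_le (p : Poly n) (j : ℕ) : nrm (p ^ j) ≤ nrm p ^ j := by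
  induction j with
  | zero => rw [pow_zero, pow_zero]; exact (nrm_C 1).trans (le_of_eq abs_one)
  | succ j ih =>
    rw [pow_succ, pow_succ]
    exact (nrm_mul _ _).trans (mul_le_mul_of_nonneg_right ih (nrm_nonneg _))

theorem abs_eval_monomial_le (m : Fin n →₀ ℕ) {y : Fin n → ℝ} (hy : ‖y‖ ≤ 1) :
    |m.prod fun i e => y i ^ e| ≤ 1 := by
  rw [Finsupp.prod, abs_prod]
  exact Finset.prod_le_one (fun i _ => abs_nonneg _) fun i _ => by
    rw [abs_pow]
    exact pow_le_one₀ (abs_nonneg _) ((norm_le_pi_norm y i).trans hy)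

theorem abs_eval_le (p : Poly n) {y : Fin n → ℝ} (hy : ‖y‖ ≤ 1) : |eval y p| ≤ nrm p := by
  conv_lhs => rw [as_sum p, map_sum]
  refine (abs_sum_le_sum_abs _ _).trans (sum_le_sum fun m _ => ?_)
  rw [eval_monomial, abs_mul]
  exact mul_le_of_le_one_right (abs_nonneg _) (abs_eval_monomial_le m hy)

theorem degree_le_of_mem {p : Poly n} (hp : p.totalDegree ≤ k) {m : Fin n →₀ ℕ} (hm : m ∈ p.support) :
    m.degree ≤ k := (le_totalDegree hm).trans hp

theorem le_degree_coord (m : Fin n →₀ ℕ) (i : Fin n) : m i ≤ m.degree := Finsupp.le_degree i m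

theorem nrm_pderiv (i : Fin n) {p : Poly n} (hp : p.totalDegree ≤ k) : nrm (pderiv i p) ≤ k * nrm p := by
  conv_lhs => rw [as_sum p, map_sum]
  conv_rhs => rw [nrm, mul_sum]
  refine (nrm_sum _ _).trans (sum_le_sum fun m hm => ?_)
  rw [pderiv_monomial]
  refine (nrm_monomial_le _ _).trans ?_
  rw [abs_mul, mul_comm, Nat.abs_cast]
  exact mul_le_mul_of_nonneg_right (Nat.cast_le.2 ((le_degree_coord m i).trans (degree_le_of_mem hp hm)))
    (abs_nonneg _)

/-- The substitution that multiplies every variable by `θ`. -/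
def scaleP (θ : ℝ) : Poly n →ₐ[ℝ] Poly n := aeval fun i => C θ * X i

theorem scaleP_monomial (θ : ℝ) (m : Fin n →₀ ℕ) (c : ℝ) :
    scaleP θ (monomial m c) = monomial m (c * θ ^ m.degree) := by
  rw [scaleP, aeval_monomial, monomial_eq, algebraMap_eq]
  simp only [mul_pow, Finsupp.prod, Finset.prod_mul_distrib, ← C_pow]
  rw [← map_prod, Finset.prod_pow_eq_pow_sum, ← mul_assoc, C_mul]
  simp [Finsupp.degree_apply, C_pow]

theorem eval_scaleP (θ : ℝ) (p : Poly n) (y : Fin n → ℝ) : eval y (scaleP θ p) = eval (θ • y) p := by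
  induction p using MvPolynomial.induction_on with
  | C a => simp [scaleP]
  | add p q hp hq => simp [map_add, hp, hq]
  | mul_X p i hp =>
    rw [map_mul, map_mul, hp, map_mul]
    simp [scaleP, Pi.smul_apply]

theorem pderiv_scaleP (θ : ℝ) (i : Fin n) (p : Poly n) :
    pderiv i (scaleP θ p) = C θ * scaleP θ (pderiv i p) := by
  classical
  induction p using MvPolynomial.induction_on with
  | C a => simp [scaleP]
  | add p q hp hq => simp [map_add, hp, hq, mul_add]
  | mul_X p j hp =>
    rw [map_mul, pderiv_mul, hp, pderiv_mul, map_add, map_mul, map_mul]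
    simp only [scaleP, aeval_X, pderiv_mul, pderiv_C, pderiv_X, Pi.single_apply]
    split_ifs <;> simp <;> ring

/-- The part of degree less than `k`. -/
def lowPart (k : ℕ) (p : Poly n) : Poly n := ∑ j ∈ range k, homogeneousComponent j p

theorem coeff_lowPart (k : ℕ) (p : Poly n) (m : Fin n →₀ ℕ) :
    (lowPart k p).coeff m = if m.degree < k then p.coeff m else 0 := by
  simp only [lowPart, coeff_sum, coeff_homogeneousComponent]
  simp [Finset.sum_ite_eq]

theorem nrm_lowPart (k : ℕ) (p : Poly n) : nrm (lowPart k p) ≤ nrm p := by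
  rw [nrm_eq_sum (s := p.support) (fun m hm => by
    rw [mem_support_iff, coeff_lowPart] at hm
    exact mem_support_iff.2 fun h => hm (by rw [h, ite_self])), nrm]
  exact sum_le_sum fun m _ => by rw [coeff_lowPart]; split_ifs <;> simp

theorem totalDegree_lowPart (k : ℕ) (p : Poly n) : (lowPart (k + 1) p).totalDegree ≤ k := by
  refine Finset.sup_le fun m hm => ?_
  rw [mem_support_iff, coeff_lowPart] at hm
  by_contra h
  exact hm (if_neg fun h' => h (Nat.lt_succ_iff.1 h'))

theorem nrm_scaleP_le {θ : ℝ} (h0 : 0 ≤ θ) (h1 : θ ≤ 1) (p : Poly n) : nrm (scaleP θ p) ≤ nrm p := by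
  conv_lhs => rw [as_sum p, map_sum]
  refine (nrm_sum _ _).trans (sum_le_sum fun m _ => ?_)
  rw [scaleP_monomial]
  refine (nrm_monomial_le _ _).trans ?_
  rw [abs_mul, abs_of_nonneg (pow_nonneg h0 _)]
  exact mul_le_of_le_one_right (abs_nonneg _) (pow_le_one₀ h0 h1)

/-- Scaling gains a power on the part of high degree. -/
theorem nrm_scaleP_split {θ : ℝ} (h0 : 0 ≤ θ) (h1 : θ ≤ 1) (k : ℕ) (p : Poly n) :
    nrm (scaleP θ p) ≤ nrm (lowPart k p) + θ ^ k * nrm p := by
  conv_lhs => rw [as_sum p, map_sum]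
  rw [nrm_eq_sum (p := lowPart k p) (s := p.support) (fun m hm => by
    rw [mem_support_iff, coeff_lowPart] at hm
    exact mem_support_iff.2 fun h => hm (by rw [h, ite_self]))]
  simp only [nrm, mul_sum, ← sum_add_distrib]
  refine (nrm_sum _ _).trans (sum_le_sum fun m _ => ?_)
  rw [scaleP_monomial, coeff_lowPart]
  refine (nrm_monomial_le _ _).trans ?_
  rw [abs_mul, abs_of_nonneg (pow_nonneg h0 _)]
  split_ifs with h
  · exact le_add_of_le_of_nonneg (mul_le_of_le_one_right (abs_nonneg _) (pow_le_one₀ h0 h1))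
      (mul_nonneg (pow_nonneg h0 _) (abs_nonneg _))
  · rw [abs_zero, zero_add, mul_comm]
    exact mul_le_mul_of_nonneg_right (pow_le_pow_of_le_one h0 h1 (not_lt.1 h)) (abs_nonneg _)

/-- A linear map is bounded on polynomials of bounded degree. -/
theorem exists_bound_of_linear {m : ℕ} (K : Poly n →ₗ[ℝ] Poly m) (k : ℕ) :
    ∃ C : ℝ, 0 ≤ C ∧ ∀ p : Poly n, p.totalDegree ≤ k → nrm (K p) ≤ C * nrm p := by
  classical
  set s : Finset (Fin n →₀ ℕ) :=
    (Fintype.piFinset fun _ : Fin n => range (k + 1)).image Finsupp.equivFunOnFinite.symm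
  refine ⟨∑ a ∈ s, nrm (K (monomial a 1)), sum_nonneg fun _ _ => nrm_nonneg _, fun p hp => ?_⟩
  conv_lhs => rw [as_sum p, map_sum]
  conv_rhs => rw [nrm, mul_sum]
  refine (nrm_sum _ _).trans (sum_le_sum fun a ha => ?_)
  have hmem : a ∈ s := mem_image.2 ⟨Finsupp.equivFunOnFinite a, Fintype.mem_piFinset.2 fun i =>
    mem_range.2 (Nat.lt_succ_of_le ((le_degree_coord a i).trans (degree_le_of_mem hp ha))),
    Equiv.symm_apply_apply _ a⟩
  rw [show monomial a (p.coeff a) = p.coeff a • monomial a (1 : ℝ) by rw [smul_monomial, smul_eq_mul, mul_one],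
    map_smul, smul_eq_C_mul]
  refine (nrm_C_mul _ _).trans (le_trans (le_of_eq (mul_comm _ _)) ?_)
  exact mul_le_mul_of_nonneg_right
    (single_le_sum (f := fun a => nrm (K (monomial a 1))) (fun _ _ => nrm_nonneg _) hmem) (abs_nonneg _)

/-- Evaluation commutes with differentiation. -/
theorem hasFDerivAt_eval (p : Poly n) (y : Fin n → ℝ) :
    HasFDerivAt (fun z => eval z p)
      (∑ i, eval y (pderiv i p) • ContinuousLinearMap.proj (R := ℝ) (φ := fun _ : Fin n => ℝ) i) y := by
  classical
  induction p using MvPolynomial.induction_on with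
  | C a => simpa using hasFDerivAt_const a y
  | add p q hp hq => simpa [map_add, add_smul, sum_add_distrib] using hp.fun_add hq
  | mul_X p j hp =>
    have h := hp.fun_mul ((ContinuousLinearMap.proj (R := ℝ) (φ := fun _ : Fin n => ℝ) j).hasFDerivAt (x := y))
    refine (h.congr_of_eventuallyEq (.of_forall fun z => by simp)).congr_fderiv (ContinuousLinearMap.ext fun v => ?_)
    simp [sum_add_distrib, mul_sum, pderiv_X, Pi.single_apply, add_mul, apply_ite (eval y)]
    exact sum_congr rfl fun i _ => by ring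

theorem pd_eval (p : Poly n) (i : Fin n) (y : Fin n → ℝ) :
    Cone.pd (fun z => eval z p) i y = eval y (pderiv i p) := by
  rw [Cone.pd, (hasFDerivAt_eval p y).fderiv]
  simp [Pi.single_apply]

theorem contDiff_eval (p : Poly n) {r : WithTop ℕ∞} : ContDiff ℝ r fun z : Fin n → ℝ => eval z p := by
  induction p using MvPolynomial.induction_on with
  | C a => simpa using contDiff_const
  | add p q hp hq => simpa [map_add] using ContDiff.add hp hq
  | mul_X p j hp => simpa [map_mul] using ContDiff.mul hp (contDiff_apply ℝ ℝ j)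

theorem hess_eval (p : Poly n) (i j : Fin n) (y : Fin n → ℝ) :
    Cone.hess (fun z => eval z p) i j y = eval y (pderiv j (pderiv i p)) := by
  rw [Cone.hess, show (fun z => Cone.pd (fun z => eval z p) i z) = fun z => eval z (pderiv i p) from
    funext fun z => pd_eval p i z, pd_eval]

end

end Vale.Agent.P098.Reg
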