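import Vale.Agent.P098.Reg.Glue
import Vale.Agent.P098.Six.Answer
import Vale.Agent.P098.Six.Segs

/-!
# P098: rigidity with a four times differentiable free boundary, dimensions two to six
-/

namespace Vale.Agent.P098.Reg

open Vale.Agent.P098.Cone

/-- The rigidity of regular cones in the dimensions two to six. -/
theorem rigidFour (d : ℕ) (h2 : 2 ≤ d) (h6 : d ≤ 6) : RigidFour d :=
  fun u w O h1 h3 h4 h5 h7 h8 h9 h10 h11 hmin hne =>
    (Six.answer_of_segs Six.segs_cert d h2 h6).1 u w O ⟨h1, h3, h4, h5, h7, h8, h9, h10, h11⟩ hmin hne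

end Vale.Agent.P098.Reg
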