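import Vale.Agent.P098.Reg.Taylor

/-!
# P098: one step of the iteration at the free boundary
-/

namespace Vale.Agent.P098.Reg

open Finset MvPolynomial Filter Topology Metric
open Vale.Agent.P098.Cone
open scoped ContDiff NNReal

noncomputable section

variable {d : ℕ}

/-- The approximating function given by the correction `p` of the coordinate solution. -/
def apx (p : Poly (d + 1)) (x : Fin (d + 1) → ℝ) : ℝ := eval x (X (Fin.last d) + p)

/-- The linear part of the free boundary condition. -/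
def lamP (p a : Poly (d + 1)) : Poly (d + 1) :=
  C 2 * pderiv (Fin.last d) p - X (Fin.last d) * a

/-- The quadratic part of the free boundary condition. -/
def quadP (p a : Poly (d + 1)) : Poly (d + 1) := ∑ i, pderiv i p * pderiv i p - a * p

/-- The residual of the free boundary condition. -/
def resP (p a : Poly (d + 1)) : Poly (d + 1) := lamP p a + quadP p a

theorem resP_eq (p a : Poly (d + 1)) : resP p a
    = ∑ i, pderiv i (X (Fin.last d) + p) * pderiv i (X (Fin.last d) + p) - 1 - a * (X (Fin.last d) + p) := by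
  classical
  simp only [resP, lamP, quadP, map_add, pderiv_X, Pi.single_apply, add_mul, mul_add, sum_add_distrib]
  simp [ite_mul, mul_ite, sum_ite_eq, sum_ite_eq']
  rw [show (C 2 : Poly (d + 1)) = 2 from rfl]
  ring

theorem eval_resP (p a : Poly (d + 1)) (x : Fin (d + 1) → ℝ) :
    dot (grad (apx p) x) (grad (apx p) x) - 1 = eval x (resP p a) + eval x a * apx p x := by
  simp only [resP_eq, map_sub, map_sum, map_mul, map_one, dot, grad,
    show apx p = fun z => eval z (X (Fin.last d) + p) from rfl, pd_eval]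
  ring

theorem harm_apx {p : Poly (d + 1)} (h : lapP p = 0) : Harm (apx p) Set.univ := by
  refine ⟨(contDiff_eval _).contDiffOn, fun x _ => ?_⟩
  simp only [show apx p = fun z => eval z (X (Fin.last d) + p) from rfl, hess_eval]
  rw [← map_sum, ← lapP_apply, map_add, h, add_zero, lapP_apply]
  simp [pderiv_X, Pi.single_apply, apply_ite (pderiv _)]

theorem grad_apx_bound {p : Poly (d + 1)} {k : ℕ} (hp : p.totalDegree ≤ k) {x : Fin (d + 1) → ℝ}
    (hx : ‖x‖ ≤ 1) (i : Fin (d + 1)) :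
    |pd (apx p) i x - (Pi.single (Fin.last d) (1 : ℝ) : Fin (d + 1) → ℝ) i| ≤ k * nrm p := by
  classical
  simp only [show apx p = fun z => eval z (X (Fin.last d) + p) from rfl, pd_eval]
  rw [map_add, map_add, pderiv_X]
  have : eval x ((Pi.single (Fin.last d) 1 : Fin (d + 1) → Poly (d + 1)) i)
      = (Pi.single (Fin.last d) (1 : ℝ) : Fin (d + 1) → ℝ) i := by
    simp [Pi.single_apply, apply_ite (eval x)]
  rw [Pi.single_comm, this, add_sub_cancel_left]
  exact (abs_eval_le _ hx).trans (nrm_pderiv i hp)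

theorem hess_apx_bound {p : Poly (d + 1)} {k : ℕ} (hp : p.totalDegree ≤ k) {x : Fin (d + 1) → ℝ}
    (hx : ‖x‖ ≤ 1) (i j : Fin (d + 1)) : |hess (apx p) i j x| ≤ k * (k * nrm p) := by
  classical
  simp only [show apx p = fun z => eval z (X (Fin.last d) + p) from rfl, hess_eval]
  have h0 : pderiv j (pderiv i (X (Fin.last d) : Poly (d + 1))) = 0 := by
    simp [pderiv_X, Pi.single_apply, apply_ite (pderiv _)]
  rw [map_add, map_add, h0, zero_add]
  refine (abs_eval_le _ hx).trans ((nrm_pderiv j ?_).trans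
    (mul_le_mul_of_nonneg_left (nrm_pderiv i hp) (Nat.cast_nonneg k)))
  exact totalDegree_of_deg (((deg_of_totalDegree hp).pderiv i).mono (by linarith))

/-- The properties of a minimiser kept along the iteration. -/
structure Centred (L : ℝ≥0) (u : (Fin (d + 1) → ℝ) → ℝ) : Prop where
  min : LipMin L u
  zero : (0 : Fin (d + 1) → ℝ) ∈ fb u
  blow : BlowUnit u (closedBall 0 1)

theorem u_eq_zero_of_fb {n : ℕ} {L : ℝ≥0} {u : (Fin n → ℝ) → ℝ} (h : LipMin L u) {x : Fin n → ℝ}
    (hx : x ∈ fb u) : u x = 0 := by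
  have ho : IsOpen (pos u) := isOpen_lt continuous_const h.lipschitz.continuous
  rw [fb, ho.frontier_eq] at hx
  exact le_antisymm (not_lt.1 hx.2) (h.nonneg x)

theorem pd_even_zero {U : Set (Fin (d + 1) → ℝ)} {v : (Fin (d + 1) → ℝ) → ℝ} (hU : IsOpen U)
    (hv : ContDiffOn ℝ ∞ v U)
    (he : ∀ x, v (Function.update x (Fin.last d) (-x (Fin.last d))) = v x) {y : Fin (d + 1) → ℝ}
    (hy : y ∈ U) (hyl : y (Fin.last d) = 0) : pd v (Fin.last d) y = 0 := by
  have h1 : HasDerivAt (fun t : ℝ => v (y + t • Pi.single (Fin.last d) (1 : ℝ))) (pd v (Fin.last d) y) 0 :=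
    (differentiableAt_of_smooth hv hU hy).hasFDerivAt.hasLineDerivAt (Pi.single (Fin.last d) (1 : ℝ))
  have h2 := HasDerivAt.comp (x := (0 : ℝ)) (h₂ := fun t : ℝ => v (y + t • Pi.single (Fin.last d) (1 : ℝ)))
    (h := fun t : ℝ => -t) (by simpa using h1) (hasDerivAt_neg 0)
  have e : ((fun t : ℝ => v (y + t • Pi.single (Fin.last d) (1 : ℝ))) ∘ fun t : ℝ => -t)
      = fun t : ℝ => v (y + t • Pi.single (Fin.last d) (1 : ℝ)) := funext fun t => by
    simp only [Function.comp]
    refine Eq.trans (congrArg v (funext fun i => ?_)) (he _)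
    rcases eq_or_ne i (Fin.last d) with rfl | hi
    · simp [hyl]
    · simp [Function.update_of_ne hi, hi]
  rw [e] at h2
  linarith [h1.unique h2]

/-- The first order correction is the Taylor polynomial of an even harmonic function. -/
theorem exists_even_taylor (hE : EstimateSpec) (d : ℕ) : ∃ C : ℝ, 0 ≤ C ∧
    ∀ v : (Fin (d + 1) → ℝ) → ℝ, Harm v (ball 0 (1 / 2)) →
      (∀ x, v (Function.update x (Fin.last d) (-x (Fin.last d))) = v x) →
      (∀ x ∈ ball (0 : Fin (d + 1) → ℝ) (1 / 2), |v x| ≤ 1) → v 0 = 0 →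
      ∃ H : Poly (d + 1), H.totalDegree ≤ 4 ∧ lapP H = 0 ∧ eval 0 H = 0 ∧
        free (Fin.last d) (pderiv (Fin.last d) H) = 0 ∧ nrm H ≤ C ∧
        ∀ x : Fin (d + 1) → ℝ, ‖x‖ ≤ 1 / 8 → |v x - eval x H| ≤ C * ‖x‖ ^ 5 := by
  choose Cj hCj0 hCj using hE (d + 1)
  set M : ℕ → ℝ := fun m => Cj m * 1 / (1 / 4) ^ m
  have hM : ∀ m, 0 ≤ M m := fun m => div_nonneg (mul_nonneg (hCj0 m) zero_le_one) (by positivity)
  refine ⟨(∑ m ∈ range 6, ((d + 1 : ℕ) : ℝ) ^ m * M m), sum_nonneg fun m _ => mul_nonneg (by positivity) (hM m),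
    fun v hv he hb hv0 => ?_⟩
  have hsub : ∀ y ∈ closedBall (0 : Fin (d + 1) → ℝ) (1 / 8), ball y (1 / 4) ⊆ ball (0 : Fin (d + 1) → ℝ) (1 / 2) :=
    fun y hy => ball_subset_ball' (by rw [mem_closedBall] at hy; linarith)
  have hS : closedBall (0 : Fin (d + 1) → ℝ) (1 / 8) ⊆ ball 0 (1 / 2) := closedBall_subset_ball (by norm_num)
  have hbd : ∀ m, Bd (closedBall (0 : Fin (d + 1) → ℝ) (1 / 8)) (M m) m v := fun m =>
    bd_of_iterated isOpen_ball hS m hv.1 fun y hy => hCj m v y (1 / 4) 1 (by norm_num)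
      ⟨hv.1.mono (hsub y hy), fun z hz => hv.2 z (hsub y hy hz)⟩ fun z hz => hb z (hsub y hy hz)
  have h0 : (0 : Fin (d + 1) → ℝ) ∈ ball (0 : Fin (d + 1) → ℝ) (1 / 2) := mem_ball_self (by norm_num)
  refine ⟨tayP 4 v, totalDegree_of_deg (deg_tayP 4 v), lap_tayP isOpen_ball h0 hv 4,
    by rw [eval_zero_tayP, hv0], ?_, ?_, fun x hx => ?_⟩
  · refine X_dvd_iff_modMonomial_eq_zero.1 ?_
    simp only [tayP, map_sum]
    refine dvd_sum fun m _ => ?_
    rcases m with _ | m
    · simp [hTay]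
    · rw [pderiv_hTay isOpen_ball h0 _ m hv.1]
      exact X_dvd_hTay isOpen_ball h0 _ m (contDiffOn_pd hv.1 isOpen_ball _)
        fun y hy hyl => pd_even_zero isOpen_ball hv.1 he hy hyl
  · refine (nrm_sum _ _).trans ((sum_le_sum fun m _ => nrm_hTay (mem_closedBall_self (by norm_num)) m (hbd m)).trans ?_)
    exact sum_le_sum_of_subset_of_nonneg (range_subset_range.2 (by norm_num))
      fun m _ _ => mul_nonneg (by positivity) (hM m)
  · refine (tayP_error isOpen_ball hS 4 hv.1 (hbd 5) x (by simpa using hx)).trans ?_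
    exact mul_le_mul_of_nonneg_right (single_le_sum (f := fun m => ((d + 1 : ℕ) : ℝ) ^ m * M m)
      (fun m _ => mul_nonneg (by positivity) (hM m)) (by simp)) (by positivity)

/-- A nearly exact approximation admits a harmonic correction. -/
theorem exists_approx (hLin : LinearSpec) (hE : EstimateSpec) (hd : 1 ≤ d) (L : ℝ≥0) :
    ∃ C : ℝ, 0 ≤ C ∧ ∀ γ : ℝ, 0 < γ → ∃ η : ℝ, 0 < η ∧
      ∀ (u : (Fin (d + 1) → ℝ) → ℝ) (p a : Poly (d + 1)) (ε : ℝ), Centred L u →
        p.totalDegree ≤ 4 → lapP p = 0 → eval 0 p = 0 → nrm p ≤ η → nrm a ≤ η → 0 < ε → ε ≤ η →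
        nrm (resP p a) ≤ η * ε → Close u (apx p) ε (closedBall 0 1) →
        ∃ H : Poly (d + 1), H.totalDegree ≤ 4 ∧ lapP H = 0 ∧ eval 0 H = 0 ∧
          free (Fin.last d) (pderiv (Fin.last d) H) = 0 ∧ nrm H ≤ C ∧
          ∀ θ : ℝ, θ ≤ 1 / 8 →
            Close u (apx (p + MvPolynomial.C ε * H)) ((γ + C * θ ^ 5) * ε) (closedBall 0 θ) := by
  obtain ⟨C, hC, hT⟩ := exists_even_taylor hE d
  refine ⟨C, hC, fun γ hγ => ?_⟩
  by_contra hcon
  push Not at hcon
  choose u p a ε hu hdp hlp h0p hp ha hε hεη hres hclose hno using fun n : ℕ =>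
    hcon (1 / ((n : ℝ) + 1)) (by positivity)
  have hη0 : Tendsto (fun n : ℕ => 1 / ((n : ℝ) + 1)) atTop (𝓝 0) := tendsto_one_div_add_atTop_nhds_zero_nat
  have hev : ∀ e : ℝ, 0 < e → ∀ᶠ n : ℕ in atTop, 16 * (1 / ((n : ℝ) + 1)) < e := fun e he =>
    ((hη0.const_mul (16 : ℝ)).congr fun n => rfl).eventually (gt_mem_nhds (by simpa using he))
  set σ : ℕ → ℝ := fun n => 2 * (1 / ((n : ℝ) + 1)) * ε n
  have hσ : Tendsto (fun n => σ n / ε n) atTop (𝓝 0) := by
    refine (by simpa using hη0.const_mul (2 : ℝ) : Tendsto (fun n : ℕ => 2 * (1 / ((n : ℝ) + 1))) atTop (𝓝 0)).congr fun n => ?_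
    simp only [σ]
    rw [mul_div_assoc, div_self (hε n).ne', mul_one]
  have hε0 : Tendsto ε atTop (𝓝 0) := squeeze_zero (fun n => (hε n).le) hεη hη0
  have hg : TendstoUniformlyOn (fun n => grad (apx (p n))) (fun _ => Pi.single (Fin.last d) (1 : ℝ)) atTop
      (closedBall 0 1) := by
    refine Metric.tendstoUniformlyOn_iff.2 fun e he => (hev e he).mono fun n hn x hx => ?_
    refine lt_of_le_of_lt ((dist_pi_le_iff (by positivity)).2 fun i => ?_) hn
    rw [Real.dist_eq, abs_sub_comm]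
    refine (grad_apx_bound (hdp n) (by simpa using hx) i).trans ?_
    exact mul_le_mul (by norm_num) (hp n) (nrm_nonneg _) (by norm_num)
  have hh : TendstoUniformlyOn (fun n => hessMat (apx (p n))) (fun _ => 0) atTop (closedBall 0 1) := by
    refine Metric.tendstoUniformlyOn_iff.2 fun e he => (hev e he).mono fun n hn x hx => ?_
    refine lt_of_le_of_lt ((dist_pi_le_iff (by positivity)).2 fun i => (dist_pi_le_iff (by positivity)).2 fun j => ?_) hn
    rw [Pi.zero_apply, Pi.zero_apply, Real.dist_eq, zero_sub, abs_neg]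
    refine (hess_apx_bound (hdp n) (by simpa using hx) i j).trans ?_
    push_cast
    linarith [hp n, nrm_nonneg (p n)]
  obtain ⟨φ, v, hφ, hv, he, hb, hv0, hclose'⟩ := hLin d hd L u (fun n => apx (p n)) ε σ (fun n => (hu n).min)
    (fun n => (hu n).zero) (fun n => ⟨harm_apx (hlp n), by
      rw [apx, map_add, h0p n, add_zero, eval_X]; rfl⟩) hg hh hε hε0 hσ hclose
    (fun n x hx hxfb => by
      have hx1 : ‖x‖ ≤ 1 := by simpa using hx
      have hu0 := u_eq_zero_of_fb (hu n).min hxfb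
      have hP : |apx (p n) x| ≤ ε n := abs_le.2
        ⟨by linarith [(hclose n).2 x hx (frontier_subset_closure hxfb)], by linarith [(hclose n).1 x hx]⟩
      rw [eval_resP (p n) (a n)]
      refine (abs_add_le _ _).trans ?_
      rw [abs_mul]
      have := mul_le_mul ((abs_eval_le (a n) hx1).trans (ha n)) hP (abs_nonneg _) (by positivity)
      have := (abs_eval_le _ hx1).trans (hres n)
      simp only [σ]
      linarith)
    (fun n => (hu n).blow)
  obtain ⟨H, hHd, hHl, hH0, hHf, hHn, hHe⟩ := hT v hv he hb hv0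
  obtain ⟨n, hn⟩ := (hclose' γ hγ).exists
  obtain ⟨θ, hθ, hfail⟩ := hno (φ n) H hHd hHl hH0 hHf hHn
  refine hfail ⟨fun x hx => ?_, fun x hx hxc => ?_⟩
  all_goals
    have hxθ : ‖x‖ ≤ θ := by simpa using hx
    have hx4 : x ∈ closedBall (0 : Fin (d + 1) → ℝ) (1 / 4) := by simp; linarith
    have hv' := abs_le.1 ((hHe x (hxθ.trans hθ)).trans
      (mul_le_mul_of_nonneg_left (pow_le_pow_left₀ (norm_nonneg x) hxθ 5) hC))
    have hε' := (hε (φ n)).le
    have e : apx (p (φ n) + MvPolynomial.C (ε (φ n)) * H) x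
        = apx (p (φ n)) x + ε (φ n) * eval x H := by simp [apx, add_assoc]
    rw [e]
  · have := hn.1 x hx4
    nlinarith [mul_le_mul_of_nonneg_left hv'.1 hε', mul_le_mul_of_nonneg_left hv'.2 hε']
  · have := hn.2 x hx4 hxc
    nlinarith [mul_le_mul_of_nonneg_left hv'.1 hε', mul_le_mul_of_nonneg_left hv'.2 hε']

theorem lamP_add (p q a b : Poly (d + 1)) : lamP (p + q) (a + b) = lamP p a + lamP q b := by
  simp only [lamP, map_add]; ring

theorem lamP_C_mul (c : ℝ) (p a : Poly (d + 1)) : lamP (C c * p) (C c * a) = C c * lamP p a := by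
  simp only [lamP, pderiv_C_mul]; ring

theorem quadP_diff (p q a b : Poly (d + 1)) : quadP (p + q) (a + b) - quadP p a
    = ∑ i, pderiv i q * (pderiv i p + pderiv i p + pderiv i q) - a * q - b * p - b * q := by
  simp only [quadP, map_add, add_mul, mul_add, sum_add_distrib]
  have : ∑ i, pderiv i p * pderiv i q = ∑ i, pderiv i q * pderiv i p := sum_congr rfl fun i _ => mul_comm _ _
  rw [this]
  ring

theorem nrm_quadP_diff {p q a b : Poly (d + 1)} (hp : p.totalDegree ≤ 4) (hq : q.totalDegree ≤ 4) :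
    nrm (quadP (p + q) (a + b) - quadP p a) ≤ (32 * (d + 1) + 1) *
      ((nrm q + nrm b) * (nrm p + nrm a + nrm q + nrm b)) := by
  rw [quadP_diff]
  have e1 := nrm_sub (∑ i, pderiv i q * (pderiv i p + pderiv i p + pderiv i q) - a * q - b * p) (b * q)
  have e2 := nrm_sub (∑ i, pderiv i q * (pderiv i p + pderiv i p + pderiv i q) - a * q) (b * p)
  have e3 := nrm_sub (∑ i, pderiv i q * (pderiv i p + pderiv i p + pderiv i q)) (a * q)
  have e4 : nrm (∑ i, pderiv i q * (pderiv i p + pderiv i p + pderiv i q))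
      ≤ ∑ _i : Fin (d + 1), 4 * nrm q * (8 * nrm p + 4 * nrm q) :=
    (nrm_sum _ _).trans (sum_le_sum fun i _ => (nrm_mul _ _).trans (mul_le_mul
      (by simpa using nrm_pderiv i hq) ((nrm_add _ _).trans (by
        have h1 := nrm_pderiv i hp
        have h2 := nrm_pderiv i hq
        push_cast at h1 h2
        linarith [nrm_add (pderiv i p) (pderiv i p)]))
      (nrm_nonneg _) (by linarith [nrm_nonneg q])))
  simp only [sum_const, card_univ, Fintype.card_fin, nsmul_eq_mul, Nat.cast_add, Nat.cast_one] at e4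
  have hd : (0 : ℝ) ≤ d := Nat.cast_nonneg d
  have := nrm_nonneg p; have := nrm_nonneg a; have := nrm_nonneg q; have := nrm_nonneg b
  refine le_trans (e1.trans (add_le_add (e2.trans (add_le_add (e3.trans (add_le_add e4 (nrm_mul a q)))
    (nrm_mul b p))) (nrm_mul b q))) ?_
  have h1 : 4 * nrm q * (8 * nrm p + 4 * nrm q) ≤ 32 * ((nrm q + nrm b) * (nrm p + nrm a + nrm q + nrm b)) := by
    calc 4 * nrm q * (8 * nrm p + 4 * nrm q) ≤ 4 * nrm q * (8 * (nrm p + nrm a + nrm q + nrm b)) :=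
          mul_le_mul_of_nonneg_left (by linarith) (by linarith)
      _ ≤ 4 * (nrm q + nrm b) * (8 * (nrm p + nrm a + nrm q + nrm b)) :=
          mul_le_mul_of_nonneg_right (by linarith) (by linarith)
      _ = _ := by ring
  have h2 : nrm a * nrm q + nrm b * nrm p + nrm b * nrm q
      ≤ (nrm q + nrm b) * (nrm p + nrm a + nrm q + nrm b) := by
    rw [add_mul, mul_add, mul_add, mul_add, mul_add, mul_add, mul_add]
    linarith [mul_nonneg ‹0 ≤ nrm q› ‹0 ≤ nrm p›, mul_nonneg ‹0 ≤ nrm q› ‹0 ≤ nrm q›,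
      mul_nonneg ‹0 ≤ nrm q› ‹0 ≤ nrm b›, mul_nonneg ‹0 ≤ nrm b› ‹0 ≤ nrm a›,
      mul_nonneg ‹0 ≤ nrm b› ‹0 ≤ nrm b›, mul_comm (nrm a) (nrm q)]
  linarith [mul_le_mul_of_nonneg_left h1 (by linarith : (0 : ℝ) ≤ (d : ℝ) + 1)]

theorem lowPart_add (k : ℕ) (p q : Poly (d + 1)) : lowPart k (p + q) = lowPart k p + lowPart k q := by
  simp [lowPart, sum_add_distrib]

theorem lowPart_sub_low (k : ℕ) (g q : Poly (d + 1)) : lowPart k (g - lowPart k g + q) = lowPart k q := by
  refine MvPolynomial.ext _ _ fun m => ?_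
  simp only [coeff_lowPart, coeff_add, coeff_sub]
  split_ifs with h <;> simp

/-- The factor by which the closeness improves at each step. -/
def gain (θ : ℝ) : ℝ := θ ^ 3 * Real.sqrt θ

/-- The parameters under which the step works. -/
theorem exists_step (hLin : LinearSpec) (hE : EstimateSpec) (hd : 1 ≤ d) (L : ℝ≥0) :
    ∃ θ δ η C : ℝ, 0 < θ ∧ θ ≤ 1 / 8 ∧ 0 < δ ∧ 0 < η ∧ 0 ≤ C ∧
      ∀ (u : (Fin (d + 1) → ℝ) → ℝ) (p a : Poly (d + 1)) (ε : ℝ), Centred L u →
        p.totalDegree ≤ 4 → lapP p = 0 → eval 0 p = 0 → nrm p ≤ η → a.totalDegree ≤ 3 → nrm a ≤ η →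
        0 < ε → ε ≤ η → nrm (resP p a) ≤ δ * ε → Close u (apx p) ε (closedBall 0 1) →
        ∃ p' a' : Poly (d + 1), p'.totalDegree ≤ 4 ∧ lapP p' = 0 ∧ eval 0 p' = 0 ∧ a'.totalDegree ≤ 3 ∧
          nrm (p' - p) ≤ C * ε ∧ nrm (a' - a) ≤ C * ε ∧
          nrm (scaleP θ (resP p' a')) ≤ δ * (gain θ * ε) ∧
          Close u (apx p') (θ * gain θ * ε) (closedBall 0 θ) := by
  obtain ⟨CH, hCH, hA⟩ := exists_approx hLin hE hd L
  obtain ⟨Kp, Ka, CK, hCK, hK⟩ := exists_correction 3 (Fin.last d)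
  obtain ⟨CD, hCD, hD⟩ := exists_bound_of_linear
    (((2 : ℝ) • divX (Fin.last d)) ∘ₗ (pderiv (Fin.last d)).toLinearMap : Poly (d + 1) →ₗ[ℝ] Poly (d + 1)) 4
  set t : ℝ := 1 / (6 * (CH + 1))
  have ht : 0 < t := by positivity
  have ht1 : t ≤ 1 / 6 := div_le_div_of_nonneg_left zero_le_one (by norm_num) (by linarith)
  set θ : ℝ := t ^ 2
  have hθ0 : 0 < θ := by positivity
  have hθ8 : θ ≤ 1 / 8 := by
    calc θ ≤ (1 / 6) ^ 2 := pow_le_pow_left₀ ht.le ht1 2
      _ ≤ 1 / 8 := by norm_num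
  have hgain : gain θ = θ ^ 3 * t := by rw [gain, Real.sqrt_sq ht.le]
  have hg : 0 < gain θ := by rw [hgain]; positivity
  obtain ⟨η₀, hη₀, hA'⟩ := hA (θ * gain θ / 3) (by positivity)
  set δ : ℝ := min (min η₀ 1) (θ * gain θ / (3 * (CK + 1)))
  have hδ : 0 < δ := lt_min (lt_min hη₀ one_pos) (by positivity)
  set Cs : ℝ := CH + CD * CH + 2 * CK + 1
  have hCs : 0 ≤ Cs := by positivity
  set η : ℝ := min η₀ (min 1 (δ * gain θ / (4 * (32 * (d + 1) + 1) * (Cs * (2 + Cs)))))
  refine ⟨θ, δ, η, Cs, hθ0, hθ8, hδ, lt_min hη₀ (lt_min one_pos (by positivity)), hCs,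
    fun u p a ε hu hdp hlp h0p hp hda ha hε hεη hres hclose => ?_⟩
  have hη0' : η ≤ η₀ := min_le_left _ _
  have hδ1 : δ ≤ 1 := (min_le_left _ _).trans (min_le_right _ _)
  obtain ⟨H, hHd, hHl, hH0, hHf, hHn, hHc⟩ := hA' u p a ε hu hdp hlp h0p (hp.trans hη0') (ha.trans hη0') hε
    (hεη.trans hη0') (hres.trans (mul_le_mul_of_nonneg_right ((min_le_left _ _).trans (min_le_left _ _)) hε.le))
    hclose
  set f := -lowPart 4 (resP p a)
  have hfd : f.totalDegree ≤ 3 := by rw [totalDegree_neg]; exact totalDegree_lowPart 3 _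
  have hfn : nrm f ≤ δ * ε := by rw [nrm_neg]; exact (nrm_lowPart _ _).trans hres
  obtain ⟨hKl, hK0, hKd, hKad, hKeq, hKn, hKan⟩ := hK f hfd
  set aH : Poly (d + 1) := C 2 * divX (Fin.last d) (pderiv (Fin.last d) H)
  have haH : nrm aH ≤ CD * CH := by
    have : nrm aH ≤ CD * nrm H := by simpa [aH, C_mul'] using hD H hHd
    exact this.trans (mul_le_mul_of_nonneg_left hHn hCD)
  have haHd : aH.totalDegree ≤ 3 :=
    totalDegree_of_deg ((((deg_of_totalDegree hHd).pderiv _).divX _).C_mul 2 |>.mono (by norm_num))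
  have hlamH : lamP H aH = 0 := by
    rw [lamP, sub_eq_zero, show X (Fin.last d) * aH
        = C 2 * (X (Fin.last d) * divX (Fin.last d) (pderiv (Fin.last d) H)) by simp only [aH]; ring,
      X_mul_divX hHf]
  set q := C ε * H + Kp f
  set b := C ε * aH + Ka f
  have hKs : CK * (δ * ε) ≤ CK * ε :=
    mul_le_mul_of_nonneg_left (mul_le_of_le_one_left hε.le hδ1) hCK
  have hq : nrm q ≤ CH * ε + CK * ε := by
    refine (nrm_add _ _).trans (add_le_add ((nrm_C_mul _ _).trans ?_) ?_)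
    · rw [abs_of_pos hε, mul_comm]; exact mul_le_mul_of_nonneg_right hHn hε.le
    · exact (hKn.trans (mul_le_mul_of_nonneg_left hfn hCK)).trans hKs
  have hb : nrm b ≤ CD * CH * ε + CK * ε := by
    refine (nrm_add _ _).trans (add_le_add ((nrm_C_mul _ _).trans ?_) ?_)
    · rw [abs_of_pos hε, mul_comm]; exact mul_le_mul_of_nonneg_right haH hε.le
    · exact (hKan.trans (mul_le_mul_of_nonneg_left hfn hCK)).trans hKs
  have hqd : q.totalDegree ≤ 4 :=
    totalDegree_of_deg (((deg_of_totalDegree hHd).C_mul ε).add (deg_of_totalDegree hKd))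
  refine ⟨p + q, a + b, totalDegree_of_deg ((deg_of_totalDegree hdp).add (deg_of_totalDegree hqd)), ?_, ?_,
    totalDegree_of_deg ((deg_of_totalDegree hda).add
      (((deg_of_totalDegree haHd).C_mul ε).add (deg_of_totalDegree hKad))), ?_, ?_, ?_, ?_⟩
  · rw [map_add, hlp, map_add, hKl, C_mul', map_smul, hHl, smul_zero, add_zero, add_zero]
  · simp only [q, map_add, map_mul, h0p, hH0, hK0, mul_zero, add_zero]
  · rw [add_sub_cancel_left]
    refine hq.trans ?_
    rw [← add_mul]
    exact mul_le_mul_of_nonneg_right (by simp only [Cs]; linarith [mul_nonneg hCD hCH]) hε.le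
  · rw [add_sub_cancel_left]
    refine hb.trans ?_
    rw [← add_mul]
    exact mul_le_mul_of_nonneg_right (by simp only [Cs]; linarith) hε.le
  · have e : resP (p + q) (a + b)
        = resP p a - lowPart 4 (resP p a) + (quadP (p + q) (a + b) - quadP p a) := by
      have hl : lamP q b = f := by
        rw [lamP_add, lamP_C_mul, hlamH, mul_zero, zero_add]
        exact hKeq
      rw [resP, lamP_add, hl, resP]
      simp only [f, resP]
      ring
    have hQ := nrm_quadP_diff (a := a) (b := b) hdp hqd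
    have hQ' : nrm (quadP (p + q) (a + b) - quadP p a) ≤ δ * gain θ / 4 * ε := by
      refine hQ.trans ?_
      have h1 : nrm q + nrm b ≤ Cs * ε := by
        refine (add_le_add hq hb).trans ?_
        rw [show Cs * ε = (CH + CD * CH + 2 * CK) * ε + ε by simp only [Cs]; ring]
        linarith
      have h2 : nrm p + nrm a + nrm q + nrm b ≤ (2 + Cs) * η := by
        have := mul_le_mul_of_nonneg_left hεη hCs
        linarith
      calc (32 * ((d : ℝ) + 1) + 1) * ((nrm q + nrm b) * (nrm p + nrm a + nrm q + nrm b))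
          ≤ (32 * ((d : ℝ) + 1) + 1) * ((Cs * ε) * ((2 + Cs) * η)) := by
            refine mul_le_mul_of_nonneg_left ?_ (by positivity)
            exact mul_le_mul h1 h2 (by linarith [nrm_nonneg p, nrm_nonneg a, nrm_nonneg q, nrm_nonneg b])
              (mul_nonneg hCs hε.le)
        _ = (32 * ((d : ℝ) + 1) + 1) * (Cs * (2 + Cs)) * η * ε := by ring
        _ ≤ δ * gain θ / 4 * ε := by
            refine mul_le_mul_of_nonneg_right ?_ hε.le
            have h3 : η ≤ δ * gain θ / (4 * (32 * ((d : ℝ) + 1) + 1) * (Cs * (2 + Cs))) :=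
              (min_le_right _ _).trans (min_le_right _ _)
            rw [le_div_iff₀ (by positivity)] at h3
            linarith
    rw [e]
    refine (nrm_scaleP_split hθ0.le (by linarith) 4 _).trans ?_
    rw [lowPart_sub_low]
    have h4 : nrm (resP p a - lowPart 4 (resP p a) + (quadP (p + q) (a + b) - quadP p a))
        ≤ 2 * (δ * ε) + δ * gain θ / 4 * ε := by
      refine (nrm_add _ _).trans (add_le_add ((nrm_sub _ _).trans ?_) hQ')
      linarith [(nrm_lowPart 4 (resP p a)).trans hres]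
    have h5 : θ ^ 4 ≤ gain θ * (1 / 6) := by
      rw [hgain, pow_succ, mul_assoc]
      refine mul_le_mul_of_nonneg_left ?_ (by positivity)
      calc θ = t * t := by simp only [θ]; ring
        _ ≤ t * (1 / 6) := mul_le_mul_of_nonneg_left ht1 ht.le
    have h6 : gain θ ≤ 1 := by
      rw [hgain]
      exact mul_le_one₀ (pow_le_one₀ hθ0.le (by linarith)) ht.le (by linarith)
    have h7 := mul_le_mul h5 h4 (nrm_nonneg _) (by positivity)
    have h8 := ((nrm_lowPart 4 _).trans hQ')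
    have h9 : δ * gain θ / 4 * ε ≤ δ * ε := by
      have := mul_le_of_le_one_right hδ.le h6
      exact mul_le_mul_of_nonneg_right (by linarith) hε.le
    have h10 := mul_le_mul_of_nonneg_left h9 (by linarith [hg] : (0 : ℝ) ≤ gain θ * (1 / 6))
    rw [mul_add] at h7
    linarith [mul_pos hg (mul_pos hδ hε)]
  · have hKe : ∀ x : Fin (d + 1) → ℝ, ‖x‖ ≤ 1 → |eval x (Kp f)| ≤ θ * gain θ / 3 * ε := fun x hx => by
      refine (abs_eval_le _ hx).trans ((hKn.trans (mul_le_mul_of_nonneg_left hfn hCK)).trans ?_)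
      rw [← mul_assoc]
      refine mul_le_mul_of_nonneg_right ?_ hε.le
      have h3 : δ ≤ θ * gain θ / (3 * (CK + 1)) := min_le_right _ _
      rw [le_div_iff₀ (by positivity)] at h3
      linarith [mul_nonneg hCK hδ.le]
    have h11 : CH * θ ^ 5 ≤ θ * gain θ / 3 := by
      rw [hgain, show CH * θ ^ 5 = θ * θ ^ 3 * (CH * θ) by ring,
        show θ * (θ ^ 3 * t) / 3 = θ * θ ^ 3 * (t / 3) by ring]
      refine mul_le_mul_of_nonneg_left ?_ (by positivity)
      rw [show CH * θ = (CH * t) * t by simp only [θ]; ring, show t / 3 = (1 / 3) * t by ring]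
      refine mul_le_mul_of_nonneg_right ?_ ht.le
      simp only [t]
      rw [mul_one_div, div_le_iff₀ (by positivity)]
      linarith
    have h12 : (θ * gain θ / 3 + CH * θ ^ 5) * ε + θ * gain θ / 3 * ε ≤ θ * gain θ * ε := by
      rw [← add_mul]
      exact mul_le_mul_of_nonneg_right (by linarith) hε.le
    obtain ⟨c1, c2⟩ := hHc θ hθ8
    refine ⟨fun x hx => ?_, fun x hx hxc => ?_⟩
    all_goals
      have hx1 : ‖x‖ ≤ 1 := by rw [mem_closedBall_zero_iff] at hx; linarith
      have hk := abs_le.1 (hKe x hx1)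
      have e : apx (p + q) x = apx (p + C ε * H) x + eval x (Kp f) := by simp [apx, q]; ring
      rw [e]
    · linarith [c1 x hx]
    · linarith [c2 x hx hxc]

end

end Vale.Agent.P098.Reg
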