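import Vale.Agent.P098.Reg.Correct

/-!
# P098: Taylor polynomials at the origin, by recursion through the partial derivatives
-/

namespace Vale.Agent.P098.Reg

open Finset MvPolynomial Filter Topology Metric
open Vale.Agent.P098.Cone
open scoped ContDiff

noncomputable section

variable {n : ℕ} {f : (Fin n → ℝ) → ℝ} {U : Set (Fin n → ℝ)}

/-- The homogeneous Taylor term of degree `m`. -/
def hTay : ℕ → ((Fin n → ℝ) → ℝ) → Poly n
  | 0, f => C (f 0)
  | m + 1, f => C (1 / ((m : ℝ) + 1)) * ∑ i, X i * hTay m (pd f i)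

/-- The Taylor polynomial of degree `k`. -/
def tayP (k : ℕ) (f : (Fin n → ℝ) → ℝ) : Poly n := ∑ m ∈ range (k + 1), hTay m f

theorem hTay_congr (m : ℕ) : ∀ {f g : (Fin n → ℝ) → ℝ}, f =ᶠ[𝓝 0] g → hTay m f = hTay m g := by
  induction m with
  | zero => intro f g h; simp [hTay, h.eq_of_nhds]
  | succ m ih =>
    intro f g h
    simp only [hTay]
    congr 1
    refine sum_congr rfl fun i _ => ?_
    rw [ih (h.eventuallyEq_nhds.mono fun y hy => pd_congr hy i)]

theorem deg_hTay (m : ℕ) : ∀ f : (Fin n → ℝ) → ℝ, Deg m (hTay m f) := by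
  induction m with
  | zero => exact fun f => deg_C _
  | succ m ih =>
    intro f
    simp only [hTay]
    exact Deg.C_mul _ (Deg.sum fun i _ => ((deg_X i).mul (ih _)).mono (by push_cast; linarith))

theorem deg_tayP (k : ℕ) (f : (Fin n → ℝ) → ℝ) : Deg k (tayP k f) :=
  Deg.sum fun m hm => (deg_hTay m f).mono (by exact_mod_cast Nat.lt_succ_iff.1 (mem_range.1 hm))

theorem eval_zero_hTay (m : ℕ) (f : (Fin n → ℝ) → ℝ) :
    eval 0 (hTay (m + 1) f) = 0 := by
  simp [hTay]

theorem eval_zero_tayP (k : ℕ) (f : (Fin n → ℝ) → ℝ) : eval 0 (tayP k f) = f 0 := by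
  rw [tayP, sum_range_succ', map_add, map_sum]
  rw [sum_eq_zero fun m _ => eval_zero_hTay m f]
  simp [hTay]

/-- Differentiation lowers the degree by one. -/
theorem pderiv_hTay (hU : IsOpen U) (h0 : (0 : Fin n → ℝ) ∈ U) (j : Fin n) (m : ℕ) :
    ∀ {f : (Fin n → ℝ) → ℝ}, ContDiffOn ℝ ∞ f U →
      pderiv j (hTay (m + 1) f) = hTay m (pd f j) := by
  classical
  induction m with
  | zero =>
    intro f _
    simp [hTay, pderiv_X, Pi.single_apply]
  | succ m ih =>
    intro f hf
    have e : hTay (m + 1 + 1) f = C (1 / (((m + 1 : ℕ) : ℝ) + 1)) * ∑ i, X i * hTay (m + 1) (pd f i) := rfl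
    rw [e, pderiv_C_mul, map_sum]
    have hterm : ∀ i, pderiv j (X i * hTay (m + 1) (pd f i))
        = (if i = j then hTay (m + 1) (pd f j) else 0) + X i * hTay m (pd (pd f j) i) := by
      intro i
      rw [pderiv_mul, ih (contDiffOn_pd hf hU i), pderiv_X, Pi.single_apply]
      rw [show hTay m (pd (pd f i) j) = hTay m (pd (pd f j) i) from hTay_congr m (by
        filter_upwards [hU.mem_nhds h0] with y hy
        exact hess_comm ((hf.contDiffAt (hU.mem_nhds hy)).of_le (by norm_num; exact WithTop.coe_le_coe.2 le_top)) i j)]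
      rcases eq_or_ne i j with rfl | hij
      · simp
      · simp [hij, hij.symm]
    simp only [hterm, sum_add_distrib, sum_ite_eq', mem_univ, if_true]
    have e2 : ∑ i, X i * hTay m (pd (pd f j) i) = C ((m : ℝ) + 1) * hTay (m + 1) (pd f j) := by
      rw [show hTay (m + 1) (pd f j) = C (1 / ((m : ℝ) + 1)) * ∑ i, X i * hTay m (pd (pd f j) i) from rfl,
        ← mul_assoc, ← C_mul, mul_one_div, div_self (by positivity), C_1, one_mul]
    rw [e2, ← one_mul (hTay (m + 1) (pd f j)), ← mul_assoc (C ((m : ℝ) + 1)), mul_one, one_mul]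
    rw [show hTay (m + 1) (pd f j) + C ((m : ℝ) + 1) * hTay (m + 1) (pd f j)
        = C (((m + 1 : ℕ) : ℝ) + 1) * hTay (m + 1) (pd f j) by push_cast; simp only [C_add, C_1]; ring,
      ← mul_assoc, ← C_mul, one_div_mul_cancel (by positivity), C_1, one_mul]

theorem hTay_zero (m : ℕ) : hTay m (fun _ : Fin n → ℝ => (0 : ℝ)) = 0 := by
  induction m with
  | zero => simp [hTay]
  | succ m ih =>
    have h : ∀ i, pd (fun _ : Fin n → ℝ => (0 : ℝ)) i = fun _ => 0 := fun i => funext fun y => pd_const 0 i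
    simp [hTay, h, ih]

theorem hTay_sum {ι : Type*} [Fintype ι] (hU : IsOpen U) (h0 : (0 : Fin n → ℝ) ∈ U) (m : ℕ) :
    ∀ {F : ι → (Fin n → ℝ) → ℝ}, (∀ l, ContDiffOn ℝ ∞ (F l) U) →
      hTay m (fun y => ∑ l, F l y) = ∑ l, hTay m (F l) := by
  induction m with
  | zero => intro F _; simp [hTay]
  | succ m ih =>
    intro F hF
    simp only [hTay]
    rw [← mul_sum, sum_comm]
    congr 1
    refine sum_congr rfl fun i _ => ?_
    rw [← mul_sum]
    congr 1
    rw [← ih fun l => contDiffOn_pd (hF l) hU i]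
    refine hTay_congr m ?_
    filter_upwards [hU.mem_nhds h0] with y hy
    exact pd_sum _ (fun l _ => differentiableAt_of_smooth (hF l) hU hy) i

/-- The Taylor polynomial of a harmonic function is harmonic. -/
theorem lap_tayP (hU : IsOpen U) (h0 : (0 : Fin n → ℝ) ∈ U) (hf : Harm f U) (k : ℕ) :
    lapP (tayP k f) = 0 := by
  rw [tayP, map_sum]
  refine sum_eq_zero fun m _ => ?_
  rcases m with _ | _ | m
  · exact ((deg_hTay 0 f).lap).eq_zero (by norm_num)
  · exact ((deg_hTay 1 f).lap).eq_zero (by norm_num)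
  · rw [lapP_apply]
    have e : ∀ i, pderiv i (pderiv i (hTay (m + 1 + 1) f)) = hTay m (pd (pd f i) i) := fun i => by
      rw [pderiv_hTay hU h0 i (m + 1) hf.1, pderiv_hTay hU h0 i m (contDiffOn_pd hf.1 hU i)]
    rw [sum_congr rfl fun i _ => e i, ← hTay_sum hU h0 m fun i => contDiffOn_pd (contDiffOn_pd hf.1 hU i) hU i,
      show hTay m (fun y => ∑ i, pd (pd f i) i y) = hTay m (fun _ => (0 : ℝ)) from hTay_congr m (by
        filter_upwards [hU.mem_nhds h0] with y hy using hf.2 y hy), hTay_zero]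

/-- A function vanishing on a coordinate hyperplane has Taylor terms divisible by the coordinate. -/
theorem X_dvd_hTay (hU : IsOpen U) (h0 : (0 : Fin n → ℝ) ∈ U) (l : Fin n) (m : ℕ) :
    ∀ {f : (Fin n → ℝ) → ℝ}, ContDiffOn ℝ ∞ f U → (∀ y ∈ U, y l = 0 → f y = 0) →
      X l ∣ hTay m f := by
  induction m with
  | zero => intro f _ hz; simp [hTay, hz 0 h0 rfl]
  | succ m ih =>
    intro f hf hz
    simp only [hTay]
    refine dvd_mul_of_dvd_right (dvd_sum fun i _ => ?_) _
    rcases eq_or_ne i l with rfl | hil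
    · exact dvd_mul_right _ _
    · refine dvd_mul_of_dvd_right (ih (contDiffOn_pd hf hU i) fun y hy hyl => ?_) _
      have h1 : HasDerivAt (fun t : ℝ => f (y + t • Pi.single i (1 : ℝ))) (pd f i y) 0 := by
        have := (differentiableAt_of_smooth hf hU hy).hasFDerivAt.hasLineDerivAt (Pi.single i (1 : ℝ))
        exact this
      have h2 : (fun t : ℝ => f (y + t • Pi.single i (1 : ℝ))) =ᶠ[𝓝 0] fun _ => (0 : ℝ) := by
        have hc : Continuous fun t : ℝ => y + t • Pi.single i (1 : ℝ) := by fun_prop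
        filter_upwards [hc.continuousAt.preimage_mem_nhds (hU.mem_nhds (by simpa using hy))] with t ht
        exact hz _ ht (by simp [hyl, hil.symm])
      exact (h1.congr_of_eventuallyEq h2.symm).unique (hasDerivAt_const 0 0)

/-- A bound on all partial derivatives of order `m`. -/
def Bd (S : Set (Fin n → ℝ)) (M : ℝ) : ℕ → ((Fin n → ℝ) → ℝ) → Prop
  | 0, f => ∀ y ∈ S, |f y| ≤ M
  | m + 1, f => ∀ i, Bd S M m (pd f i)

theorem bd_of_iterated {S : Set (Fin n → ℝ)} {M : ℝ} (hU : IsOpen U) (hS : S ⊆ U) (m : ℕ) :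
    ∀ {f : (Fin n → ℝ) → ℝ}, ContDiffOn ℝ ∞ f U →
      (∀ y ∈ S, ‖iteratedFDeriv ℝ m f y‖ ≤ M) → Bd S M m f := by
  induction m with
  | zero => intro f _ h y hy; simpa [norm_iteratedFDeriv_zero] using h y hy
  | succ m ih =>
    intro f hf h i
    refine ih (contDiffOn_pd hf hU i) fun y hy => ?_
    set T : ((Fin n → ℝ) →L[ℝ] ℝ) →L[ℝ] ℝ := ContinuousLinearMap.apply ℝ ℝ (Pi.single i (1 : ℝ))
    have hT : ‖T‖ ≤ 1 := T.opNorm_le_bound zero_le_one fun L => by
      simpa [T, Pi.norm_single] using L.le_opNorm (Pi.single i (1 : ℝ))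
    have hd : ContDiffAt ℝ m (fderiv ℝ f) y :=
      (hf.contDiffAt (hU.mem_nhds (hS hy))).fderiv_right (by exact_mod_cast le_top)
    refine le_trans ?_ ((norm_iteratedFDeriv_fderiv (𝕜 := ℝ) (f := f) (x := y) (n := m)).trans_le (h y hy))
    refine (T.norm_iteratedFDeriv_comp_left hd le_rfl).trans ?_
    exact mul_le_of_le_one_left (norm_nonneg _) hT

theorem nrm_hTay {S : Set (Fin n → ℝ)} {M : ℝ} (h0 : (0 : Fin n → ℝ) ∈ S) (m : ℕ) :
    ∀ {f : (Fin n → ℝ) → ℝ}, Bd S M m f → nrm (hTay m f) ≤ (n : ℝ) ^ m * M := by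
  induction m with
  | zero => intro f h; simpa [hTay] using (nrm_C (f 0)).trans (h 0 h0)
  | succ m ih =>
    intro f h
    have hM : 0 ≤ (n : ℝ) ^ (m + 1) * M := by
      rcases Nat.eq_zero_or_pos n with hn | hn
      · simp [hn]
      · have := (nrm_nonneg _).trans (ih (h ⟨0, hn⟩))
        rw [pow_succ', mul_assoc]; positivity
    simp only [hTay]
    refine (nrm_C_mul _ _).trans ((mul_le_of_le_one_left (nrm_nonneg _) ?_).trans ?_)
    · rw [abs_of_nonneg (by positivity), div_le_one (by positivity)]; simp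
    refine (nrm_sum _ _).trans ?_
    rw [pow_succ', mul_assoc]
    calc ∑ i, nrm (X i * hTay m (pd f i)) ≤ ∑ _i : Fin n, (n : ℝ) ^ m * M := sum_le_sum fun i _ =>
          (nrm_mul _ _).trans ((mul_le_of_le_one_left (nrm_nonneg _) (nrm_X i)).trans (ih (h i)))
      _ = _ := by simp

/-- The Taylor estimate. -/
theorem tayP_error (hU : IsOpen U) {ρ M : ℝ} (hρ : closedBall (0 : Fin n → ℝ) ρ ⊆ U) (k : ℕ) :
    ∀ {f : (Fin n → ℝ) → ℝ}, ContDiffOn ℝ ∞ f U → Bd (closedBall 0 ρ) M (k + 1) f →
      ∀ y ∈ closedBall (0 : Fin n → ℝ) ρ, |f y - eval y (tayP k f)| ≤ (n : ℝ) ^ (k + 1) * M * ‖y‖ ^ (k + 1) := by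
  induction k with
  | zero =>
    intro f hf hb y hy
    have hsub : closedBall (0 : Fin n → ℝ) ‖y‖ ⊆ closedBall 0 ρ :=
      closedBall_subset_closedBall (by simpa using hy)
    have := (convex_closedBall (0 : Fin n → ℝ) ‖y‖).norm_image_sub_le_of_norm_hasFDerivWithin_le
      (f := f) (f' := fderiv ℝ f) (C := (n : ℝ) * M)
      (fun z hz => (differentiableAt_of_smooth hf hU (hρ (hsub hz))).hasFDerivAt.hasFDerivWithinAt)
      (fun z hz => ?_) (mem_closedBall_self (norm_nonneg y)) (mem_closedBall_zero_iff.2 le_rfl)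
    · simpa [tayP, hTay, Real.norm_eq_abs] using this
    · refine ContinuousLinearMap.opNorm_le_bound _ ?_ fun v => ?_
      · rcases Nat.eq_zero_or_pos n with hn | hn
        · simp [hn]
        · exact mul_nonneg (Nat.cast_nonneg n) ((abs_nonneg _).trans (hb ⟨0, hn⟩ z (hsub hz)))
      · rw [fderiv_eq_sum, Real.norm_eq_abs]
        refine (abs_sum_le_sum_abs _ _).trans ?_
        rw [mul_assoc]
        calc ∑ i, |v i * pd f i z| ≤ ∑ _i : Fin n, M * ‖v‖ := sum_le_sum fun i _ => by
              rw [abs_mul, mul_comm]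
              exact mul_le_mul (hb i z (hsub hz)) (norm_le_pi_norm v i) (abs_nonneg _)
                ((abs_nonneg _).trans (hb i z (hsub hz)))
          _ = _ := by simp
  | succ k ih =>
    intro f hf hb y hy
    have hyρ : ‖y‖ ≤ ρ := by simpa using hy
    have h0U : (0 : Fin n → ℝ) ∈ U := hρ (mem_closedBall_self ((norm_nonneg y).trans hyρ))
    set B : ℝ := (n : ℝ) ^ (k + 1) * M * ‖y‖ ^ (k + 1)
    set g := fun z => f z - eval z (tayP (k + 1) f)
    have hdg : ∀ z ∈ closedBall (0 : Fin n → ℝ) ‖y‖, DifferentiableAt ℝ g z ∧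
        ∀ i, |pd g i z| ≤ B := by
      intro z hz
      have hzρ : z ∈ closedBall (0 : Fin n → ℝ) ρ := closedBall_subset_closedBall hyρ hz
      have hdf := differentiableAt_of_smooth hf hU (hρ hzρ)
      have hdp : DifferentiableAt ℝ (fun z => eval z (tayP (k + 1) f)) z :=
        (hasFDerivAt_eval _ z).differentiableAt
      refine ⟨hdf.fun_sub hdp, fun i => ?_⟩
      have e : pderiv i (tayP (k + 1) f) = tayP k (pd f i) := by
        simp only [tayP, map_sum]
        rw [sum_range_succ', sum_congr rfl fun m _ => pderiv_hTay hU h0U i m hf]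
        simp [hTay]
      rw [show g = fun z => f z - eval z (tayP (k + 1) f) from rfl, pd_sub hdf hdp, pd_eval, e]
      have hb' := ih (contDiffOn_pd hf hU i) (hb i) z hzρ
      refine hb'.trans ?_
      have hM : 0 ≤ (n : ℝ) ^ (k + 1) * M := by
        by_contra hneg
        rcases eq_or_ne z 0 with rfl | hz0
        · have h1 : (0 : ℝ) ≤ M := by
            have hk : ∀ m f, Bd (closedBall (0 : Fin n → ℝ) ρ) M m f → 0 ≤ M := by
              intro m
              induction m with
              | zero => exact fun f h => (abs_nonneg _).trans (h 0 hzρ)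
              | succ m im => exact fun f h => im _ (h i)
            exact hk _ _ hb
          exact hneg (by positivity)
        · have hpos : 0 < ‖z‖ ^ (k + 1) := pow_pos (norm_pos_iff.2 hz0) _
          exact absurd ((abs_nonneg _).trans hb') (not_le.2 (mul_neg_of_neg_of_pos (not_le.1 hneg) hpos))
      exact mul_le_mul_of_nonneg_left (pow_le_pow_left₀ (norm_nonneg _) (by simpa using hz) _) hM
    have hbound := (convex_closedBall (0 : Fin n → ℝ) ‖y‖).norm_image_sub_le_of_norm_hasFDerivWithin_le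
      (f := g) (f' := fderiv ℝ g) (C := (n : ℝ) * B)
      (fun z hz => (hdg z hz).1.hasFDerivAt.hasFDerivWithinAt)
      (fun z hz => ?_) (mem_closedBall_self (norm_nonneg y)) (mem_closedBall_zero_iff.2 le_rfl)
    · simp only [show g 0 = 0 by simp only [g, eval_zero_tayP, sub_self], sub_zero, Real.norm_eq_abs] at hbound
      refine hbound.trans (le_of_eq ?_)
      simp only [B]; ring
    · refine ContinuousLinearMap.opNorm_le_bound _ ?_ fun v => ?_
      · rcases Nat.eq_zero_or_pos n with hn | hn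
        · simp [hn]
        · exact mul_nonneg (Nat.cast_nonneg n) ((abs_nonneg _).trans ((hdg z hz).2 ⟨0, hn⟩))
      · rw [fderiv_eq_sum, Real.norm_eq_abs]
        refine (abs_sum_le_sum_abs _ _).trans ?_
        rw [mul_assoc]
        calc ∑ i, |v i * pd g i z| ≤ ∑ _i : Fin n, B * ‖v‖ := sum_le_sum fun i _ => by
              rw [abs_mul, mul_comm]
              exact mul_le_mul ((hdg z hz).2 i) (norm_le_pi_norm v i) (abs_nonneg _)
                ((abs_nonneg _).trans ((hdg z hz).2 i))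
          _ = _ := by simp

end

end Vale.Agent.P098.Reg
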